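-- OWNER helper73 (second head + adversary of LL 02; head helper93).  Source: LL 02-foundations.tex l.402-509.
import Claimed.Agent.R286.Defs.JetSk
import Claimed.Agent.R286.Defs.Tr

/-!
# Row 286 (S0533), LL Section 2.5 : CONTRACTS T4 (change of reference), T6 = (A9), T7 (size increment)      FINE LEVEL

Vocabulary: `Defs/Jet.lean` (`JtCtx`), fine paths `LlStp` of `Defs/JetSk.lean`.      Re-derivations: origin/helper73:notes/R286/L02_adv_73.md (N8, N9, N10).
The three contracts are `Prop`s which take the family of contexts `Jt n a P tl` and the matrix path of the ensemble `Ens tl P` as PARAMETERS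
(to be instantiated by `llJt`, `llEns` of `Defs/JetSk` / `skJt` of `L02/Inst`): nothing else of the instance is used in the statements.

ENSEMBLES.  `tl = none` untilted; `tl = some js` tilted: SAME stages, same masses, same scalar reference, same `bC hC KC qC`;
the matrix increments of the stages `≤ js` are revealed at the stage `js`;  `msk t = [js < t]`.

* `JtCtx.remMix`  majorant of T4: `k` factors, each `|J'| + |K' - K|`;
* `JtCtx.frz X Y c k` : the pressure symbol (A6) through the degree `k`, per root, with the LAW (and the variables `Δ`) of `X` FROZEN, the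
  coefficients `b, h, K, q, κ_K` of `Y`, and `Δ` multiplied by `c`.      `frz X X 1 k = X.presR k`  (`jt_frz_self`, proved below).
  The formal operator `𝒟` of Lemma 2.4 (`𝒟Δ = - e Δ`, scalar coefficients differentiated) is the ORDINARY derivative
  `d/dϑ frz (X ϑ₀) (X ϑ) (exp (- e (ϑ - ϑ₀))) k` at `ϑ₀`: no truncation convention, no "coefficient differentiation inserts a pair" in the statement.
* `JtCtx.detR Kd` : the deterministic term `½ (∑ K̇ q)_#` (depends on the masses and on `K, K̇` only: common to the two ensembles);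
* `JtCtx.errW w k`, `JtCtx.errW0 w` : the two error majorants of (A9) (`k` insertions and ONE weight `w` at the split of an additional pair; contact error);
* `JtCtx.errS k` : the error majorant of the size increment (`k + 1` factors `|Δ| + |J|`, per root).
-/

set_option autoImplicit false

namespace Claimed.Agent.R286

open scoped BigOperators Nat

namespace JtCtx
variable {S : Type}

/-- T4: `k` pair factors, each `|J'| + |K' - K|`, absolute allocation, law of `X` (the laws of `X` and `X'` agree) -/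
noncomputable def remMix (X X' : JtCtx S) (q : ℕ) (τ0 : JtTopo) (P : (ℕ → S) → ℝ) (k : ℕ) : ℝ :=
  X.absK (2 * k) q τ0 fun τ => X.off q k τ * X.nu (q + 2 * k) τ fun σ =>
    |P σ| * ∏ i ∈ Finset.range k, (|X'.J τ σ (jtC q i) (jtD q i)|
      + |X'.KC (τ (jtC q i) (jtD q i)) - X.KC (τ (jtC q i) (jtD q i))|)

/-- the field defect `d = h - h_* = h - K + b q` -/
def dC (X : JtCtx S) (t : ℕ) : ℝ := X.hC t - X.KC t + X.bC t * X.qC t

/-- the insertion with the coefficients of `Y` and the variable `c Δ_X` -/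
def Jfz (X Y : JtCtx S) (c : ℝ) (τ : JtTopo) (σ : ℕ → S) (x y : ℕ) : ℝ :=
  Y.bC (τ x y) * (c * X.Dl τ σ x y) + Y.dC (τ x y)

/-- (A6) per root, law and `Δ` of `X`, coefficients of `Y`, `Δ` scaled by `c` -/
noncomputable def frz (X Y : JtCtx S) (c : ℝ) (k : ℕ) : ℝ :=
  (∑ n ∈ Finset.Icc 1 k, ((2 : ℝ) ^ n * (n ! : ℝ))⁻¹ * X.sumK (2 * n - 1) 1 X.tau1 fun τ =>
      X.off 0 n τ * Y.Kap (2 * n) 0 τ (Finset.range n) * X.nu (2 * n) τ fun σ =>
        ∏ i ∈ Finset.range n, X.Jfz Y c τ σ (jtC 0 i) (jtD 0 i))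
    - 4⁻¹ * X.sumK 1 1 X.tau1 fun τ => X.off 0 1 τ * Y.bC (τ 0 1) * X.nu 2 τ fun σ =>
        (c * X.Dl τ σ 0 1 + Y.qC (τ 0 1)) ^ 2

/-- the deterministic term of (A9): `½ (∑ K̇_{cd} q_{cd})_#` -/
noncomputable def detR (X : JtCtx S) (Kd : ℕ → ℝ) : ℝ :=
  2⁻¹ * X.sumK 1 1 X.tau1 fun τ => X.off 0 1 τ * Kd (τ 0 1) * X.qC (τ 0 1)

/-- error of (A9): the pair `0` carries the weight `w` at its split, the pairs `1..k` carry `|J|` -/
noncomputable def errW (X : JtCtx S) (w : ℕ → ℝ) (k : ℕ) : ℝ :=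
  X.absK (2 * k + 1) 1 X.tau1 fun τ => X.off 0 (k + 1) τ * w (τ 0 1) * X.nu (2 * k + 2) τ fun σ =>
    ∏ i ∈ Finset.Icc 1 k, |X.J τ σ (jtC 0 i) (jtD 0 i)|

/-- contact error of (A9): absolute mass integral of the weight -/
noncomputable def errW0 (X : JtCtx S) (w : ℕ → ℝ) : ℝ :=
  X.absK 1 1 X.tau1 fun τ => X.off 0 1 τ * w (τ 0 1)

/-- error of the size increment: `k + 1` factors `|Δ| + |J|`, per root -/
noncomputable def errS (X : JtCtx S) (k : ℕ) : ℝ :=
  X.absK (2 * k + 1) 1 X.tau1 fun τ => X.off 0 (k + 1) τ * X.nu (2 * k + 2) τ fun σ =>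
    ∏ i ∈ Finset.range (k + 1), (|X.Dl τ σ (jtC 0 i) (jtD 0 i)| + |X.J τ σ (jtC 0 i) (jtD 0 i)|)

/-- sanity: with the coefficients of `X` itself and `c = 1` the frozen insertion is `J` -/
theorem Jfz_self (X : JtCtx S) (τ : JtTopo) (σ : ℕ → S) (x y : ℕ) : X.Jfz X 1 τ σ x y = X.J τ σ x y := by
  unfold Jfz dC J Dl; ring

/-- sanity: `frz X X 1 k` is the per-root expectation of (A6) -/
theorem frz_self (X : JtCtx S) (k : ℕ) : X.frz X 1 k = X.presR k := by
  unfold frz presR evR quadR Jprod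
  simp only [Jfz_self, Dl, one_mul, sub_add_cancel]

end JtCtx

/-! ### fine paths -/

/-- two fine paths with the same stages, masses, matrix and field increments (only the reference `K` differs) -/
def LlSameMat (P P' : LlStp) : Prop := llMat P = llMat P'

/-- the bounds required by all Taylor rules: `b ≤ M0`, `|h - K| ≤ M0`  (never bounds of `h` and `K` separately: the clocks may be long) -/
def LlBd (M0 : ℝ) (P : LlStp) : Prop :=
  ∀ t, skCumB (llMat P) t ≤ M0 ∧ |skCumH (llMat P) t - llCumK P t| ≤ M0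

/-- a family of fine paths on FIXED stages and masses, admissible on `I`, whose increments have at `ϑ₀` (within `I`) the derivatives stored in `Pd`
(the masses of `Pd` are ignored) -/
structure LlFam (a : ℝ) (I : Set ℝ) (ϑ₀ : ℝ) (P : ℝ → LlStp) (Pd : LlStp) : Prop where
  mem : ϑ₀ ∈ I
  adm : ∀ ϑ ∈ I, LlStpAdm a (P ϑ)
  mass : ∀ ϑ ∈ I, (P ϑ).map LlInc.m = (P ϑ₀).map LlInc.m
  len : Pd.length = (P ϑ₀).length
  db : ∀ t, HasDerivWithinAt (fun ϑ => skCumB (llMat (P ϑ)) t) (skCumB (llMat Pd) t) I ϑ₀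
  dh : ∀ t, HasDerivWithinAt (fun ϑ => skCumH (llMat (P ϑ)) t) (skCumH (llMat Pd) t) I ϑ₀
  dK : ∀ t, HasDerivWithinAt (fun ϑ => llCumK (P ϑ) t) (llCumK Pd t) I ϑ₀

/-- type of the family of contexts -/
abbrev LlJtFam : Type := (n : ℕ) → ℝ → LlStp → Option ℕ → JtCtx (SkCfg n)

/-- the tilt stage is admissible: it exists and no field is revealed up to it -/
def LlTiltOk (P : LlStp) : Option ℕ → Prop
  | none => True
  | some js => js < P.length ∧ skCumH (llMat P) (js + 1) = 0

/-! ### the contracts -/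

/-- **T4 = LL Lemma 2.3 (change of scalar reference)**  TEX[LL:found:reference-change].
The cavity quotient at the reference `K'` (argument `J' = h + b Q^* - K'`), truncated at the total order `k`, equals the quotient at the reference `K`
with the combined argument `J = J' + (K' - K)`, up to `k` pair factors `|J'| + |K' - K|`.      `C` depends on `k, q` only. -/
def L02RefChange (Jt : LlJtFam) : Prop :=
  ∀ k q : ℕ, ∃ C : ℝ, ∀ (n : ℕ) (a : ℝ) (P P' : LlStp) (tl : Option ℕ) (τ0 : JtTopo) (i j : ℕ) (R : (ℕ → SkCfg n) → ℝ),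
    1 ≤ n → 1 ≤ a → a ≤ 4 → LlStpAdm a P → LlStpAdm a P' → LlSameMat P P' → LlTiltOk P tl →
    IsTr P.length q τ0 → i < q → j < q → τ0 i j ≤ P.length → TrUses q R →
    |(Jt n a P' tl).evLt q τ0 (fun r τ => (Jt n a P' tl).Quo r q i j τ) R k
        - (Jt n a P tl).evLt q τ0 (fun r τ => (Jt n a P tl).Quo r q i j τ) R k|
      ≤ C * (Jt n a P tl).remMix (Jt n a P' tl) q τ0 R k

/-- the weight of (A9) at a pair which shares `t` stages: `|e| + |ḣ| + |ḃ| + |K̇| + |q̇|` -/
noncomputable def llW (e : ℝ) (Pd : LlStp) (qd : ℕ → ℝ) (t : ℕ) : ℝ :=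
  |e| + |skCumH (llMat Pd) t| + |skCumB (llMat Pd) t| + |llCumK Pd t| + |qd t|

/-- **T6 = LL Lemma 2.4, (A9) (differentiated row identity)**  TEX[LL:found:row-derivative], ONE ensemble.
`D1 = ḟ_n` (pressure of the ensemble), `D2 = (ν[𝒟 I])_#`, `log Ψ` truncated after the degree `k`, formal rule `𝒟Δ = - e Δ`.
`detR` does not depend on the ensemble: it cancels in `ψ̇`. -/
def L02RowDeriv (Jt : LlJtFam) (Ens : Option ℕ → LlStp → SkStp) : Prop :=
  ∀ (k : ℕ) (M0 : ℝ), ∃ C : ℝ, ∀ (n : ℕ) (a e : ℝ) (I : Set ℝ) (ϑ₀ : ℝ) (P : ℝ → LlStp) (Pd : LlStp) (tl : Option ℕ),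
    1 ≤ k → 1 ≤ n → 1 ≤ a → a ≤ 4 → LlFam a I ϑ₀ P Pd → LlBd M0 (P ϑ₀) → (∀ ϑ ∈ I, LlTiltOk (P ϑ) tl) →
    ∃ (D1 D2 : ℝ) (qd : ℕ → ℝ),
      (∀ t, HasDerivWithinAt (fun ϑ => (Jt n a (P ϑ) tl).qC t) (qd t) I ϑ₀) ∧
      HasDerivWithinAt (fun ϑ => skPr n a (Ens tl (P ϑ))) D1 I ϑ₀ ∧
      HasDerivWithinAt (fun ϑ => (Jt n a (P ϑ₀) tl).frz (Jt n a (P ϑ) tl) (Real.exp (-e * (ϑ - ϑ₀))) k) D2 I ϑ₀ ∧
      |D1 - D2 - (Jt n a (P ϑ₀) tl).detR (fun t => llCumK Pd t)|
        ≤ C * ((Jt n a (P ϑ₀) tl).errW (llW e Pd qd) k + (Jt n a (P ϑ₀) tl).errW0 (llW e Pd qd) / n)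

/-- `ψ_n` on a fine path: tilted minus untilted pressure -/
noncomputable def llPsi (Ens : Option ℕ → LlStp → SkStp) (n : ℕ) (a : ℝ) (js : ℕ) (P : LlStp) : ℝ :=
  skPr n a (Ens (some js) P) - skPr n a (Ens none P)

/-- **T7 = LL Lemma 2.5 (finite increments in the number of sites)**  TEX[LL:found:size-increment].
At fixed clocks and tilt, `(n+j) ψ_{n+j} - n ψ_n` is, up to the error, a polynomial in `j` of degree `≤ k` without constant term, whose linear coefficient is the
difference of the per-root expectations of (A6).      The coefficients `c t` do not depend on `j`.      Total pressure: no factor `n` in front of the error. -/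
def L02SizeIncr (Jt : LlJtFam) (Ens : Option ℕ → LlStp → SkStp) : Prop :=
  ∀ (k r : ℕ) (M0 : ℝ), ∃ C : ℝ, ∀ (n : ℕ) (a : ℝ) (P : LlStp) (js : ℕ),
    1 ≤ n → 1 ≤ a → a ≤ 4 → LlStpAdm a P → LlBd M0 P → LlTiltOk P (some js) →
    (∀ t, (Jt n a P none).bC t * (Jt n a P none).qC t ^ 2 ≤ (Jt n a P none).bC (t + 1) * (Jt n a P none).qC (t + 1) ^ 2) →
    ∃ c : ℕ → ℝ, ∀ j : ℕ, 1 ≤ j → j ≤ r →
      |((n + j : ℕ) : ℝ) * llPsi Ens (n + j) a js P - (n : ℝ) * llPsi Ens n a js P
          - (j : ℝ) * ((Jt n a P (some js)).presR k - (Jt n a P none).presR k)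
          - ∑ t ∈ Finset.Icc 2 k, (j : ℝ) ^ t * c t|
        ≤ C * (1 / (n : ℝ) + (Jt n a P (some js)).errS k + (Jt n a P none).errS k)

end Claimed.Agent.R286
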