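-- KEEP      OWNER helper93 (head LL 02+11); ADV helper73
import Claimed.Agent.R286.Defs.Sk
import Claimed.Agent.R286.Defs.Tr
import Claimed.Agent.R286.Defs.JetSk
import Claimed.Agent.R286.L02.Contract2

/-!
# Row 286 (S0533), unit L02 (LL Section 2 + 11): THE INSTANCES      (owner helper93; ADV helper73; names `llMv*`, `llJs*`, `llRow*`, `ll2_*`)

FINE LEVEL: one fine path `P : LlStp` (`Defs/JetSk`: stages `(m, db, dh, dK)`), ONE MASS GRID for the matrix model, for the scalar reference and for BOTH ensembles.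

* `llMv tl P`   : the matrix path of the ensemble.  `tl = none`: untilted.  `tl = some js`: the matrix increments of the stages `≤ js` are revealed at the stage `js`
                  (whose mass is `s`); the reference clock `K` is not moved (LL 02 l.300: references are unshifted; `K` increases below `s`);
* `llMk tl t`   : the mask `1_{v ≥ s}` at a pair which shares `t` stages;
* `llJs n a P tl` : the jet context (`Defs/Jet.lean`) on the signed calculus of `Defs/Tr.lean`; `sumK, absK, nuK, bC, hC, KC, qC` do not depend on `tl`.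
                  It is THE instance of the parameters `Jt`, `Ens := llMv` of `L02/Contract2.lean`;
* `llJsD .. i0` : the same with DELETED overlaps (the site `i0` is omitted, the denominator `n` is kept);
* `llRowNu .. θ`: tree numbers of the ROW MODEL (LL 02 l.379-392): the Gaussian kernels of the site `i0` are interpolated from the independent scalar row
                  at `K` (`θ = 0`) to the actual ones (`θ = 1`); convex combination of two feature models, so that PE (2) applies verbatim (`gcNu` of `Defs/Tr`);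
                  the insertion is EXACTLY `ε_c ε_d J⁻_{cd}` (a spin constant block absorbs `b / 2n`);
* `llRowD`      : the `k`-th derivative in `θ`;  `llRowRem` : Taylor's integral remainder, a DEFINITION;   `llRemA7` : the remainder of (A7), a DEFINITION.
-/

set_option autoImplicit false

namespace Claimed.Agent.R286

open MeasureTheory ProbabilityTheory
open scoped BigOperators Nat

/-! ### 1. the two ensembles on one grid -/

/-- the tilted matrix path on the same stages: the matrix increments of the stages `≤ js` are revealed at the stage `js` -/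
def llMvAt (js : ℕ) (P : LlStp) : SkStp :=
  P.mapIdx fun l e => ⟨e.m, if l < js then 0 else if l = js then skCumB (llMat P) (js + 1) else e.db, e.dh⟩

/-- the matrix path of the ensemble -/
def llMv : Option ℕ → LlStp → SkStp
  | none, P => llMat P
  | some js, P => llMvAt js P

/-- the mask at a pair which shares `t` stages -/
def llMk : Option ℕ → ℕ → ℝ
  | none, _ => 1
  | some js, t => if js < t then 1 else 0

/-- mass of the stage `j` (`a` = the terminal draw) -/
def llMs (a : ℝ) (P : LlStp) (j : ℕ) : ℝ := ((P.map LlInc.m)[j]?).getD a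

/-- the tree on two labels which share `t` stages -/
def trPair (N t : ℕ) : ℕ → ℕ → ℕ := fun x y => if x = y then N + 1 else t

/-- tree numbers of the `n`-site model of the ensemble `tl` -/
noncomputable def llNu (n : ℕ) (a : ℝ) (P : LlStp) (tl : Option ℕ) (q : ℕ) (τ : ℕ → ℕ → ℕ) (T : (ℕ → SkCfg n) → ℝ) : ℝ :=
  trNu (skBase n a) (skLvs n (llMv tl P)) q τ 0 T

/-- tree numbers of the one-site scalar reference -/
noncomputable def llNuS (a : ℝ) (P : LlStp) (q : ℕ) (τ : ℕ → ℕ → ℕ) (T : (ℕ → Bool) → ℝ) : ℝ :=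
  trNu (skBase 1 a) (skLvs 1 (llSc P)) q τ 0 fun σ => T fun x => σ x 0

/-- the reference overlap `q = Γ(K)` at a pair which shares `t` stages -/
noncomputable def llQs (a : ℝ) (P : LlStp) (t : ℕ) : ℝ :=
  llNuS a P 2 (trPair P.length t) fun s => jtSp (s 0) * jtSp (s 1)

/-- **the jet context** of the `n`-site model on the fine path `P`, ensemble `tl` -/
noncomputable def llJs : LlJtFam := fun n a P tl =>
  { N := P.length
    sumK := fun k q τ Φ => trSumK (llMs a P) P.length k q τ Φ
    absK := fun k q τ Φ => trAbsK (llMs a P) P.length k q τ Φ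
    nu := llNu n a P tl
    nuK := llNuS a P
    ov := skOv
    bC := fun t => skCumB (llMat P) t
    hC := fun t => skCumH (llMat P) t
    KC := fun t => llCumK P t
    qC := fun t => llQs a P t
    msk := llMk tl }

/-- hypotheses of (A4) (LL 02 l.283-290), GENERIC CHAINS (retyped by helper77, ruling of 93 on the misfit of 189/22): up to the tilt stage `js` no field is revealed
and each stage is EMPTY for the matrix model or has the MASS `0` (`b = b(0+)`, `h = 0` on `(0, s]`; `b(0+)` may be revealed in several stages of mass `0`) -/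
structure LlTiltA4 (a : ℝ) (P : LlStp) (js : ℕ) : Prop where
  adm : LlStpAdm a P
  ok : LlTiltOk P (some js)
  low : ∀ l, l ≤ js → ∀ e, P[l]? = some e → e.dh = 0 ∧ (e.db = 0 ∨ e.m = 0)

/-- the MERGED untilted matrix path: the stages `≤ js` are replaced by ONE initial revelation of mass `0` (same pressure, same trees above `js`: `exit_a4_mrg, exit_a4_unt`);
`G_n` of (A4) is `skG n a (llMrg js P)` -/
def llMrg (js : ℕ) (P : LlStp) : SkStp := ⟨0, skCumB (llMat P) (js + 1), 0⟩ :: (llMat P).drop (js + 1)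

/-- a test which is a function of the overlaps -/
noncomputable def llOvT {n : ℕ} (p : (ℕ → ℕ → ℝ) → ℝ) : (ℕ → SkCfg n) → ℝ := fun σ => p fun c d => skOv (σ c) (σ d)

/-- bounded Lipschitz function of the overlaps of the labels `< q` (LL 02 l.356: "bounded Lipschitz polynomial of fixed degree") -/
structure LlOvBd (q : ℕ) (p : (ℕ → ℕ → ℝ) → ℝ) (Bp L : ℝ) : Prop where
  uses : ∀ A A' : ℕ → ℕ → ℝ, (∀ c d, c < q → d < q → A c d = A' c d) → p A = p A'
  bd : ∀ A : ℕ → ℕ → ℝ, (∀ c d, |A c d| ≤ 1) → |p A| ≤ Bp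
  lip : ∀ (A A' : ℕ → ℕ → ℝ) (δ : ℝ), (∀ c d, |A c d| ≤ 1) → (∀ c d, |A' c d| ≤ 1) → (∀ c d, |A c d - A' c d| ≤ δ) →
    |p A - p A'| ≤ L * δ

/-! ### 2. deleted overlaps -/

/-- the overlap without the site `i0` (denominator `n` kept) -/
noncomputable def skOvD {n : ℕ} (i0 : Fin n) (σ σ' : SkCfg n) : ℝ :=
  (∑ i, if i = i0 then 0 else skSp σ i * skSp σ' i) / n

/-- the jet context with deleted overlaps -/
noncomputable def llJsD (n : ℕ) (a : ℝ) (P : LlStp) (tl : Option ℕ) (i0 : Fin n) : JtCtx (SkCfg n) :=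
  { llJs n a P tl with ov := skOvD i0 }

/-- a test which does not see the site `i0` -/
def LlNoSite {n : ℕ} (i0 : Fin n) (T : (ℕ → SkCfg n) → ℝ) : Prop :=
  ∀ σ σ' : ℕ → SkCfg n, (∀ x i, i ≠ i0 → σ x i = σ' x i) → T σ = T σ'

/-- product of the cavity spins of the pairs `0..k-1` over `r` old labels -/
def llEps {n : ℕ} (i0 : Fin n) (r k : ℕ) (σ : ℕ → SkCfg n) : ℝ :=
  ∏ l ∈ Finset.range k, skSp (σ (jtC r l)) i0 * skSp (σ (jtD r l)) i0

/-! ### 3. the row model -/

/-- blocks of the row model: actual matrix / actual field / rest matrix / rest field / the site / constant -/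
inductive LlBlk
  | am | af | rm | rf | st | cs
  deriving DecidableEq

instance LlBlk.instFintype : Fintype LlBlk :=
  ⟨{.am, .af, .rm, .rf, .st, .cs}, by intro x; cases x <;> simp⟩

/-- features of the blocks (common index type `SkDr n`) -/
noncomputable def llFeat (n : ℕ) (i0 : Fin n) : LlBlk → SkCfg n → SkDr n → ℝ
  | .am, σ => Sum.elim (fun p => skSp σ p.1 * skSp σ p.2 / Real.sqrt (2 * n)) fun _ => 0
  | .af, σ => Sum.elim (fun _ => 0) fun i => skSp σ i
  | .rm, σ => Sum.elim (fun p => if p.1 = i0 ∨ p.2 = i0 then 0 else skSp σ p.1 * skSp σ p.2 / Real.sqrt (2 * n)) fun _ => 0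
  | .rf, σ => Sum.elim (fun _ => 0) fun i => if i = i0 then 0 else skSp σ i
  | .st, σ => Sum.elim (fun _ => 0) fun i => if i = i0 then skSp σ i0 else 0
  | .cs, _ => Sum.elim (fun _ => 0) fun i => if i = i0 then 1 else 0

/-- variance increments of one stage at `θ = 0`: rest system + independent scalar row at `K` + spin constant block -/
noncomputable def llRow0 (n : ℕ) (e : SkInc) (dK : ℝ) : LlBlk → ℝ
  | .am => 0 | .af => 0 | .rm => e.db | .rf => e.dh | .st => dK | .cs => e.db / (2 * n)

/-- their derivative in `θ` (at `θ = 1`: the actual `n`-site model) -/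
noncomputable def llRow1 (n : ℕ) (e : SkInc) (dK : ℝ) : LlBlk → ℝ
  | .am => e.db | .af => e.dh | .rm => - e.db | .rf => - e.dh | .st => - dK | .cs => - (e.db / (2 * n))

/-- the affine family of the row model -/
noncomputable def llRowHs (n : ℕ) (P : LlStp) (tl : Option ℕ) : List (ℝ × (LlBlk → ℝ) × (LlBlk → ℝ)) :=
  List.zipWith (fun e r => (e.m, llRow0 n e r.dK, llRow1 n e r.dK)) (llMv tl P) P

/-- tree numbers of the row model -/
noncomputable def llRowNu (n : ℕ) (a : ℝ) (P : LlStp) (tl : Option ℕ) (i0 : Fin n) (θ : ℝ) (q : ℕ) (τ : ℕ → ℕ → ℕ)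
    (T : (ℕ → SkCfg n) → ℝ) : ℝ :=
  gcNu (skBase n a) (llFeat n i0) (llRowHs n P tl) θ q τ 0 T

/-- the `k`-th derivative in `θ` of `ν_θ,τ[T]` (`T` uses the labels `< r`): `2^{-k} ×` signed allocation of `k` off-diagonal pairs with the insertions `ε_c ε_d J⁻_{cd}` -/
noncomputable def llRowD (n : ℕ) (a : ℝ) (P : LlStp) (tl : Option ℕ) (i0 : Fin n) (θ : ℝ) (k r : ℕ) (τ : ℕ → ℕ → ℕ)
    (T : (ℕ → SkCfg n) → ℝ) : ℝ :=
  ((2 : ℝ) ^ k)⁻¹ * (llJsD n a P tl i0).sumK (2 * k) r τ fun τ' =>
    (llJsD n a P tl i0).off r k τ' * llRowNu n a P tl i0 θ (r + 2 * k) τ' fun σ =>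
      T σ * (llEps i0 r k σ * (llJsD n a P tl i0).Jprod r k τ' σ)

/-- Taylor's integral remainder of order `k ≥ 1` from `θ = 0` to `θ = 1` -/
noncomputable def llRowRem (n : ℕ) (a : ℝ) (P : LlStp) (tl : Option ℕ) (i0 : Fin n) (k r : ℕ) (τ : ℕ → ℕ → ℕ)
    (T : (ℕ → SkCfg n) → ℝ) : ℝ :=
  ∫ θ in (0 : ℝ)..1, (1 - θ) ^ (k - 1) / ((k - 1)! : ℝ) * llRowD n a P tl i0 θ k r τ T

/-- **the remainder of (A7)**: the cavity-spin test expanded to the order `k`, each quotient term of degree `d < k` to the order `k - d` (LL 07 l.1866-1872) -/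
noncomputable def llRemA7 (n : ℕ) (a : ℝ) (P : LlStp) (tl : Option ℕ) (i0 : Fin n) (q : ℕ) (τ0 : ℕ → ℕ → ℕ)
    (T : (ℕ → SkCfg n) → ℝ) (i j k : ℕ) : ℝ :=
  llRowRem n a P tl i0 k q τ0 (fun σ => T σ * (skSp (σ i) i0 * skSp (σ j) i0))
    - ∑ d ∈ Finset.range k, ((2 : ℝ) ^ d * (d ! : ℝ))⁻¹ * (llJsD n a P tl i0).sumK (2 * d) q τ0 fun τ =>
        (llJsD n a P tl i0).off q d τ * (llJsD n a P tl i0).Quo (q + 2 * d) q i j τ (Finset.range d) *
          llRowRem n a P tl i0 (k - d) (q + 2 * d) τ fun σ => T σ * (llJsD n a P tl i0).Jprod q d τ σ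

theorem ll2_defs_eqns_cite : True := by
  have := @llMvAt.eq_1
  have := @llMv.eq_1
  have := @llMv.eq_2
  have := @llMv.eq_def
  have := @llMk.eq_1
  have := @llMk.eq_2
  have := @llMk.eq_def
  have := @llMs.eq_1
  have := @trPair.eq_1
  have := @llNu.eq_1
  have := @llNuS.eq_1
  have := @llQs.eq_1
  have := @llJs.eq_1
  have := @llMrg.eq_1
  have := @llOvT.eq_1
  have := @skOvD.eq_1
  have := @llJsD.eq_1
  have := @LlNoSite.eq_1
  have := @llEps.eq_1
  have := @llFeat.eq_def
  have := @llRow0.eq_def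
  have := @llRow1.eq_def
  have := @llRowHs.eq_1
  have := @llRowNu.eq_1
  have := @llRowD.eq_1
  have := @llRowRem.eq_1
  have := @llRemA7.eq_1
  trivial

end Claimed.Agent.R286
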