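-- OWNER helper77 (co-architect of LL 02; head helper93, adversary helper73).  Source: LL 02-foundations.tex l.288-306.
import Claimed.Agent.R286.Fd.TrB
import Claimed.Agent.R286.Fd.RegA
import Claimed.Agent.R286.Defs.SkLem
import Claimed.Agent.R286.Fd.CSym

/-!
# Row 286 (S0533), LL Section 2.4 : THE TILTED ENSEMBLE ON ONE GRID OF STAGES      (helper77; prefix `ll2t`, `Ll2`)

TEX[LL:found:estimates] l.288-306: (A4), the density `R_m`, components of a tilted tree, independent roots, flip of one component, `ν[P Q] = ν[P Q^*]`.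
Notes: origin/helper73:notes/R286/L02_adv_73.md  (N4, T0 (e)(f)(g), T8).

ABSTRACT LEVEL (`Defs/Gh`, `Defs/Tr`).  Both ensembles live on the SAME stages `0 .. ts + hi.length` (`ts = mid.length`):

* untilted  `ll2tU A0 mid hi   = ⟨0, A0⟩ :: (mid ++ hi)`       the initial revelation `A0` at the stage `0` (mass `0`), then `ts` EMPTY stages, then `hi`;
* tilted    `ll2tT s A0 mid hi = mid ++ ⟨s, A0⟩ :: hi`          `ts` EMPTY stages, the initial revelation at the stage `ts` (mass `s`), then `hi`.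
  (the two lists `mid` of empty levels differ: their masses are those of the stages `1..ts`, resp. `0..ts-1`).
* mask: a pair which shares `t` stages shares the tilted revelation iff `ts < t`.      COMPONENT = class of `{ts < τ}`.
* `ll2tG` = `G_m` (continuation just after the initial revelation), `ll2tR` = `R_m = e^{sG}/E e^{sG}`, `ll2tK` = `K_m(s)`, `ll2tC` = conditional tree number given the initial driver.

RESULTS
* `ll2t_F_U, ll2t_F_T, ll2t_A4`   (A4);      `ll2t_R_eq, ll2t_R_one, ll2t_R_rpow, ll2t_R_norm`   the density and its `L^p` norms (Laplace transforms of `G`);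
* `ll2t_nu_U`  untilted tree (all pairs share the stage `0`) `= E[C]`;   `ll2t_nu_T` connected tilted tree `= E[R C]`;  `ll2t_nu_diff`;
* `ll2t_transfer`  **change of measure** `|ν^s_τ[P]| ≤ ‖R‖_{p'} ν^0_τ[|P|^p]^{1/p}` for a test which uses the leaves of ONE component (any tree `τ`, the SAME in both ensembles);
* `ll2t_forest`    distinct components are independent;      `ll2t_transfer_prod`  products over several components;
* `ll2t_flip`      flip of one component;      `ll2t_mask`  `ν^s[P X_{ij}] = 0` for an odd `X` at a masked pair.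
SK LEVEL: `ll2PU, ll2PT` (NORMAL FORMS of the two matrix paths), `ll2t_sk_*`.      The exits on 93's `llNu, llJs, llMv` : `Exit/LL02A4.lean`.
-/

set_option autoImplicit false
set_option linter.unusedSectionVars false

namespace Claimed.Agent.R286

open MeasureTheory ProbabilityTheory

section abs
variable {S ι : Type} [Fintype S] [Fintype ι]

/-! ### 0. vocabulary -/

/-- a list of EMPTY levels (zero increments; any masses) -/
def Ll2Emp (ls : List (GhLv S ι)) : Prop := ∀ l ∈ ls, ∀ s i, l.A s i = 0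

/-- the untilted hierarchy -/
def ll2tU (A0 : S → ι → ℝ) (mid hi : List (GhLv S ι)) : List (GhLv S ι) := ⟨0, A0⟩ :: (mid ++ hi)

/-- the tilted hierarchy -/
def ll2tT (s : ℝ) (A0 : S → ι → ℝ) (mid hi : List (GhLv S ι)) : List (GhLv S ι) := mid ++ ⟨s, A0⟩ :: hi

/-- `G_m`: the continuation just after the initial revelation, as a function of its driver -/
noncomputable def ll2tG (B : GhB S) (A0 : S → ι → ℝ) (hi : List (GhLv S ι)) (z : S → ℝ) (ξ : ι → ℝ) : ℝ :=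
  ghF B hi (z + (⟨0, A0⟩ : GhLv S ι).inc ξ)

/-- `R_m`: the density of the tilted initial driver -/
noncomputable def ll2tR (B : GhB S) (s : ℝ) (A0 : S → ι → ℝ) (hi : List (GhLv S ι)) (z : S → ℝ) (ξ : ι → ℝ) : ℝ :=
  ghD B ⟨s, A0⟩ hi z ξ

/-- `K_m(s) = log E exp (s (G - E G))` -/
noncomputable def ll2tK (B : GhB S) (s : ℝ) (A0 : S → ι → ℝ) (hi : List (GhLv S ι)) (z : S → ℝ) : ℝ :=
  Real.log (∫ ξ, Real.exp (s * (ll2tG B A0 hi z ξ - ∫ η, ll2tG B A0 hi z η ∂ghStd ι)) ∂ghStd ι)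

/-- shift of the depths of a tree -/
def ll2tSh (t : ℕ) (τ : ℕ → ℕ → ℕ) : ℕ → ℕ → ℕ := fun x y => τ x y - t

/-- the tree number of the levels `hi` given the initial driver -/
noncomputable def ll2tC [Inhabited S] (B : GhB S) (A0 : S → ι → ℝ) (hi : List (GhLv S ι)) (q : ℕ) (τ : ℕ → ℕ → ℕ) (z : S → ℝ)
    (P : (ℕ → S) → ℝ) (ξ : ι → ℝ) : ℝ :=
  trNu B hi q τ (z + (⟨0, A0⟩ : GhLv S ι).inc ξ) P

theorem ll2t_eqns_cite : True := by
  have := @Ll2Emp.eq_1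
  have := @ll2tU.eq_1
  have := @ll2tT.eq_1
  have := @ll2tG.eq_1
  have := @ll2tR.eq_1
  have := @ll2tK.eq_1
  have := @ll2tSh.eq_1
  have := @ll2tC.eq_1
  trivial

/-! ### 1. small tools -/

theorem ll2t_emp_tail {l : GhLv S ι} {ls : List (GhLv S ι)} (h : Ll2Emp (l :: ls)) : Ll2Emp ls :=
  fun l' hl' => h l' (List.mem_cons_of_mem _ hl')

theorem ll2t_adm_right {B : GhB S} {u : ℝ} {l₁ l₂ : List (GhLv S ι)} (h : GhAdm B u (l₁ ++ l₂)) : GhAdm B u l₂ :=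
  ⟨(List.pairwise_append.1 h.1).2.1, fun l hl => h.2 l (List.mem_append_right _ hl)⟩

theorem ll2t_adm_tail {B : GhB S} {u : ℝ} {l : GhLv S ι} {ls : List (GhLv S ι)} (h : GhAdm B u (l :: ls)) : GhAdm B u ls :=
  ll2t_adm_right (l₁ := [l]) h

theorem ll2t_sh_isTr {N q t : ℕ} {τ : ℕ → ℕ → ℕ} (h : IsTr (t + N) q τ) : IsTr N q (ll2tSh t τ) where
  le x y hx hy := by have := h.le x y hx hy; unfold ll2tSh; omega
  diag x hx := by have := h.diag x hx; unfold ll2tSh; omega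
  symm x y hx hy := by unfold ll2tSh; rw [h.symm x y hx hy]
  ultra x y z hx hy hz := by have := h.ultra x y z hx hy hz; unfold ll2tSh; omega

theorem ll2t_sh_sh (t t' : ℕ) (τ : ℕ → ℕ → ℕ) : ll2tSh t (ll2tSh t' τ) = ll2tSh (t' + t) τ := by
  funext x y; unfold ll2tSh; omega

theorem ll2t_fld_zero (B : GhB S) (ls : List (GhLv S ι)) (z : S → ℝ) (f : (S → ℝ) → ℝ) : trFld B ls 0 z f = f z := by
  cases ls <;> rfl

theorem ll2t_fld_one (B : GhB S) (l : GhLv S ι) (ls : List (GhLv S ι)) (z : S → ℝ) (f : (S → ℝ) → ℝ) :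
    trFld B (l :: ls) 1 z f = ∫ ξ, ghD B l ls z ξ * f (z + l.inc ξ) ∂ghStd ι := by
  show ∫ ξ, ghD B l ls z ξ * trFld B ls 0 (z + l.inc ξ) f ∂ghStd ι = _
  simp only [ll2t_fld_zero]

/-- leading empty levels do not change the continuation -/
theorem ll2t_F_emp (B : GhB S) {mid : List (GhLv S ι)} (h : Ll2Emp mid) (ls : List (GhLv S ι)) :
    ghF B (mid ++ ls) = ghF B ls := by
  induction mid with
  | nil => rfl
  | cons l mid ih =>
    rw [List.cons_append, tr_e_F_empty_head B (h l List.mem_cons_self), ih (ll2t_emp_tail h)]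

/-- leading empty levels: the depths are shifted (ANY table `τ`) -/
theorem ll2t_nu_emp [Inhabited S] (B : GhB S) {mid : List (GhLv S ι)} (h : Ll2Emp mid) (ls : List (GhLv S ι)) (q : ℕ)
    (τ : ℕ → ℕ → ℕ) (z : S → ℝ) (P : (ℕ → S) → ℝ) :
    trNu B (mid ++ ls) q τ z P = trNu B ls q (ll2tSh mid.length τ) z P := by
  induction mid generalizing τ with
  | nil => rfl
  | cons l mid ih =>
    have h1 : trNu B (l :: (mid ++ ls)) q τ z P = trNu B (mid ++ ls) q (ll2tSh 1 τ) z P := by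
      unfold trNu
      rw [tr_e_nu_empty_head B (fun σ => P (trExt σ)) (h l List.mem_cons_self)]
      congr 1
      funext t
      exact tr_e_rep_congr fun a b => by unfold ll2tSh; omega
    rw [List.cons_append, h1, ih (ll2t_emp_tail h), ll2t_sh_sh, List.length_cons, add_comm]

/-! ### 2. (A4) -/

/-- TEX[LL:found:estimates] (A4), untilted side: `F^0 = E G` -/
theorem ll2t_F_U (B : GhB S) (A0 : S → ι → ℝ) {mid : List (GhLv S ι)} (h : Ll2Emp mid) (hi : List (GhLv S ι)) (z : S → ℝ) :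
    ghF B (ll2tU A0 mid hi) z = ∫ ξ, ll2tG B A0 hi z ξ ∂ghStd ι := by
  show ghT (ghStd ι) 0 (fun ξ => ghF B (mid ++ hi) (z + (⟨0, A0⟩ : GhLv S ι).inc ξ)) = _
  rw [ll2t_F_emp B h]
  simp [ghT, ll2tG]

/-- TEX[LL:found:estimates] (A4), tilted side: `F^s = s⁻¹ log E e^{sG}` -/
theorem ll2t_F_T (B : GhB S) {s : ℝ} (hs : s ≠ 0) (A0 : S → ι → ℝ) {mid : List (GhLv S ι)} (h : Ll2Emp mid)
    (hi : List (GhLv S ι)) (z : S → ℝ) :
    ghF B (ll2tT s A0 mid hi) z = s⁻¹ * Real.log (∫ ξ, Real.exp (s * ll2tG B A0 hi z ξ) ∂ghStd ι) := by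
  unfold ll2tT
  rw [ll2t_F_emp B h]
  show ghT (ghStd ι) s (fun ξ => ghF B hi (z + (⟨s, A0⟩ : GhLv S ι).inc ξ)) = _
  simp only [ghT, if_neg hs]
  rfl

theorem ll2t_G_int {B : GhB S} (hB : B.Ok) (A0 : S → ι → ℝ) (hi : List (GhLv S ι)) (z : S → ℝ) :
    Integrable (ll2tG B A0 hi z) (ghStd ι) := gh_ra_F_int hB _ hi z

theorem ll2t_G_int_exp {B : GhB S} (hB : B.Ok) (A0 : S → ι → ℝ) (hi : List (GhLv S ι)) (z : S → ℝ) (c : ℝ) :
    Integrable (fun ξ => Real.exp (c * ll2tG B A0 hi z ξ)) (ghStd ι) := gh_ra_F_int_exp hB _ hi z c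

/-- `K(s) = log E e^{sG} - s E G` -/
theorem ll2t_K_eq {B : GhB S} (hB : B.Ok) (s : ℝ) (A0 : S → ι → ℝ) (hi : List (GhLv S ι)) (z : S → ℝ) :
    ll2tK B s A0 hi z = Real.log (∫ ξ, Real.exp (s * ll2tG B A0 hi z ξ) ∂ghStd ι) - s * ∫ ξ, ll2tG B A0 hi z ξ ∂ghStd ι := by
  unfold ll2tK
  set c := ∫ ξ, ll2tG B A0 hi z ξ ∂ghStd ι
  have h1 : ∀ ξ, Real.exp (s * (ll2tG B A0 hi z ξ - c)) = Real.exp (s * ll2tG B A0 hi z ξ) * Real.exp (-(s * c)) := by
    intro ξ; rw [← Real.exp_add]; congr 1; ring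
  simp_rw [h1]
  rw [integral_mul_const, Real.log_mul (integral_exp_pos (ll2t_G_int_exp hB A0 hi z s)).ne' (Real.exp_pos _).ne', Real.log_exp]
  ring

/-- TEX[LL:found:estimates] **(A4)**: `s (F^s - F^0) = log E exp (s (G - E G))` -/
theorem ll2t_A4 {B : GhB S} (hB : B.Ok) {s : ℝ} (hs : s ≠ 0) (A0 : S → ι → ℝ) {mid0 midS : List (GhLv S ι)}
    (h0 : Ll2Emp mid0) (hS : Ll2Emp midS) (hi : List (GhLv S ι)) (z : S → ℝ) :
    s * (ghF B (ll2tT s A0 midS hi) z - ghF B (ll2tU A0 mid0 hi) z) = ll2tK B s A0 hi z := by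
  rw [ll2t_F_T B hs A0 hS, ll2t_F_U B A0 h0, ll2t_K_eq hB]
  field_simp

/-- Jensen: `K ≥ 0` -/
theorem ll2t_K_nonneg {B : GhB S} (hB : B.Ok) (s : ℝ) (A0 : S → ι → ℝ) (hi : List (GhLv S ι)) (z : S → ℝ) :
    0 ≤ ll2tK B s A0 hi z := by
  unfold ll2tK
  set c := ∫ η, ll2tG B A0 hi z η ∂ghStd ι with hc
  have hI : Integrable (fun ξ => Real.exp (s * (ll2tG B A0 hi z ξ - c))) (ghStd ι) := by
    have h1 : ∀ ξ, Real.exp (s * (ll2tG B A0 hi z ξ - c)) = Real.exp (s * ll2tG B A0 hi z ξ) * Real.exp (-(s * c)) := by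
      intro ξ; rw [← Real.exp_add]; congr 1; ring
    simp_rw [h1]
    exact (ll2t_G_int_exp hB A0 hi z s).mul_const _
  have hG := ll2t_G_int hB A0 hi z
  have hL : Integrable (fun ξ => s * (ll2tG B A0 hi z ξ - c) + 1) (ghStd ι) :=
    ((hG.sub (integrable_const c)).const_mul s).add (integrable_const 1)
  have h2 : (1 : ℝ) ≤ ∫ ξ, Real.exp (s * (ll2tG B A0 hi z ξ - c)) ∂ghStd ι := by
    have h3 : ∫ ξ, (ll2tG B A0 hi z ξ - c) ∂ghStd ι = 0 := by
      rw [integral_sub hG (integrable_const c)]; simp [hc]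
    have h4 : Integrable (fun ξ => s * (ll2tG B A0 hi z ξ - c)) (ghStd ι) := (hG.sub (integrable_const c)).const_mul s
    calc (1 : ℝ) = ∫ ξ, (s * (ll2tG B A0 hi z ξ - c) + 1) ∂ghStd ι := by
          rw [integral_add h4 (integrable_const 1), integral_const_mul, h3]; simp
      _ ≤ _ := integral_mono hL hI fun ξ => Real.add_one_le_exp _
  exact Real.log_nonneg h2

/-! ### 3. the density -/

theorem ll2t_R_pos (B : GhB S) (s : ℝ) (A0 : S → ι → ℝ) (hi : List (GhLv S ι)) (z : S → ℝ) (ξ : ι → ℝ) :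
    0 < ll2tR B s A0 hi z ξ := Real.exp_pos _

theorem ll2t_R_one {B : GhB S} (hB : B.Ok) (s : ℝ) (A0 : S → ι → ℝ) (hi : List (GhLv S ι)) (z : S → ℝ) :
    ∫ ξ, ll2tR B s A0 hi z ξ ∂ghStd ι = 1 := gh_ra_D_one hB _ hi z

/-- TEX[LL:found:estimates] `R = e^{sG} / E e^{sG}` -/
theorem ll2t_R_eq {B : GhB S} (hB : B.Ok) {s : ℝ} (hs : s ≠ 0) (A0 : S → ι → ℝ) (hi : List (GhLv S ι)) (z : S → ℝ) (ξ : ι → ℝ) :
    ll2tR B s A0 hi z ξ = Real.exp (s * ll2tG B A0 hi z ξ) / ∫ η, Real.exp (s * ll2tG B A0 hi z η) ∂ghStd ι := by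
  have hpos := integral_exp_pos (ll2t_G_int_exp hB A0 hi z s)
  have h1 := ll2t_F_T B hs A0 (mid := []) (fun _ h => by simp at h) hi z
  unfold ll2tR ghD
  simp only [ll2tT, List.nil_append] at h1
  rw [h1, mul_sub, Real.exp_sub, ← mul_assoc, mul_inv_cancel₀ hs, one_mul, Real.exp_log hpos]
  rfl

/-- the same without division, for EVERY `s` (also `s = 0`) -/
theorem ll2t_R_mul {B : GhB S} (hB : B.Ok) (s : ℝ) (A0 : S → ι → ℝ) (hi : List (GhLv S ι)) (z : S → ℝ) (ξ : ι → ℝ) :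
    ll2tR B s A0 hi z ξ * ∫ η, Real.exp (s * ll2tG B A0 hi z η) ∂ghStd ι = Real.exp (s * ll2tG B A0 hi z ξ) := by
  by_cases hs : s = 0
  · subst hs
    simp [ll2tR, ghD]
  · have hpos := integral_exp_pos (ll2t_G_int_exp hB A0 hi z s)
    rw [ll2t_R_eq hB hs, div_mul_cancel₀ _ hpos.ne']

/-- real powers of the density -/
theorem ll2t_R_rpow {B : GhB S} (hB : B.Ok) {s : ℝ} (hs : s ≠ 0) (A0 : S → ι → ℝ) (hi : List (GhLv S ι)) (z : S → ℝ) (p : ℝ)
    (ξ : ι → ℝ) :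
    ll2tR B s A0 hi z ξ ^ p
      = Real.exp (p * s * ll2tG B A0 hi z ξ) / (∫ η, Real.exp (s * ll2tG B A0 hi z η) ∂ghStd ι) ^ p := by
  have hpos := integral_exp_pos (ll2t_G_int_exp hB A0 hi z s)
  rw [ll2t_R_eq hB hs, Real.div_rpow (Real.exp_pos _).le hpos.le, ← Real.exp_mul]
  congr 2; ring

theorem ll2t_R_rpow_int {B : GhB S} (hB : B.Ok) {s : ℝ} (hs : s ≠ 0) (A0 : S → ι → ℝ) (hi : List (GhLv S ι)) (z : S → ℝ) (p : ℝ) :
    Integrable (fun ξ => ll2tR B s A0 hi z ξ ^ p) (ghStd ι) := by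
  simp_rw [ll2t_R_rpow hB hs]
  exact (ll2t_G_int_exp hB A0 hi z (p * s)).div_const _

/-- TEX[LL:red:lem-augmentation] the `L^p` norms of the density are Laplace transforms of `G`: `log E R^p = K(ps) - p K(s)` -/
theorem ll2t_R_norm {B : GhB S} (hB : B.Ok) {s : ℝ} (hs : s ≠ 0) (A0 : S → ι → ℝ) (hi : List (GhLv S ι)) (z : S → ℝ) (p : ℝ) :
    ∫ ξ, ll2tR B s A0 hi z ξ ^ p ∂ghStd ι = Real.exp (ll2tK B (p * s) A0 hi z - p * ll2tK B s A0 hi z) := by
  have hpos := integral_exp_pos (ll2t_G_int_exp hB A0 hi z s)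
  have hpos' := integral_exp_pos (ll2t_G_int_exp hB A0 hi z (p * s))
  simp_rw [ll2t_R_rpow hB hs]
  rw [integral_div, ll2t_K_eq hB, ll2t_K_eq hB]
  have : Real.log (∫ ξ, Real.exp (p * s * ll2tG B A0 hi z ξ) ∂ghStd ι) - p * s * ∫ ξ, ll2tG B A0 hi z ξ ∂ghStd ι
      - p * (Real.log (∫ ξ, Real.exp (s * ll2tG B A0 hi z ξ) ∂ghStd ι) - s * ∫ ξ, ll2tG B A0 hi z ξ ∂ghStd ι)
      = Real.log (∫ ξ, Real.exp (p * s * ll2tG B A0 hi z ξ) ∂ghStd ι)
        - p * Real.log (∫ ξ, Real.exp (s * ll2tG B A0 hi z ξ) ∂ghStd ι) := by ring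
  rw [this, Real.exp_sub, Real.exp_log hpos', Real.rpow_def_of_pos hpos, mul_comm (Real.log _) p]

end abs

/-! ### 4. tree laws: normal forms -/

section tree
variable {S ι : Type} [Fintype S] [Fintype ι] [Inhabited S]

theorem ll2t_len_U (A0 : S → ι → ℝ) (mid hi : List (GhLv S ι)) : (ll2tU A0 mid hi).length = mid.length + 1 + hi.length := by
  simp [ll2tU]; omega

theorem ll2t_len_T (s : ℝ) (A0 : S → ι → ℝ) (mid hi : List (GhLv S ι)) : (ll2tT s A0 mid hi).length = mid.length + 1 + hi.length := by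
  simp [ll2tT]; omega

/-- pull back of a tree along a map of labels -/
theorem ll2t_comap_isTr {N q p : ℕ} {τ : ℕ → ℕ → ℕ} (h : IsTr N q τ) {f : ℕ → ℕ} (hf : ∀ x, x < p → f x < q) :
    IsTr N p fun x y => τ (f x) (f y) where
  le x y hx hy := h.le _ _ (hf x hx) (hf y hy)
  diag x hx := h.diag _ (hf x hx)
  symm x y hx hy := h.symm _ _ (hf x hx) (hf y hy)
  ultra x y z hx hy hz := h.ultra _ _ _ (hf x hx) (hf y hy) (hf z hz)

/-- TEX[LL:found:estimates] untilted tree, all pairs share the stage `0`: `ν^0_τ[P] = E[C]` -/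
theorem ll2t_nu_U {B : GhB S} (hB : B.Ok) {A0 : S → ι → ℝ} {mid hi : List (GhLv S ι)} (he : Ll2Emp mid)
    (hadm : GhAdm B 0 (ll2tU A0 mid hi)) {q : ℕ} {τ : ℕ → ℕ → ℕ} (hτ : IsTr (mid.length + 1 + hi.length) q τ)
    (h1 : ∀ x y, x < q → y < q → 1 ≤ τ x y) (z : S → ℝ) (P : (ℕ → S) → ℝ) :
    trNu B (ll2tU A0 mid hi) q τ z P = ∫ ξ, ll2tC B A0 hi q (ll2tSh (mid.length + 1) τ) z P ξ ∂ghStd ι := by
  have hlen := ll2t_len_U A0 mid hi
  rw [tr_nu_cut hB hadm (hlen ▸ hτ) z P (t := 1) (by rw [hlen]; omega) h1]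
  unfold ll2tU
  rw [ll2t_fld_one]
  simp only [List.drop_succ_cons, List.drop_zero]
  refine integral_congr_ae (Filter.Eventually.of_forall fun ξ => ?_)
  simp only [ghD, zero_mul, Real.exp_zero, one_mul]
  rw [ll2t_nu_emp B he]
  show trNu B hi q (ll2tSh mid.length (ll2tSh 1 τ)) _ P = _
  rw [ll2t_sh_sh, add_comm]
  rfl

/-- tilted tree, ANY table: the leading empty stages are removed -/
theorem ll2t_nu_T0 (B : GhB S) (s : ℝ) (A0 : S → ι → ℝ) {mid : List (GhLv S ι)} (he : Ll2Emp mid) (hi : List (GhLv S ι)) (q : ℕ)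
    (τ : ℕ → ℕ → ℕ) (z : S → ℝ) (P : (ℕ → S) → ℝ) :
    trNu B (ll2tT s A0 mid hi) q τ z P = trNu B (⟨s, A0⟩ :: hi) q (ll2tSh mid.length τ) z P :=
  ll2t_nu_emp B he _ q τ z P

theorem ll2t_isTr_T0 {mid hi : List (GhLv S ι)} {q : ℕ} {τ : ℕ → ℕ → ℕ} (hτ : IsTr (mid.length + 1 + hi.length) q τ) (l : GhLv S ι) :
    IsTr (l :: hi).length q (ll2tSh mid.length τ) := by
  refine ll2t_sh_isTr (t := mid.length) ?_
  have : mid.length + (l :: hi).length = mid.length + 1 + hi.length := by simp; omega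
  rw [this]; exact hτ

/-- TEX[LL:found:estimates] CONNECTED tilted tree (all pairs share the stage `ts`): the untilted conditional tree number reweighted by `R` -/
theorem ll2t_nu_T {B : GhB S} (hB : B.Ok) {s : ℝ} {A0 : S → ι → ℝ} {mid hi : List (GhLv S ι)} (he : Ll2Emp mid)
    (hadm : GhAdm B 0 (ll2tT s A0 mid hi)) {q : ℕ} {τ : ℕ → ℕ → ℕ} (hτ : IsTr (mid.length + 1 + hi.length) q τ)
    (hc : ∀ x y, x < q → y < q → mid.length < τ x y) (z : S → ℝ) (P : (ℕ → S) → ℝ) :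
    trNu B (ll2tT s A0 mid hi) q τ z P
      = ∫ ξ, ll2tR B s A0 hi z ξ * ll2tC B A0 hi q (ll2tSh (mid.length + 1) τ) z P ξ ∂ghStd ι := by
  rw [ll2t_nu_T0 B s A0 he, tr_nu_cut hB (ll2t_adm_right hadm) (ll2t_isTr_T0 hτ _) z P (t := 1) (by simp)
    (fun x y hx hy => by have := hc x y hx hy; unfold ll2tSh; omega), ll2t_fld_one]
  simp only [List.drop_succ_cons, List.drop_zero]
  refine integral_congr_ae (Filter.Eventually.of_forall fun ξ => ?_)
  show _ * trNu B hi q (ll2tSh 1 (ll2tSh mid.length τ)) _ P = _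
  rw [ll2t_sh_sh]
  rfl

theorem ll2t_C_meas (B : GhB S) (A0 : S → ι → ℝ) (hi : List (GhLv S ι)) (q : ℕ) (τ : ℕ → ℕ → ℕ) (z : S → ℝ) (P : (ℕ → S) → ℝ) :
    Measurable (ll2tC B A0 hi q τ z P) := by
  unfold ll2tC trNu
  have h1 := tr_e_nu_meas B (fun σ : Fin q → S => P (trExt σ)) hi (fun t => trRep q τ t)
  have h2 : Measurable fun ξ : ι → ℝ => (fun _ : Fin q => z + (⟨0, A0⟩ : GhLv S ι).inc ξ) :=
    measurable_pi_lambda _ fun _ => (gh_l_inc_meas _).const_add z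
  exact h1.comp h2

theorem ll2t_C_bdd {B : GhB S} (hB : B.Ok) (A0 : S → ι → ℝ) {hi : List (GhLv S ι)} (hadm : GhAdm B 0 hi) (q : ℕ) (τ : ℕ → ℕ → ℕ)
    (z : S → ℝ) {P : (ℕ → S) → ℝ} {M : ℝ} (hP : ∀ σ : Fin q → S, |P (trExt σ)| ≤ M) (ξ : ι → ℝ) :
    |ll2tC B A0 hi q τ z P ξ| ≤ M :=
  gh_n_abs_le B hB M hi (fun l hl => (hadm.2 l hl).1) _ _ _ fun _ σ => hP σ

/-- every spin test on `q` leaves is bounded -/
theorem ll2t_test_bdd (q : ℕ) (P : (ℕ → S) → ℝ) : ∃ M, ∀ σ : Fin q → S, |P (trExt σ)| ≤ M :=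
  ⟨∑ σ : Fin q → S, |P (trExt σ)|, fun σ => Finset.single_le_sum (f := fun σ : Fin q → S => |P (trExt σ)|)
    (fun _ _ => abs_nonneg _) (Finset.mem_univ σ)⟩

theorem ll2t_nu_one {B : GhB S} (hB : B.Ok) {ls : List (GhLv S ι)} (hls : GhAdm B 0 ls) (q : ℕ) (τ : ℕ → ℕ → ℕ) (z : S → ℝ) (c : ℝ) :
    trNu B ls q τ z (fun _ => c) = c :=
  gh_n_const B hB c ls (hls.ghNn le_rfl) _ _

theorem ll2t_nu_nonneg {B : GhB S} (hB : B.Ok) (ls : List (GhLv S ι)) (q : ℕ) (τ : ℕ → ℕ → ℕ) (z : S → ℝ) {P : (ℕ → S) → ℝ}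
    (hP : ∀ σ, 0 ≤ P σ) : 0 ≤ trNu B ls q τ z P :=
  gh_n_nonneg B hB ls _ _ _ fun _ _ => hP _

/-- Jensen under a tree law -/
theorem ll2t_jensen {B : GhB S} (hB : B.Ok) {ls : List (GhLv S ι)} (hls : GhAdm B 0 ls) (q : ℕ) (τ : ℕ → ℕ → ℕ) (z : S → ℝ)
    (P : (ℕ → S) → ℝ) {p p' : ℝ} (hpp : p.HolderConjugate p') :
    |trNu B ls q τ z P| ^ p ≤ trNu B ls q τ z fun σ => |P σ| ^ p := by
  have h := tr_nu_holder hB hls q τ z P (fun _ => 1) p p' hpp
  simp only [mul_one, abs_one, Real.one_rpow] at h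
  rw [ll2t_nu_one hB hls, Real.one_rpow, mul_one] at h
  have hx : 0 ≤ trNu B ls q τ z fun σ => |P σ| ^ p := ll2t_nu_nonneg hB ls q τ z fun σ => Real.rpow_nonneg (abs_nonneg _) _
  calc |trNu B ls q τ z P| ^ p ≤ ((trNu B ls q τ z fun σ => |P σ| ^ p) ^ (1 / p)) ^ p :=
        Real.rpow_le_rpow (abs_nonneg _) h hpp.pos.le
    _ = trNu B ls q τ z fun σ => |P σ| ^ p := by
        rw [← Real.rpow_mul hx, one_div_mul_cancel hpp.pos.ne', Real.rpow_one]

/-! ### 5. change of measure -/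

/-- change of measure on a CONNECTED tree -/
theorem ll2t_transfer_conn {B : GhB S} (hB : B.Ok) {s : ℝ} (hs : s ≠ 0) {A0 : S → ι → ℝ} {mid0 midS hi : List (GhLv S ι)}
    (h0 : Ll2Emp mid0) (hS : Ll2Emp midS) (hlen : mid0.length = midS.length)
    (admU : GhAdm B 0 (ll2tU A0 mid0 hi)) (admT : GhAdm B 0 (ll2tT s A0 midS hi)) {q : ℕ} {τ : ℕ → ℕ → ℕ}
    (hτ : IsTr (midS.length + 1 + hi.length) q τ) (hc : ∀ x y, x < q → y < q → midS.length < τ x y) (z : S → ℝ)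
    (P : (ℕ → S) → ℝ) {p p' : ℝ} (hpp : p.HolderConjugate p') :
    |trNu B (ll2tT s A0 midS hi) q τ z P|
      ≤ (∫ ξ, ll2tR B s A0 hi z ξ ^ p' ∂ghStd ι) ^ (1 / p') * (trNu B (ll2tU A0 mid0 hi) q τ z fun σ => |P σ| ^ p) ^ (1 / p) := by
  have admH : GhAdm B 0 hi := ll2t_adm_tail (ll2t_adm_right admT)
  rw [ll2t_nu_T hB hS admT hτ hc, ll2t_nu_U hB h0 admU (hlen ▸ hτ) (fun x y hx hy => by have := hc x y hx hy; omega), hlen]
  set τ' := ll2tSh (midS.length + 1) τ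
  set R := ll2tR B s A0 hi z with hR
  set C := ll2tC B A0 hi q τ' z P with hC
  set C' := ll2tC B A0 hi q τ' z (fun σ => |P σ| ^ p) with hC'
  obtain ⟨M, hM⟩ := ll2t_test_bdd q P
  obtain ⟨M', hM'⟩ := ll2t_test_bdd q fun σ : ℕ → S => |P σ| ^ p
  have hCb : ∀ ξ, |C ξ| ≤ M := ll2t_C_bdd hB A0 admH q τ' z hM
  have hCb' : ∀ ξ, |C' ξ| ≤ M' := ll2t_C_bdd hB A0 admH q τ' z hM'
  have hCm : Measurable C := ll2t_C_meas B A0 hi q τ' z P
  have hCm' : Measurable C' := ll2t_C_meas B A0 hi q τ' z _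
  have hJ : ∀ ξ, |C ξ| ^ p ≤ C' ξ := fun ξ => ll2t_jensen hB admH q τ' _ P hpp
  have hRc : Continuous R := gh_ra_D_cont2 hB _ hi z
  have hRpos : ∀ ξ, 0 < R ξ := ll2t_R_pos B s A0 hi z
  have hRm : MemLp R (ENNReal.ofReal p') (ghStd ι) := by
    rw [← integrable_norm_rpow_iff hRc.aestronglyMeasurable (by simpa using hpp.symm.pos) ENNReal.ofReal_ne_top,
      ENNReal.toReal_ofReal hpp.symm.pos.le]
    simpa only [Real.norm_eq_abs, abs_of_pos (hRpos _)] using ll2t_R_rpow_int hB hs A0 hi z p'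
  have hCl : MemLp (fun ξ => |C ξ|) (ENNReal.ofReal p) (ghStd ι) :=
    MemLp.of_bound hCm.abs.aestronglyMeasurable M (Filter.Eventually.of_forall fun ξ => by simpa using hCb ξ)
  have hI' : Integrable C' (ghStd ι) :=
    Integrable.of_bound hCm'.aestronglyMeasurable M' (Filter.Eventually.of_forall fun ξ => by simpa using hCb' ξ)
  have hIp : Integrable (fun ξ => |C ξ| ^ p) (ghStd ι) :=
    hI'.mono' (hCm.abs.pow_const p).aestronglyMeasurable (Filter.Eventually.of_forall fun ξ => by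
      rw [Real.norm_eq_abs, abs_of_nonneg (Real.rpow_nonneg (abs_nonneg _) _)]; exact hJ ξ)
  calc |∫ ξ, R ξ * C ξ ∂ghStd ι| ≤ ∫ ξ, |R ξ * C ξ| ∂ghStd ι := abs_integral_le_integral_abs
    _ = ∫ ξ, R ξ * |C ξ| ∂ghStd ι := by simp only [abs_mul, abs_of_pos (hRpos _)]
    _ ≤ (∫ ξ, R ξ ^ p' ∂ghStd ι) ^ (1 / p') * (∫ ξ, |C ξ| ^ p ∂ghStd ι) ^ (1 / p) :=
        integral_mul_le_Lp_mul_Lq_of_nonneg hpp.symm (Filter.Eventually.of_forall fun ξ => (hRpos ξ).le)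
          (Filter.Eventually.of_forall fun ξ => abs_nonneg _) hRm hCl
    _ ≤ (∫ ξ, R ξ ^ p' ∂ghStd ι) ^ (1 / p') * (∫ ξ, C' ξ ∂ghStd ι) ^ (1 / p) := by
        refine mul_le_mul_of_nonneg_left (Real.rpow_le_rpow (integral_nonneg fun ξ => Real.rpow_nonneg (abs_nonneg _) _)
          (integral_mono hIp hI' hJ) (one_div_nonneg.2 hpp.pos.le)) (Real.rpow_nonneg (integral_nonneg fun ξ =>
          Real.rpow_nonneg (hRpos ξ).le _) _)

/-- TEX[LL:found:estimates] TEX[LL:red:lem-augmentation] **CHANGE OF MEASURE.**  `τ` = ANY tree (the same in both ensembles); the test uses the leaves of a set `A`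
contained in ONE component of the tilted ensemble: its tilted number is bounded by the `L^{p'}` norm of `R` times its untilted `L^p` norm. -/
theorem ll2t_transfer {B : GhB S} (hB : B.Ok) {s : ℝ} (hs : s ≠ 0) {A0 : S → ι → ℝ} {mid0 midS hi : List (GhLv S ι)}
    (h0 : Ll2Emp mid0) (hS : Ll2Emp midS) (hlen : mid0.length = midS.length)
    (admU : GhAdm B 0 (ll2tU A0 mid0 hi)) (admT : GhAdm B 0 (ll2tT s A0 midS hi)) {q : ℕ} {τ : ℕ → ℕ → ℕ}
    (hτ : IsTr (midS.length + 1 + hi.length) q τ) (A : ℕ → Prop) {a0 : ℕ} (ha0 : a0 < q) (hAa : A a0)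
    (hA : ∀ x y, x < q → y < q → A x → A y → midS.length < τ x y) (z : S → ℝ)
    (P : (ℕ → S) → ℝ) (hP : ∀ σ σ' : ℕ → S, (∀ x, x < q → A x → σ x = σ' x) → P σ = P σ') {p p' : ℝ} (hpp : p.HolderConjugate p') :
    |trNu B (ll2tT s A0 midS hi) q τ z P|
      ≤ (∫ ξ, ll2tR B s A0 hi z ξ ^ p' ∂ghStd ι) ^ (1 / p') * (trNu B (ll2tU A0 mid0 hi) q τ z fun σ => |P σ| ^ p) ^ (1 / p) := by
  classical
  set f : ℕ → ℕ := fun x => if x < q ∧ A x then x else a0 with hf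
  have hfq : ∀ x, x < q → f x < q := fun x _ => by
    simp only [hf]; split_ifs with h
    · exact h.1
    · exact ha0
  have hfA : ∀ x, A (f x) := fun x => by
    simp only [hf]; split_ifs with h
    · exact h.2
    · exact hAa
  have hPf : ∀ σ : ℕ → S, P (fun x => σ (f x)) = P σ := fun σ => hP _ _ fun x hx hAx => by
    simp only [hf, if_pos (And.intro hx hAx)]
  have hU : TrUses q P := fun σ σ' h => hP σ σ' fun x hx _ => h x hx
  have hU' : TrUses q fun σ : ℕ → S => |P σ| ^ p := fun σ σ' h => by simp only [hU σ σ' h]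
  have e1 := tr_nu_comap hB admT ((ll2t_len_T s A0 midS hi).symm ▸ hτ) z f hfq P hU
  have e2 := tr_nu_comap hB admU ((ll2t_len_U A0 mid0 hi).symm ▸ hlen.symm ▸ hτ) z f hfq _ hU'
  simp only [hPf] at e1 e2
  rw [e1, e2]
  exact ll2t_transfer_conn hB hs h0 hS hlen admU admT (ll2t_comap_isTr hτ hfq)
    (fun x y hx hy => hA _ _ (hfq x hx) (hfq y hy) (hfA x) (hfA y)) z P hpp

/-- generalised Hoelder for a finite nonnegative weight (AM-GM) -/
theorem ll2t_holder_fin {α : Type} [Fintype α] (w : α → ℝ) (hw : ∀ a, 0 ≤ w a) {r : ℕ} (hr : 0 < r) (X : Fin r → α → ℝ) :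
    |∑ a, w a * ∏ k, X k a| ≤ ∏ k, (∑ a, w a * |X k a| ^ (r : ℝ)) ^ (1 / (r : ℝ)) := by
  have hr' : (0 : ℝ) < r := by exact_mod_cast hr
  have hM0 : ∀ k, 0 ≤ ∑ a, w a * |X k a| ^ (r : ℝ) := fun k =>
    Finset.sum_nonneg fun a _ => mul_nonneg (hw a) (Real.rpow_nonneg (abs_nonneg _) _)
  set N : Fin r → ℝ := fun k => (∑ a, w a * |X k a| ^ (r : ℝ)) ^ (1 / (r : ℝ)) with hN
  have hN0 : ∀ k, 0 ≤ N k := fun k => Real.rpow_nonneg (hM0 k) _
  have hNr : ∀ k, N k ^ (r : ℝ) = ∑ a, w a * |X k a| ^ (r : ℝ) := fun k => by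
    simp only [hN]
    rw [← Real.rpow_mul (hM0 k), one_div, inv_mul_cancel₀ hr'.ne', Real.rpow_one]
  by_cases hz : ∃ k, N k = 0
  · obtain ⟨k, hk⟩ := hz
    have h1 : ∑ a, w a * |X k a| ^ (r : ℝ) = 0 := by rw [← hNr k, hk, Real.zero_rpow hr'.ne']
    have h2 : ∀ a, w a * |X k a| ^ (r : ℝ) = 0 := fun a =>
      (Finset.sum_eq_zero_iff_of_nonneg fun a _ => mul_nonneg (hw a) (Real.rpow_nonneg (abs_nonneg _) _)).1 h1 a (Finset.mem_univ a)
    have h3 : ∀ a, w a * ∏ k, X k a = 0 := fun a => by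
      rcases mul_eq_zero.1 (h2 a) with h | h
      · rw [h, zero_mul]
      · have : X k a = 0 := by
          rw [Real.rpow_eq_zero (abs_nonneg _) hr'.ne'] at h
          exact abs_eq_zero.1 h
        rw [Finset.prod_eq_zero (Finset.mem_univ k) this, mul_zero]
    rw [Finset.sum_eq_zero fun a _ => h3 a, abs_zero]
    exact Finset.prod_nonneg fun k _ => hN0 k
  · simp only [not_exists] at hz
    have hNp : ∀ k, 0 < N k := fun k => lt_of_le_of_ne (hN0 k) (Ne.symm (hz k))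
    have hP : 0 < ∏ k, N k := Finset.prod_pos fun k _ => hNp k
    have amgm : ∀ a, ∏ k, (|X k a| / N k) ≤ ∑ k, (1 / (r : ℝ)) * (|X k a| / N k) ^ (r : ℝ) := fun a => by
      have h := Real.geom_mean_le_arith_mean_weighted (Finset.univ : Finset (Fin r)) (fun _ => 1 / (r : ℝ))
        (fun k => (|X k a| / N k) ^ (r : ℝ)) (fun _ _ => by positivity) (by simp [hr'.ne'])
        (fun k _ => Real.rpow_nonneg (div_nonneg (abs_nonneg _) (hN0 k)) _)
      have e : ∀ k, ((|X k a| / N k) ^ (r : ℝ)) ^ (1 / (r : ℝ)) = |X k a| / N k := fun k => by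
        rw [← Real.rpow_mul (div_nonneg (abs_nonneg _) (hN0 k)), mul_one_div, div_self hr'.ne', Real.rpow_one]
      simpa only [e] using h
    calc |∑ a, w a * ∏ k, X k a| ≤ ∑ a, |w a * ∏ k, X k a| := Finset.abs_sum_le_sum_abs _ _
      _ = ∑ a, (∏ k, N k) * (w a * ∏ k, (|X k a| / N k)) := by
          refine Finset.sum_congr rfl fun a _ => ?_
          rw [abs_mul, abs_of_nonneg (hw a), Finset.abs_prod, Finset.prod_div_distrib]
          field_simp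
      _ ≤ ∑ a, (∏ k, N k) * (w a * ∑ k, (1 / (r : ℝ)) * (|X k a| / N k) ^ (r : ℝ)) :=
          Finset.sum_le_sum fun a _ => mul_le_mul_of_nonneg_left (mul_le_mul_of_nonneg_left (amgm a) (hw a)) hP.le
      _ = (∏ k, N k) * ∑ k, (1 / (r : ℝ)) * ((∑ a, w a * |X k a| ^ (r : ℝ)) / N k ^ (r : ℝ)) := by
          rw [← Finset.mul_sum]
          congr 1
          simp only [Finset.mul_sum]
          rw [Finset.sum_comm]
          refine Finset.sum_congr rfl fun k _ => ?_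
          rw [Finset.sum_div, Finset.mul_sum]
          refine Finset.sum_congr rfl fun a _ => ?_
          rw [Real.div_rpow (abs_nonneg _) (hN0 k)]
          ring
      _ = ∏ k, N k := by
          have : ∀ k, (∑ a, w a * |X k a| ^ (r : ℝ)) / N k ^ (r : ℝ) = 1 := fun k => by
            rw [← hNr k, div_self (Real.rpow_pos_of_pos (hNp k) _).ne']
          simp only [this, mul_one, Finset.sum_const, Finset.card_univ, Fintype.card_fin, nsmul_eq_mul]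
          rw [mul_one_div, div_self hr'.ne', mul_one]

/-- (generalised Hoelder under a tree law; finite probability vector `tr_nu_eq_sum`, AM-GM; PROVED helper117) -/
theorem ll2t_holder_prod {B : GhB S} (hB : B.Ok) {ls : List (GhLv S ι)} (hls : GhAdm B 0 ls) (q : ℕ) (τ : ℕ → ℕ → ℕ) (z : S → ℝ)
    {r : ℕ} (hr : 0 < r) (X : Fin r → (ℕ → S) → ℝ) :
    |trNu B ls q τ z fun σ => ∏ k, X k σ| ≤ ∏ k, (trNu B ls q τ z fun σ => |X k σ| ^ (r : ℝ)) ^ (1 / (r : ℝ)) := by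
  classical
  rw [tr_nu_eq_sum hB hls q τ z fun σ => ∏ k, X k σ]
  simp only [fun k => tr_nu_eq_sum hB hls q τ z fun σ => |X k σ| ^ (r : ℝ)]
  exact ll2t_holder_fin (fun σ₀ => trPr B ls q τ z σ₀) (fun σ₀ => tr_pr_nonneg hB hls q τ z σ₀) hr fun k σ₀ => X k (trExt σ₀)

/-- TEX[LL:found:estimates] TEX[LL:red:lem-augmentation] **products over several components**: each factor uses the leaves of one component;
the roots stay independent, no common untilted root is introduced; ONE factor `‖R‖_{p'}` in all. -/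
theorem ll2t_transfer_prod {B : GhB S} (hB : B.Ok) {s : ℝ} (hs : s ≠ 0) {A0 : S → ι → ℝ} {mid0 midS hi : List (GhLv S ι)}
    (h0 : Ll2Emp mid0) (hS : Ll2Emp midS) (hlen : mid0.length = midS.length)
    (admU : GhAdm B 0 (ll2tU A0 mid0 hi)) (admT : GhAdm B 0 (ll2tT s A0 midS hi)) {q : ℕ} {τ : ℕ → ℕ → ℕ}
    (hτ : IsTr (midS.length + 1 + hi.length) q τ) (z : S → ℝ) {r : ℕ} (hr : 0 < r) (X : Fin r → (ℕ → S) → ℝ)
    (A : Fin r → ℕ → Prop) (a0 : Fin r → ℕ) (ha0 : ∀ k, a0 k < q) (hAa : ∀ k, A k (a0 k))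
    (hA : ∀ k x y, x < q → y < q → A k x → A k y → midS.length < τ x y)
    (hX : ∀ k (σ σ' : ℕ → S), (∀ x, x < q → A k x → σ x = σ' x) → X k σ = X k σ') {p p' : ℝ} (hpp : p.HolderConjugate p') :
    |trNu B (ll2tT s A0 midS hi) q τ z fun σ => ∏ k, X k σ|
      ≤ (∫ ξ, ll2tR B s A0 hi z ξ ^ p' ∂ghStd ι) ^ (1 / p')
        * ∏ k, (trNu B (ll2tU A0 mid0 hi) q τ z fun σ => |X k σ| ^ ((r : ℝ) * p)) ^ (1 / ((r : ℝ) * p)) := by
  set c := (∫ ξ, ll2tR B s A0 hi z ξ ^ p' ∂ghStd ι) ^ (1 / p') with hc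
  have hc0 : 0 ≤ c := Real.rpow_nonneg (integral_nonneg fun ξ => Real.rpow_nonneg (ll2t_R_pos B s A0 hi z ξ).le _) _
  have hr' : (0 : ℝ) < r := by exact_mod_cast hr
  have hu0 : ∀ k, 0 ≤ trNu B (ll2tU A0 mid0 hi) q τ z fun σ => |X k σ| ^ ((r : ℝ) * p) := fun k =>
    ll2t_nu_nonneg hB _ q τ z fun σ => Real.rpow_nonneg (abs_nonneg _) _
  have h1 : ∀ k, (trNu B (ll2tT s A0 midS hi) q τ z fun σ => |X k σ| ^ (r : ℝ))
      ≤ c * (trNu B (ll2tU A0 mid0 hi) q τ z fun σ => |X k σ| ^ ((r : ℝ) * p)) ^ (1 / p) := fun k => by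
    have h := ll2t_transfer hB hs h0 hS hlen admU admT hτ (A k) (ha0 k) (hAa k) (hA k) z (fun σ => |X k σ| ^ (r : ℝ))
      (fun σ σ' h => by simp only [hX k σ σ' h]) hpp
    have e : ∀ σ : ℕ → S, |(|X k σ| ^ (r : ℝ))| ^ p = |X k σ| ^ ((r : ℝ) * p) := fun σ => by
      rw [abs_of_nonneg (Real.rpow_nonneg (abs_nonneg _) _), ← Real.rpow_mul (abs_nonneg _)]
    simp only [e] at h
    exact (le_abs_self _).trans h
  calc |trNu B (ll2tT s A0 midS hi) q τ z fun σ => ∏ k, X k σ|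
      ≤ ∏ k, (trNu B (ll2tT s A0 midS hi) q τ z fun σ => |X k σ| ^ (r : ℝ)) ^ (1 / (r : ℝ)) :=
        ll2t_holder_prod hB admT q τ z hr X
    _ ≤ ∏ k : Fin r, (c * (trNu B (ll2tU A0 mid0 hi) q τ z fun σ => |X k σ| ^ ((r : ℝ) * p)) ^ (1 / p)) ^ (1 / (r : ℝ)) :=
        Finset.prod_le_prod (fun k _ => Real.rpow_nonneg (ll2t_nu_nonneg hB _ q τ z fun σ => Real.rpow_nonneg (abs_nonneg _) _) _)
          fun k _ => Real.rpow_le_rpow (ll2t_nu_nonneg hB _ q τ z fun σ => Real.rpow_nonneg (abs_nonneg _) _) (h1 k)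
            (one_div_nonneg.2 hr'.le)
    _ = c * ∏ k, (trNu B (ll2tU A0 mid0 hi) q τ z fun σ => |X k σ| ^ ((r : ℝ) * p)) ^ (1 / ((r : ℝ) * p)) := by
        have e : ∀ k : Fin r, (c * (trNu B (ll2tU A0 mid0 hi) q τ z fun σ => |X k σ| ^ ((r : ℝ) * p)) ^ (1 / p)) ^ (1 / (r : ℝ))
            = c ^ (1 / (r : ℝ)) * (trNu B (ll2tU A0 mid0 hi) q τ z fun σ => |X k σ| ^ ((r : ℝ) * p)) ^ (1 / ((r : ℝ) * p)) := fun k => by
          rw [Real.mul_rpow hc0 (Real.rpow_nonneg (hu0 k) _), ← Real.rpow_mul (hu0 k)]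
          congr 2
          rw [one_div_mul_one_div, mul_comm]
        simp only [e]
        rw [Finset.prod_mul_distrib, Finset.prod_const, Finset.card_univ, Fintype.card_fin, ← Real.rpow_natCast,
          ← Real.rpow_mul hc0, one_div_mul_cancel hr'.ne', Real.rpow_one]

/-! ### 6. components: independence, flip, mask -/

/-- TEX[LL:found:estimates] **distinct components of a tilted tree have independent roots** -/
theorem ll2t_forest {B : GhB S} (hB : B.Ok) {s : ℝ} {A0 : S → ι → ℝ} {mid hi : List (GhLv S ι)} (he : Ll2Emp mid)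
    (hadm : GhAdm B 0 (ll2tT s A0 mid hi)) {q : ℕ} {τ : ℕ → ℕ → ℕ} (hτ : IsTr (mid.length + 1 + hi.length) q τ) (z : S → ℝ)
    (A : ℕ → Prop) (hA : ∀ x y, x < q → y < q → A x → ¬ A y → τ x y ≤ mid.length)
    (P Q : (ℕ → S) → ℝ) (hP : ∀ σ σ' : ℕ → S, (∀ x, x < q → A x → σ x = σ' x) → P σ = P σ')
    (hQ : ∀ σ σ' : ℕ → S, (∀ x, x < q → ¬ A x → σ x = σ' x) → Q σ = Q σ') :
    trNu B (ll2tT s A0 mid hi) q τ z (fun σ => P σ * Q σ)
      = trNu B (ll2tT s A0 mid hi) q τ z P * trNu B (ll2tT s A0 mid hi) q τ z Q := by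
  simp only [ll2t_nu_T0 B s A0 he]
  exact tr_nu_indep hB (ll2t_adm_right hadm) (ll2t_isTr_T0 hτ _) z A
    (fun x y hx hy h1 h2 => Nat.sub_eq_zero_of_le (hA x y hx hy h1 h2)) P Q hP hQ

/-- TEX[LL:found:estimates] **flip of a union of components** of a tilted tree: `e` preserves the prior, the source and all the kernels -/
theorem ll2t_flip {B : GhB S} (hB : B.Ok) {s : ℝ} {A0 : S → ι → ℝ} {mid hi : List (GhLv S ι)} (he : Ll2Emp mid)
    (hadm : GhAdm B 0 (ll2tT s A0 mid hi)) {q : ℕ} {τ : ℕ → ℕ → ℕ} (hτ : IsTr (mid.length + 1 + hi.length) q τ) (z : S → ℝ)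
    (e : S ≃ S) (hw : ∀ x, B.w (e x) = B.w x) (hz : ∀ x, z (e x) = z x)
    (hc0 : ∀ x y, (⟨s, A0⟩ : GhLv S ι).cov (e x) (e y) = (⟨s, A0⟩ : GhLv S ι).cov x y)
    (hc : ∀ l ∈ hi, ∀ x y, l.cov (e x) (e y) = l.cov x y)
    (A : ℕ → Prop) [DecidablePred A] (hA : ∀ x y, x < q → y < q → A x → mid.length < τ x y → A y) (P : (ℕ → S) → ℝ)
    (hP : TrUses q P) :
    trNu B (ll2tT s A0 mid hi) q τ z (fun σ => P fun x => if A x then e (σ x) else σ x) = trNu B (ll2tT s A0 mid hi) q τ z P := by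
  simp only [ll2t_nu_T0 B s A0 he]
  refine tr_nu_block_sym hB (ll2t_adm_right hadm) (ll2t_isTr_T0 hτ _) z e hw hz 0 (Nat.zero_le _)
    (fun j _ h => absurd h (Nat.not_lt_zero j))
    (fun j h _ x y => ?_) A (fun x y hx hy h1 h2 => hA x y hx hy h1 (by unfold ll2tSh at h2; omega)) P hP
  rcases List.mem_cons.1 (List.getElem_mem h) with h' | h'
  · rw [h']; exact hc0 x y
  · exact hc _ h' x y

theorem ll2t_nu_neg {B : GhB S} (hB : B.Ok) {ls : List (GhLv S ι)} (hls : GhAdm B 0 ls) (q : ℕ) (τ : ℕ → ℕ → ℕ) (z : S → ℝ)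
    (P : (ℕ → S) → ℝ) : trNu B ls q τ z (fun σ => - P σ) = - trNu B ls q τ z P := by
  classical
  rw [tr_nu_eq_sum hB hls, tr_nu_eq_sum hB hls q τ z P, ← Finset.sum_neg_distrib]
  exact Finset.sum_congr rfl fun σ _ => by ring

/-- TEX[LL:found:estimates] **masked pairs**: `P` even and `X` odd under the flip of the component of the leaf `i` `⟹ ν^s[P X] = 0` -/
theorem ll2t_mask {B : GhB S} (hB : B.Ok) {s : ℝ} {A0 : S → ι → ℝ} {mid hi : List (GhLv S ι)} (he : Ll2Emp mid)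
    (hadm : GhAdm B 0 (ll2tT s A0 mid hi)) {q : ℕ} {τ : ℕ → ℕ → ℕ} (hτ : IsTr (mid.length + 1 + hi.length) q τ) (z : S → ℝ)
    (e : S ≃ S) (hw : ∀ x, B.w (e x) = B.w x) (hz : ∀ x, z (e x) = z x)
    (hc0 : ∀ x y, (⟨s, A0⟩ : GhLv S ι).cov (e x) (e y) = (⟨s, A0⟩ : GhLv S ι).cov x y)
    (hc : ∀ l ∈ hi, ∀ x y, l.cov (e x) (e y) = l.cov x y) {i : ℕ} (hi' : i < q) (P X : (ℕ → S) → ℝ)
    (hPu : TrUses q P) (hXu : TrUses q X)
    (hP : ∀ σ : ℕ → S, P (fun x => if mid.length < τ i x then e (σ x) else σ x) = P σ)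
    (hX : ∀ σ : ℕ → S, X (fun x => if mid.length < τ i x then e (σ x) else σ x) = - X σ) :
    trNu B (ll2tT s A0 mid hi) q τ z (fun σ => P σ * X σ) = 0 := by
  have h := ll2t_flip hB he hadm hτ z e hw hz hc0 hc (fun x => mid.length < τ i x)
    (fun x y hx hy h1 h2 => lt_of_lt_of_le (lt_min h1 h2) (hτ.ultra i x y hi' hx hy)) (fun σ => P σ * X σ)
    (fun σ σ' h => by simp only [hPu σ σ' h, hXu σ σ' h])
  simp only [hP, hX, mul_neg] at h
  rw [ll2t_nu_neg hB hadm] at h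
  linarith

/-- TEX[LL:found:estimates] difference of the two ensembles on a connected tree -/
theorem ll2t_nu_diff {B : GhB S} (hB : B.Ok) {s : ℝ} {A0 : S → ι → ℝ} {mid0 midS hi : List (GhLv S ι)}
    (h0 : Ll2Emp mid0) (hS : Ll2Emp midS) (hlen : mid0.length = midS.length)
    (admU : GhAdm B 0 (ll2tU A0 mid0 hi)) (admT : GhAdm B 0 (ll2tT s A0 midS hi)) {q : ℕ} {τ : ℕ → ℕ → ℕ}
    (hτ : IsTr (midS.length + 1 + hi.length) q τ) (hc : ∀ x y, x < q → y < q → midS.length < τ x y) (z : S → ℝ)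
    (P : (ℕ → S) → ℝ) :
    trNu B (ll2tT s A0 midS hi) q τ z P - trNu B (ll2tU A0 mid0 hi) q τ z P
      = ∫ ξ, (ll2tR B s A0 hi z ξ - 1) * ll2tC B A0 hi q (ll2tSh (midS.length + 1) τ) z P ξ ∂ghStd ι := by
  have admH : GhAdm B 0 hi := ll2t_adm_tail (ll2t_adm_right admT)
  rw [ll2t_nu_T hB hS admT hτ hc, ll2t_nu_U hB h0 admU (hlen ▸ hτ) (fun x y hx hy => by have := hc x y hx hy; omega), hlen]
  obtain ⟨M, hM⟩ := ll2t_test_bdd q P
  have hCb := ll2t_C_bdd hB A0 admH q (ll2tSh (midS.length + 1) τ) z hM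
  have hCm := ll2t_C_meas B A0 hi q (ll2tSh (midS.length + 1) τ) z P
  have hI : Integrable (ll2tC B A0 hi q (ll2tSh (midS.length + 1) τ) z P) (ghStd ι) :=
    Integrable.of_bound hCm.aestronglyMeasurable M (Filter.Eventually.of_forall fun ξ => by simpa using hCb ξ)
  have hRI : Integrable (fun ξ => ll2tR B s A0 hi z ξ * ll2tC B A0 hi q (ll2tSh (midS.length + 1) τ) z P ξ) (ghStd ι) :=
    (gh_ra_D_int hB _ hi z).mul_bdd (c := M) hCm.aestronglyMeasurable (Filter.Eventually.of_forall fun ξ => by simpa using hCb ξ)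
  rw [← integral_sub hRI hI]
  exact integral_congr_ae (Filter.Eventually.of_forall fun ξ => by simp only; ring)

end tree

/-! ### 7. the SK instance: physical fine paths -/

section sk

/-- the empty revelation of mass `m` -/
def ll2E (m : ℝ) : SkInc := ⟨m, 0, 0⟩

/-- NORMAL FORM, UNTILTED: `b0` at the mass `0`, empty cuts at the masses `ms`, then `hi` -/
def ll2PU (b0 : ℝ) (ms : List ℝ) (hi : SkStp) : SkStp := ⟨0, b0, 0⟩ :: (ms.map ll2E ++ hi)

/-- NORMAL FORM, TILTED: empty cuts at the masses `ms`, `b0` at the stage `ms.length` of mass `s`, then `hi`.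
(one grid of stages: `0 :: msU = msT ++ [s]`; the theorems use `msU.length = msT.length` only) -/
def ll2PT (b0 : ℝ) (ms : List ℝ) (s : ℝ) (hi : SkStp) : SkStp := ms.map ll2E ++ ⟨s, b0, 0⟩ :: hi

/-- the factor of the initial matrix revelation -/
noncomputable def ll2A0 (n : ℕ) (b0 : ℝ) : SkCfg n → SkDr n → ℝ := (SkInc.lv n ⟨0, b0, 0⟩).A

/-- `K_n(t) = log E exp (t (G_n - E G_n))` -/
noncomputable def ll2sK (n : ℕ) (a b0 : ℝ) (hi : SkStp) (t : ℝ) : ℝ := ll2tK (skBase n a) t (ll2A0 n b0) (skLvs n hi) 0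

/-- the global flip -/
def ll2Fl (n : ℕ) : SkCfg n ≃ SkCfg n := skGa fun _ => false

theorem ll2t_sk_eqns_cite : True := by
  have := @ll2E.eq_1
  have := @ll2PU.eq_1
  have := @ll2PT.eq_1
  have := @ll2A0.eq_1
  have := @ll2sK.eq_1
  have := @ll2Fl.eq_1
  trivial

theorem ll2t_sk_lvs_U (n : ℕ) (b0 : ℝ) (ms : List ℝ) (hi : SkStp) :
    skLvs n (ll2PU b0 ms hi) = ll2tU (ll2A0 n b0) (ms.map fun m => (ll2E m).lv n) (skLvs n hi) := by
  simp only [skLvs, ll2PU, ll2tU, List.map_cons, List.map_append, List.map_map]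
  rfl

theorem ll2t_sk_lvs_T (n : ℕ) (b0 : ℝ) (ms : List ℝ) (s : ℝ) (hi : SkStp) :
    skLvs n (ll2PT b0 ms s hi) = ll2tT s (ll2A0 n b0) (ms.map fun m => (ll2E m).lv n) (skLvs n hi) := by
  simp only [skLvs, ll2PT, ll2tT, List.map_cons, List.map_append, List.map_map]
  rfl

theorem ll2t_sk_lvs_E (n : ℕ) (ms : List ℝ) (hi : SkStp) :
    skLvs n (ms.map ll2E ++ hi) = (ms.map fun m => (ll2E m).lv n) ++ skLvs n hi := by
  simp only [skLvs, List.map_append, List.map_map]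
  rfl

theorem ll2t_sk_emp (n : ℕ) (ms : List ℝ) : Ll2Emp (ms.map fun m => (ll2E m).lv n) := by
  intro l hl σ i
  obtain ⟨m, _, rfl⟩ := List.mem_map.1 hl
  cases i <;> simp [ll2E, SkInc.lv, ghLvF]

theorem ll2t_sk_tot (b0 : ℝ) (msU msT : List ℝ) (s : ℝ) (hi : SkStp) :
    skTotB (ll2PT b0 msT s hi) = skTotB (ll2PU b0 msU hi) ∧ skTotH (ll2PT b0 msT s hi) = skTotH (ll2PU b0 msU hi) := by
  constructor <;>
    simp [skTotB, skTotH, ll2PT, ll2PU, ll2E, List.map_append, List.sum_append, List.map_map, Function.comp_def]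

/-- `G` of the abstract level is `skG` of `Defs/Sk` -/
theorem ll2t_sk_G (n : ℕ) (a b0 : ℝ) (ms : List ℝ) (hi : SkStp) (ξ : SkDr n → ℝ) :
    skG n a (ll2PU b0 ms hi) ξ = ll2tG (skBase n a) (ll2A0 n b0) (skLvs n hi) 0 ξ := by
  simp only [ll2PU, ll2tG, skG, skF, zero_add]
  rw [ll2t_sk_lvs_E, ll2t_F_emp _ (ll2t_sk_emp n ms)]
  rfl

/-- the tilt IN PLACE of `Defs/Sk` and the tilt on the grid have the same pressure -/
theorem ll2t_sk_tilt (n : ℕ) (a b0 : ℝ) (msU msT : List ℝ) (s : ℝ) (hi : SkStp) :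
    skPr n a (skTilt s (ll2PU b0 msU hi)) = skPr n a (ll2PT b0 msT s hi) := by
  have e1 : skF n a (skTilt s (ll2PU b0 msU hi)) 0 = skF n a (ll2PT b0 msT s hi) 0 := by
    unfold skF
    rw [ll2t_sk_lvs_T]
    unfold ll2tT
    rw [ll2t_F_emp _ (ll2t_sk_emp n msT)]
    show ghF (skBase n a) (SkInc.lv n ⟨s, b0, 0⟩ :: skLvs n (msU.map ll2E ++ hi)) 0 = _
    rw [ll2t_sk_lvs_E, tr_e_F_cons_congr _ _ (ll2t_F_emp _ (ll2t_sk_emp n msU) (skLvs n hi))]
    rfl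
  have e2 : skTotB (skTilt s (ll2PU b0 msU hi)) = skTotB (ll2PT b0 msT s hi) := by
    simp [skTotB, skTilt, ll2PT, ll2PU, ll2E, List.map_append, List.sum_append, List.map_map, Function.comp_def]
  have e3 : skTotH (skTilt s (ll2PU b0 msU hi)) = skTotH (ll2PT b0 msT s hi) := by
    simp [skTotH, skTilt, ll2PT, ll2PU, ll2E, List.map_append, List.sum_append, List.map_map, Function.comp_def]
  unfold skPr
  rw [e1, e2, e3]

/-- TEX[LL:found:estimates] **(A4) on one grid**: `s n ψ_n(s) = K_n(s)` -/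
theorem ll2t_sk_A4 (n : ℕ) (hn : 0 < n) {a : ℝ} (ha : 0 < a) {s : ℝ} (hs : s ≠ 0) (b0 : ℝ) (msU msT : List ℝ) (hi : SkStp) :
    s * n * (skPr n a (ll2PT b0 msT s hi) - skPr n a (ll2PU b0 msU hi)) = ll2sK n a b0 hi s := by
  have hn' : (n : ℝ) ≠ 0 := by exact_mod_cast hn.ne'
  have h := ll2t_A4 (sk_sy_base_ok n ha) hs (ll2A0 n b0) (ll2t_sk_emp n msU) (ll2t_sk_emp n msT) (skLvs n hi) 0
  rw [← ll2t_sk_lvs_T, ← ll2t_sk_lvs_U] at h
  unfold ll2sK
  rw [← h]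
  unfold skPr skF
  rw [(ll2t_sk_tot b0 msU msT s hi).1, (ll2t_sk_tot b0 msU msT s hi).2]
  field_simp
  ring

/-- `K_n` in the vocabulary of `Defs/Sk` -/
theorem ll2t_sk_K (n : ℕ) (a b0 : ℝ) (ms : List ℝ) (hi : SkStp) (t : ℝ) :
    ll2sK n a b0 hi t = Real.log (∫ ξ, Real.exp (t * (skG n a (ll2PU b0 ms hi) ξ
      - ∫ ξ', skG n a (ll2PU b0 ms hi) ξ' ∂ghStd (SkDr n))) ∂ghStd (SkDr n)) := by
  simp only [ll2t_sk_G]
  rfl

theorem ll2t_sk_fl_sp {n : ℕ} (σ : SkCfg n) (i : Fin n) : skSp (ll2Fl n σ) i = - skSp σ i := by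
  unfold ll2Fl
  rw [sk_sy_ga_sp]
  have : skSp (fun _ => false : SkCfg n) i = -1 := by simp [skSp, Claims.C0461.pmSpin]
  rw [this]; ring

theorem ll2t_sk_fl_ov {n : ℕ} (σ τ : SkCfg n) : skOv (ll2Fl n σ) (ll2Fl n τ) = skOv σ τ := sk_sy_ga_ov _ σ τ

theorem ll2t_sk_fl_ov_left {n : ℕ} (σ τ : SkCfg n) : skOv (ll2Fl n σ) τ = - skOv σ τ := by
  unfold skOv
  simp only [ll2t_sk_fl_sp, neg_mul, Finset.sum_neg_distrib, neg_div]

theorem ll2t_sk_fl_ov_right {n : ℕ} (σ τ : SkCfg n) : skOv σ (ll2Fl n τ) = - skOv σ τ := by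
  unfold skOv
  simp only [ll2t_sk_fl_sp, mul_neg, Finset.sum_neg_distrib, neg_div]

/-- two labels of one component are flipped together -/
theorem ll2t_sk_comp {N ts q : ℕ} {τ : ℕ → ℕ → ℕ} (hτ : IsTr N q τ) {i c d : ℕ} (hi : i < q) (hc : c < q) (hd : d < q)
    (h : ts < τ c d) : ts < τ i c ↔ ts < τ i d :=
  ⟨fun h1 => lt_of_lt_of_le (lt_min h1 h) (hτ.ultra i c d hi hc hd),
    fun h2 => lt_of_lt_of_le (lt_min h2 (by rw [hτ.symm d c hd hc]; exact h)) (hτ.ultra i d c hi hd hc)⟩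

/-- the overlap of two labels of one component does not see the flip of a component -/
theorem ll2t_sk_ov_inv {n N ts q : ℕ} {τ : ℕ → ℕ → ℕ} (hτ : IsTr N q τ) {i c d : ℕ} (hi : i < q) (hc : c < q) (hd : d < q)
    (h : ts < τ c d) (σ : ℕ → SkCfg n) :
    skOv (if ts < τ i c then ll2Fl n (σ c) else σ c) (if ts < τ i d then ll2Fl n (σ d) else σ d) = skOv (σ c) (σ d) := by
  have hiff := ll2t_sk_comp hτ hi hc hd h
  by_cases h1 : ts < τ i c
  · rw [if_pos h1, if_pos (hiff.1 h1)]; exact ll2t_sk_fl_ov _ _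
  · rw [if_neg h1, if_neg (fun h2 => h1 (hiff.2 h2))]

/-- the masked overlaps of a tilted tree with the tilt stage `ts` on `q` labels (used by `L02/TiltB.lean`) -/
noncomputable def ll2Qs {n : ℕ} (ts q : ℕ) (τ : ℕ → ℕ → ℕ) (σ : ℕ → SkCfg n) (c d : ℕ) : ℝ :=
  if c < q ∧ d < q ∧ ts < τ c d then skOv (σ c) (σ d) else 0

theorem ll2t_sk_eqns_cite2 : True := by
  have := @ll2Qs.eq_1
  trivial

/-- the masked overlaps do not see the flip of one component -/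
theorem ll2t_sk_Qs_inv {n N ts q : ℕ} {τ : ℕ → ℕ → ℕ} (hτ : IsTr N q τ) {i : ℕ} (hi : i < q) (σ : ℕ → SkCfg n) :
    ll2Qs ts q τ (fun x => if ts < τ i x then ll2Fl n (σ x) else σ x) = ll2Qs ts q τ σ := by
  funext c d
  unfold ll2Qs
  by_cases h : c < q ∧ d < q ∧ ts < τ c d
  · rw [if_pos h, if_pos h]
    exact ll2t_sk_ov_inv hτ hi h.1 h.2.1 h.2.2 σ
  · rw [if_neg h, if_neg h]

/-- TEX[LL:found:estimates] **masked pairs, SK form**: `T` invariant under the flip of the component of `i`, `τ i j ≤ ts`  `⟹ ν^s[T Q_{ij}] = 0` -/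
theorem ll2t_sk_mask (n : ℕ) (hn : 0 < n) {a : ℝ} (ha : 0 < a) {s b0 : ℝ} {ms : List ℝ} {hi : SkStp}
    (hadm : SkAdm a (ll2PT b0 ms s hi)) {q : ℕ} {τ : ℕ → ℕ → ℕ} (hτ : IsTr (ms.length + 1 + hi.length) q τ)
    {i j : ℕ} (hi' : i < q) (hj : j < q) (hij : τ i j ≤ ms.length) (T : (ℕ → SkCfg n) → ℝ) (hTu : TrUses q T)
    (hT : ∀ σ : ℕ → SkCfg n, T (fun x => if ms.length < τ i x then ll2Fl n (σ x) else σ x) = T σ) :
    trNu (skBase n a) (skLvs n (ll2PT b0 ms s hi)) q τ 0 (fun σ => T σ * skOv (σ i) (σ j)) = 0 := by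
  have hB := sk_sy_base_ok n ha
  have hG : GhAdm (skBase n a) 0 (skLvs n (ll2PT b0 ms s hi)) := sk_sy_adm hadm
  have hl : (ms.map fun m => (ll2E m).lv n).length = ms.length := by simp
  have hcov : ∀ e ∈ ll2PT b0 ms s hi, ∀ x y, (e.lv n).cov (ll2Fl n x) (ll2Fl n y) = (e.lv n).cov x y := fun e he x y => by
    have hm := hadm.2 e he
    rw [sk_d_cov n hn _ hm.2.2.1 hm.2.2.2, sk_d_cov n hn _ hm.2.2.1 hm.2.2.2, ll2t_sk_fl_ov]
  rw [ll2t_sk_lvs_T] at hG ⊢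
  refine ll2t_mask hB (ll2t_sk_emp n ms) hG (q := q) (τ := τ) (by rw [hl]; simpa [skLvs] using hτ) 0 (ll2Fl n)
    (fun _ => rfl) (fun _ => rfl) (hcov ⟨s, b0, 0⟩ (by simp [ll2PT])) (fun l hl' x y => ?_) hi' _ _
    hTu (fun σ σ' h => by simp only [h i hi', h j hj]) (fun σ => ?_) (fun σ => ?_)
  · obtain ⟨e, he, rfl⟩ := List.mem_map.1 hl'
    exact hcov e (by simp [ll2PT, he]) x y
  · rw [hl]; exact hT σ
  · rw [hl]
    have h1 : ms.length < τ i i := by rw [hτ.diag i hi']; omega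
    simp only [if_pos h1, if_neg (not_lt.2 hij)]
    exact ll2t_sk_fl_ov_left _ _

/-- TEX[LL:found:estimates] distinct components are independent, SK form -/
theorem ll2t_sk_forest (n : ℕ) {a : ℝ} (ha : 0 < a) {s b0 : ℝ} {ms : List ℝ} {hi : SkStp}
    (hadm : SkAdm a (ll2PT b0 ms s hi)) {q : ℕ} {τ : ℕ → ℕ → ℕ} (hτ : IsTr (ms.length + 1 + hi.length) q τ)
    (A : ℕ → Prop) (hA : ∀ x y, x < q → y < q → A x → ¬ A y → τ x y ≤ ms.length)
    (T T' : (ℕ → SkCfg n) → ℝ) (hT : ∀ σ σ' : ℕ → SkCfg n, (∀ x, x < q → A x → σ x = σ' x) → T σ = T σ')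
    (hT' : ∀ σ σ' : ℕ → SkCfg n, (∀ x, x < q → ¬ A x → σ x = σ' x) → T' σ = T' σ') :
    trNu (skBase n a) (skLvs n (ll2PT b0 ms s hi)) q τ 0 (fun σ => T σ * T' σ)
      = trNu (skBase n a) (skLvs n (ll2PT b0 ms s hi)) q τ 0 T * trNu (skBase n a) (skLvs n (ll2PT b0 ms s hi)) q τ 0 T' := by
  have hG : GhAdm (skBase n a) 0 (skLvs n (ll2PT b0 ms s hi)) := sk_sy_adm hadm
  have hl : (ms.map fun m => (ll2E m).lv n).length = ms.length := by simp
  rw [ll2t_sk_lvs_T] at hG ⊢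
  exact ll2t_forest (sk_sy_base_ok n ha) (ll2t_sk_emp n ms) hG (by rw [hl]; simpa [skLvs] using hτ) 0 A
    (by rw [hl]; exact hA) T T' hT hT'

/-- TEX[LL:found:estimates] connected tilted tree = untilted conditional tree number reweighted by `e^{sG}` (no division; every `s`) -/
theorem ll2t_sk_reweight (n : ℕ) {a : ℝ} (ha : 0 < a) {s b0 : ℝ} {msU msT : List ℝ} (hlen : msU.length = msT.length) {hi : SkStp}
    (hadm : SkAdm a (ll2PT b0 msT s hi)) {q : ℕ} {τ : ℕ → ℕ → ℕ} (hτ : IsTr (msT.length + 1 + hi.length) q τ)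
    (hc : ∀ x y, x < q → y < q → msT.length < τ x y) (T : (ℕ → SkCfg n) → ℝ) :
    trNu (skBase n a) (skLvs n (ll2PT b0 msT s hi)) q τ 0 T * (∫ ξ, Real.exp (s * skG n a (ll2PU b0 msU hi) ξ) ∂ghStd (SkDr n))
      = ∫ ξ, Real.exp (s * skG n a (ll2PU b0 msU hi) ξ) *
          trNu (skBase n a) (skLvs n (msU.map ll2E ++ hi)) q (fun x y => τ x y - 1) (((⟨0, b0, 0⟩ : SkInc).lv n).inc ξ) T
            ∂ghStd (SkDr n) := by
  have hB := sk_sy_base_ok n ha
  have hG : GhAdm (skBase n a) 0 (skLvs n (ll2PT b0 msT s hi)) := sk_sy_adm hadm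
  have hl : (msT.map fun m => (ll2E m).lv n).length = msT.length := by simp
  have hlU : (msU.map fun m => (ll2E m).lv n).length = msT.length := by simp [hlen]
  rw [ll2t_sk_lvs_T] at hG ⊢
  rw [ll2t_nu_T hB (ll2t_sk_emp n msT) hG (by rw [hl]; simpa [skLvs] using hτ) (by rw [hl]; exact hc), ← integral_mul_const]
  refine integral_congr_ae (Filter.Eventually.of_forall fun ξ => ?_)
  simp only [ll2t_sk_G]
  rw [mul_right_comm, ll2t_R_mul hB, ll2t_sk_lvs_E, ll2t_nu_emp _ (ll2t_sk_emp n msU), hlU, hl]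
  congr 1
  show ll2tC _ _ _ q _ _ T ξ = trNu _ _ q (ll2tSh msT.length (ll2tSh 1 τ)) _ T
  rw [ll2t_sh_sh, add_comm 1]
  unfold ll2tC
  rw [zero_add]
  rfl

/-- TEX[LL:found:estimates] TEX[LL:red:lem-augmentation] **change of measure, SK form**: the constant is `exp ((K(p's) - p' K(s)) / p')` -/
theorem ll2t_sk_transfer (n : ℕ) {a : ℝ} (ha : 0 < a) {s : ℝ} (hs : s ≠ 0) {b0 : ℝ} {msU msT : List ℝ} (hlen : msU.length = msT.length)
    {hi : SkStp} (admU : SkAdm a (ll2PU b0 msU hi)) (admT : SkAdm a (ll2PT b0 msT s hi)) {q : ℕ} {τ : ℕ → ℕ → ℕ}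
    (hτ : IsTr (msT.length + 1 + hi.length) q τ) (A : ℕ → Prop) {a0 : ℕ} (ha0 : a0 < q) (hAa : A a0)
    (hA : ∀ x y, x < q → y < q → A x → A y → msT.length < τ x y)
    (P : (ℕ → SkCfg n) → ℝ) (hP : ∀ σ σ' : ℕ → SkCfg n, (∀ x, x < q → A x → σ x = σ' x) → P σ = P σ') {p p' : ℝ}
    (hpp : p.HolderConjugate p') :
    |trNu (skBase n a) (skLvs n (ll2PT b0 msT s hi)) q τ 0 P|
      ≤ Real.exp ((ll2sK n a b0 hi (p' * s) - p' * ll2sK n a b0 hi s) / p')
        * (trNu (skBase n a) (skLvs n (ll2PU b0 msU hi)) q τ 0 fun σ => |P σ| ^ p) ^ (1 / p) := by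
  have hB := sk_sy_base_ok n ha
  have hGU : GhAdm (skBase n a) 0 (skLvs n (ll2PU b0 msU hi)) := sk_sy_adm admU
  have hGT : GhAdm (skBase n a) 0 (skLvs n (ll2PT b0 msT s hi)) := sk_sy_adm admT
  have hl : (msT.map fun m => (ll2E m).lv n).length = msT.length := by simp
  rw [ll2t_sk_lvs_U] at hGU ⊢
  rw [ll2t_sk_lvs_T] at hGT ⊢
  have h := ll2t_transfer hB hs (ll2t_sk_emp n msU) (ll2t_sk_emp n msT) (by simp [hlen]) hGU hGT (q := q) (τ := τ)
    (by rw [hl]; simpa [skLvs] using hτ) A ha0 hAa (by rw [hl]; exact hA) 0 P hP hpp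
  rw [ll2t_R_norm hB hs, ← Real.exp_mul, mul_one_div] at h
  exact h

/-- TEX[LL:found:estimates] TEX[LL:red:lem-augmentation] change of measure for PRODUCTS over several components, SK form -/
theorem ll2t_sk_transfer_prod (n : ℕ) {a : ℝ} (ha : 0 < a) {s : ℝ} (hs : s ≠ 0) {b0 : ℝ} {msU msT : List ℝ}
    (hlen : msU.length = msT.length) {hi : SkStp} (admU : SkAdm a (ll2PU b0 msU hi)) (admT : SkAdm a (ll2PT b0 msT s hi))
    {q : ℕ} {τ : ℕ → ℕ → ℕ} (hτ : IsTr (msT.length + 1 + hi.length) q τ) {r : ℕ} (hr : 0 < r) (X : Fin r → (ℕ → SkCfg n) → ℝ)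
    (A : Fin r → ℕ → Prop) (a0 : Fin r → ℕ) (ha0 : ∀ k, a0 k < q) (hAa : ∀ k, A k (a0 k))
    (hA : ∀ k x y, x < q → y < q → A k x → A k y → msT.length < τ x y)
    (hX : ∀ k (σ σ' : ℕ → SkCfg n), (∀ x, x < q → A k x → σ x = σ' x) → X k σ = X k σ') {p p' : ℝ} (hpp : p.HolderConjugate p') :
    |trNu (skBase n a) (skLvs n (ll2PT b0 msT s hi)) q τ 0 fun σ => ∏ k, X k σ|
      ≤ Real.exp ((ll2sK n a b0 hi (p' * s) - p' * ll2sK n a b0 hi s) / p')
        * ∏ k, (trNu (skBase n a) (skLvs n (ll2PU b0 msU hi)) q τ 0 fun σ => |X k σ| ^ ((r : ℝ) * p)) ^ (1 / ((r : ℝ) * p)) := by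
  have hB := sk_sy_base_ok n ha
  have hGU : GhAdm (skBase n a) 0 (skLvs n (ll2PU b0 msU hi)) := sk_sy_adm admU
  have hGT : GhAdm (skBase n a) 0 (skLvs n (ll2PT b0 msT s hi)) := sk_sy_adm admT
  have hl : (msT.map fun m => (ll2E m).lv n).length = msT.length := by simp
  rw [ll2t_sk_lvs_U] at hGU ⊢
  rw [ll2t_sk_lvs_T] at hGT ⊢
  have h := ll2t_transfer_prod hB hs (ll2t_sk_emp n msU) (ll2t_sk_emp n msT) (by simp [hlen]) hGU hGT (q := q) (τ := τ)
    (by rw [hl]; simpa [skLvs] using hτ) 0 hr X A a0 ha0 hAa (by rw [hl]; exact hA) hX hpp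
  rw [ll2t_R_norm hB hs, ← Real.exp_mul, mul_one_div] at h
  exact h

end sk

end Claimed.Agent.R286
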