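-- OWNER helper77 (co-architect of LL 02; head helper93, adversary helper73).  Source: LL 02-foundations.tex l.283-306.
import Claimed.Agent.R286.L02.Tilt
import Claimed.Agent.R286.Gk.Split

/-!
# Row 286 (S0533), LL Section 2.4 : THE TILTED ENSEMBLE, GENERIC LOW STAGES      (helper77; prefix `ll2g`, `Ll2U`, `Ll2Flat`)

TEX[LL:found:estimates] l.283-306.  `L02/Tilt.lean` compares the tilted hierarchy with the untilted NORMAL FORM (`b0` at the stage `0`, then empty stages).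
The chains of LL 04/08/09 (ruling of 93, misfit of 189/22) reveal `b(0+)` in SEVERAL stages of mass `0`, mixed with empty stages of positive mass.

* ABSTRACT: `Ll2U B lsU A0 hi ts z` = what the change of measure uses of the untilted hierarchy `lsU`: a tree all of whose pairs share the stages `≤ ts`
  is `E[C]`, `C` = tree number of `hi` given ONE initial driver with the factor `A0`.      `ll2g_U_eq, ll2g_ref, ll2g_transfer, ll2g_transfer_prod`.
* SK: `Ll2Flat lo` (no field; each stage is empty or has the mass `0`).  `ll2g_sk_fld` (Gaussian semigroup), `ll2g_sk_F, ll2g_sk_pr` (MERGE: `lo ++ hi ~ ⟨0, Σ db, 0⟩ :: hi`),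
  `ll2g_sk_nu, ll2g_sk_U`;  `ll2g_sk_reweight, ll2g_sk_transfer, ll2g_sk_transfer_prod, ll2g_sk_A4, ll2g_sk_psi` = the forms cited by `Exit/LL02A4.lean`.
-/

set_option autoImplicit false
set_option linter.unusedSectionVars false

namespace Claimed.Agent.R286

open MeasureTheory ProbabilityTheory

section abs
variable {S ι : Type} [Fintype S] [Fintype ι] [Inhabited S]

/-- what the change of measure uses of the UNTILTED hierarchy `lsU` (stages `0..ts` = the initial revelation, in any number of pieces) -/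
structure Ll2U (B : GhB S) (lsU : List (GhLv S ι)) (A0 : S → ι → ℝ) (hi : List (GhLv S ι)) (ts : ℕ) (z : S → ℝ) : Prop where
  len : lsU.length = ts + 1 + hi.length
  adm : GhAdm B 0 lsU
  nu : ∀ (q : ℕ) (τ : ℕ → ℕ → ℕ), IsTr (ts + 1 + hi.length) q τ → (∀ x y, x < q → y < q → ts < τ x y) → ∀ P : (ℕ → S) → ℝ,
    trNu B lsU q τ z P = ∫ ξ, ll2tC B A0 hi q (ll2tSh (ts + 1) τ) z P ξ ∂ghStd ι

/-- two untilted hierarchies with the same merged form give the same number to a test which uses the leaves of ONE component (ANY tree) -/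
theorem ll2g_U_eq {B : GhB S} (hB : B.Ok) {lsU lsU' : List (GhLv S ι)} {A0 : S → ι → ℝ} {hi : List (GhLv S ι)} {ts : ℕ} {z : S → ℝ}
    (h : Ll2U B lsU A0 hi ts z) (h' : Ll2U B lsU' A0 hi ts z) {q : ℕ} {τ : ℕ → ℕ → ℕ} (hτ : IsTr (ts + 1 + hi.length) q τ)
    (A : ℕ → Prop) {a0 : ℕ} (ha0 : a0 < q) (hAa : A a0) (hA : ∀ x y, x < q → y < q → A x → A y → ts < τ x y)
    (P : (ℕ → S) → ℝ) (hP : ∀ σ σ' : ℕ → S, (∀ x, x < q → A x → σ x = σ' x) → P σ = P σ') :
    trNu B lsU q τ z P = trNu B lsU' q τ z P := by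
  classical
  set f : ℕ → ℕ := fun x => if x < q ∧ A x then x else a0 with hf
  have hfq : ∀ x, x < q → f x < q := fun x _ => by
    simp only [hf]; split_ifs with h
    · exact h.1
    · exact ha0
  have hfA : ∀ x, A (f x) := fun x => by
    simp only [hf]; split_ifs with h
    · exact h.2
    · exact hAa
  have hPf : ∀ σ : ℕ → S, P (fun x => σ (f x)) = P σ := fun σ => hP _ _ fun x hx hAx => by
    simp only [hf, if_pos (And.intro hx hAx)]
  have hU : TrUses q P := fun σ σ' h => hP σ σ' fun x hx _ => h x hx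
  have e1 := tr_nu_comap hB h.adm (h.len.symm ▸ hτ) z f hfq P hU
  have e2 := tr_nu_comap hB h'.adm (h'.len.symm ▸ hτ) z f hfq P hU
  simp only [hPf] at e1 e2
  have hc : ∀ x y, x < q → y < q → ts < τ (f x) (f y) := fun x y hx hy => hA _ _ (hfq x hx) (hfq y hy) (hfA x) (hfA y)
  rw [e1, e2, h.nu q _ (ll2t_comap_isTr hτ hfq) hc, h'.nu q _ (ll2t_comap_isTr hτ hfq) hc]

/-- the normal form of `L02/Tilt.lean` is an instance -/
theorem ll2g_ref {B : GhB S} (hB : B.Ok) {A0 : S → ι → ℝ} {mid hi : List (GhLv S ι)} (he : Ll2Emp mid)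
    (hadm : GhAdm B 0 (ll2tU A0 mid hi)) (z : S → ℝ) : Ll2U B (ll2tU A0 mid hi) A0 hi mid.length z where
  len := ll2t_len_U A0 mid hi
  adm := hadm
  nu q τ hτ hc P := ll2t_nu_U hB he hadm hτ (fun x y hx hy => by have := hc x y hx hy; omega) z P

/-- the normal form with empty stages of mass `0` is admissible -/
theorem ll2g_adm_pre {B : GhB S} (hB : B.Ok) (A0 : S → ι → ℝ) (ts : ℕ) {hi : List (GhLv S ι)} (h : GhAdm B 0 hi) :
    GhAdm B 0 (ll2tU A0 (List.replicate ts (⟨0, fun _ _ => 0⟩ : GhLv S ι)) hi) := by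
  unfold ll2tU
  have hm : ∀ l ∈ (⟨0, A0⟩ : GhLv S ι) :: List.replicate ts (⟨0, fun _ _ => 0⟩ : GhLv S ι), l.m = 0 := fun l hl => by
    rcases List.mem_cons.1 hl with rfl | hl
    · rfl
    · rw [List.eq_of_mem_replicate hl]
  rw [← List.cons_append]
  constructor
  · refine List.pairwise_append.2 ⟨List.pairwise_of_forall_mem_list fun l hl l' hl' => by rw [hm l hl, hm l' hl'], h.1,
      fun l hl l' hl' => by rw [hm l hl]; exact (h.2 l' hl').1⟩
  · intro l hl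
    rcases List.mem_append.1 hl with hl | hl
    · rw [hm l hl]; exact ⟨le_rfl, hB.pos.le⟩
    · exact h.2 l hl

theorem ll2g_emp_rep (ts : ℕ) : Ll2Emp (List.replicate ts (⟨0, fun _ _ => 0⟩ : GhLv S ι)) := fun l hl s i => by
  rw [List.eq_of_mem_replicate hl]

/-- TEX[LL:found:estimates] TEX[LL:red:lem-augmentation] **CHANGE OF MEASURE, generic untilted hierarchy** -/
theorem ll2g_transfer {B : GhB S} (hB : B.Ok) {s : ℝ} (hs : s ≠ 0) {A0 : S → ι → ℝ} {lsU midS hi : List (GhLv S ι)} {z : S → ℝ}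
    (hU : Ll2U B lsU A0 hi midS.length z) (hS : Ll2Emp midS) (admT : GhAdm B 0 (ll2tT s A0 midS hi)) {q : ℕ} {τ : ℕ → ℕ → ℕ}
    (hτ : IsTr (midS.length + 1 + hi.length) q τ) (A : ℕ → Prop) {a0 : ℕ} (ha0 : a0 < q) (hAa : A a0)
    (hA : ∀ x y, x < q → y < q → A x → A y → midS.length < τ x y)
    (P : (ℕ → S) → ℝ) (hP : ∀ σ σ' : ℕ → S, (∀ x, x < q → A x → σ x = σ' x) → P σ = P σ') {p p' : ℝ} (hpp : p.HolderConjugate p') :
    |trNu B (ll2tT s A0 midS hi) q τ z P|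
      ≤ (∫ ξ, ll2tR B s A0 hi z ξ ^ p' ∂ghStd ι) ^ (1 / p') * (trNu B lsU q τ z fun σ => |P σ| ^ p) ^ (1 / p) := by
  have admH : GhAdm B 0 hi := ll2t_adm_tail (ll2t_adm_right admT)
  have hl : (List.replicate midS.length (⟨0, fun _ _ => 0⟩ : GhLv S ι)).length = midS.length := List.length_replicate
  have admU := ll2g_adm_pre hB A0 midS.length admH
  have hR := ll2g_ref hB (ll2g_emp_rep midS.length) admU z
  rw [hl] at hR
  rw [ll2g_U_eq hB hU hR hτ A ha0 hAa hA (fun σ => |P σ| ^ p) fun σ σ' h => by simp only [hP σ σ' h]]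
  exact ll2t_transfer hB hs (ll2g_emp_rep midS.length) hS hl admU admT hτ A ha0 hAa hA z P hP hpp

/-- TEX[LL:found:estimates] TEX[LL:red:lem-augmentation] **products over several components, generic untilted hierarchy** -/
theorem ll2g_transfer_prod {B : GhB S} (hB : B.Ok) {s : ℝ} (hs : s ≠ 0) {A0 : S → ι → ℝ} {lsU midS hi : List (GhLv S ι)} {z : S → ℝ}
    (hU : Ll2U B lsU A0 hi midS.length z) (hS : Ll2Emp midS) (admT : GhAdm B 0 (ll2tT s A0 midS hi)) {q : ℕ} {τ : ℕ → ℕ → ℕ}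
    (hτ : IsTr (midS.length + 1 + hi.length) q τ) {r : ℕ} (hr : 0 < r) (X : Fin r → (ℕ → S) → ℝ)
    (A : Fin r → ℕ → Prop) (a0 : Fin r → ℕ) (ha0 : ∀ k, a0 k < q) (hAa : ∀ k, A k (a0 k))
    (hA : ∀ k x y, x < q → y < q → A k x → A k y → midS.length < τ x y)
    (hX : ∀ k (σ σ' : ℕ → S), (∀ x, x < q → A k x → σ x = σ' x) → X k σ = X k σ') {p p' : ℝ} (hpp : p.HolderConjugate p') :
    |trNu B (ll2tT s A0 midS hi) q τ z fun σ => ∏ k, X k σ|
      ≤ (∫ ξ, ll2tR B s A0 hi z ξ ^ p' ∂ghStd ι) ^ (1 / p')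
        * ∏ k, (trNu B lsU q τ z fun σ => |X k σ| ^ ((r : ℝ) * p)) ^ (1 / ((r : ℝ) * p)) := by
  have admH : GhAdm B 0 hi := ll2t_adm_tail (ll2t_adm_right admT)
  have hl : (List.replicate midS.length (⟨0, fun _ _ => 0⟩ : GhLv S ι)).length = midS.length := List.length_replicate
  have admU := ll2g_adm_pre hB A0 midS.length admH
  have hR := ll2g_ref hB (ll2g_emp_rep midS.length) admU z
  rw [hl] at hR
  have e : ∀ k, (trNu B lsU q τ z fun σ => |X k σ| ^ ((r : ℝ) * p))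
      = trNu B (ll2tU A0 (List.replicate midS.length (⟨0, fun _ _ => 0⟩ : GhLv S ι)) hi) q τ z fun σ => |X k σ| ^ ((r : ℝ) * p) := fun k =>
    ll2g_U_eq hB hU hR hτ (A k) (ha0 k) (hAa k) (hA k) _ fun σ σ' h => by simp only [hX k σ σ' h]
  simp only [e]
  exact ll2t_transfer_prod hB hs (ll2g_emp_rep midS.length) hS hl admU admT hτ z hr X A a0 ha0 hAa hA hX hpp

end abs

/-! ### the SK instance: flat low stages -/

section sk

/-- FLAT low stages: no field; each stage is empty or has the mass `0` -/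
def Ll2Flat (lo : SkStp) : Prop := ∀ e ∈ lo, e.dh = 0 ∧ 0 ≤ e.db ∧ (e.db = 0 ∨ e.m = 0)

theorem ll2g_eqns_cite : True := by
  have := @Ll2Flat.eq_1
  trivial

theorem ll2g_flat_tail {e : SkInc} {lo : SkStp} (h : Ll2Flat (e :: lo)) : Ll2Flat lo := fun e' he' => h e' (List.mem_cons_of_mem _ he')

theorem ll2g_flat_sum {lo : SkStp} (h : Ll2Flat lo) : 0 ≤ (lo.map SkInc.db).sum :=
  List.sum_nonneg fun x hx => by
    obtain ⟨e, he, rfl⟩ := List.mem_map.1 hx
    exact (h e he).2.1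

theorem ll2g_flat_sumH {lo : SkStp} (h : Ll2Flat lo) : (lo.map SkInc.dh).sum = 0 :=
  List.sum_eq_zero fun x hx => by
    obtain ⟨e, he, rfl⟩ := List.mem_map.1 hx
    exact (h e he).1

theorem ll2g_lv_emp (n : ℕ) {e : SkInc} (h1 : e.db = 0) (h2 : e.dh = 0) (σ : SkCfg n) (i : SkDr n) : (e.lv n).A σ i = 0 := by
  cases i <;> simp [SkInc.lv, ghLvF, h1, h2]

theorem ll2g_inc_emp (n : ℕ) {e : SkInc} (h1 : e.db = 0) (h2 : e.dh = 0) (ξ : SkDr n → ℝ) : (e.lv n).inc ξ = 0 := by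
  funext σ
  simp [GhLv.inc, ll2g_lv_emp n h1 h2]

/-- the density of a flat stage is `1` -/
theorem ll2g_sk_D (n : ℕ) (a : ℝ) {e : SkInc} (h : e.dh = 0 ∧ 0 ≤ e.db ∧ (e.db = 0 ∨ e.m = 0)) (ls : List (GhLv (SkCfg n) (SkDr n)))
    (z : SkCfg n → ℝ) (ξ : SkDr n → ℝ) : ghD (skBase n a) (e.lv n) ls z ξ = 1 := by
  unfold ghD
  rcases h.2.2 with h0 | h0
  · rw [tr_e_F_empty_head _ (ll2g_lv_emp n h0 h.1), ll2g_inc_emp n h0 h.1, add_zero, sub_self, mul_zero, Real.exp_zero]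
  · have : (e.lv n).m = 0 := h0
    rw [this, zero_mul, Real.exp_zero]

theorem ll2g_sk_cov_add (n : ℕ) (hn : 0 < n) {e : SkInc} (hh : e.dh = 0) (hb : 0 ≤ e.db) {b : ℝ} (hb' : 0 ≤ b) (σ τ : SkCfg n) :
    ((⟨0, e.db + b, 0⟩ : SkInc).lv n).cov σ τ = (e.lv n).cov σ τ + ((⟨0, b, 0⟩ : SkInc).lv n).cov σ τ := by
  rw [sk_d_cov n hn _ (by simpa using add_nonneg hb hb') le_rfl, sk_d_cov n hn e hb hh.ge, sk_d_cov n hn _ hb' le_rfl, hh]
  ring

/-- **Gaussian semigroup**: the field after the flat stages = ONE Gaussian increment with the total matrix clock -/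
theorem ll2g_sk_fld (n : ℕ) (hn : 0 < n) (a : ℝ) (hi : SkStp) (f : (SkCfg n → ℝ) → ℝ) (hf : Measurable f) {M : ℝ} (hM : ∀ G, |f G| ≤ M) :
    ∀ {lo : SkStp}, Ll2Flat lo → ∀ z : SkCfg n → ℝ,
    trFld (skBase n a) (skLvs n (lo ++ hi)) lo.length z f
      = ∫ ξ, f (z + ((⟨0, (lo.map SkInc.db).sum, 0⟩ : SkInc).lv n).inc ξ) ∂ghStd (SkDr n)
  | [], _, z => by
    rw [List.length_nil, ll2t_fld_zero]
    simp [ll2g_inc_emp n (e := ⟨0, 0, 0⟩) rfl rfl]
  | e :: lo, h, z => by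
    have he := h e List.mem_cons_self
    have ih := ll2g_sk_fld n hn a hi f hf hM (ll2g_flat_tail h)
    show ∫ ξ, ghD (skBase n a) (e.lv n) (skLvs n (lo ++ hi)) z ξ * trFld (skBase n a) (skLvs n (lo ++ hi)) lo.length (z + (e.lv n).inc ξ) f
      ∂ghStd (SkDr n) = _
    simp only [ll2g_sk_D n a he, one_mul, ih, List.map_cons, List.sum_cons]
    have hg : Measurable fun x : SkCfg n → ℝ => f (z + x) := hf.comp (measurable_const.add measurable_id)
    have := ghs_integral_merge (e.lv n) ((⟨0, (lo.map SkInc.db).sum, 0⟩ : SkInc).lv n) ((⟨0, e.db + (lo.map SkInc.db).sum, 0⟩ : SkInc).lv n)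
      (ll2g_sk_cov_add n hn he.1 he.2.1 (ll2g_flat_sum (ll2g_flat_tail h))) (fun x => f (z + x)) hg
      (Integrable.of_bound (hg.comp (ghs_measurable_inc _)).aestronglyMeasurable M (Filter.Eventually.of_forall fun ξ => by
        simpa using hM _))
    simp only [← add_assoc] at this
    exact this

/-- **MERGE of the flat stages**: the continuation -/
theorem ll2g_sk_F (n : ℕ) (hn : 0 < n) {a : ℝ} (ha : 0 < a) (hi : SkStp) : ∀ {lo : SkStp}, Ll2Flat lo →
    ghF (skBase n a) (skLvs n (lo ++ hi)) = ghF (skBase n a) (skLvs n (⟨0, (lo.map SkInc.db).sum, 0⟩ :: hi))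
  | [], _ => (tr_e_F_empty_head _ (ll2g_lv_emp n (e := ⟨0, 0, 0⟩) rfl rfl) _).symm
  | e :: lo, h => by
    have he := h e List.mem_cons_self
    have ih := ll2g_sk_F n hn ha hi (ll2g_flat_tail h)
    show ghF (skBase n a) (e.lv n :: skLvs n (lo ++ hi)) = _
    rw [List.map_cons, List.sum_cons]
    rcases he.2.2 with h0 | h0
    · rw [tr_e_F_empty_head _ (ll2g_lv_emp n h0 he.1), ih, h0, zero_add]
    · rw [tr_e_F_cons_congr _ _ ih]
      exact ghs_F_merge (sk_sy_base_ok n ha) _ _ ((⟨0, e.db + (lo.map SkInc.db).sum, 0⟩ : SkInc).lv n) _ h0 rfl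
        (ll2g_sk_cov_add n hn he.1 he.2.1 (ll2g_flat_sum (ll2g_flat_tail h)))

/-- **MERGE of the flat stages**: the pressure -/
theorem ll2g_sk_pr (n : ℕ) (hn : 0 < n) {a : ℝ} (ha : 0 < a) {lo : SkStp} (h : Ll2Flat lo) (hi : SkStp) :
    skPr n a (lo ++ hi) = skPr n a (⟨0, (lo.map SkInc.db).sum, 0⟩ :: hi) := by
  unfold skPr skF
  rw [ll2g_sk_F n hn ha hi h]
  simp [skTotB, skTotH, ll2g_flat_sumH h]

theorem ll2g_drop (n : ℕ) (lo hi : SkStp) : (skLvs n (lo ++ hi)).drop lo.length = skLvs n hi := by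
  unfold skLvs
  rw [List.map_append, List.drop_left' (by simp)]

theorem ll2g_nu_meas {S ι : Type} [Fintype S] [Fintype ι] [Inhabited S] (B : GhB S) (ls : List (GhLv S ι)) (q : ℕ) (τ : ℕ → ℕ → ℕ)
    (P : (ℕ → S) → ℝ) : Measurable fun G : S → ℝ => trNu B ls q τ G P := by
  unfold trNu
  have h1 := tr_e_nu_meas B (fun σ : Fin q → S => P (trExt σ)) ls (fun t => trRep q τ t)
  have h2 : Measurable fun G : S → ℝ => (fun _ : Fin q => G) := measurable_pi_lambda _ fun _ => measurable_id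
  exact h1.comp h2

/-- TEX[LL:found:estimates] untilted tree on a generic chain, all pairs share the flat stages: `ν^0_τ[P] = E[C]` -/
theorem ll2g_sk_nu (n : ℕ) (hn : 0 < n) {a : ℝ} (ha : 0 < a) {lo hi : SkStp} (hlo : Ll2Flat lo) (hadm : SkAdm a (lo ++ hi)) {q : ℕ}
    {τ : ℕ → ℕ → ℕ} (hτ : IsTr (lo.length + hi.length) q τ) (hc : ∀ x y, x < q → y < q → lo.length ≤ τ x y) (P : (ℕ → SkCfg n) → ℝ) :
    trNu (skBase n a) (skLvs n (lo ++ hi)) q τ 0 P
      = ∫ ξ, trNu (skBase n a) (skLvs n hi) q (fun x y => τ x y - lo.length) (((⟨0, (lo.map SkInc.db).sum, 0⟩ : SkInc).lv n).inc ξ) P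
          ∂ghStd (SkDr n) := by
  have hB := sk_sy_base_ok n ha
  have hG : GhAdm (skBase n a) 0 (skLvs n (lo ++ hi)) := sk_sy_adm hadm
  have hGh : GhAdm (skBase n a) 0 (skLvs n hi) := by
    have : skLvs n (lo ++ hi) = skLvs n lo ++ skLvs n hi := by simp [skLvs]
    rw [this] at hG
    exact ll2t_adm_right hG
  have hlen : (skLvs n (lo ++ hi)).length = lo.length + hi.length := by simp [skLvs]
  obtain ⟨M, hM⟩ := ll2t_test_bdd q P
  rw [tr_nu_cut hB hG (hlen.symm ▸ hτ) 0 P (t := lo.length) (by rw [hlen]; omega) hc, ll2g_drop,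
    ll2g_sk_fld n hn a hi _ (ll2g_nu_meas _ _ q _ P) (M := M)
      (fun G => gh_n_abs_le _ hB M _ (fun l hl => (hGh.2 l hl).1) _ _ _ fun _ σ => hM σ) hlo 0]
  simp only [zero_add]

/-- a generic chain is an instance of `Ll2U` -/
theorem ll2g_sk_U (n : ℕ) (hn : 0 < n) {a : ℝ} (ha : 0 < a) {lo hi : SkStp} (hlo : Ll2Flat lo) (hadm : SkAdm a (lo ++ hi)) {ts : ℕ}
    (hts : lo.length = ts + 1) :
    Ll2U (skBase n a) (skLvs n (lo ++ hi)) (ll2A0 n (lo.map SkInc.db).sum) (skLvs n hi) ts 0 where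
  len := by simp [skLvs, hts]
  adm := sk_sy_adm hadm
  nu q τ hτ hc P := by
    have hl : (skLvs n hi).length = hi.length := by simp [skLvs]
    rw [ll2g_sk_nu n hn ha hlo hadm (by rw [hts, ← hl]; exact hτ) (fun x y hx hy => by have := hc x y hx hy; omega) P, hts]
    refine integral_congr_ae (Filter.Eventually.of_forall fun ξ => ?_)
    simp only [ll2tC, zero_add]
    rfl

/-- `G` of the merged path -/
theorem ll2g_sk_G (n : ℕ) (a b0 : ℝ) (hi : SkStp) (ξ : SkDr n → ℝ) :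
    skG n a (⟨0, b0, 0⟩ :: hi) ξ = ll2tG (skBase n a) (ll2A0 n b0) (skLvs n hi) 0 ξ := ll2t_sk_G n a b0 [] hi ξ

/-- `K_n` in the vocabulary of `Defs/Sk`, merged path -/
theorem ll2g_sk_K (n : ℕ) (a b0 : ℝ) (hi : SkStp) (t : ℝ) :
    ll2sK n a b0 hi t = Real.log (∫ ξ, Real.exp (t * (skG n a (⟨0, b0, 0⟩ :: hi) ξ
      - ∫ ξ', skG n a (⟨0, b0, 0⟩ :: hi) ξ' ∂ghStd (SkDr n))) ∂ghStd (SkDr n)) := ll2t_sk_K n a b0 [] hi t

/-- the tilt IN PLACE of the merged path and the tilt on the grid have the same pressure -/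
theorem ll2g_sk_tilt (n : ℕ) (a b0 : ℝ) (msT : List ℝ) (s : ℝ) (hi : SkStp) :
    skPr n a (skTilt s (⟨0, b0, 0⟩ :: hi)) = skPr n a (ll2PT b0 msT s hi) := ll2t_sk_tilt n a b0 [] msT s hi

/-- TEX[LL:found:estimates] **(A4), merged path** -/
theorem ll2g_sk_A4 (n : ℕ) (hn : 0 < n) {a : ℝ} (ha : 0 < a) {s : ℝ} (hs : s ≠ 0) (b0 : ℝ) (msT : List ℝ) (hi : SkStp) :
    s * n * (skPr n a (ll2PT b0 msT s hi) - skPr n a (⟨0, b0, 0⟩ :: hi)) = ll2sK n a b0 hi s := ll2t_sk_A4 n hn ha hs b0 [] msT hi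

/-- TEX[LL:found:estimates] connected tilted tree = conditional tree number of `hi` reweighted by `e^{sG}` (no division; every `s`) -/
theorem ll2g_sk_reweight (n : ℕ) {a : ℝ} (ha : 0 < a) {s b0 : ℝ} {msT : List ℝ} {hi : SkStp}
    (hadm : SkAdm a (ll2PT b0 msT s hi)) {q : ℕ} {τ : ℕ → ℕ → ℕ} (hτ : IsTr (msT.length + 1 + hi.length) q τ)
    (hc : ∀ x y, x < q → y < q → msT.length < τ x y) (T : (ℕ → SkCfg n) → ℝ) :
    trNu (skBase n a) (skLvs n (ll2PT b0 msT s hi)) q τ 0 T * (∫ ξ, Real.exp (s * skG n a (⟨0, b0, 0⟩ :: hi) ξ) ∂ghStd (SkDr n))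
      = ∫ ξ, Real.exp (s * skG n a (⟨0, b0, 0⟩ :: hi) ξ) *
          trNu (skBase n a) (skLvs n hi) q (fun x y => τ x y - (msT.length + 1)) (((⟨0, b0, 0⟩ : SkInc).lv n).inc ξ) T
            ∂ghStd (SkDr n) := by
  have hB := sk_sy_base_ok n ha
  have hG : GhAdm (skBase n a) 0 (skLvs n (ll2PT b0 msT s hi)) := sk_sy_adm hadm
  have hl : (msT.map fun m => (ll2E m).lv n).length = msT.length := by simp
  rw [ll2t_sk_lvs_T] at hG ⊢
  rw [ll2t_nu_T hB (ll2t_sk_emp n msT) hG (by rw [hl]; simpa [skLvs] using hτ) (by rw [hl]; exact hc), ← integral_mul_const]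
  refine integral_congr_ae (Filter.Eventually.of_forall fun ξ => ?_)
  simp only [ll2g_sk_G]
  rw [mul_right_comm, ll2t_R_mul hB, hl]
  congr 1
  unfold ll2tC
  rw [zero_add]
  rfl

/-- TEX[LL:found:estimates] TEX[LL:red:lem-augmentation] **change of measure, SK form, generic chain** `lo ++ hi` -/
theorem ll2g_sk_transfer (n : ℕ) (hn : 0 < n) {a : ℝ} (ha : 0 < a) {s : ℝ} (hs : s ≠ 0) {lo hi : SkStp} {msT : List ℝ} (hlo : Ll2Flat lo)
    (hlen : lo.length = msT.length + 1) (admU : SkAdm a (lo ++ hi)) (admT : SkAdm a (ll2PT (lo.map SkInc.db).sum msT s hi)) {q : ℕ}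
    {τ : ℕ → ℕ → ℕ} (hτ : IsTr (msT.length + 1 + hi.length) q τ) (A : ℕ → Prop) {a0 : ℕ} (ha0 : a0 < q) (hAa : A a0)
    (hA : ∀ x y, x < q → y < q → A x → A y → msT.length < τ x y)
    (P : (ℕ → SkCfg n) → ℝ) (hP : ∀ σ σ' : ℕ → SkCfg n, (∀ x, x < q → A x → σ x = σ' x) → P σ = P σ') {p p' : ℝ}
    (hpp : p.HolderConjugate p') :
    |trNu (skBase n a) (skLvs n (ll2PT (lo.map SkInc.db).sum msT s hi)) q τ 0 P|
      ≤ Real.exp ((ll2sK n a (lo.map SkInc.db).sum hi (p' * s) - p' * ll2sK n a (lo.map SkInc.db).sum hi s) / p')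
        * (trNu (skBase n a) (skLvs n (lo ++ hi)) q τ 0 fun σ => |P σ| ^ p) ^ (1 / p) := by
  have hB := sk_sy_base_ok n ha
  have hGT : GhAdm (skBase n a) 0 (skLvs n (ll2PT (lo.map SkInc.db).sum msT s hi)) := sk_sy_adm admT
  have hl : (msT.map fun m => (ll2E m).lv n).length = msT.length := by simp
  have hU := ll2g_sk_U n hn ha hlo admU hlen
  rw [← hl] at hU
  rw [ll2t_sk_lvs_T] at hGT ⊢
  have h := ll2g_transfer hB hs hU (ll2t_sk_emp n msT) hGT (q := q) (τ := τ)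
    (by rw [hl]; simpa [skLvs] using hτ) A ha0 hAa (by rw [hl]; exact hA) P hP hpp
  rw [ll2t_R_norm hB hs, ← Real.exp_mul, mul_one_div] at h
  exact h

/-- TEX[LL:found:estimates] TEX[LL:red:lem-augmentation] change of measure for PRODUCTS over several components, SK form, generic chain -/
theorem ll2g_sk_transfer_prod (n : ℕ) (hn : 0 < n) {a : ℝ} (ha : 0 < a) {s : ℝ} (hs : s ≠ 0) {lo hi : SkStp} {msT : List ℝ}
    (hlo : Ll2Flat lo) (hlen : lo.length = msT.length + 1) (admU : SkAdm a (lo ++ hi))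
    (admT : SkAdm a (ll2PT (lo.map SkInc.db).sum msT s hi)) {q : ℕ} {τ : ℕ → ℕ → ℕ} (hτ : IsTr (msT.length + 1 + hi.length) q τ)
    {r : ℕ} (hr : 0 < r) (X : Fin r → (ℕ → SkCfg n) → ℝ)
    (A : Fin r → ℕ → Prop) (a0 : Fin r → ℕ) (ha0 : ∀ k, a0 k < q) (hAa : ∀ k, A k (a0 k))
    (hA : ∀ k x y, x < q → y < q → A k x → A k y → msT.length < τ x y)
    (hX : ∀ k (σ σ' : ℕ → SkCfg n), (∀ x, x < q → A k x → σ x = σ' x) → X k σ = X k σ') {p p' : ℝ} (hpp : p.HolderConjugate p') :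
    |trNu (skBase n a) (skLvs n (ll2PT (lo.map SkInc.db).sum msT s hi)) q τ 0 fun σ => ∏ k, X k σ|
      ≤ Real.exp ((ll2sK n a (lo.map SkInc.db).sum hi (p' * s) - p' * ll2sK n a (lo.map SkInc.db).sum hi s) / p')
        * ∏ k, (trNu (skBase n a) (skLvs n (lo ++ hi)) q τ 0 fun σ => |X k σ| ^ ((r : ℝ) * p)) ^ (1 / ((r : ℝ) * p)) := by
  have hB := sk_sy_base_ok n ha
  have hGT : GhAdm (skBase n a) 0 (skLvs n (ll2PT (lo.map SkInc.db).sum msT s hi)) := sk_sy_adm admT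
  have hl : (msT.map fun m => (ll2E m).lv n).length = msT.length := by simp
  have hU := ll2g_sk_U n hn ha hlo admU hlen
  rw [← hl] at hU
  rw [ll2t_sk_lvs_T] at hGT ⊢
  have h := ll2g_transfer_prod hB hs hU (ll2t_sk_emp n msT) hGT (q := q) (τ := τ)
    (by rw [hl]; simpa [skLvs] using hτ) hr X A a0 ha0 hAa (by rw [hl]; exact hA) hX hpp
  rw [ll2t_R_norm hB hs, ← Real.exp_mul, mul_one_div] at h
  exact h

end sk

end Claimed.Agent.R286
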