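-- OWNER helper239.  Shared hypotheses of the proofs of T3 (A7), T4, T6 (A9), T7 of LL Section 2 (HEAD helper93, ADV helper73).
import Claimed.Agent.R286.Defs.Jet
import Claimed.Agent.R286.Defs.Tr
import Claimed.Agent.R286.Fd.TrA4
import Claimed.Agent.R286.Fd.TrA5
import Claimed.Agent.R286.Fd.TrA6
import Claimed.Agent.R286.Fd.TrCb

/-!
# Row 286 (S0533), LL Section 2 : THE LAWS OF A JET CONTEXT      (helper239)

`Defs/Jet.lean` : `JtCtx S` is a bare record.  The proofs of (A7), Lemma 2.3, (A9), Lemma 2.5 use only the following laws.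

* `JtNuLaw N nu` : a family of tree numbers `nu q τ P` over `N` Gaussian stages:
    `rep`   : `nu q τ` is the expectation under a probability vector on the configurations of the `q` labels (`tr_nu_eq_sum`, `tr_pr_nonneg`, `tr_pr_sum`);
    `congr` : only the values of the table on the labels matter (`tr_nu_congr`);
    `comap` : the MASTER MARGINAL LEMMA `tr_nu_comap` (pruning, relabelling, deletion, coincidences).
* `JtCtx.Law X ms` : `sumK = trSumK ms N`, `absK = trAbsK ms N`, `IsMs N ms`, `JtNuLaw` for `nu` and `nuK`, `qC = ν_K[τ_0 τ_1]`, `|ov| ≤ 1`, mask in `{0,1}`.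
  INSTANCE THEOREM (owner helper93, `L02/Inst.lean`): `(skJt n a P tl).Law (masses of P)` for admissible `P`.
* derived API (prefix `JtNuLaw.`): linearity, monotonicity, bounds, differentiation under `nu`, pruning, relabelling.
-/

set_option autoImplicit false

namespace Claimed.Agent.R286

open scoped BigOperators

/-- laws of a family of tree numbers over `N` Gaussian stages -/
structure JtNuLaw {S : Type} [Fintype S] [Inhabited S] (N : ℕ) (nu : ℕ → JtTopo → ((ℕ → S) → ℝ) → ℝ) : Prop where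
  rep : ∀ (q : ℕ) (τ : JtTopo), ∃ p : (Fin q → S) → ℝ, (∀ s, 0 ≤ p s) ∧ ∑ s, p s = 1 ∧
    ∀ P : (ℕ → S) → ℝ, nu q τ P = ∑ s, p s * P (trExt s)
  congr : ∀ (q : ℕ) (τ τ' : JtTopo), (∀ x y, x < q → y < q → τ x y = τ' x y) → ∀ P, nu q τ P = nu q τ' P
  comap : ∀ (q p : ℕ) (τ : JtTopo), IsTr N q τ → ∀ f : ℕ → ℕ, (∀ x, x < p → f x < q) → ∀ P : (ℕ → S) → ℝ, TrUses p P →
    nu q τ (fun σ => P fun x => σ (f x)) = nu p (fun x y => τ (f x) (f y)) P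

namespace JtNuLaw

variable {S : Type} [Fintype S] [Inhabited S] {N : ℕ} {nu : ℕ → JtTopo → ((ℕ → S) → ℝ) → ℝ}

theorem add (h : JtNuLaw N nu) (q : ℕ) (τ : JtTopo) (P P' : (ℕ → S) → ℝ) :
    nu q τ (fun σ => P σ + P' σ) = nu q τ P + nu q τ P' := by
  obtain ⟨p, -, -, hp⟩ := h.rep q τ
  simp only [hp, mul_add, Finset.sum_add_distrib]

theorem sub (h : JtNuLaw N nu) (q : ℕ) (τ : JtTopo) (P P' : (ℕ → S) → ℝ) :
    nu q τ (fun σ => P σ - P' σ) = nu q τ P - nu q τ P' := by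
  obtain ⟨p, -, -, hp⟩ := h.rep q τ
  simp only [hp, mul_sub, Finset.sum_sub_distrib]

theorem const_mul (h : JtNuLaw N nu) (q : ℕ) (τ : JtTopo) (c : ℝ) (P : (ℕ → S) → ℝ) :
    nu q τ (fun σ => c * P σ) = c * nu q τ P := by
  obtain ⟨p, -, -, hp⟩ := h.rep q τ
  simp only [hp, Finset.mul_sum]
  exact Finset.sum_congr rfl fun s _ => by ring

theorem mul_const (h : JtNuLaw N nu) (q : ℕ) (τ : JtTopo) (c : ℝ) (P : (ℕ → S) → ℝ) :
    nu q τ (fun σ => P σ * c) = nu q τ P * c := by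
  simp only [mul_comm _ c]; exact h.const_mul q τ c P

theorem const (h : JtNuLaw N nu) (q : ℕ) (τ : JtTopo) (c : ℝ) : nu q τ (fun _ => c) = c := by
  obtain ⟨p, -, h1, hp⟩ := h.rep q τ
  rw [hp, ← Finset.sum_mul, h1, one_mul]

theorem neg (h : JtNuLaw N nu) (q : ℕ) (τ : JtTopo) (P : (ℕ → S) → ℝ) : nu q τ (fun σ => - P σ) = - nu q τ P := by
  obtain ⟨p, -, -, hp⟩ := h.rep q τ
  simp only [hp, mul_neg, Finset.sum_neg_distrib]

theorem sum (h : JtNuLaw N nu) (q : ℕ) (τ : JtTopo) {κ : Type} (s : Finset κ) (P : κ → (ℕ → S) → ℝ) :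
    nu q τ (fun σ => ∑ k ∈ s, P k σ) = ∑ k ∈ s, nu q τ (P k) := by
  obtain ⟨p, -, -, hp⟩ := h.rep q τ
  simp only [hp, Finset.mul_sum]
  exact Finset.sum_comm

theorem mono (h : JtNuLaw N nu) (q : ℕ) (τ : JtTopo) {P P' : (ℕ → S) → ℝ} (hP : ∀ σ, P σ ≤ P' σ) :
    nu q τ P ≤ nu q τ P' := by
  obtain ⟨p, h0, -, hp⟩ := h.rep q τ
  rw [hp, hp]
  exact Finset.sum_le_sum fun s _ => mul_le_mul_of_nonneg_left (hP _) (h0 s)

theorem nonneg (h : JtNuLaw N nu) (q : ℕ) (τ : JtTopo) {P : (ℕ → S) → ℝ} (hP : ∀ σ, 0 ≤ P σ) : 0 ≤ nu q τ P := by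
  have := h.mono q τ (P := fun _ => 0) hP
  rwa [h.const] at this

theorem abs_le (h : JtNuLaw N nu) (q : ℕ) (τ : JtTopo) (P : (ℕ → S) → ℝ) : |nu q τ P| ≤ nu q τ fun σ => |P σ| := by
  rw [_root_.abs_le]
  constructor
  · rw [← h.neg]; exact h.mono q τ fun σ => neg_abs_le _
  · exact h.mono q τ fun σ => le_abs_self _

theorem abs_le_const (h : JtNuLaw N nu) (q : ℕ) (τ : JtTopo) {P : (ℕ → S) → ℝ} {c : ℝ} (hP : ∀ σ, |P σ| ≤ c) :
    |nu q τ P| ≤ c := by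
  refine (h.abs_le q τ P).trans ?_
  have := h.mono q τ hP
  rwa [h.const] at this

/-- only the values of the test on the configurations of the `q` labels matter -/
theorem test_congr (h : JtNuLaw N nu) (q : ℕ) (τ : JtTopo) {P P' : (ℕ → S) → ℝ}
    (hP : ∀ s : Fin q → S, P (trExt s) = P' (trExt s)) : nu q τ P = nu q τ P' := by
  obtain ⟨p, -, -, hp⟩ := h.rep q τ
  rw [hp, hp]
  exact Finset.sum_congr rfl fun s _ => by rw [hP s]

/-- differentiation under the tree number -/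
theorem hasDerivWithinAt (h : JtNuLaw N nu) (q : ℕ) (τ : JtTopo) {I : Set ℝ} {ϑ₀ : ℝ} (P : ℝ → (ℕ → S) → ℝ) (P' : (ℕ → S) → ℝ)
    (hP : ∀ σ, HasDerivWithinAt (fun ϑ => P ϑ σ) (P' σ) I ϑ₀) :
    HasDerivWithinAt (fun ϑ => nu q τ (P ϑ)) (nu q τ P') I ϑ₀ := by
  obtain ⟨p, -, -, hp⟩ := h.rep q τ
  simp only [hp]
  exact HasDerivWithinAt.fun_sum fun s _ => (hP _).const_mul _

/-- marginalisation of the last labels -/
theorem prune (h : JtNuLaw N nu) {q k : ℕ} {τ : JtTopo} (hτ : IsTr N (q + k) τ) {P : (ℕ → S) → ℝ} (hP : TrUses q P) :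
    nu (q + k) τ P = nu q τ P :=
  h.comap (q + k) q τ hτ (fun x => x) (fun _ hx => by omega) P hP

/-- relabelling -/
theorem perm (h : JtNuLaw N nu) {q : ℕ} {τ : JtTopo} (hτ : IsTr N q τ) (P : (ℕ → S) → ℝ) (hP : TrUses q P)
    (e : Equiv.Perm ℕ) (he : ∀ x, q ≤ x → e x = x) :
    nu q (fun x y => τ (e x) (e y)) (fun σ => P fun i => σ (e.symm i)) = nu q τ P := by
  have he' : ∀ x, q ≤ x → e.symm x = x := fun x hx => by rw [Equiv.symm_apply_eq, he x hx]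
  have hlt : ∀ (e : Equiv.Perm ℕ), (∀ x, q ≤ x → e x = x) → ∀ x, x < q → e x < q := fun e he x hx => by
    by_contra hh
    have h1 : e (e x) = e x := he _ (not_lt.1 hh)
    have h2 : e x = x := e.injective h1
    omega
  have hτ' : IsTr N q fun x y => τ (e x) (e y) := tr_comap_isTr hτ e (hlt e he)
  rw [h.comap q q _ hτ' e.symm (hlt e.symm he') P hP]
  simp only [Equiv.apply_symm_apply]

end JtNuLaw

/-- **the laws of a jet context** on the stages `0..N` with the masses `ms` -/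
structure JtCtx.Law {S : Type} [Fintype S] [Inhabited S] (X : JtCtx S) (ms : ℕ → ℝ) : Prop where
  isMs : IsMs X.N ms
  sumK : ∀ (k q : ℕ) (τ : JtTopo) (Φ : JtTopo → ℝ), X.sumK k q τ Φ = trSumK ms X.N k q τ Φ
  absK : ∀ (k q : ℕ) (τ : JtTopo) (Φ : JtTopo → ℝ), X.absK k q τ Φ = trAbsK ms X.N k q τ Φ
  nu : JtNuLaw X.N X.nu
  nuK : JtNuLaw X.N X.nuK
  qC : ∀ τ : JtTopo, IsTr X.N 2 τ → X.qC (τ 0 1) = X.nuK 2 τ fun t => jtSp (t 0) * jtSp (t 1)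
  ov_abs : ∀ s s', |X.ov s s'| ≤ 1
  ov_symm : ∀ s s', X.ov s s' = X.ov s' s
  msk : ∀ t, X.msk t = 0 ∨ X.msk t = 1

/-! ### linearity of the signed sums -/

theorem jtl_sumK_add (ms : ℕ → ℝ) (N k : ℕ) : ∀ (q : ℕ) (τ : JtTopo) (Φ Ψ : JtTopo → ℝ),
    trSumK ms N k q τ (fun τ' => Φ τ' + Ψ τ') = trSumK ms N k q τ Φ + trSumK ms N k q τ Ψ := by
  induction k with
  | zero => intro q τ Φ Ψ; rfl
  | succ k ih =>
    intro q τ Φ Ψ
    simp only [trSumK, trSum, ih, mul_add, Finset.sum_add_distrib]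

theorem jtl_sumK_sum (ms : ℕ → ℝ) (N k q : ℕ) (τ : JtTopo) {κ : Type} (s : Finset κ) (Φ : κ → JtTopo → ℝ) :
    trSumK ms N k q τ (fun τ' => ∑ i ∈ s, Φ i τ') = ∑ i ∈ s, trSumK ms N k q τ (Φ i) := by
  classical
  induction s using Finset.induction_on with
  | empty =>
    simp only [Finset.sum_empty]
    have := tcb_sumK_mul_left ms N k q τ 0 fun _ => 0
    simpa using this.symm
  | insert a s ha ih => simp only [Finset.sum_insert ha, jtl_sumK_add, ih]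

theorem jtl_absK_add (ms : ℕ → ℝ) (N k : ℕ) : ∀ (q : ℕ) (τ : JtTopo) (Φ Ψ : JtTopo → ℝ),
    trAbsK ms N k q τ (fun τ' => Φ τ' + Ψ τ') = trAbsK ms N k q τ Φ + trAbsK ms N k q τ Ψ := by
  induction k with
  | zero => intro q τ Φ Ψ; rfl
  | succ k ih =>
    intro q τ Φ Ψ
    simp only [trAbsK, trAbs, ih, mul_add, Finset.sum_add_distrib]

namespace JtCtx.Law

variable {S : Type} [Fintype S] [Inhabited S] {X : JtCtx S} {ms : ℕ → ℝ}

omit [Fintype S] [Inhabited S] in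
theorem tau1_isTr (X : JtCtx S) : IsTr X.N 1 X.tau1 :=
  ⟨fun _ _ _ _ => le_rfl, fun _ _ => rfl, fun _ _ _ _ => rfl, fun _ _ _ _ _ _ => by simp [JtCtx.tau1]⟩

theorem sumK_add (h : X.Law ms) (k q : ℕ) (τ : JtTopo) (Φ Ψ : JtTopo → ℝ) :
    X.sumK k q τ (fun τ' => Φ τ' + Ψ τ') = X.sumK k q τ Φ + X.sumK k q τ Ψ := by
  simp only [h.sumK, jtl_sumK_add]

theorem sumK_const_mul (h : X.Law ms) (k q : ℕ) (τ : JtTopo) (c : ℝ) (Φ : JtTopo → ℝ) :
    X.sumK k q τ (fun τ' => c * Φ τ') = c * X.sumK k q τ Φ := by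
  simp only [h.sumK, tcb_sumK_mul_left]

theorem sumK_sub (h : X.Law ms) (k q : ℕ) (τ : JtTopo) (Φ Ψ : JtTopo → ℝ) :
    X.sumK k q τ (fun τ' => Φ τ' - Ψ τ') = X.sumK k q τ Φ - X.sumK k q τ Ψ := by
  have := h.sumK_add k q τ Φ fun τ' => (-1) * Ψ τ'
  rw [h.sumK_const_mul] at this
  have e : (fun τ' => Φ τ' - Ψ τ') = fun τ' => Φ τ' + (-1) * Ψ τ' := by funext τ'; ring
  rw [e, this]; ring

theorem sumK_sum (h : X.Law ms) (k q : ℕ) (τ : JtTopo) {κ : Type} (s : Finset κ) (Φ : κ → JtTopo → ℝ) :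
    X.sumK k q τ (fun τ' => ∑ i ∈ s, Φ i τ') = ∑ i ∈ s, X.sumK k q τ (Φ i) := by
  simp only [h.sumK, jtl_sumK_sum]

theorem sumK_congr (h : X.Law ms) {k q : ℕ} {τ : JtTopo} (hτ : IsTr X.N q τ) {Φ Ψ : JtTopo → ℝ}
    (hΦ : ∀ τ', IsTr X.N (q + k) τ' → (∀ y z, y < q → z < q → τ' y z = τ y z) → Φ τ' = Ψ τ') :
    X.sumK k q τ Φ = X.sumK k q τ Ψ := by
  simp only [h.sumK]; exact tr_sumK_congr hτ k Φ Ψ hΦ

theorem sumK_tower (h : X.Law ms) (k l q : ℕ) (τ : JtTopo) (Φ : JtTopo → ℝ) :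
    X.sumK (k + l) q τ Φ = X.sumK k q τ fun τ' => X.sumK l (q + k) τ' Φ := by
  simp only [h.sumK]; exact tr_sumK_add k l Φ

theorem abs_sumK_le (h : X.Law ms) (k q : ℕ) (τ : JtTopo) (Φ : JtTopo → ℝ) :
    |X.sumK k q τ Φ| ≤ X.absK k q τ fun τ' => |Φ τ'| := by
  simp only [h.sumK, h.absK]; exact tr_sumK_le k Φ

theorem sumK_hasDeriv (h : X.Law ms) {k q : ℕ} {τ : JtTopo} (hτ : IsTr X.N q τ) {I : Set ℝ} {t0 : ℝ}
    (Φ : ℝ → JtTopo → ℝ) (Φ' : JtTopo → ℝ)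
    (hΦ : ∀ τ', IsTr X.N (q + k) τ' → HasDerivWithinAt (fun ϑ => Φ ϑ τ') (Φ' τ') I t0) :
    HasDerivWithinAt (fun ϑ => X.sumK k q τ (Φ ϑ)) (X.sumK k q τ Φ') I t0 := by
  simp only [h.sumK]; exact tcb_sumK_hasDeriv k hτ Φ Φ' hΦ

theorem absK_add (h : X.Law ms) (k q : ℕ) (τ : JtTopo) (Φ Ψ : JtTopo → ℝ) :
    X.absK k q τ (fun τ' => Φ τ' + Ψ τ') = X.absK k q τ Φ + X.absK k q τ Ψ := by
  simp only [h.absK, jtl_absK_add]

theorem absK_const_mul (h : X.Law ms) (k q : ℕ) (τ : JtTopo) (c : ℝ) (Φ : JtTopo → ℝ) :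
    X.absK k q τ (fun τ' => c * Φ τ') = c * X.absK k q τ Φ := by
  simp only [h.absK]; exact tra2_absK_const_mul k c Φ

theorem absK_mono (h : X.Law ms) {k q : ℕ} {τ : JtTopo} (hτ : IsTr X.N q τ) {Φ Ψ : JtTopo → ℝ}
    (hΦ : ∀ τ', IsTr X.N (q + k) τ' → Φ τ' ≤ Ψ τ') : X.absK k q τ Φ ≤ X.absK k q τ Ψ := by
  simp only [h.absK]; exact tr_absK_mono hτ k Φ Ψ hΦ

theorem absK_congr (h : X.Law ms) {k q : ℕ} {τ : JtTopo} (hτ : IsTr X.N q τ) {Φ Ψ : JtTopo → ℝ}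
    (hΦ : ∀ τ', IsTr X.N (q + k) τ' → (∀ y z, y < q → z < q → τ' y z = τ y z) → Φ τ' = Ψ τ') :
    X.absK k q τ Φ = X.absK k q τ Ψ := by
  simp only [h.absK]; exact tr_absK_congr hτ k Φ Ψ hΦ

theorem absK_tower (h : X.Law ms) (k l q : ℕ) (τ : JtTopo) (Φ : JtTopo → ℝ) :
    X.absK (k + l) q τ Φ = X.absK k q τ fun τ' => X.absK l (q + k) τ' Φ := by
  simp only [h.absK]; exact tr_absK_add k l Φ

theorem absK_nonneg (h : X.Law ms) (k q : ℕ) (τ : JtTopo) {Φ : JtTopo → ℝ} (hΦ : ∀ τ', 0 ≤ Φ τ') : 0 ≤ X.absK k q τ Φ := by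
  simp only [h.absK]; exact tra2_absK_nonneg k Φ hΦ

/-- `|Q^*| ≤ 1` -/
theorem abs_Qs_le (h : X.Law ms) (τ : JtTopo) (σ : ℕ → S) (c d : ℕ) : |X.Qs τ σ c d| ≤ 1 := by
  unfold JtCtx.Qs
  rw [abs_mul]
  rcases h.msk (τ c d) with h0 | h0 <;> rw [h0]
  · simp
  · simpa using h.ov_abs _ _

/-- `|q| ≤ 1` on trees -/
theorem abs_qC_le (h : X.Law ms) {τ : JtTopo} (hτ : IsTr X.N 2 τ) : |X.qC (τ 0 1)| ≤ 1 := by
  rw [h.qC τ hτ]
  refine h.nuK.abs_le_const 2 τ fun t => ?_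
  unfold jtSp
  split_ifs <;> simp

omit [Fintype S] [Inhabited S] in
theorem off_nonneg (X : JtCtx S) (q n : ℕ) (τ : JtTopo) : 0 ≤ X.off q n τ :=
  Finset.prod_nonneg fun i _ => by split_ifs <;> norm_num

end JtCtx.Law

end Claimed.Agent.R286
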