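-- OWNER helper73 (second head + adversary of LL 02; head helper93).
import Claimed.Agent.R286.L02.Defs
import Claimed.Agent.R286.L02.Law
import Claimed.Agent.R286.Fd.TrB1
import Claimed.Agent.R286.Fd.TrB2

/-!
# Row 286 (S0533), unit L02 : THE INSTANCE THEOREM of `L02/Law.lean`      (helper73; names `ll2_law_*`)

`(llJs n a P tl).Law (llMs a P)` and `(llJsD n a P tl i0).Law (llMs a P)` for every admissible fine path `P` (any ensemble `tl`).
Sources: `Fd/TrB1` (`tr_nu_eq_sum`, `tr_pr_nonneg`, `tr_pr_sum`, `tr_nu_congr`), `Fd/TrB2` (`tr_nu_comap`).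
-/

set_option autoImplicit false

namespace Claimed.Agent.R286

open scoped BigOperators

/-! ### 1. tree numbers of a Gaussian hierarchy satisfy `JtNuLaw` -/

theorem ll2_law_tr {S ι : Type} [Fintype S] [Fintype ι] [Inhabited S] {B : GhB S} (hB : B.Ok) {ls : List (GhLv S ι)}
    (hls : GhAdm B 0 ls) (z : S → ℝ) {N : ℕ} (hN : ls.length = N) :
    JtNuLaw N fun q τ T => trNu B ls q τ z T := by
  classical
  subst hN
  refine ⟨fun q τ => ⟨trPr B ls q τ z, tr_pr_nonneg hB hls q τ z, tr_pr_sum hB hls q τ z, fun T => tr_nu_eq_sum hB hls q τ z T⟩,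
    fun q τ τ' h T => tr_nu_congr B ls h z T, fun q p τ hτ f hf T hT => tr_nu_comap hB hls hτ z f hf T hT⟩

/-- transport of the laws along a bijection of the spin spaces which respects the default elements -/
theorem ll2_law_map {S S' : Type} [Fintype S] [Inhabited S] [Fintype S'] [Inhabited S'] (e : S ≃ S') (he : e default = default)
    {N : ℕ} {nu : ℕ → JtTopo → ((ℕ → S) → ℝ) → ℝ} (h : JtNuLaw N nu) :
    JtNuLaw N fun q τ (T : (ℕ → S') → ℝ) => nu q τ fun σ => T fun x => e (σ x) := by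
  refine ⟨fun q τ => ?_, fun q τ τ' hh T => h.congr q τ τ' hh _, fun q p τ hτ f hf T hT => ?_⟩
  · obtain ⟨p, h0, h1, hp⟩ := h.rep q τ
    let E : (Fin q → S) ≃ (Fin q → S') := Equiv.piCongrRight fun _ => e
    refine ⟨fun s => p (E.symm s), fun s => h0 _, ?_, fun T => ?_⟩
    · rw [← h1]; exact E.symm.sum_comp p
    · rw [hp, ← E.sum_comp]
      refine Finset.sum_congr rfl fun s _ => ?_
      simp only [Equiv.symm_apply_apply]
      congr 2
      funext x
      by_cases hx : x < q
      · simp [trExt, hx, E]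
      · simp [trExt, hx, he]
  · exact h.comap q p τ hτ f hf (fun σ => T fun x => e (σ x)) fun σ σ' hσ => hT _ _ fun i hi => by rw [hσ i hi]

/-! ### 2. admissibility of the two ensembles -/

theorem ll2_law_base_ok (n : ℕ) {a : ℝ} (ha : 0 < a) : (skBase n a).Ok where
  nonneg := fun _ => by simp only [skBase, ghUnif]; positivity
  sum := by
    simp only [skBase, ghUnif, Finset.sum_const, Finset.card_univ, nsmul_eq_mul]
    exact mul_inv_cancel₀ (Nat.cast_ne_zero.2 Fintype.card_ne_zero)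
  pos := ha

theorem ll2_law_adm (n : ℕ) {a : ℝ} {P : SkStp} (hP : SkAdm a P) : GhAdm (skBase n a) 0 (skLvs n P) := by
  refine ⟨?_, ?_⟩
  · unfold skLvs
    rw [List.pairwise_map]
    exact hP.1
  · intro l hl
    unfold skLvs at hl
    obtain ⟨e, he, rfl⟩ := List.mem_map.1 hl
    exact ⟨(hP.2 e he).1, (hP.2 e he).2.1⟩

theorem ll2_law_cumB_nonneg {a : ℝ} {P : SkStp} (hP : SkAdm a P) (j : ℕ) : 0 ≤ skCumB P j := by
  unfold skCumB
  refine List.sum_nonneg fun x hx => ?_
  obtain ⟨e, he, rfl⟩ := List.mem_map.1 hx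
  exact (hP.2 e (List.mem_of_mem_take he)).2.2.1

theorem ll2_law_mv_length (tl : Option ℕ) (P : LlStp) : (llMv tl P).length = P.length := by
  cases tl <;> simp [llMv, llMvAt, llMat]

theorem ll2_law_mv_adm {a : ℝ} {P : LlStp} (hP : LlStpAdm a P) (tl : Option ℕ) : SkAdm a (llMv tl P) := by
  cases tl with
  | none => exact hP.1
  | some js =>
    have h1 := hP.1
    have hlen : (llMat P).length = P.length := by simp [llMat]
    refine ⟨?_, ?_⟩
    · rw [List.pairwise_iff_getElem]
      intro i j hi hj hij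
      have hi' : i < P.length := by simpa [llMv, llMvAt] using hi
      have hj' : j < P.length := by simpa [llMv, llMvAt] using hj
      have := (List.pairwise_iff_getElem.1 h1.1) i j (by rw [hlen]; exact hi') (by rw [hlen]; exact hj') hij
      simpa [llMv, llMvAt, llMat] using this
    · intro e he
      obtain ⟨i, hi, rfl⟩ := List.getElem_of_mem he
      have hi' : i < P.length := by simpa [llMv, llMvAt] using hi
      have hm := h1.2 ((llMat P)[i]'(by rw [hlen]; exact hi')) (List.getElem_mem _)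
      simp only [llMat, List.getElem_map] at hm
      simp only [llMv, llMvAt, List.getElem_mapIdx]
      refine ⟨hm.1, hm.2.1, ?_, hm.2.2.2⟩
      split_ifs
      · exact le_rfl
      · exact ll2_law_cumB_nonneg h1 _
      · exact hm.2.2.1

theorem ll2_law_isMs {a : ℝ} (ha : 0 ≤ a) {P : LlStp} (hP : LlStpAdm a P) : IsMs P.length (llMs a P) := by
  have h1 := hP.1
  have hlen : (llMat P).length = P.length := by simp [llMat]
  have hval : ∀ j (hj : j < P.length), llMs a P j = (P[j]).m := fun j hj => by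
    simp [llMs, hj]
  have hout : ∀ j, P.length ≤ j → llMs a P j = a := fun j hj => by
    simp [llMs, hj]
  have hmem : ∀ j (hj : j < P.length), 0 ≤ (P[j]).m ∧ (P[j]).m ≤ a := fun j hj => by
    have hm := h1.2 ((llMat P)[j]'(by rw [hlen]; exact hj)) (List.getElem_mem _)
    simp only [llMat, List.getElem_map] at hm
    exact ⟨hm.1, hm.2.1⟩
  refine ⟨fun j => ?_, fun i j hij hj => ?_⟩
  · by_cases hj : j < P.length
    · rw [hval j hj]; exact (hmem j hj).1
    · rw [hout j (not_lt.1 hj)]; exact ha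
  · rcases hij.eq_or_lt with rfl | hlt
    · exact le_rfl
    · have hi : i < P.length := by omega
      rw [hval i hi]
      by_cases hj' : j < P.length
      · rw [hval j hj']
        have := (List.pairwise_iff_getElem.1 h1.1) i j (by rw [hlen]; exact hi) (by rw [hlen]; exact hj') hlt
        simpa [llMat] using this
      · rw [hout j (not_lt.1 hj')]; exact (hmem i hi).2

/-! ### 3. overlaps -/

theorem ll2_law_sp_abs {n : ℕ} (σ : SkCfg n) (i : Fin n) : |skSp σ i| = 1 := by
  unfold skSp Claims.C0461.pmSpin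
  cases σ i <;> simp

theorem ll2_law_ov_abs {n : ℕ} (σ τ : SkCfg n) : |skOv σ τ| ≤ 1 := by
  unfold skOv
  rcases Nat.eq_zero_or_pos n with rfl | hn
  · simp
  have hn' : (0 : ℝ) < n := Nat.cast_pos.2 hn
  rw [abs_div, abs_of_pos hn', div_le_one hn']
  refine (Finset.abs_sum_le_sum_abs _ _).trans ?_
  simp [abs_mul, ll2_law_sp_abs]

theorem ll2_law_ov_symm {n : ℕ} (σ τ : SkCfg n) : skOv σ τ = skOv τ σ := by
  unfold skOv; simp only [mul_comm]

theorem ll2_law_ovD_abs {n : ℕ} (i0 : Fin n) (σ τ : SkCfg n) : |skOvD i0 σ τ| ≤ 1 := by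
  unfold skOvD
  have hn' : (0 : ℝ) < n := Nat.cast_pos.2 (Nat.pos_of_ne_zero fun h => by subst h; exact i0.elim0)
  rw [abs_div, abs_of_pos hn', div_le_one hn']
  refine (Finset.abs_sum_le_sum_abs _ _).trans ?_
  calc ∑ i, |if i = i0 then (0 : ℝ) else skSp σ i * skSp τ i| ≤ ∑ _i : Fin n, (1 : ℝ) :=
        Finset.sum_le_sum fun i _ => by
          split_ifs
          · simp
          · simp [abs_mul, ll2_law_sp_abs]
    _ = n := by simp

theorem ll2_law_ovD_symm {n : ℕ} (i0 : Fin n) (σ τ : SkCfg n) : skOvD i0 σ τ = skOvD i0 τ σ := by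
  unfold skOvD; simp only [mul_comm]

/-! ### 4. the instance theorem -/

theorem ll2_law_nu (n : ℕ) {a : ℝ} (ha : 0 < a) {P : LlStp} (hP : LlStpAdm a P) (tl : Option ℕ) :
    JtNuLaw P.length (llNu n a P tl) :=
  ll2_law_tr (ll2_law_base_ok n ha) (ll2_law_adm n (ll2_law_mv_adm hP tl)) 0
    (by simp [skLvs, ll2_law_mv_length])

theorem ll2_law_nuS {a : ℝ} (ha : 0 < a) {P : LlStp} (hP : LlStpAdm a P) : JtNuLaw P.length (llNuS a P) :=
  ll2_law_map (Equiv.funUnique (Fin 1) Bool) rfl
    (ll2_law_tr (ll2_law_base_ok 1 ha) (ll2_law_adm 1 hP.2) 0 (by simp [skLvs, llSc]))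

theorem ll2_law_qC (a : ℝ) (P : LlStp) {τ : JtTopo} (hτ : IsTr P.length 2 τ) :
    llQs a P (τ 0 1) = llNuS a P 2 τ fun t => jtSp (t 0) * jtSp (t 1) := by
  unfold llQs llNuS
  refine tr_nu_congr _ _ (fun x y hx hy => ?_) _ _
  unfold trPair
  have hx' : x = 0 ∨ x = 1 := by omega
  have hy' : y = 0 ∨ y = 1 := by omega
  rcases hx' with rfl | rfl <;> rcases hy' with rfl | rfl
  · simp [hτ.diag 0 (by norm_num)]
  · simp
  · simp [hτ.symm 1 0 (by norm_num) (by norm_num)]
  · simp [hτ.diag 1 (by norm_num)]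

theorem ll2_law_msk (tl : Option ℕ) (t : ℕ) : llMk tl t = 0 ∨ llMk tl t = 1 := by
  cases tl with
  | none => right; rfl
  | some js =>
    simp only [llMk]
    split_ifs
    · right; rfl
    · left; rfl

/-- **INSTANCE THEOREM**: the jet context of an admissible fine path satisfies the laws of `L02/Law.lean` -/
theorem ll2_law_js (n : ℕ) {a : ℝ} (ha : 0 < a) {P : LlStp} (hP : LlStpAdm a P) (tl : Option ℕ) :
    (llJs n a P tl).Law (llMs a P) where
  isMs := ll2_law_isMs ha.le hP
  sumK := fun _ _ _ _ => rfl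
  absK := fun _ _ _ _ => rfl
  nu := ll2_law_nu n ha hP tl
  nuK := ll2_law_nuS ha hP
  qC := fun _ hτ => ll2_law_qC a P hτ
  ov_abs := ll2_law_ov_abs
  ov_symm := ll2_law_ov_symm
  msk := ll2_law_msk tl

/-- the same with deleted overlaps -/
theorem ll2_law_jsD (n : ℕ) {a : ℝ} (ha : 0 < a) {P : LlStp} (hP : LlStpAdm a P) (tl : Option ℕ) (i0 : Fin n) :
    (llJsD n a P tl i0).Law (llMs a P) where
  isMs := ll2_law_isMs ha.le hP
  sumK := fun _ _ _ _ => rfl
  absK := fun _ _ _ _ => rfl
  nu := ll2_law_nu n ha hP tl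
  nuK := ll2_law_nuS ha hP
  qC := fun _ hτ => ll2_law_qC a P hτ
  ov_abs := ll2_law_ovD_abs i0
  ov_symm := ll2_law_ovD_symm i0
  msk := ll2_law_msk tl

end Claimed.Agent.R286
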