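-- OWNER helper269 (order of helper93, head LL 02; ADV helper73).  Source: LL 02-foundations.tex l.306-400.
import Claimed.Agent.R286.L02.P73
import Claimed.Agent.R286.LL.Jet.Alg

/-!
# Row 286 (S0533), unit L02 : (A7) FOR THE TRUE OVERLAP, (A7) MASKED, (A8)      (helper269; prefix `l2af_`, `l2af*`, `L2af*`)

Inner file of `Exit/LL02A7.lean` (`exit_a7`, `exit_a7_masked`, `exit_a8`).      0 sorry.      TEX[LL:found:cavity-quotient]
INPUTS (as hypotheses, = the statements of the exits): `L2afExact q k` (= `exit_a7_exact`), `L2afAbs q k M0 C` (= `exit_a7_abs`), `L2afFlip` (= `exit_a4_flip`).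
* Sec. 0-1 : linearity of `trSumK`, `trAbsK`; total variation `l2afTV q k = 8^k q (q+1) ..` at terminal mass `≤ 4`; products.
* Sec. 2   : ABSTRACT comparison of a context `X` (with `X.Law ms`, bounds `L2afBd X M0`) and of `l2afOv X ov'` (another overlap, `|ov - ov'| ≤ δ`), tests `|T - T'| ≤ L δ`:
             `l2af_ev_sub` (evaluations of the degree `d`), `l2af_rem_le` (majorants), `l2af_quo_bd_aux` (`|N/Ψ| ≤ C(k)`).
* Sec. 3   : `l2af_a8` (pure algebra; any context).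
* Sec. 4   : `l2af_site` ((A7) at one site, everything with TRUE overlaps), **`l2af_a7`** (average over the site: NO symmetry is used),
             **`l2af_a7_masked`** (a function of the masked overlaps is a function of the overlaps + flip).
-/

set_option autoImplicit false

namespace Claimed.Agent.R286

open scoped BigOperators Nat

/-! ### 0. linearity and total variation of the signed sums -/

theorem l2af_sumK_sub (ms : ℕ → ℝ) (N k : ℕ) : ∀ (q : ℕ) (τ : ℕ → ℕ → ℕ) (Φ Ψ : (ℕ → ℕ → ℕ) → ℝ),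
    trSumK ms N k q τ (fun τ' => Φ τ' - Ψ τ') = trSumK ms N k q τ Φ - trSumK ms N k q τ Ψ := by
  induction k with
  | zero => intro q τ Φ Ψ; rfl
  | succ k ih =>
    intro q τ Φ Ψ
    simp only [trSumK, trSum, ih, mul_sub, Finset.sum_sub_distrib]

theorem l2af_absK_add (ms : ℕ → ℝ) (N k : ℕ) : ∀ (q : ℕ) (τ : ℕ → ℕ → ℕ) (Φ Ψ : (ℕ → ℕ → ℕ) → ℝ),
    trAbsK ms N k q τ (fun τ' => Φ τ' + Ψ τ') = trAbsK ms N k q τ Φ + trAbsK ms N k q τ Ψ := by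
  induction k with
  | zero => intro q τ Φ Ψ; rfl
  | succ k ih =>
    intro q τ Φ Ψ
    simp only [trAbsK, trAbs, ih, mul_add, Finset.sum_add_distrib]

/-- total variation of `k` attachments over `q` labels at terminal mass `≤ 4` -/
noncomputable def l2afTV (q k : ℕ) : ℝ := 8 ^ k * ∏ i ∈ Finset.range k, ((q : ℝ) + i)

theorem l2af_TV_nonneg (q k : ℕ) : 0 ≤ l2afTV q k := by
  unfold l2afTV
  exact mul_nonneg (by positivity) (Finset.prod_nonneg fun i _ => by positivity)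

theorem l2af_absK_bd {N q : ℕ} {τ : ℕ → ℕ → ℕ} {ms : ℕ → ℝ} (hτ : IsTr N q τ) (hms : IsMs N ms) (h4 : ms N ≤ 4) (k : ℕ)
    (Φ : (ℕ → ℕ → ℕ) → ℝ) {M : ℝ} (hM : 0 ≤ M) (hΦ : ∀ τ', IsTr N (q + k) τ' → |Φ τ'| ≤ M) :
    trAbsK ms N k q τ (fun τ' => |Φ τ'|) ≤ l2afTV q k * M := by
  refine (tr_absK_le hτ hms k Φ M hΦ).trans ?_
  unfold l2afTV
  refine mul_le_mul_of_nonneg_right ?_ hM
  refine mul_le_mul_of_nonneg_right ?_ (Finset.prod_nonneg fun i _ => by positivity)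
  exact pow_le_pow_left₀ (mul_nonneg (by norm_num) (hms.nonneg N)) (by linarith) k

theorem l2af_sumK_bd {N q : ℕ} {τ : ℕ → ℕ → ℕ} {ms : ℕ → ℝ} (hτ : IsTr N q τ) (hms : IsMs N ms) (h4 : ms N ≤ 4) (k : ℕ)
    (Φ : (ℕ → ℕ → ℕ) → ℝ) {M : ℝ} (hM : 0 ≤ M) (hΦ : ∀ τ', IsTr N (q + k) τ' → |Φ τ'| ≤ M) :
    |trSumK ms N k q τ Φ| ≤ l2afTV q k * M :=
  (tr_sumK_le k Φ).trans (l2af_absK_bd hτ hms h4 k Φ hM hΦ)

/-! ### 1. products -/

theorem l2af_prod_bd (d : ℕ) (u : ℕ → ℝ) (A : ℝ) (hu : ∀ i, |u i| ≤ A) : |∏ i ∈ Finset.range d, u i| ≤ A ^ d := by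
  rw [Finset.abs_prod]
  calc ∏ i ∈ Finset.range d, |u i| ≤ ∏ _i ∈ Finset.range d, A :=
        Finset.prod_le_prod (fun i _ => abs_nonneg _) fun i _ => hu i
    _ = A ^ d := by simp

theorem l2af_prod_sub (d : ℕ) (u v : ℕ → ℝ) (A ε : ℝ) (hA : 1 ≤ A) (hu : ∀ i, |u i| ≤ A) (hv : ∀ i, |v i| ≤ A)
    (huv : ∀ i, |u i - v i| ≤ ε) :
    |∏ i ∈ Finset.range d, u i - ∏ i ∈ Finset.range d, v i| ≤ d * A ^ d * ε := by
  have hε : 0 ≤ ε := (abs_nonneg _).trans (huv 0)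
  have hA0 : 0 ≤ A := by linarith
  induction d with
  | zero => simp
  | succ d ih =>
    rw [Finset.prod_range_succ, Finset.prod_range_succ]
    have e : (∏ i ∈ Finset.range d, u i) * u d - (∏ i ∈ Finset.range d, v i) * v d
        = (∏ i ∈ Finset.range d, u i - ∏ i ∈ Finset.range d, v i) * u d + (∏ i ∈ Finset.range d, v i) * (u d - v d) := by ring
    rw [e]
    have h1 : |(∏ i ∈ Finset.range d, u i - ∏ i ∈ Finset.range d, v i) * u d| ≤ (d * A ^ d * ε) * A := by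
      rw [abs_mul]; exact mul_le_mul ih (hu d) (abs_nonneg _) (by positivity)
    have h2 : |(∏ i ∈ Finset.range d, v i) * (u d - v d)| ≤ A ^ d * ε := by
      rw [abs_mul]; exact mul_le_mul (l2af_prod_bd d v A hv) (huv d) (abs_nonneg _) (by positivity)
    have h3 : A ^ d * ε ≤ A ^ (d + 1) * ε :=
      mul_le_mul_of_nonneg_right (pow_le_pow_right₀ hA (Nat.le_succ d)) hε
    calc _ ≤ _ + _ := abs_add_le _ _
      _ ≤ d * A ^ d * ε * A + A ^ (d + 1) * ε := add_le_add h1 (h2.trans h3)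
      _ = ((d + 1 : ℕ) : ℝ) * A ^ (d + 1) * ε := by push_cast; ring

/-! ### 2. two contexts which differ by the overlap only -/

section abstractCtx
variable {S : Type}

/-- the context with another overlap -/
def l2afOv (X : JtCtx S) (ov' : S → S → ℝ) : JtCtx S := { X with ov := ov' }

/-- the bounds required by the Taylor rules -/
structure L2afBd (X : JtCtx S) (M0 : ℝ) : Prop where
  b0 : ∀ t, 0 ≤ X.bC t
  bM : ∀ t, X.bC t ≤ M0
  hK : ∀ t, |X.hC t - X.KC t| ≤ M0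
  msk : ∀ t, X.msk t = 0 ∨ X.msk t = 1

theorem L2afBd.M0_nonneg {X : JtCtx S} {M0 : ℝ} (h : L2afBd X M0) : 0 ≤ M0 := (h.b0 0).trans (h.bM 0)

theorem L2afBd.msk_abs {X : JtCtx S} {M0 : ℝ} (h : L2afBd X M0) (t : ℕ) : |X.msk t| ≤ 1 := by
  rcases h.msk t with e | e <;> rw [e] <;> simp

theorem l2af_bd_ov {X : JtCtx S} {M0 : ℝ} (h : L2afBd X M0) (ov' : S → S → ℝ) : L2afBd (l2afOv X ov') M0 :=
  ⟨h.b0, h.bM, h.hK, h.msk⟩

theorem l2af_J_bd {X : JtCtx S} {M0 : ℝ} (hB : L2afBd X M0) (ho : ∀ s s', |X.ov s s'| ≤ 1) (τ : JtTopo) (σ : ℕ → S) (c d : ℕ) :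
    |X.J τ σ c d| ≤ 2 * M0 + 1 := by
  have hq : |X.Qs τ σ c d| ≤ 1 := by
    unfold JtCtx.Qs
    rw [abs_mul]
    exact mul_le_one₀ (hB.msk_abs _) (abs_nonneg _) (ho _ _)
  have h1 := hB.hK (τ c d)
  have h2 : |X.bC (τ c d) * X.Qs τ σ c d| ≤ M0 := by
    rw [abs_mul, abs_of_nonneg (hB.b0 _)]
    calc _ ≤ X.bC (τ c d) * 1 := mul_le_mul_of_nonneg_left hq (hB.b0 _)
      _ ≤ M0 := by rw [mul_one]; exact hB.bM _
  have e : X.J τ σ c d = (X.hC (τ c d) - X.KC (τ c d)) + X.bC (τ c d) * X.Qs τ σ c d := by unfold JtCtx.J; ring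
  rw [e]
  calc _ ≤ _ + _ := abs_add_le _ _
    _ ≤ M0 + M0 := add_le_add h1 h2
    _ ≤ 2 * M0 + 1 := by linarith

theorem l2af_J_sub {X : JtCtx S} {M0 δ : ℝ} (hB : L2afBd X M0) (ov' : S → S → ℝ) (hδ : ∀ s s', |X.ov s s' - ov' s s'| ≤ δ)
    (τ : JtTopo) (σ : ℕ → S) (c d : ℕ) : |X.J τ σ c d - (l2afOv X ov').J τ σ c d| ≤ (2 * M0 + 1) * δ := by
  have hδ0 : 0 ≤ δ := (abs_nonneg _).trans (hδ (σ c) (σ d))
  have hM := hB.M0_nonneg
  have e : X.J τ σ c d - (l2afOv X ov').J τ σ c d = X.bC (τ c d) * (X.msk (τ c d) * (X.ov (σ c) (σ d) - ov' (σ c) (σ d))) := by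
    unfold JtCtx.J JtCtx.Qs l2afOv; ring
  rw [e, abs_mul, abs_mul, abs_of_nonneg (hB.b0 _)]
  have h1 : |X.msk (τ c d)| * |X.ov (σ c) (σ d) - ov' (σ c) (σ d)| ≤ 1 * δ :=
    mul_le_mul (hB.msk_abs _) (hδ _ _) (abs_nonneg _) (by norm_num)
  calc _ ≤ M0 * (1 * δ) := mul_le_mul (hB.bM _) h1 (by positivity) hM
    _ ≤ (2 * M0 + 1) * δ := by nlinarith

/-- the constant of one comparison with `d` insertions -/
noncomputable def l2afK (M0 : ℝ) (d : ℕ) : ℝ := ((d : ℝ) + 1) * (2 * M0 + 1) ^ (d + 1)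

theorem l2af_K_nonneg {M0 : ℝ} (h : 0 ≤ M0) (d : ℕ) : 0 ≤ l2afK M0 d := by unfold l2afK; positivity

theorem l2af_TJ_sub {X : JtCtx S} {M0 δ Bp L : ℝ} (hB : L2afBd X M0) (ho : ∀ s s', |X.ov s s'| ≤ 1) (ov' : S → S → ℝ)
    (ho' : ∀ s s', |ov' s s'| ≤ 1) (hδ : ∀ s s', |X.ov s s' - ov' s s'| ≤ δ) (hδ0 : 0 ≤ δ) (hL : 0 ≤ L) (q d : ℕ) (τ : JtTopo) (σ : ℕ → S)
    (t t' : ℝ) (ht' : |t'| ≤ Bp) (htt : |t - t'| ≤ L * δ) :
    |t * X.Jprod q d τ σ - t' * (l2afOv X ov').Jprod q d τ σ| ≤ (Bp + L) * l2afK M0 d * δ := by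
  have hM := hB.M0_nonneg
  set A : ℝ := 2 * M0 + 1 with hA
  have hA1 : 1 ≤ A := by rw [hA]; linarith
  have hA0 : 0 ≤ A := by linarith
  have hBp : 0 ≤ Bp := (abs_nonneg _).trans ht'
  have hJ : |X.Jprod q d τ σ| ≤ A ^ d :=
    l2af_prod_bd d (fun i => X.J τ σ (jtC q i) (jtD q i)) A fun i => l2af_J_bd hB ho τ σ _ _
  have hJJ : |X.Jprod q d τ σ - (l2afOv X ov').Jprod q d τ σ| ≤ d * A ^ d * (A * δ) :=
    l2af_prod_sub d (fun i => X.J τ σ (jtC q i) (jtD q i)) (fun i => (l2afOv X ov').J τ σ (jtC q i) (jtD q i)) A (A * δ) hA1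
      (fun i => l2af_J_bd hB ho τ σ _ _) (fun i => l2af_J_bd (l2af_bd_ov hB ov') ho' τ σ _ _)
      fun i => l2af_J_sub hB ov' hδ τ σ _ _
  have e : t * X.Jprod q d τ σ - t' * (l2afOv X ov').Jprod q d τ σ
      = (t - t') * X.Jprod q d τ σ + t' * (X.Jprod q d τ σ - (l2afOv X ov').Jprod q d τ σ) := by ring
  rw [e]
  have h1 : |(t - t') * X.Jprod q d τ σ| ≤ (L * δ) * A ^ d := by
    rw [abs_mul]; exact mul_le_mul htt hJ (abs_nonneg _) (by positivity)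
  have h2 : |t' * (X.Jprod q d τ σ - (l2afOv X ov').Jprod q d τ σ)| ≤ Bp * (d * A ^ d * (A * δ)) := by
    rw [abs_mul]; exact mul_le_mul ht' hJJ (abs_nonneg _) hBp
  have h3 : A ^ d ≤ A ^ (d + 1) := pow_le_pow_right₀ hA1 (Nat.le_succ d)
  have h4 : (L * δ) * A ^ d ≤ L * (((d : ℝ) + 1) * A ^ (d + 1)) * δ := by
    have : A ^ d ≤ ((d : ℝ) + 1) * A ^ (d + 1) := by
      have h5 : 0 ≤ (d : ℝ) * A ^ (d + 1) := by positivity
      nlinarith
    calc (L * δ) * A ^ d ≤ (L * δ) * (((d : ℝ) + 1) * A ^ (d + 1)) := mul_le_mul_of_nonneg_left this (by positivity)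
      _ = _ := by ring
  have h5 : Bp * (d * A ^ d * (A * δ)) ≤ Bp * (((d : ℝ) + 1) * A ^ (d + 1)) * δ := by
    have : (d : ℝ) * A ^ d * (A * δ) ≤ ((d : ℝ) + 1) * A ^ (d + 1) * δ := by
      have h6 : 0 ≤ A ^ (d + 1) * δ := by positivity
      have : (d : ℝ) * A ^ d * (A * δ) = (d : ℝ) * (A ^ (d + 1) * δ) := by ring
      rw [this]; nlinarith
    calc Bp * (d * A ^ d * (A * δ)) ≤ Bp * (((d : ℝ) + 1) * A ^ (d + 1) * δ) := mul_le_mul_of_nonneg_left this hBp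
      _ = _ := by ring
  calc _ ≤ _ + _ := abs_add_le _ _
    _ ≤ L * (((d : ℝ) + 1) * A ^ (d + 1)) * δ + Bp * (((d : ℝ) + 1) * A ^ (d + 1)) * δ := add_le_add (h1.trans h4) (h2.trans h5)
    _ = (Bp + L) * l2afK M0 d * δ := by unfold l2afK; ring

theorem l2af_off_nonneg (X : JtCtx S) (q n : ℕ) (τ : JtTopo) : 0 ≤ X.off q n τ := by
  unfold JtCtx.off
  exact Finset.prod_nonneg fun i _ => by split_ifs <;> norm_num

theorem l2af_off_le (X : JtCtx S) (q n : ℕ) (τ : JtTopo) : X.off q n τ ≤ 1 := by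
  unfold JtCtx.off
  exact Finset.prod_le_one (fun i _ => by split_ifs <;> norm_num) fun i _ => by split_ifs <;> norm_num


variable [Fintype S] [Inhabited S]

theorem l2af_nu_sub {X : JtCtx S} {ms : ℕ → ℝ} (hX : X.Law ms) {M0 δ Bp L : ℝ} (hB : L2afBd X M0) (ov' : S → S → ℝ)
    (ho' : ∀ s s', |ov' s s'| ≤ 1) (hδ : ∀ s s', |X.ov s s' - ov' s s'| ≤ δ) (hδ0 : 0 ≤ δ) (hL : 0 ≤ L) (q d r : ℕ) (τ : JtTopo)
    (T T' : (ℕ → S) → ℝ) (hT' : ∀ σ, |T' σ| ≤ Bp) (hTT : ∀ σ, |T σ - T' σ| ≤ L * δ) :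
    |X.nu r τ (fun σ => T σ * X.Jprod q d τ σ) - X.nu r τ (fun σ => T' σ * (l2afOv X ov').Jprod q d τ σ)|
      ≤ (Bp + L) * l2afK M0 d * δ := by
  rw [← hX.nu.sub]
  exact hX.nu.abs_le_const r τ fun σ => l2af_TJ_sub hB hX.ov_abs ov' ho' hδ hδ0 hL q d τ σ _ _ (hT' σ) (hTT σ)

/-- comparison of the evaluations of the degree `d` -/
theorem l2af_ev_sub {X : JtCtx S} {ms : ℕ → ℝ} (hX : X.Law ms) (h4 : ms X.N ≤ 4) {M0 δ Bp L : ℝ} (hB : L2afBd X M0) (ov' : S → S → ℝ)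
    (ho' : ∀ s s', |ov' s s'| ≤ 1) (hδ : ∀ s s', |X.ov s s' - ov' s s'| ≤ δ) (hδ0 : 0 ≤ δ) (hL : 0 ≤ L) (hBp : 0 ≤ Bp) {q : ℕ} {τ0 : JtTopo}
    (hτ : IsTr X.N q τ0) (d : ℕ) (F : ℕ → JtTopo → JtFn) {CF : ℝ} (hCF : 0 ≤ CF) (hF : ∀ τ, |F (q + 2 * d) τ (Finset.range d)| ≤ CF)
    (T T' : (ℕ → S) → ℝ) (hT' : ∀ σ, |T' σ| ≤ Bp) (hTT : ∀ σ, |T σ - T' σ| ≤ L * δ) :
    |X.ev q τ0 F T d - (l2afOv X ov').ev q τ0 F T' d| ≤ l2afTV q (2 * d) * (CF * ((Bp + L) * l2afK M0 d * δ)) := by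
  have hM := hB.M0_nonneg
  have hE : 0 ≤ (Bp + L) * l2afK M0 d * δ := mul_nonneg (mul_nonneg (by linarith) (l2af_K_nonneg hM d)) hδ0
  set c : ℝ := ((2 : ℝ) ^ d * (d ! : ℝ))⁻¹ with hc
  have hc0 : 0 ≤ c := by rw [hc]; positivity
  have hc1 : c ≤ 1 := by
    rw [hc]
    refine inv_le_one_of_one_le₀ ?_
    have h1 : (1 : ℝ) ≤ 2 ^ d := one_le_pow₀ (by norm_num)
    have h2 : (1 : ℝ) ≤ (d ! : ℝ) := by exact_mod_cast Nat.succ_le_of_lt (Nat.factorial_pos d)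
    nlinarith
  have e : X.ev q τ0 F T d - (l2afOv X ov').ev q τ0 F T' d
      = c * trSumK ms X.N (2 * d) q τ0 fun τ => X.off q d τ * F (q + 2 * d) τ (Finset.range d) *
          X.nu (q + 2 * d) τ (fun σ => T σ * X.Jprod q d τ σ)
          - X.off q d τ * F (q + 2 * d) τ (Finset.range d) * X.nu (q + 2 * d) τ (fun σ => T' σ * (l2afOv X ov').Jprod q d τ σ) := by
    rw [l2af_sumK_sub, mul_sub, ← hX.sumK, ← hX.sumK]
    rfl
  rw [e, abs_mul, abs_of_nonneg hc0]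
  have hb := l2af_sumK_bd hτ hX.isMs h4 (2 * d) (fun τ => X.off q d τ * F (q + 2 * d) τ (Finset.range d) *
          X.nu (q + 2 * d) τ (fun σ => T σ * X.Jprod q d τ σ)
          - X.off q d τ * F (q + 2 * d) τ (Finset.range d) * X.nu (q + 2 * d) τ (fun σ => T' σ * (l2afOv X ov').Jprod q d τ σ))
    (M := CF * ((Bp + L) * l2afK M0 d * δ)) (mul_nonneg hCF hE) (fun τ _ => by
      rw [← mul_sub, abs_mul, abs_mul, abs_of_nonneg (l2af_off_nonneg X q d τ)]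
      have h1 : X.off q d τ * |F (q + 2 * d) τ (Finset.range d)| ≤ 1 * CF :=
        mul_le_mul (l2af_off_le X q d τ) (hF τ) (abs_nonneg _) (by norm_num)
      rw [one_mul] at h1
      exact mul_le_mul h1 (l2af_nu_sub hX hB ov' ho' hδ hδ0 hL q d _ τ T T' hT' hTT) (abs_nonneg _) hCF)
  calc c * _ ≤ 1 * _ := mul_le_mul_of_nonneg_right hc1 (abs_nonneg _)
    _ ≤ _ := by rw [one_mul]; exact hb

/-- comparison of the majorants -/
theorem l2af_rem_le {X : JtCtx S} {ms : ℕ → ℝ} (hX : X.Law ms) (h4 : ms X.N ≤ 4) {M0 δ Bp L : ℝ} (hB : L2afBd X M0) (ov' : S → S → ℝ)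
    (ho' : ∀ s s', |ov' s s'| ≤ 1) (hδ : ∀ s s', |X.ov s s' - ov' s s'| ≤ δ) (hδ0 : 0 ≤ δ) (hL : 0 ≤ L) (hBp : 0 ≤ Bp) {q : ℕ} {τ0 : JtTopo}
    (hτ : IsTr X.N q τ0) (k : ℕ) (T T' : (ℕ → S) → ℝ) (hT' : ∀ σ, |T' σ| ≤ Bp) (hTT : ∀ σ, |T σ - T' σ| ≤ L * δ) :
    (l2afOv X ov').rem q τ0 T' k ≤ X.rem q τ0 T k + l2afTV q (2 * k) * ((Bp + L) * l2afK M0 k * δ) := by
  have hM := hB.M0_nonneg
  set E : ℝ := (Bp + L) * l2afK M0 k * δ with hEdef
  have hE : 0 ≤ E := mul_nonneg (mul_nonneg (by linarith) (l2af_K_nonneg hM k)) hδ0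
  have e1 : (l2afOv X ov').rem q τ0 T' k = trAbsK ms X.N (2 * k) q τ0 fun τ =>
      X.off q k τ * X.nu (q + 2 * k) τ fun σ => |T' σ| * |(l2afOv X ov').Jprod q k τ σ| := by
    rw [← hX.absK]; rfl
  have e2 : X.rem q τ0 T k = trAbsK ms X.N (2 * k) q τ0 fun τ =>
      X.off q k τ * X.nu (q + 2 * k) τ fun σ => |T σ| * |X.Jprod q k τ σ| := by
    rw [← hX.absK]; rfl
  rw [e1, e2]
  have hconst : trAbsK ms X.N (2 * k) q τ0 (fun _ => |E|) ≤ l2afTV q (2 * k) * E :=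
    l2af_absK_bd hτ hX.isMs h4 (2 * k) (fun _ => E) hE fun _ _ => (abs_of_nonneg hE).le
  refine le_trans ?_ (add_le_add_right hconst _)
  rw [← l2af_absK_add]
  refine tr_absK_mono hτ (2 * k) _ _ fun τ _ => ?_
  have h1 : X.nu (q + 2 * k) τ (fun σ => |T' σ| * |(l2afOv X ov').Jprod q k τ σ|)
      ≤ X.nu (q + 2 * k) τ (fun σ => |T σ| * |X.Jprod q k τ σ|) + E := by
    have h2 : X.nu (q + 2 * k) τ (fun σ => |T σ| * |X.Jprod q k τ σ| + E)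
        = X.nu (q + 2 * k) τ (fun σ => |T σ| * |X.Jprod q k τ σ|) + E := by
      rw [hX.nu.add (q + 2 * k) τ (fun σ => |T σ| * |X.Jprod q k τ σ|) (fun _ => E), hX.nu.const]
    rw [← h2]
    refine hX.nu.mono _ _ fun σ => ?_
    have h3 := l2af_TJ_sub hB hX.ov_abs ov' ho' hδ hδ0 hL q k τ σ _ _ (hT' σ) (hTT σ)
    rw [← abs_mul, ← abs_mul]
    have h4 := abs_sub_abs_le_abs_sub (T' σ * (l2afOv X ov').Jprod q k τ σ) (T σ * X.Jprod q k τ σ)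
    rw [abs_sub_comm] at h4
    linarith
  have h0 := l2af_off_nonneg X q k τ
  have h1' := l2af_off_le X q k τ
  rw [abs_of_nonneg hE]
  calc X.off q k τ * _ ≤ X.off q k τ * (X.nu (q + 2 * k) τ (fun σ => |T σ| * |X.Jprod q k τ σ|) + E) :=
        mul_le_mul_of_nonneg_left h1 h0
    _ = X.off q k τ * X.nu (q + 2 * k) τ (fun σ => |T σ| * |X.Jprod q k τ σ|) + X.off q k τ * E := by ring
    _ ≤ _ := by
        have : X.off q k τ * E ≤ 1 * E := mul_le_mul_of_nonneg_right h1' hE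
        linarith

theorem l2af_rem_nonneg {X : JtCtx S} {ms : ℕ → ℝ} (hX : X.Law ms) (q : ℕ) (τ0 : JtTopo) (T : (ℕ → S) → ℝ) (k : ℕ) :
    0 ≤ X.rem q τ0 T k := by
  unfold JtCtx.rem
  rw [hX.absK]
  exact tra2_absK_nonneg _ _ fun τ => mul_nonneg (l2af_off_nonneg X q k τ) (hX.nu.nonneg _ _ fun σ => by positivity)

theorem l2af_sp_abs (b : Bool) : |jtSp b| = 1 := by cases b <;> simp [jtSp]

theorem l2af_scM_bd {X : JtCtx S} {ms : ℕ → ℝ} (hX : X.Law ms) (r q : ℕ) (obs : Finset ℕ) (τ : JtTopo) (A : Finset ℕ) :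
    |X.scM r q obs τ A| ≤ 1 := by
  unfold JtCtx.scM
  refine hX.nuK.abs_le_const r τ fun t => ?_
  rw [abs_mul, Finset.abs_prod, Finset.abs_prod]
  simp [abs_mul, l2af_sp_abs]

/-- the cavity quotient is bounded by a constant which depends on the number of pairs only (`C` = the constant of `jt_bounds`) -/
theorem l2af_quo_bd_aux {d : ℕ} {C : ℝ} (hC : ∀ (F : JtFn) (A : Finset ℕ), (∀ B, |F B| ≤ 1) → A.card ≤ d → |jtInv F A| ≤ C ∧ |jtLog F A| ≤ C)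
    (hC0 : 0 ≤ C) (X : JtCtx S) (ms : ℕ → ℝ) (hX : X.Law ms) (r q i j : ℕ) (τ : JtTopo) (A : Finset ℕ) (hA : A.card ≤ d) :
    |X.Quo r q i j τ A| ≤ 2 ^ d * C := by
  unfold JtCtx.Quo jtMul
  refine (Finset.abs_sum_le_sum_abs _ _).trans ?_
  calc ∑ B ∈ A.powerset, |X.Nij r q i j τ B * jtInv (X.Psi r q τ) (A \ B)| ≤ ∑ _B ∈ A.powerset, C := by
        refine Finset.sum_le_sum fun B _ => ?_
        rw [abs_mul]
        have h1 : |X.Nij r q i j τ B| ≤ 1 := l2af_scM_bd hX r q _ τ B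
        have h2 : |jtInv (X.Psi r q τ) (A \ B)| ≤ C :=
          (hC (X.Psi r q τ) (A \ B) (fun B' => l2af_scM_bd hX r q _ τ B') ((Finset.card_le_card Finset.sdiff_subset).trans hA)).1
        calc _ ≤ 1 * C := mul_le_mul h1 h2 (abs_nonneg _) (by norm_num)
          _ = C := one_mul C
    _ = 2 ^ A.card * C := by rw [Finset.sum_const, Finset.card_powerset, nsmul_eq_mul]; push_cast; ring
    _ ≤ 2 ^ d * C := mul_le_mul_of_nonneg_right (pow_le_pow_right₀ (by norm_num) hA) hC0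

end abstractCtx

/-! ### 3. (A8) -/

theorem l2af_inv_empty (F : JtFn) : jtInv F ∅ = 1 := by
  simp [jtInv, jtPow, jtOne]

theorem l2af_inv_single (F : JtFn) : jtInv F {0} = - F {0} := by
  have hp : ({0} : Finset ℕ).powerset = {∅, {0}} := by decide
  simp [jtInv, jtPow, jtMul, jtOne, jtAug, Finset.sum_range_succ, hp]

/-- (A8), abstract: the linear cavity kernel -/
theorem l2af_a8 {S : Type} (X : JtCtx S) (r q i j : ℕ) (τ : JtTopo) :
    X.Mker r q i j τ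
      = 2⁻¹ * (X.nuK r τ (fun s => (∏ y ∈ ({i, j} : Finset ℕ), jtSp (s y)) * (jtSp (s q) * jtSp (s (q + 1))))
          - X.nuK r τ (fun s => ∏ y ∈ ({i, j} : Finset ℕ), jtSp (s y)) * X.nuK r τ fun s => jtSp (s q) * jtSp (s (q + 1))) := by
  have hp : ({0} : Finset ℕ).powerset = {∅, {0}} := by decide
  have hne : (∅ : Finset ℕ) ≠ {0} := by decide
  unfold JtCtx.Mker JtCtx.Quo jtMul
  rw [hp, Finset.sum_pair hne]
  simp only [Finset.sdiff_empty, sdiff_self, Finset.bot_eq_empty, l2af_inv_empty, l2af_inv_single]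
  simp only [JtCtx.Nij, JtCtx.Psi, JtCtx.scM, Finset.prod_empty, Finset.prod_singleton, jtC, jtD, mul_zero, add_zero, mul_one, one_mul]
  ring

/-! ### 4. the SK instance -/

theorem l2af_ovD_sub {n : ℕ} (i0 : Fin n) (σ σ' : SkCfg n) : |skOv σ σ' - skOvD i0 σ σ'| ≤ 1 / (n : ℝ) := by
  unfold skOv skOvD
  rw [← sub_div, ← Finset.sum_sub_distrib]
  have h : ∑ i, (skSp σ i * skSp σ' i - if i = i0 then 0 else skSp σ i * skSp σ' i) = skSp σ i0 * skSp σ' i0 := by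
    rw [Finset.sum_eq_single i0]
    · simp
    · intro b _ hb; simp [hb]
    · intro h; exact absurd (Finset.mem_univ i0) h
  rw [h, abs_div, abs_mul, ll2_law_sp_abs, ll2_law_sp_abs, Nat.abs_cast, one_mul]

/-- the test with deleted overlaps -/
noncomputable def l2afT {n : ℕ} (i0 : Fin n) (p : (ℕ → ℕ → ℝ) → ℝ) : (ℕ → SkCfg n) → ℝ :=
  fun σ => p fun c d => skOvD i0 (σ c) (σ d)

theorem l2af_T_uses {n : ℕ} (i0 : Fin n) {q : ℕ} {p : (ℕ → ℕ → ℝ) → ℝ} {Bp L : ℝ} (hp : LlOvBd q p Bp L) : TrUses q (l2afT i0 p) :=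
  fun σ σ' h => hp.uses _ _ fun c d hc hd => by rw [h c hc, h d hd]

theorem l2af_T_nosite {n : ℕ} (i0 : Fin n) (p : (ℕ → ℕ → ℝ) → ℝ) : LlNoSite i0 (l2afT i0 p) := by
  intro σ σ' h
  unfold l2afT
  congr 1
  funext c d
  unfold skOvD
  congr 1
  refine Finset.sum_congr rfl fun i _ => ?_
  split_ifs with hi
  · rfl
  · unfold skSp; rw [h c i hi, h d i hi]

theorem l2af_T_bd {n : ℕ} (i0 : Fin n) {q : ℕ} {p : (ℕ → ℕ → ℝ) → ℝ} {Bp L : ℝ} (hp : LlOvBd q p Bp L) (σ : ℕ → SkCfg n) :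
    |l2afT i0 p σ| ≤ Bp := hp.bd _ fun _ _ => ll2_law_ovD_abs i0 _ _

theorem l2af_T_sub {n : ℕ} (i0 : Fin n) {q : ℕ} {p : (ℕ → ℕ → ℝ) → ℝ} {Bp L : ℝ} (hp : LlOvBd q p Bp L) (σ : ℕ → SkCfg n) :
    |llOvT p σ - l2afT i0 p σ| ≤ L * (1 / (n : ℝ)) :=
  hp.lip _ _ _ (fun _ _ => ll2_law_ov_abs _ _) (fun _ _ => ll2_law_ovD_abs i0 _ _) fun _ _ => l2af_ovD_sub i0 _ _

theorem l2af_Bp_nonneg {q : ℕ} {p : (ℕ → ℕ → ℝ) → ℝ} {Bp L : ℝ} (hp : LlOvBd q p Bp L) : 0 ≤ Bp :=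
  (abs_nonneg _).trans (hp.bd (fun _ _ => 0) fun _ _ => by simp)

theorem l2af_L_nonneg {q : ℕ} {p : (ℕ → ℕ → ℝ) → ℝ} {Bp L : ℝ} (hp : LlOvBd q p Bp L) : 0 ≤ L := by
  have := hp.lip (fun _ _ => 0) (fun _ _ => 0) 1 (fun _ _ => by simp) (fun _ _ => by simp) (fun _ _ => by simp)
  simpa using this

theorem l2af_bd_js (n : ℕ) {a M0 : ℝ} {P : LlStp} (hP : LlStpAdm a P) (hM : LlBd M0 P) (tl : Option ℕ) : L2afBd (llJs n a P tl) M0 :=
  ⟨fun t => ll2_law_cumB_nonneg hP.1 t, fun t => (hM t).1, fun t => (hM t).2, ll2_law_msk tl⟩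

theorem l2af_ms_top (a : ℝ) (P : LlStp) : llMs a P P.length = a := by simp [llMs]

/-- the statement of `exit_a7_exact` -/
def L2afExact (q k : ℕ) : Prop :=
  ∀ (n : ℕ) (a : ℝ) (P : LlStp) (tl : Option ℕ) (i0 : Fin n) (τ0 : ℕ → ℕ → ℕ) (T : (ℕ → SkCfg n) → ℝ) (i j : ℕ),
    0 < n → 0 < a → LlStpAdm a P → LlTiltOk P tl → IsTr P.length q τ0 → TrUses q T → LlNoSite i0 T → i < q → j < q → i ≠ j → 0 < k →
    llNu n a P tl q τ0 (fun σ => T σ * (skSp (σ i) i0 * skSp (σ j) i0))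
      = (llJsD n a P tl i0).evLt q τ0 (fun r τ => (llJsD n a P tl i0).Quo r q i j τ) T k + llRemA7 n a P tl i0 q τ0 T i j k

/-- the statement of `exit_a7_abs` with the constant `C` -/
def L2afAbs (q k : ℕ) (M0 C : ℝ) : Prop :=
  ∀ (n : ℕ) (a : ℝ) (P : LlStp) (tl : Option ℕ) (i0 : Fin n) (τ0 : ℕ → ℕ → ℕ)
    (T : (ℕ → SkCfg n) → ℝ) (i j : ℕ), 0 < a → a ≤ 4 → LlStpAdm a P → LlTiltOk P tl → LlBd M0 P → IsTr P.length q τ0 → TrUses q T →
    LlNoSite i0 T → i < q → j < q → i ≠ j → 0 < k →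
      |llRemA7 n a P tl i0 q τ0 T i j k| ≤ C * (llJsD n a P tl i0).rem q τ0 T k

/-- the constant of the contact error -/
noncomputable def l2afC (q k : ℕ) (M0 Ca CQ : ℝ) : ℝ :=
  1 + (∑ d ∈ Finset.range k, l2afTV q (2 * d) * (CQ * l2afK M0 d)) + max Ca 0 * (l2afTV q (2 * k) * l2afK M0 k)

theorem l2af_C_nonneg (q k : ℕ) {M0 : ℝ} (hM : 0 ≤ M0) (Ca : ℝ) {CQ : ℝ} (hCQ : 0 ≤ CQ) : 0 ≤ l2afC q k M0 Ca CQ := by
  unfold l2afC
  have h1 : 0 ≤ ∑ d ∈ Finset.range k, l2afTV q (2 * d) * (CQ * l2afK M0 d) :=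
    Finset.sum_nonneg fun d _ => mul_nonneg (l2af_TV_nonneg _ _) (mul_nonneg hCQ (l2af_K_nonneg hM d))
  have h2 : 0 ≤ max Ca 0 * (l2afTV q (2 * k) * l2afK M0 k) :=
    mul_nonneg (le_max_right _ _) (mul_nonneg (l2af_TV_nonneg _ _) (l2af_K_nonneg hM k))
  linarith

/-- (A7) at one site, true overlaps in the test, in the insertions and in the majorant -/
theorem l2af_site {q k : ℕ} {M0 Ca CQ : ℝ} (hCQ0 : 0 ≤ CQ)
    (hCQ : ∀ (n : ℕ) (X : JtCtx (SkCfg n)) (ms : ℕ → ℝ), X.Law ms → ∀ (r q i j : ℕ) (τ : JtTopo) (A : Finset ℕ),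
      A.card ≤ k → |X.Quo r q i j τ A| ≤ CQ)
    (hex : L2afExact q k) (hab : L2afAbs q k M0 Ca) {n : ℕ} {a : ℝ} {P : LlStp} {tl : Option ℕ} {τ0 : ℕ → ℕ → ℕ}
    {p : (ℕ → ℕ → ℝ) → ℝ} {Bp L : ℝ} {i j : ℕ} (hn : 0 < n) (ha : 0 < a) (ha4 : a ≤ 4) (hP : LlStpAdm a P) (htl : LlTiltOk P tl)
    (hM : LlBd M0 P) (hτ : IsTr P.length q τ0) (hp : LlOvBd q p Bp L) (hi : i < q) (hj : j < q) (hij : i ≠ j) (hk : 0 < k) (i0 : Fin n) :
    |llNu n a P tl q τ0 (fun σ => llOvT p σ * (skSp (σ i) i0 * skSp (σ j) i0))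
        - (llJs n a P tl).evLt q τ0 (fun r τ => (llJs n a P tl).Quo r q i j τ) (llOvT p) k|
      ≤ max Ca 0 * (llJs n a P tl).rem q τ0 (llOvT p) k + l2afC q k M0 Ca CQ * ((Bp + L) * (1 / (n : ℝ))) := by
  set X := llJs n a P tl with hXdef
  have hX : X.Law (llMs a P) := ll2_law_js n ha hP tl
  have hB : L2afBd X M0 := l2af_bd_js n hP hM tl
  have hM0 := hB.M0_nonneg
  have h4 : llMs a P X.N ≤ 4 := by
    have : X.N = P.length := rfl
    rw [this, l2af_ms_top]; exact ha4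
  have hτ' : IsTr X.N q τ0 := hτ
  set δ : ℝ := 1 / (n : ℝ) with hδdef
  have hδ0 : 0 ≤ δ := by rw [hδdef]; positivity
  have hBp := l2af_Bp_nonneg hp
  have hL := l2af_L_nonneg hp
  have hov' : ∀ s s', |skOvD i0 s s'| ≤ 1 := ll2_law_ovD_abs i0
  have hδ : ∀ s s', |X.ov s s' - skOvD i0 s s'| ≤ δ := l2af_ovD_sub i0
  set T := llOvT (n := n) p with hTdef
  set T' := l2afT i0 p with hT'def
  have hT' : ∀ σ, |T' σ| ≤ Bp := l2af_T_bd i0 hp
  have hTT : ∀ σ, |T σ - T' σ| ≤ L * δ := l2af_T_sub i0 hp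
  have hD : llJsD n a P tl i0 = l2afOv X (skOvD i0) := rfl
  -- (1)
  have s1 : |llNu n a P tl q τ0 (fun σ => T σ * (skSp (σ i) i0 * skSp (σ j) i0))
      - llNu n a P tl q τ0 (fun σ => T' σ * (skSp (σ i) i0 * skSp (σ j) i0))| ≤ L * δ := by
    have hν : JtNuLaw P.length (llNu n a P tl) := hX.nu
    rw [← hν.sub]
    refine hν.abs_le_const q τ0 fun σ => ?_
    rw [← sub_mul, abs_mul, abs_mul, ll2_law_sp_abs, ll2_law_sp_abs, mul_one, mul_one]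
    exact hTT σ
  -- (2)
  have s2 := hex n a P tl i0 τ0 T' i j hn ha hP htl hτ (l2af_T_uses i0 hp) (l2af_T_nosite i0 p) hi hj hij hk
  have s3 := hab n a P tl i0 τ0 T' i j ha ha4 hP htl hM hτ (l2af_T_uses i0 hp) (l2af_T_nosite i0 p) hi hj hij hk
  have s4 : (llJsD n a P tl i0).rem q τ0 T' k ≤ X.rem q τ0 T k + l2afTV q (2 * k) * ((Bp + L) * l2afK M0 k * δ) := by
    rw [hD]; exact l2af_rem_le hX h4 hB (skOvD i0) hov' hδ hδ0 hL hBp hτ' k T T' hT' hTT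
  have s5 : 0 ≤ (llJsD n a P tl i0).rem q τ0 T' k := l2af_rem_nonneg (ll2_law_jsD n ha hP tl i0) q τ0 T' k
  have s6 : |llRemA7 n a P tl i0 q τ0 T' i j k| ≤ max Ca 0 * (X.rem q τ0 T k + l2afTV q (2 * k) * ((Bp + L) * l2afK M0 k * δ)) :=
    s3.trans ((mul_le_mul_of_nonneg_right (le_max_left Ca 0) s5).trans (mul_le_mul_of_nonneg_left s4 (le_max_right Ca 0)))
  -- (3)
  have s7 : |X.evLt q τ0 (fun r τ => X.Quo r q i j τ) T k
      - (llJsD n a P tl i0).evLt q τ0 (fun r τ => (llJsD n a P tl i0).Quo r q i j τ) T' k|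
      ≤ ∑ d ∈ Finset.range k, l2afTV q (2 * d) * (CQ * ((Bp + L) * l2afK M0 d * δ)) := by
    have e : (llJsD n a P tl i0).evLt q τ0 (fun r τ => (llJsD n a P tl i0).Quo r q i j τ) T' k
        = ∑ d ∈ Finset.range k, (l2afOv X (skOvD i0)).ev q τ0 (fun r τ => X.Quo r q i j τ) T' d := rfl
    rw [e]
    unfold JtCtx.evLt
    rw [← Finset.sum_sub_distrib]
    refine (Finset.abs_sum_le_sum_abs _ _).trans (Finset.sum_le_sum fun d hd => ?_)
    refine l2af_ev_sub hX h4 hB (skOvD i0) hov' hδ hδ0 hL hBp hτ' d _ hCQ0 (fun τ => ?_) T T' hT' hTT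
    refine hCQ n X _ hX _ _ _ _ _ _ ?_
    rw [Finset.card_range]; exact (Finset.mem_range.1 hd).le
  have s8 : ∑ d ∈ Finset.range k, l2afTV q (2 * d) * (CQ * ((Bp + L) * l2afK M0 d * δ))
      = (∑ d ∈ Finset.range k, l2afTV q (2 * d) * (CQ * l2afK M0 d)) * ((Bp + L) * δ) := by
    rw [Finset.sum_mul]; exact Finset.sum_congr rfl fun d _ => by ring
  rw [s8] at s7
  rw [s2] at s1
  have hW : L * δ ≤ (Bp + L) * δ := mul_le_mul_of_nonneg_right (by linarith) hδ0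
  have key : llNu n a P tl q τ0 (fun σ => T σ * (skSp (σ i) i0 * skSp (σ j) i0)) - X.evLt q τ0 (fun r τ => X.Quo r q i j τ) T k
      = (llNu n a P tl q τ0 (fun σ => T σ * (skSp (σ i) i0 * skSp (σ j) i0))
          - ((llJsD n a P tl i0).evLt q τ0 (fun r τ => (llJsD n a P tl i0).Quo r q i j τ) T' k + llRemA7 n a P tl i0 q τ0 T' i j k))
        + llRemA7 n a P tl i0 q τ0 T' i j k
        - (X.evLt q τ0 (fun r τ => X.Quo r q i j τ) T k
            - (llJsD n a P tl i0).evLt q τ0 (fun r τ => (llJsD n a P tl i0).Quo r q i j τ) T' k) := by ring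
  rw [key]
  refine (abs_sub _ _).trans ?_
  refine (add_le_add (abs_add_le _ _) le_rfl).trans ?_
  refine (add_le_add (add_le_add s1 s6) s7).trans ?_
  unfold l2afC
  nlinarith [hW]

/-- the statement of `exit_a7` with the constant `C` -/
def L2afFull (q k : ℕ) (M0 C : ℝ) : Prop :=
  ∀ (n : ℕ) (a : ℝ) (P : LlStp) (tl : Option ℕ) (τ0 : ℕ → ℕ → ℕ)
    (p : (ℕ → ℕ → ℝ) → ℝ) (Bp L : ℝ) (i j : ℕ), 0 < n → 0 < a → a ≤ 4 → LlStpAdm a P → LlTiltOk P tl → LlBd M0 P → IsTr P.length q τ0 →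
    LlOvBd q p Bp L → i < q → j < q → i ≠ j → 0 < k →
      |llNu n a P tl q τ0 (fun σ => llOvT p σ * skOv (σ i) (σ j))
          - (llJs n a P tl).evLt q τ0 (fun r τ => (llJs n a P tl).Quo r q i j τ) (llOvT p) k|
        ≤ C * (llJs n a P tl).rem q τ0 (llOvT p) k + C * (Bp + L) / n

/-- **(A7) for the true overlap**: average of the exact identity over the site -/
theorem l2af_a7 (q k : ℕ) (M0 Ca : ℝ) (hex : L2afExact q k) (hab : L2afAbs q k M0 Ca) : ∃ C : ℝ, L2afFull q k M0 C := by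
  have hQ : ∃ CQ : ℝ, 0 ≤ CQ ∧ ∀ (n : ℕ) (X : JtCtx (SkCfg n)) (ms : ℕ → ℝ), X.Law ms → ∀ (r q i j : ℕ) (τ : JtTopo) (A : Finset ℕ),
      A.card ≤ k → |X.Quo r q i j τ A| ≤ CQ := by
    obtain ⟨C, hC⟩ := jt_bounds k
    have hC0 : 0 ≤ C := (abs_nonneg _).trans (hC (fun _ => 0) ∅ (by simp) (by simp)).1
    refine ⟨2 ^ k * C, by positivity, fun n X ms hX r q i j τ A hA => ?_⟩
    exact l2af_quo_bd_aux hC hC0 X ms hX r q i j τ A hA
  obtain ⟨CQ, hCQ0, hCQ⟩ := hQ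
  refine ⟨max Ca 0 + l2afC q k M0 Ca CQ, ?_⟩
  intro n a P tl τ0 p Bp L i j hn ha ha4 hP htl hM hτ hp hi hj hij hk
  have hX : (llJs n a P tl).Law (llMs a P) := ll2_law_js n ha hP tl
  have hν : JtNuLaw P.length (llNu n a P tl) := hX.nu
  have hM0 := (l2af_bd_js n hP hM tl).M0_nonneg
  have hn' : (0 : ℝ) < n := Nat.cast_pos.2 hn
  set E := (llJs n a P tl).evLt q τ0 (fun r τ => (llJs n a P tl).Quo r q i j τ) (llOvT p) k with hE
  set R := (llJs n a P tl).rem q τ0 (llOvT p) k with hR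
  have hR0 : 0 ≤ R := l2af_rem_nonneg hX q τ0 _ k
  set W : ℝ := (Bp + L) * (1 / (n : ℝ)) with hW
  have hW0 : 0 ≤ W := mul_nonneg (add_nonneg (l2af_Bp_nonneg hp) (l2af_L_nonneg hp)) (by positivity)
  have hc2 := l2af_C_nonneg q k hM0 Ca hCQ0
  have hc1 : 0 ≤ max Ca 0 := le_max_right _ _
  have e1 : llNu n a P tl q τ0 (fun σ => llOvT p σ * skOv (σ i) (σ j))
      = ∑ i0 : Fin n, (n : ℝ)⁻¹ * llNu n a P tl q τ0 (fun σ => llOvT p σ * (skSp (σ i) i0 * skSp (σ j) i0)) := by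
    have : (fun σ : ℕ → SkCfg n => llOvT p σ * skOv (σ i) (σ j))
        = fun σ => ∑ i0 : Fin n, (n : ℝ)⁻¹ * (llOvT p σ * (skSp (σ i) i0 * skSp (σ j) i0)) := by
      funext σ
      unfold skOv
      rw [div_eq_mul_inv, Finset.sum_mul, Finset.mul_sum]
      exact Finset.sum_congr rfl fun i0 _ => by ring
    rw [this, hν.sum]
    exact Finset.sum_congr rfl fun i0 _ => hν.const_mul q τ0 _ _
  have avg : ∀ x : ℝ, x = ∑ _i0 : Fin n, (n : ℝ)⁻¹ * x := fun x => by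
    rw [Finset.sum_const, Finset.card_univ, Fintype.card_fin, nsmul_eq_mul, mul_inv_cancel_left₀ hn'.ne']
  have e2 : E = ∑ _i0 : Fin n, (n : ℝ)⁻¹ * E := avg E
  have e3 : max Ca 0 * R + l2afC q k M0 Ca CQ * W = ∑ _i0 : Fin n, (n : ℝ)⁻¹ * (max Ca 0 * R + l2afC q k M0 Ca CQ * W) := avg _
  have main : |llNu n a P tl q τ0 (fun σ => llOvT p σ * skOv (σ i) (σ j)) - E| ≤ max Ca 0 * R + l2afC q k M0 Ca CQ * W := by
    rw [e1, e3]
    conv_lhs => rw [e2]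
    rw [← Finset.sum_sub_distrib]
    refine (Finset.abs_sum_le_sum_abs _ _).trans (Finset.sum_le_sum fun i0 _ => ?_)
    rw [← mul_sub, abs_mul, abs_of_nonneg (inv_nonneg.2 hn'.le)]
    exact mul_le_mul_of_nonneg_left (l2af_site hCQ0 hCQ hex hab hn ha ha4 hP htl hM hτ hp hi hj hij hk i0) (inv_nonneg.2 hn'.le)
  refine main.trans ?_
  have e4 : (max Ca 0 + l2afC q k M0 Ca CQ) * (Bp + L) / (n : ℝ) = (max Ca 0 + l2afC q k M0 Ca CQ) * W := by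
    rw [hW]; ring
  rw [e4]
  nlinarith [mul_nonneg hc2 hR0, mul_nonneg hc1 hW0]

/-- the statement of `exit_a4_flip` -/
def L2afFlip : Prop :=
  ∀ (n : ℕ) (a : ℝ) (P : LlStp) (tl : Option ℕ) (q : ℕ) (τ : ℕ → ℕ → ℕ) (p : (ℕ → ℕ → ℝ) → ℝ) (i j : ℕ),
    0 < n → 0 < a → LlStpAdm a P → LlTiltOk P tl → IsTr P.length q τ →
    (∀ A A' : ℕ → ℕ → ℝ, (∀ c d, c < q → d < q → A c d = A' c d) → p A = p A') → i < q → j < q →
    llNu n a P tl q τ (fun σ => p (fun c d => (llJs n a P tl).Qs τ σ c d) * skOv (σ i) (σ j))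
      = llNu n a P tl q τ fun σ => p (fun c d => (llJs n a P tl).Qs τ σ c d) * (llJs n a P tl).Qs τ σ i j

/-- a function of the masked overlaps is a function of the overlaps, with the same bounds -/
theorem l2af_mask_bd (tl : Option ℕ) (τ0 : ℕ → ℕ → ℕ) {q : ℕ} {p : (ℕ → ℕ → ℝ) → ℝ} {Bp L : ℝ} (hp : LlOvBd q p Bp L) :
    LlOvBd q (fun A => p fun c d => llMk tl (τ0 c d) * A c d) Bp L := by
  have hm : ∀ t, |llMk tl t| ≤ 1 := fun t => by rcases ll2_law_msk tl t with e | e <;> rw [e] <;> simp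
  refine ⟨fun A A' h => hp.uses _ _ fun c d hc hd => by rw [h c d hc hd], fun A hA => hp.bd _ fun c d => ?_,
    fun A A' δ hA hA' hAA => hp.lip _ _ δ (fun c d => ?_) (fun c d => ?_) fun c d => ?_⟩
  · rw [abs_mul]; exact mul_le_one₀ (hm _) (abs_nonneg _) (hA c d)
  · rw [abs_mul]; exact mul_le_one₀ (hm _) (abs_nonneg _) (hA c d)
  · rw [abs_mul]; exact mul_le_one₀ (hm _) (abs_nonneg _) (hA' c d)
  · rw [← mul_sub, abs_mul]
    calc |llMk tl (τ0 c d)| * |A c d - A' c d| ≤ 1 * δ := mul_le_mul (hm _) (hAA c d) (abs_nonneg _) (by norm_num)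
      _ = δ := one_mul δ

/-- **(A7), masked form** (`JtCtx.A7`) -/
theorem l2af_a7_masked {q k : ℕ} {M0 C : ℝ} (h7 : L2afFull q k M0 C) (hfl : L2afFlip) (n : ℕ) (a : ℝ) (P : LlStp) (tl : Option ℕ)
    (τ0 : ℕ → ℕ → ℕ) (p : (ℕ → ℕ → ℝ) → ℝ) (Bp L : ℝ) (i j : ℕ) (hn : 0 < n) (ha : 0 < a) (ha4 : a ≤ 4) (hP : LlStpAdm a P)
    (htl : LlTiltOk P tl) (hM : LlBd M0 P) (hτ : IsTr P.length q τ0) (hp : LlOvBd q p Bp L) (hi : i < q) (hj : j < q) (hij : i ≠ j)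
    (hk : 0 < k) :
    (llJs n a P tl).A7 q τ0 (fun σ => p fun c d => (llJs n a P tl).Qs τ0 σ c d) i j k C (C * (Bp + L) / n) := by
  have h := h7 n a P tl τ0 (fun A => p fun c d => llMk tl (τ0 c d) * A c d) Bp L i j hn ha ha4 hP htl hM hτ (l2af_mask_bd tl τ0 hp)
    hi hj hij hk
  have hf := hfl n a P tl q τ0 p i j hn ha hP htl hτ hp.uses hi hj
  unfold JtCtx.A7
  have e : (llJs n a P tl).nu q τ0 (fun σ => (p fun c d => (llJs n a P tl).Qs τ0 σ c d) * (llJs n a P tl).Qs τ0 σ i j)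
      = llNu n a P tl q τ0 (fun σ => llOvT (fun A => p fun c d => llMk tl (τ0 c d) * A c d) σ * skOv (σ i) (σ j)) := hf.symm
  rw [e]
  exact h

theorem l2af_eqns_cite : True := by
  have := @l2afTV.eq_1
  have := @l2afOv.eq_1
  have := @l2afK.eq_1
  have := @l2afT.eq_1
  have := @L2afExact.eq_1
  have := @L2afAbs.eq_1
  have := @l2afC.eq_1
  have := @L2afFull.eq_1
  have := @L2afFlip.eq_1
  trivial

end Claimed.Agent.R286
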