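import Claimed.Agent.R286.L02.A7Cat
import Claimed.Agent.R286.Fd.TrA2

/-!
# Row 286 (S0533), L02/A7Main : **(A7) for the abstract row interpolation**, exact and absolute      (owner helper4; prefix `l2a7_`)

* `l2a7_exact` : `ν[P e_i e_j] = ν[P (N_{ij,K}/Ψ_K)_{≤ k}] + remA7`      (an IDENTITY; `remA7` = the defined signed remainder with `k + 1` insertions)
* `l2a7_abs`   : `|remA7| ≤ C(k) e^{G} * (absolute allocation of ν[|P| ∏_{l ≤ k} |J_l|])`
The passage to the `m`-site model (site exchangeability, deleted overlaps, `O(1/m)`) is `L02/A7Full.lean`.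
-/

set_option autoImplicit false

namespace Claimed.Agent.R286

open scoped BigOperators Nat

variable {S1 : Type} (W : L2Row S1)

/-! ### L7: the quotient -/

/-- subset convolution and renumbering -/
theorem l2a7_mul_map (F G F' G' : JtFn) (π : Equiv.Perm ℕ) (A : Finset ℕ)
    (hF : ∀ B ⊆ A, F B = F' (B.map π.toEmbedding)) (hG : ∀ B ⊆ A, G B = G' (B.map π.toEmbedding)) :
    jtMul F G A = jtMul F' G' (A.map π.toEmbedding) := by
  unfold jtMul
  refine Finset.sum_bij (fun B _ => B.map π.toEmbedding) ?_ ?_ ?_ ?_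
  · intro B hB
    exact Finset.mem_powerset.2 (Finset.map_subset_map.2 (Finset.mem_powerset.1 hB))
  · intro B _ B' _ h
    exact Finset.map_injective _ h
  · intro B' hB'
    refine ⟨B'.map π.symm.toEmbedding, ?_, ?_⟩
    · rw [Finset.mem_powerset]
      intro x hx
      obtain ⟨y, hy, rfl⟩ := Finset.mem_map.1 hx
      obtain ⟨z, hz, rfl⟩ := Finset.mem_map.1 (Finset.mem_powerset.1 hB' hy)
      simpa using hz
    · ext x
      simp only [Finset.mem_map, Equiv.coe_toEmbedding]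
      constructor
      · rintro ⟨y, ⟨z, hz, rfl⟩, rfl⟩
        simpa using hz
      · intro hx
        exact ⟨π.symm x, ⟨x, hx, rfl⟩, by simp⟩
  · intro B hB
    rw [hF B (Finset.mem_powerset.1 hB), hG (A \ B) Finset.sdiff_subset, Finset.map_sdiff]

/-- the quotient is consistent and equivariant -/
theorem l2a7_quo_sym (hW : W.Ok) {q i j : ℕ} (hi : i < q) (hj : j < q) : W.Sym q fun r τ => W.jt.Quo r q i j τ := by
  have hob : ∀ y ∈ ({i, j} : Finset ℕ), y < q := by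
    intro y hy
    rcases Finset.mem_insert.1 hy with rfl | hy
    · exact hi
    · rw [Finset.mem_singleton.1 hy]; exact hj
  refine ⟨?_, ?_, ?_⟩
  · intro r τ τ' h
    simp only [JtCtx.Quo, JtCtx.Nij, JtCtx.Psi]
    rw [l2a7_scM_cg W hW q _ r τ τ' h, l2a7_scM_cg W hW q ∅ r τ τ' h]
  · intro r r' τ τ' A hr hτ' h hq hA
    simp only [JtCtx.Quo, JtCtx.Nij, JtCtx.Psi, jtMul]
    refine Finset.sum_congr rfl fun B hB => ?_
    have hB' := Finset.mem_powerset.1 hB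
    rw [l2a7_scM_rc W hW q _ hob r r' τ τ' B hr hτ' h hq (fun l hl => hA l (hB' hl))]
    congr 1
    refine (jt_local _ _ _ fun C hC => ?_).1
    exact l2a7_scM_rc W hW q ∅ (by simp) r r' τ τ' C hr hτ' h hq
      (fun l hl => hA l (Finset.sdiff_subset (hC hl)))
  · intro t τ π A hτ hπ hA
    simp only [JtCtx.Quo, JtCtx.Nij, JtCtx.Psi]
    refine l2a7_mul_map _ _ _ _ π A ?_ ?_
    · intro B hB
      exact l2a7_scM_eq W hW q _ hob t τ π B hτ hπ (hB.trans hA)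
    · intro B hB
      rw [← (jt_map (W.jt.scM (q + 2 * t) q ∅ τ) π.toEmbedding B).1]
      refine (jt_local _ _ _ fun C hC => ?_).1
      exact l2a7_scM_eq W hW q ∅ (by simp) t τ π C hτ hπ ((hC.trans hB).trans hA)

theorem l2a7_psi_empty (hW : W.Ok) (r q : ℕ) (τ : JtTopo) : W.jt.Psi r q τ ∅ = 1 := by
  simp only [JtCtx.Psi, JtCtx.scM, Finset.prod_empty, mul_one]
  exact hW.nuK_one r τ

/-- `(N / Ψ) * Ψ = N` -/
theorem l2a7_quo_mul (hW : W.Ok) (r q i j : ℕ) (τ : JtTopo) :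
    jtMul (W.jt.Quo r q i j τ) (W.jt.Psi r q τ) = W.jt.Nij r q i j τ := by
  unfold JtCtx.Quo
  rw [jt_mul_assoc, jt_mul_comm (jtInv _), jt_mul_inv _ (l2a7_psi_empty W hW r q τ), jt_mul_comm, jt_one_mul]

/-- Taylor expansion of the observed product -/
theorem l2a7_obs_taylor (hW : W.Ok) {q : ℕ} {τ0 : JtTopo} (hτ : IsTr W.N q τ0) {P : (ℕ → S1) → ℝ} (hP : TrUses q P)
    {i j : ℕ} (hi : i < q) (hj : j < q) (hij : i ≠ j) (k : ℕ) :
    W.nu 1 q τ0 (l2Obs P i j)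
      = ∑ t ∈ Finset.range (k + 1), W.ev0 q τ0 (fun r τ => W.jt.Nij r q i j τ) P t + W.remT k q τ0 (l2Obs P i j) := by
  have hR : TrUses q (l2Obs P i j) := by
    intro σ σ' h
    unfold l2Obs
    have h1 : P (l2F σ) = P (l2F σ') := l2a7_uses_lift hP σ σ' h
    rw [h1, h i hi, h j hj]
  rw [l2a7_taylor W hW hτ hR k]
  congr 1
  refine Finset.sum_congr rfl fun t _ => ?_
  have e : l2Obs P i j = fun σ : ℕ → S1 × Bool => P (l2F σ) * (fun s : ℕ → Bool => jtSp (s i) * jtSp (s j)) (l2S σ) := rfl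
  rw [e, l2a7_dn_at0 W hW hτ P (fun s => jtSp (s i) * jtSp (s j)) t]
  unfold L2Row.ev0
  have e2 : ∀ X : ℝ, (2⁻¹ : ℝ) ^ t * X / (t ! : ℝ) = ((2 : ℝ) ^ t * (t ! : ℝ))⁻¹ * X := by
    intro X
    rw [inv_pow, mul_inv, div_eq_mul_inv]
    ring
  rw [e2]
  congr 2
  funext τ
  have e3 : W.nuK (q + 2 * t) τ (fun s => jtSp (s i) * jtSp (s j) * l2Sp q (Finset.range t) s)
      = W.jt.Nij (q + 2 * t) q i j τ (Finset.range t) := by
    unfold JtCtx.Nij JtCtx.scM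
    change _ = W.nuK _ _ _
    congr 1
    funext s
    rw [Finset.prod_pair hij]
    rfl
  rw [e3]
  ring

/-- TEX[LL:found:cavity-quotient] **(A7), exact form, abstract row interpolation**: quotient through the degree `k`, signed remainder `remA7` -/
theorem l2a7_exact (hW : W.Ok) {q : ℕ} {τ0 : JtTopo} (hτ : IsTr W.N q τ0) {P : (ℕ → S1) → ℝ} (hP : TrUses q P)
    {i j : ℕ} (hi : i < q) (hj : j < q) (hij : i ≠ j) (k : ℕ) :
    W.jt.nu q τ0 (l2Obs P i j)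
      = W.jt.evLt q τ0 (fun r τ => W.jt.Quo r q i j τ) (fun σ => P (l2F σ)) (k + 1) + W.remA7 k q τ0 P i j := by
  rw [l2a7_back W hW hτ hP (l2a7_quo_sym W hW hi hj) k]
  simp only [l2a7_quo_mul W hW]
  have h := l2a7_obs_taylor W hW hτ hP hi hj hij k
  unfold L2Row.remA7
  change W.nu 1 q τ0 (l2Obs P i j) = _
  rw [h]
  ring

/-! ### L8: absolute bounds -/

/-- majorant: absolute allocation of `m` pairs, actual law, absolute values -/
noncomputable def L2Row.maj (m r : ℕ) (τ : JtTopo) (R : (ℕ → S1 × Bool) → ℝ) : ℝ :=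
  trAbsK W.ms W.N (2 * m) r τ fun τ' => l2Off W.N r m τ' * W.nu 1 (r + 2 * m) τ' fun σ => |R σ| * |W.ins r m τ' (l2F σ)|

theorem l2a7_main_eqns_cite : True := by
  have := @L2Row.maj.eq_1
  trivial

theorem l2a7_sp_abs (q : ℕ) (A : Finset ℕ) (t : ℕ → Bool) : |l2Sp q A t| = 1 := by
  unfold l2Sp
  rw [Finset.abs_prod]
  refine Finset.prod_eq_one fun i _ => ?_
  rw [abs_mul]
  have h : ∀ b : Bool, |jtSp b| = 1 := fun b => by cases b <;> simp [jtSp]
  rw [h, h, mul_one]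

theorem l2a7_maj_nonneg (hW : W.Ok) {r : ℕ} {τ : JtTopo} (hτ : IsTr W.N r τ) (m : ℕ) (R : (ℕ → S1 × Bool) → ℝ) :
    0 ≤ W.maj m r τ R := by
  unfold L2Row.maj
  have h0 : trAbsK W.ms W.N (2 * m) r τ (fun _ => 0) = 0 := by
    have := tra2_absK_const_mul (ms := W.ms) (N := W.N) (q := r) (τ := τ) (2 * m) 0 (fun _ => 0)
    simpa using this
  rw [← h0]
  refine tr_absK_mono hτ (2 * m) _ _ fun τ' _ => ?_
  refine mul_nonneg (l2a7_off_nonneg W.N r m τ') ?_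
  have := hW.nu_abs 1 (r + 2 * m) τ' (fun _ => 0) (fun σ => |R σ| * |W.ins r m τ' (l2F σ)|)
    (Set.right_mem_Icc.2 zero_le_one) (fun σ => by rw [abs_zero]; positivity)
  exact (abs_nonneg _).trans this

theorem l2a7_dn_abs (hW : W.Ok) {r : ℕ} {τ : JtTopo} (hτ : IsTr W.N r τ) {R : (ℕ → S1 × Bool) → ℝ} (hR : TrUses r R)
    (m : ℕ) {θ : ℝ} (hθ : θ ∈ Set.Icc (0 : ℝ) 1) :
    |W.dn θ m r τ R| ≤ (2⁻¹ : ℝ) ^ m * Real.exp (W.G (r + 2 * m)) * W.maj m r τ R := by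
  unfold L2Row.dn L2Row.maj
  rw [abs_mul, abs_of_nonneg (by positivity : (0 : ℝ) ≤ (2⁻¹ : ℝ) ^ m), mul_assoc]
  refine mul_le_mul_of_nonneg_left ?_ (by positivity)
  refine (tr_sumK_le (2 * m) _).trans ?_
  rw [← tra2_absK_const_mul]
  refine tr_absK_mono hτ (2 * m) _ _ fun τ' hτ' => ?_
  rw [abs_mul, abs_of_nonneg (l2a7_off_nonneg W.N r m τ'), mul_left_comm]
  refine mul_le_mul_of_nonneg_left ?_ (l2a7_off_nonneg W.N r m τ')
  have h1 := hW.nu_abs θ (r + 2 * m) τ' (fun σ => R σ * W.insE r m τ' σ) (fun σ => |R σ| * |W.ins r m τ' (l2F σ)|) hθ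
    (fun σ => by
      rw [abs_mul, l2a7_insE_eq, abs_mul, l2a7_sp_abs, mul_one])
  refine h1.trans (hW.gron θ (r + 2 * m) τ' _ hτ' ?_ (fun σ => by positivity) hθ)
  intro σ σ' h
  have e1 : R σ = R σ' := hR σ σ' fun i hi => h i (by omega)
  have e2 : W.ins r m τ' (l2F σ) = W.ins r m τ' (l2F σ') := by
    unfold L2Row.ins l2F
    refine Finset.prod_congr rfl fun l hl => ?_
    have := Finset.mem_range.1 hl
    rw [h (jtC r l) (by unfold jtC; omega), h (jtD r l) (by unfold jtD; omega)]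
  simp only [e1, e2]

theorem l2a7_remT_abs (hW : W.Ok) {r : ℕ} {τ : JtTopo} (hτ : IsTr W.N r τ) {R : (ℕ → S1 × Bool) → ℝ} (hR : TrUses r R)
    (k : ℕ) :
    |W.remT k r τ R| ≤ ((2 : ℝ) ^ (k + 1) * ((k + 1) ! : ℝ))⁻¹ * Real.exp (W.G (r + 2 * (k + 1))) * W.maj (k + 1) r τ R := by
  unfold L2Row.remT
  set M : ℝ := (2⁻¹ : ℝ) ^ (k + 1) * Real.exp (W.G (r + 2 * (k + 1))) * W.maj (k + 1) r τ R with hM
  have hk : (0 : ℝ) < (k ! : ℝ) := by exact_mod_cast Nat.factorial_pos k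
  have h1 : ∫ θ in (0 : ℝ)..1, (1 - θ) ^ k = 1 / ((k : ℝ) + 1) := by
    rw [intervalIntegral.integral_comp_sub_left (fun x => x ^ k) 1]
    simp [integral_pow]
  have hint : ∫ θ in (0 : ℝ)..1, (1 - θ) ^ k / (k ! : ℝ) * M = M / ((k + 1) ! : ℝ) := by
    rw [intervalIntegral.integral_mul_const, intervalIntegral.integral_div, h1, Nat.factorial_succ]
    push_cast
    field_simp
  have hle := intervalIntegral.norm_integral_le_of_norm_le (a := (0 : ℝ)) (b := 1) (μ := MeasureTheory.volume)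
    (f := fun θ => (1 - θ) ^ k / (k ! : ℝ) * W.dn θ (k + 1) r τ R) (g := fun θ => (1 - θ) ^ k / (k ! : ℝ) * M) zero_le_one
    (Filter.Eventually.of_forall fun θ hθ => by
      have hθ' : θ ∈ Set.Icc (0 : ℝ) 1 := ⟨hθ.1.le, hθ.2⟩
      have h0 : 0 ≤ (1 - θ) ^ k / (k ! : ℝ) := div_nonneg (pow_nonneg (by linarith [hθ.2]) _) hk.le
      rw [Real.norm_eq_abs, abs_mul, abs_of_nonneg h0]
      exact mul_le_mul_of_nonneg_left (l2a7_dn_abs W hW hτ hR (k + 1) hθ') h0)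
    (Continuous.intervalIntegrable (by fun_prop) _ _)
  rw [Real.norm_eq_abs, hint] at hle
  refine hle.trans (le_of_eq ?_)
  rw [hM, inv_pow, mul_inv]
  ring

theorem l2a7_sp1_abs (b : Bool) : |jtSp b| = 1 := by
  unfold jtSp
  split_ifs <;> simp

theorem l2a7_scM_bd {S1 : Type} (W : L2Row S1) (hW : W.Ok) (r q : ℕ) (ob : Finset ℕ) (τ : JtTopo) (A : Finset ℕ) :
    |W.jt.scM r q ob τ A| ≤ 1 := by
  refine hW.nuK_bd r τ _ fun t => ?_
  rw [abs_mul, Finset.abs_prod, Finset.abs_prod]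
  simp [abs_mul, l2a7_sp1_abs]

/-- the coefficients of the quotient are bounded by a constant which depends on the degree only -/
theorem l2a7_quo_bd (n : ℕ) : ∃ C : ℝ, 0 ≤ C ∧ ∀ (S1 : Type) (W : L2Row S1), W.Ok → ∀ (r q i j : ℕ) (τ : JtTopo) (A : Finset ℕ),
    A.card ≤ n → |W.jt.Quo r q i j τ A| ≤ C := by
  obtain ⟨C0, hC0⟩ := jt_bounds n
  refine ⟨2 ^ n * |C0|, by positivity, ?_⟩
  intro S1 W hW r q i j τ A hA
  unfold JtCtx.Quo jtMul
  calc |∑ B ∈ A.powerset, W.jt.Nij r q i j τ B * jtInv (W.jt.Psi r q τ) (A \ B)|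
      ≤ ∑ B ∈ A.powerset, |W.jt.Nij r q i j τ B * jtInv (W.jt.Psi r q τ) (A \ B)| := Finset.abs_sum_le_sum_abs _ _
    _ ≤ ∑ _B ∈ A.powerset, |C0| := by
        refine Finset.sum_le_sum fun B _ => ?_
        rw [abs_mul]
        have h1 : |W.jt.Nij r q i j τ B| ≤ 1 := l2a7_scM_bd W hW r q _ τ B
        have h2 : |jtInv (W.jt.Psi r q τ) (A \ B)| ≤ C0 :=
          (hC0 (W.jt.Psi r q τ) (A \ B) (fun B' => l2a7_scM_bd W hW r q _ τ B')
            ((Finset.card_le_card Finset.sdiff_subset).trans hA)).1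
        calc |W.jt.Nij r q i j τ B| * |jtInv (W.jt.Psi r q τ) (A \ B)| ≤ 1 * |C0| :=
              mul_le_mul h1 (h2.trans (le_abs_self _)) (abs_nonneg _) zero_le_one
          _ = |C0| := one_mul _
    _ = 2 ^ A.card * |C0| := by
        rw [Finset.sum_const, Finset.card_powerset, nsmul_eq_mul]
        push_cast
        ring
    _ ≤ 2 ^ n * |C0| := by
        refine mul_le_mul_of_nonneg_right ?_ (abs_nonneg _)
        exact pow_le_pow_right₀ (by norm_num) hA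

/-- concatenation of the majorants -/
theorem l2a7_maj_cat (_hW : W.Ok) {q : ℕ} {τ0 : JtTopo} (hτ : IsTr W.N q τ0) (P : (ℕ → S1) → ℝ) (n m : ℕ) :
    trAbsK W.ms W.N (2 * n) q τ0 (fun τ => l2Off W.N q n τ * W.maj m (q + 2 * n) τ fun σ => P (l2F σ) * W.ins q n τ (l2F σ))
      = W.maj (n + m) q τ0 fun σ => P (l2F σ) := by
  unfold L2Row.maj
  have e : 2 * (n + m) = 2 * n + 2 * m := by ring
  rw [e, tr_absK_add (2 * n) (2 * m)]
  refine tr_absK_congr hτ (2 * n) _ _ fun τ hτ' _ => ?_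
  rw [← tra2_absK_const_mul]
  refine tr_absK_congr hτ' (2 * m) _ _ fun τ' _ hag => ?_
  have er : q + 2 * n + 2 * m = q + (2 * n + 2 * m) := by ring
  rw [l2a7_off_add, l2a7_off_congr W.N q n (τ := τ') (τ' := τ) hag, mul_assoc, er]
  congr 3
  funext σ
  rw [l2a7_ins_add, l2a7_ins_congr W q n (τ := τ') (τ' := τ) hag, abs_mul, abs_mul, mul_assoc]

theorem l2a7_maj_obs (q : ℕ) (τ0 : JtTopo) (P : (ℕ → S1) → ℝ) (i j m : ℕ) :
    W.maj m q τ0 (l2Obs P i j) = W.maj m q τ0 fun σ => P (l2F σ) := by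
  unfold L2Row.maj l2Obs
  have h : ∀ b : Bool, |jtSp b| = 1 := fun b => by cases b <;> simp [jtSp]
  simp only [abs_mul, h, mul_one]

theorem l2a7_maj_eq (q : ℕ) (τ0 : JtTopo) (P : (ℕ → S1) → ℝ) (m : ℕ) :
    W.maj m q τ0 (fun σ => P (l2F σ)) = W.jt.rem q τ0 (fun σ => P (l2F σ)) m := rfl

/-- bound of one term of `rem2` -/
theorem l2a7_rem2T_abs (hW : W.Ok) {q : ℕ} {τ0 : JtTopo} (hτ : IsTr W.N q τ0) {P : (ℕ → S1) → ℝ} (hP : TrUses q P)
    {F : ℕ → JtTopo → JtFn} {C : ℝ} (hC : 0 ≤ C) {k n : ℕ} (hn : n ≤ k)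
    (hF : ∀ τ, IsTr W.N (q + 2 * n) τ → |F (q + 2 * n) τ (Finset.range n)| ≤ C) :
    |W.rem2T F k q τ0 P n| ≤ C * Real.exp (W.G (q + 2 * (k + 1))) * W.maj (k + 1) q τ0 fun σ => P (l2F σ) := by
  unfold L2Row.rem2T
  have e1 : q + 2 * n + 2 * (k - n + 1) = q + 2 * (k + 1) := by omega
  have e2 : n + (k - n + 1) = k + 1 := by omega
  set c1 : ℝ := ((2 : ℝ) ^ n * (n ! : ℝ))⁻¹ with hc1
  set c2 : ℝ := ((2 : ℝ) ^ (k - n + 1) * ((k - n + 1) ! : ℝ))⁻¹ with hc2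
  have hfac : ∀ a : ℕ, ((2 : ℝ) ^ a * (a ! : ℝ))⁻¹ ≤ 1 ∧ 0 ≤ ((2 : ℝ) ^ a * (a ! : ℝ))⁻¹ := by
    intro a
    have h1 : (1 : ℝ) ≤ (2 : ℝ) ^ a := one_le_pow₀ (by norm_num)
    have h2 : (1 : ℝ) ≤ (a ! : ℝ) := by exact_mod_cast Nat.factorial_pos a
    exact ⟨inv_le_one_of_one_le₀ (by nlinarith), by positivity⟩
  have hmaj := l2a7_maj_nonneg W hW hτ (k + 1) fun σ => P (l2F σ)
  have hE : 0 < Real.exp (W.G (q + 2 * (k + 1))) := Real.exp_pos _
  generalize hEd : Real.exp (W.G (q + 2 * (k + 1))) = E at hE ⊢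
  rw [abs_mul, abs_of_nonneg (hfac n).2]
  have hstep : trAbsK W.ms W.N (2 * n) q τ0 (fun τ => |l2Off W.N q n τ * F (q + 2 * n) τ (Finset.range n) *
        W.remT (k - n) (q + 2 * n) τ fun σ => P (l2F σ) * W.ins q n τ (l2F σ)|)
      ≤ (C * (c2 * E)) * W.maj (k + 1) q τ0 fun σ => P (l2F σ) := by
    rw [← e2, ← l2a7_maj_cat W hW hτ P n (k - n + 1), ← tra2_absK_const_mul]
    refine tr_absK_mono hτ (2 * n) _ _ fun τ hτ' => ?_
    have hR : TrUses (q + 2 * n) fun σ : ℕ → S1 × Bool => P (l2F σ) * W.ins q n τ (l2F σ) := by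
      intro σ σ' h
      exact l2a7_uses_ins W hP n τ (l2F σ) (l2F σ') fun i hi => by unfold l2F; rw [h i hi]
    have h3 := l2a7_remT_abs W hW hτ' hR (k - n)
    rw [e1, hEd] at h3
    have hm0 := l2a7_maj_nonneg W hW hτ' (k - n + 1) fun σ => P (l2F σ) * W.ins q n τ (l2F σ)
    rw [abs_mul, abs_mul, abs_of_nonneg (l2a7_off_nonneg W.N q n τ)]
    calc l2Off W.N q n τ * |F (q + 2 * n) τ (Finset.range n)| * |W.remT (k - n) (q + 2 * n) τ fun σ => P (l2F σ) * W.ins q n τ (l2F σ)|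
        ≤ l2Off W.N q n τ * C * (c2 * E *
            W.maj (k - n + 1) (q + 2 * n) τ fun σ => P (l2F σ) * W.ins q n τ (l2F σ)) := by
          refine mul_le_mul (mul_le_mul_of_nonneg_left (hF τ hτ') (l2a7_off_nonneg W.N q n τ)) h3 (abs_nonneg _)
            (mul_nonneg (l2a7_off_nonneg W.N q n τ) hC)
      _ = _ := by ring
  calc c1 * |trSumK W.ms W.N (2 * n) q τ0 fun τ => l2Off W.N q n τ * F (q + 2 * n) τ (Finset.range n) *
        W.remT (k - n) (q + 2 * n) τ fun σ => P (l2F σ) * W.ins q n τ (l2F σ)|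
      ≤ c1 * ((C * (c2 * E)) * W.maj (k + 1) q τ0 fun σ => P (l2F σ)) :=
        mul_le_mul_of_nonneg_left ((tr_sumK_le (2 * n) _).trans hstep) (hfac n).2
    _ = (c1 * c2) * (C * E * W.maj (k + 1) q τ0 fun σ => P (l2F σ)) := by ring
    _ ≤ 1 * (C * E * W.maj (k + 1) q τ0 fun σ => P (l2F σ)) := by
        refine mul_le_mul_of_nonneg_right ?_ (by positivity)
        calc c1 * c2 ≤ 1 * 1 := mul_le_mul (hfac n).1 (hfac (k - n + 1)).1 (hfac (k - n + 1)).2 zero_le_one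
          _ = 1 := one_mul 1
    _ = _ := one_mul _

theorem l2a7_obs_uses {S1 : Type} {q : ℕ} {P : (ℕ → S1) → ℝ} (hP : TrUses q P) {i j : ℕ} (hi : i < q) (hj : j < q) :
    TrUses q (l2Obs P i j) := by
  intro σ σ' h
  unfold l2Obs
  have h1 : P (l2F σ) = P (l2F σ') := l2a7_uses_lift hP σ σ' h
  rw [h1, h i hi, h j hj]

/-- TEX[LL:found:cavity-quotient] **(A7), absolute form**: the constant depends on the degree only; `G` = Gronwall exponent of the row interpolation for `q + 2 (k+1)` labels -/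
theorem l2a7_abs (k : ℕ) : ∃ C : ℝ, 0 ≤ C ∧ ∀ (S1 : Type) (W : L2Row S1), W.Ok → ∀ (q : ℕ) (τ0 : JtTopo) (P : (ℕ → S1) → ℝ) (i j : ℕ),
    IsTr W.N q τ0 → TrUses q P → i < q → j < q →
    |W.remA7 k q τ0 P i j| ≤ C * Real.exp (W.G (q + 2 * (k + 1))) * W.jt.rem q τ0 (fun σ => P (l2F σ)) (k + 1) := by
  obtain ⟨C0, hC0, hQ⟩ := l2a7_quo_bd k
  refine ⟨1 + (k + 1) * C0, by positivity, ?_⟩
  intro S1 W hW q τ0 P i j hτ hP hi hj
  rw [← l2a7_maj_eq]
  set E := Real.exp (W.G (q + 2 * (k + 1))) with hE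
  set M := W.maj (k + 1) q τ0 fun σ => P (l2F σ) with hM
  have hM0 : 0 ≤ M := by
    rw [hM]
    unfold L2Row.maj
    refine tra2_absK_nonneg _ _ fun τ' => mul_nonneg (l2a7_off_nonneg _ _ _ _) ?_
    have := hW.nu_abs 1 (q + 2 * (k + 1)) τ' (fun σ => |P (l2F σ)| * |W.ins q (k + 1) τ' (l2F σ)|)
      (fun σ => |P (l2F σ)| * |W.ins q (k + 1) τ' (l2F σ)|) (by norm_num)
      (fun σ => le_of_eq (abs_of_nonneg (by positivity)))
    exact (abs_nonneg _).trans this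
  have hE0 : 0 ≤ E := (Real.exp_pos _).le
  have h1 : |W.remT k q τ0 (l2Obs P i j)| ≤ 1 * E * M := by
    have := l2a7_remT_abs W hW hτ (l2a7_obs_uses hP hi hj) k
    rw [l2a7_maj_obs] at this
    refine this.trans ?_
    refine mul_le_mul_of_nonneg_right (mul_le_mul_of_nonneg_right ?_ hE0) hM0
    rw [inv_le_one_iff₀]
    right
    have a1 : (1 : ℝ) ≤ 2 ^ (k + 1) := one_le_pow₀ (by norm_num)
    have a2 : (1 : ℝ) ≤ ((k + 1)! : ℝ) := by exact_mod_cast Nat.one_le_iff_ne_zero.2 (Nat.factorial_ne_zero _)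
    nlinarith
  have h2 : |W.rem2 (fun r τ => W.jt.Quo r q i j τ) k q τ0 P| ≤ (k + 1) * C0 * E * M := by
    have e : W.rem2 (fun r τ => W.jt.Quo r q i j τ) k q τ0 P
        = ∑ n ∈ Finset.range (k + 1), W.rem2T (fun r τ => W.jt.Quo r q i j τ) k q τ0 P n := rfl
    rw [e]
    calc |∑ n ∈ Finset.range (k + 1), W.rem2T (fun r τ => W.jt.Quo r q i j τ) k q τ0 P n|
        ≤ ∑ n ∈ Finset.range (k + 1), |W.rem2T (fun r τ => W.jt.Quo r q i j τ) k q τ0 P n| :=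
          Finset.abs_sum_le_sum_abs _ _
      _ ≤ ∑ _n ∈ Finset.range (k + 1), C0 * E * M := by
          refine Finset.sum_le_sum fun n hn => ?_
          have hn' : n ≤ k := Nat.lt_succ_iff.1 (Finset.mem_range.1 hn)
          exact l2a7_rem2T_abs W hW hτ hP hC0 hn' fun τ _ =>
            hQ S1 W hW _ q i j τ _ (by rw [Finset.card_range]; exact hn')
      _ = (k + 1) * C0 * E * M := by
          rw [Finset.sum_const, Finset.card_range, nsmul_eq_mul]
          push_cast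
          ring
  unfold L2Row.remA7
  calc |W.remT k q τ0 (l2Obs P i j) - W.rem2 (fun r τ => W.jt.Quo r q i j τ) k q τ0 P|
      ≤ |W.remT k q τ0 (l2Obs P i j)| + |W.rem2 (fun r τ => W.jt.Quo r q i j τ) k q τ0 P| := abs_sub _ _
    _ ≤ 1 * E * M + (k + 1) * C0 * E * M := add_le_add h1 h2
    _ = (1 + (k + 1) * C0) * E * M := by ring

end Claimed.Agent.R286
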