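-- KEEP      OWNER helper93 (head LL 02+11)
import Claimed.Agent.R286.L02.Defs
import Claimed.Agent.R286.L02.Law
import Claimed.Agent.R286.Fd.TrA1
import Claimed.Agent.R286.Fd.TrB1
import Claimed.Agent.R286.Fd.TrB2
import Claimed.Agent.R286.Fd.CSym

/-!
# Row 286 (S0533), unit L02: THE INSTANCE THEOREMS      (owner helper93; prefix `ll2_`)

* elementary facts on the moved path `llMv tl P` (length, masses, admissibility, masked clocks);
* `ll2_law`, `ll2_lawD` : the jet contexts `llJs n a P tl`, `llJsD n a P tl i0` satisfy the laws `JtCtx.Law` of `L02/Law.lean` (helper239) with the masses `llMs a P`.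
-/

set_option autoImplicit false

namespace Claimed.Agent.R286

open scoped BigOperators

/-! ### the moved path -/

theorem ll2_mat_len (P : LlStp) : (llMat P).length = P.length := by simp [llMat]

theorem ll2_sc_len (P : LlStp) : (llSc P).length = P.length := by simp [llSc]

theorem ll2_mv_len (tl : Option ℕ) (P : LlStp) : (llMv tl P).length = P.length := by
  cases tl <;> simp [llMv, llMvAt, llMat]

theorem ll2_mv_mass (tl : Option ℕ) (P : LlStp) : (llMv tl P).map SkInc.m = P.map LlInc.m := by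
  cases tl with
  | none => simp [llMv, llMat, Function.comp_def]
  | some js =>
    apply List.ext_getElem
    · simp [llMv, llMvAt]
    · intro i h1 h2
      simp [llMv, llMvAt]

theorem ll2_sc_mass (P : LlStp) : (llSc P).map SkInc.m = P.map LlInc.m := by
  simp [llSc, Function.comp_def]

theorem ll2_lvs_len (n : ℕ) (Q : SkStp) : (skLvs n Q).length = Q.length := by simp [skLvs]

theorem ll2_trMs (n : ℕ) (a : ℝ) (Q : SkStp) (P : LlStp) (h : Q.map SkInc.m = P.map LlInc.m) :
    trMs (skBase n a) (skLvs n Q) = llMs a P := by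
  funext j
  unfold trMs llMs
  rw [← h]
  simp only [skLvs, List.getElem?_map, Option.map_map]
  rfl

theorem ll2_cumB_nonneg {a : ℝ} {Q : SkStp} (hQ : SkAdm a Q) (t : ℕ) : 0 ≤ skCumB Q t := by
  unfold skCumB
  apply List.sum_nonneg
  intro x hx
  obtain ⟨e, he, rfl⟩ := List.mem_map.1 hx
  exact (hQ.2 e (List.mem_of_mem_take he)).2.2.1

theorem ll2_mv_adm {a : ℝ} {P : LlStp} (hP : LlStpAdm a P) (tl : Option ℕ) : SkAdm a (llMv tl P) := by
  cases tl with
  | none => exact hP.1
  | some js =>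
    have h1 := hP.1
    constructor
    · have hm : ((llMv (some js) P).map SkInc.m).Pairwise (· ≤ ·) := by
        rw [ll2_mv_mass]
        have := h1.1
        have h2 : ((llMat P).map SkInc.m).Pairwise (· ≤ ·) := by
          rw [List.pairwise_map]; exact this
        have h3 : (llMat P).map SkInc.m = P.map LlInc.m := ll2_mv_mass none P
        rwa [h3] at h2
      rw [List.pairwise_map] at hm
      exact hm
    · intro e he
      simp only [llMv, llMvAt, List.mem_mapIdx] at he
      obtain ⟨i, hi, rfl⟩ := he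
      have hmem : (⟨P[i].m, P[i].db, P[i].dh⟩ : SkInc) ∈ llMat P := by
        unfold llMat
        exact List.mem_map.2 ⟨P[i], List.getElem_mem hi, rfl⟩
      have h4 := h1.2 _ hmem
      refine ⟨h4.1, h4.2.1, ?_, h4.2.2.2⟩
      show 0 ≤ (if i < js then 0 else if i = js then skCumB (llMat P) (js + 1) else P[i].db)
      split_ifs
      · exact le_rfl
      · exact ll2_cumB_nonneg h1 _
      · exact h4.2.2.1

/-! ### overlaps -/

theorem ll2_sp_abs {n : ℕ} (σ : SkCfg n) (i : Fin n) : |skSp σ i| = 1 := by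
  unfold skSp Claims.C0461.pmSpin
  split_ifs <;> simp

theorem ll2_ov_abs {n : ℕ} (σ σ' : SkCfg n) : |skOv σ σ'| ≤ 1 := by
  unfold skOv
  rcases Nat.eq_zero_or_pos n with rfl | hn
  · simp
  have hn' : (0 : ℝ) < n := by exact_mod_cast hn
  rw [abs_div, abs_of_pos hn', div_le_one hn']
  calc |∑ i, skSp σ i * skSp σ' i| ≤ ∑ i : Fin n, |skSp σ i * skSp σ' i| := Finset.abs_sum_le_sum_abs _ _
    _ = ∑ _i : Fin n, (1 : ℝ) := by simp [abs_mul, ll2_sp_abs]
    _ = n := by simp

theorem ll2_ov_symm {n : ℕ} (σ σ' : SkCfg n) : skOv σ σ' = skOv σ' σ := by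
  unfold skOv; simp only [mul_comm]

theorem ll2_ovD_abs {n : ℕ} (i0 : Fin n) (σ σ' : SkCfg n) : |skOvD i0 σ σ'| ≤ 1 := by
  unfold skOvD
  have hn : 0 < n := i0.pos
  have hn' : (0 : ℝ) < n := by exact_mod_cast hn
  rw [abs_div, abs_of_pos hn', div_le_one hn']
  calc |∑ i, if i = i0 then 0 else skSp σ i * skSp σ' i|
      ≤ ∑ i : Fin n, |if i = i0 then 0 else skSp σ i * skSp σ' i| := Finset.abs_sum_le_sum_abs _ _
    _ ≤ ∑ _i : Fin n, (1 : ℝ) := by
        apply Finset.sum_le_sum
        intro i _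
        split_ifs
        · simp
        · simp [abs_mul, ll2_sp_abs]
    _ = n := by simp

theorem ll2_ovD_symm {n : ℕ} (i0 : Fin n) (σ σ' : SkCfg n) : skOvD i0 σ σ' = skOvD i0 σ' σ := by
  unfold skOvD; simp only [mul_comm]

/-- deletion of one site costs `1 / n` -/
theorem ll2_ov_sub_ovD {n : ℕ} (i0 : Fin n) (σ σ' : SkCfg n) : skOv σ σ' - skOvD i0 σ σ' = skSp σ i0 * skSp σ' i0 / n := by
  unfold skOv skOvD
  rw [← sub_div, ← Finset.sum_sub_distrib]
  congr 1
  rw [Finset.sum_eq_single i0]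
  · simp
  · intro b _ hb; simp [hb]
  · intro h; exact absurd (Finset.mem_univ _) h

/-! ### the laws -/

theorem ll2_nu_law (n : ℕ) {a : ℝ} (ha : 0 < a) {Q : SkStp} (hQ : SkAdm a Q) :
    JtNuLaw Q.length fun q τ T => trNu (skBase n a) (skLvs n Q) q τ 0 T where
  rep := fun q τ => ⟨trPr (skBase n a) (skLvs n Q) q τ 0,
    fun s => tr_pr_nonneg (sk_sy_base_ok n ha) (sk_sy_adm hQ) q τ 0 s,
    tr_pr_sum (sk_sy_base_ok n ha) (sk_sy_adm hQ) q τ 0,
    fun P => tr_nu_eq_sum (sk_sy_base_ok n ha) (sk_sy_adm hQ) q τ 0 P⟩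
  congr := fun q τ τ' h P => tr_nu_congr _ _ h 0 P
  comap := fun q p τ hτ f hf P hP =>
    tr_nu_comap (sk_sy_base_ok n ha) (sk_sy_adm hQ) (by rw [ll2_lvs_len]; exact hτ) 0 f hf P hP

/-- configurations of one site -/
def ll2One : (Fin 1 → Bool) ≃ Bool := Equiv.funUnique (Fin 1) Bool

theorem ll2_nuS_law {a : ℝ} (ha : 0 < a) {P : LlStp} (hP : LlStpAdm a P) : JtNuLaw P.length (llNuS a P) := by
  have h := ll2_nu_law 1 ha hP.2
  rw [ll2_sc_len] at h
  refine ⟨?_, ?_, ?_⟩
  · intro q τ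
    obtain ⟨p, h0, h1, hp⟩ := h.rep q τ
    let E : (Fin q → Fin 1 → Bool) ≃ (Fin q → Bool) := Equiv.piCongrRight fun _ => ll2One
    refine ⟨fun s => p (E.symm s), fun s => h0 _, ?_, ?_⟩
    · rw [← h1]; exact Equiv.sum_comp E.symm p
    · intro T
      unfold llNuS
      rw [hp]
      rw [← Equiv.sum_comp E.symm]
      apply Finset.sum_congr rfl
      intro s _
      congr 2
      funext x
      unfold trExt
      split_ifs with hx
      · rfl
      · rfl
  · intro q τ τ' hτ T
    exact h.congr q τ τ' hτ _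
  · intro q p τ hτ f hf T hT
    unfold llNuS
    exact h.comap q p τ hτ f hf (fun σ => T fun x => σ x 0)
      (fun σ σ' hσ => hT _ _ fun i hi => by rw [hσ i hi])

theorem ll2_isMs {a : ℝ} (ha : 0 < a) {P : LlStp} (hP : LlStpAdm a P) : IsMs P.length (llMs a P) := by
  have h := (tr_ms_isMs (sk_sy_base_ok 1 ha) (sk_sy_adm (n := 1) hP.2)).1
  rw [ll2_trMs 1 a (llSc P) P (ll2_sc_mass P), ll2_lvs_len, ll2_sc_len] at h
  exact h

theorem ll2_qC {a : ℝ} {P : LlStp} (τ : JtTopo) (hτ : IsTr P.length 2 τ) :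
    llQs a P (τ 0 1) = llNuS a P 2 τ fun t => jtSp (t 0) * jtSp (t 1) := by
  unfold llQs llNuS
  apply tr_nu_congr
  intro x y hx hy
  unfold trPair
  have hx' : x = 0 ∨ x = 1 := by omega
  have hy' : y = 0 ∨ y = 1 := by omega
  rcases hx' with rfl | rfl <;> rcases hy' with rfl | rfl
  · simp [hτ.diag 0 (by omega)]
  · simp
  · simp [hτ.symm 1 0 (by omega) (by omega)]
  · simp [hτ.diag 1 (by omega)]

theorem ll2_mk (tl : Option ℕ) (t : ℕ) : llMk tl t = 0 ∨ llMk tl t = 1 := by
  cases tl with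
  | none => right; rfl
  | some js =>
    unfold llMk
    split_ifs
    · right; rfl
    · left; rfl

/-- **INSTANCE**: the jet context of the `n`-site model satisfies the laws of `L02/Law.lean` -/
theorem ll2_law (n : ℕ) {a : ℝ} (ha : 0 < a) {P : LlStp} (hP : LlStpAdm a P) (tl : Option ℕ) :
    (llJs n a P tl).Law (llMs a P) where
  isMs := ll2_isMs ha hP
  sumK := fun _ _ _ _ => rfl
  absK := fun _ _ _ _ => rfl
  nu := by
    have h := ll2_nu_law n ha (ll2_mv_adm hP tl)
    rw [ll2_mv_len] at h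
    exact h
  nuK := ll2_nuS_law ha hP
  qC := fun τ hτ => ll2_qC τ hτ
  ov_abs := ll2_ov_abs
  ov_symm := ll2_ov_symm
  msk := ll2_mk tl

/-- **INSTANCE**: the same with deleted overlaps -/
theorem ll2_lawD (n : ℕ) {a : ℝ} (ha : 0 < a) {P : LlStp} (hP : LlStpAdm a P) (tl : Option ℕ) (i0 : Fin n) :
    (llJsD n a P tl i0).Law (llMs a P) where
  isMs := ll2_isMs ha hP
  sumK := fun _ _ _ _ => rfl
  absK := fun _ _ _ _ => rfl
  nu := (ll2_law n ha hP tl).nu
  nuK := ll2_nuS_law ha hP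
  qC := fun τ hτ => ll2_qC τ hτ
  ov_abs := ll2_ovD_abs i0
  ov_symm := ll2_ovD_symm i0
  msk := ll2_mk tl

theorem ll2_inst_eqns_cite : True := by
  have := @ll2One.eq_1
  trivial

end Claimed.Agent.R286
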