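-- OWNER helper71 (co-architect LL02, block TEX[LL:found:estimates]#203-261)
import Claimed.Agent.R286.Fd.CTr
import Claimed.Agent.R286.Fd.TrCb
import Claimed.Agent.R286.Fd.TrC3

/-!
# Row 286 (S0533), LL Section 2.3 (02-foundations l.203-261): SIGNED ALLOCATION, what is not already in `Fd/TrA*`      (helper71; prefix `ll_al_`)

TEX[LL:found:estimates]#203-261.   Rows, total variation, order of allocation, pruning, split densities: `Fd/TrA1..6` (proved).   HERE (l.236-247):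
"Constant diagonal covariance changes contribute only to the self correction.  Pressure insertions after that correction use ordered
off-diagonal pairs and a factor 1/2 per insertion; for subsequent insertions the constant diagonal terms cancel by the row-sum rule."

* `ll_al_sum_const`      a FREE label (summand constant over its attachments) sums to `0` (root mass `0`)
* `ll_al_coinc`          the allocations of a pair whose two labels coincide, constant summand: sum `0`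
* `llVo`                 the OFF-DIAGONAL insertion (`0` on coinciding labels)
* `ll_al_cov`            eq. (2) with off-diagonal pairs only (constant diagonal `LlDiagC`), `q ≥ 1` old labels
* `ll_al_cov_iter`       iterated form: every pair off-diagonal (= the factor `JtCtx.off`)
* `ll_al_press`          self corrected pressure: first derivative = per root off-diagonal sum
* `ll_al_press_iter`     `j + 1`-st derivative of the pressure = `(1/2)^(j+1)` per root sum `trSumK (2 j + 1) 1 τ₁` (= the shape of `JtCtx.evR`)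
* `ll_al_iter`           general engine: `j` more pairs on `trSumK k q τ (τ' ↦ gcNu θ n τ' z (R τ'))`, `R` may depend on the topology
* `ll_al_taylor`, `ll_al_press_taylor`   EXACT Taylor formulas `θ = 0 → 1` with integral remainder (`llDer`, `llDerF` = the derivatives as signed sums)
NO sorry here; depends on `tr_cov_deriv`, `tr_pressure_deriv` (Fd/TrC2, team P02) only.
-/

set_option autoImplicit false
set_option linter.unusedSectionVars false

namespace Claimed.Agent.R286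

open MeasureTheory ProbabilityTheory

/-! ### pure combinatorics -/

theorem ll_al_sum_add (ms : ℕ → ℝ) (N q : ℕ) (τ : ℕ → ℕ → ℕ) (Φ Ψ : (ℕ → ℕ → ℕ) → ℝ) :
    trSum ms N q τ (fun τ' => Φ τ' + Ψ τ') = trSum ms N q τ Φ + trSum ms N q τ Ψ := by
  unfold trSum
  rw [← Finset.sum_add_distrib]
  refine Finset.sum_congr rfl fun x _ => ?_
  rw [← Finset.sum_add_distrib]
  exact Finset.sum_congr rfl fun j _ => by ring

/-- a FREE label: the summand does not depend on the attachment -/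
theorem ll_al_sum_const {N q : ℕ} {τ : ℕ → ℕ → ℕ} {ms : ℕ → ℝ} (hτ : IsTr N q τ) (hq : 0 < q)
    (Φ : (ℕ → ℕ → ℕ) → ℝ) (c : ℝ) (hΦ : ∀ y j, y < q → j ≤ N + 1 → Φ (trAtt N q τ y j) = c) :
    trSum ms N q τ Φ = 0 := by
  have h := tr_row_collapse (ms := ms) hτ hq (Nat.zero_le _) Φ c (fun y j hy _ _ hj => hΦ y j hy hj)
  have e1 : (Finset.range q).filter (fun y => 0 ≤ τ 0 y) = Finset.range q :=
    Finset.filter_true_of_mem fun _ _ => Nat.zero_le _
  have e2 : Finset.Icc 0 (N + 1) = Finset.range (N + 2) := by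
    ext j; simp only [Finset.mem_Icc, Finset.mem_range]; omega
  rw [e1, e2] at h
  unfold trSum
  rw [h]
  simp [trPm]

/-- the last label coincides with the label `q`: total weight `ms N` -/
theorem ll_al_coinc_inner {N q : ℕ} {τ₁ : ℕ → ℕ → ℕ} {ms : ℕ → ℝ} (hτ : IsTr N (q + 1) τ₁) (c : ℝ) :
    trSum ms N (q + 1) τ₁ (fun τ₂ => if τ₂ q (q + 1) = N + 1 then c else 0) = ms N * c := by
  have h := tr_row_collapse (ms := ms) hτ (Nat.lt_succ_self q) (le_refl (N + 1))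
    (fun τ₂ => if τ₂ q (q + 1) = N + 1 then c else 0) c (fun y j hy h1 h2 h3 => by
      have hj : j = N + 1 := le_antisymm h3 h2
      have : trAtt N (q + 1) τ₁ y j q (q + 1) = N + 1 := by
        unfold trAtt
        rw [if_neg (by omega), if_pos rfl, hj]
        exact min_eq_left h1
      simp only [this, if_true])
  have e : trPm ms (N + 1) = ms N := by simp [trPm]
  rw [e] at h
  rw [← h]
  unfold trSum
  rw [Finset.sum_filter]
  refine Finset.sum_congr rfl fun x hx => ?_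
  have hx' := Finset.mem_range.1 hx
  have hval : ∀ j, trAtt N (q + 1) τ₁ x j q (q + 1) = min j (τ₁ q x) := by
    intro j
    unfold trAtt
    rw [if_neg (by omega), if_pos rfl]
  by_cases hc : N + 1 ≤ τ₁ q x
  · rw [if_pos hc]
    have hsub : Finset.Icc (N + 1) (N + 1) ⊆ Finset.range (N + 2) := by
      intro j hj; rw [Finset.mem_Icc] at hj; rw [Finset.mem_range]; omega
    refine (Finset.sum_subset hsub fun j hj hj' => ?_).symm
    rw [Finset.mem_range] at hj
    rw [Finset.mem_Icc] at hj'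
    have : min j (τ₁ q x) ≠ N + 1 := by
      intro h'
      have := min_le_left j (τ₁ q x)
      omega
    beta_reduce
    rw [hval, if_neg this, mul_zero]
  · rw [if_neg hc]
    refine Finset.sum_eq_zero fun j _ => ?_
    have : min j (τ₁ q x) ≠ N + 1 := by
      intro h'
      have := min_le_right j (τ₁ q x)
      omega
    beta_reduce
    rw [hval, if_neg this, mul_zero]

/-- **a coinciding pair with a constant summand sums to zero** (row-sum rule, `q ≥ 1` old labels) -/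
theorem ll_al_coinc {N q : ℕ} {τ : ℕ → ℕ → ℕ} {ms : ℕ → ℝ} (hτ : IsTr N q τ) (hq : 0 < q) (c : ℝ) :
    trSum ms N q τ (fun τ₁ => trSum ms N (q + 1) τ₁ fun τ₂ => if τ₂ q (q + 1) = N + 1 then c else 0) = 0 :=
  ll_al_sum_const hτ hq _ (ms N * c) fun _ _ hy hj => ll_al_coinc_inner (tr_att_isTr hτ hy hj) c

/-! ### the off-diagonal insertion -/

/-- the OFF-DIAGONAL insertion -/
def llVo {S : Type} (dK : ℕ → S → S → ℝ) (N t : ℕ) (s s' : S) : ℝ := if t ≤ N then trV dK N t s s' else 0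

section cov
variable {S Φ ι : Type} [Fintype S] [Fintype Φ] [Fintype ι] [Inhabited S]

/-- the derivative of every covariance increment has a constant diagonal -/
def LlDiagC (feat : Φ → S → ι → ℝ) (hs : List (ℝ × (Φ → ℝ) × (Φ → ℝ))) : Prop :=
  ∀ j s s', gcDK feat hs j s s = gcDK feat hs j s' s'

/-- the total diagonal change -/
def llDg (feat : Φ → S → ι → ℝ) (hs : List (ℝ × (Φ → ℝ) × (Φ → ℝ))) : ℝ :=
  ∑ j ∈ Finset.range hs.length, gcDK feat hs j default default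

theorem ll_al_V_diag {feat : Φ → S → ι → ℝ} {hs : List (ℝ × (Φ → ℝ) × (Φ → ℝ))} (hd : LlDiagC feat hs) (s : S) :
    trV (gcDK feat hs) hs.length (hs.length + 1) s s = llDg feat hs := by
  unfold trV llDg
  rw [min_eq_right (Nat.le_succ _)]
  exact Finset.sum_congr rfl fun j _ => hd j s default

/-- a coinciding pair: the insertion is the constant `llDg`, the two labels are pruned -/
theorem ll_al_pair_coinc {B : GhB S} (hB : B.Ok) {ls : List (GhLv S ι)} (hls : GhAdm B 0 ls) {q : ℕ} {τ₂ : ℕ → ℕ → ℕ}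
    (hτ₂ : IsTr ls.length (q + 2) τ₂) (hc : τ₂ q (q + 1) = ls.length + 1) (z : S → ℝ) (P : (ℕ → S) → ℝ) (hP : TrUses q P)
    (V : S → S → ℝ) (D : ℝ) (hV : ∀ s, V s s = D) :
    trNu B ls (q + 2) τ₂ z (fun σ => P σ * V (σ q) (σ (q + 1))) = D * trNu B ls q τ₂ z P := by
  rw [tr_nu_coinc hB hls hτ₂ z _ (x := q) (y := q + 1) (by omega) (by omega) hc]
  have e : (fun σ : ℕ → S => P (Function.update σ (q + 1) (σ q)) *
      V (Function.update σ (q + 1) (σ q) q) (Function.update σ (q + 1) (σ q) (q + 1))) = fun σ => D * P σ := by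
    funext σ
    rw [Function.update_self, Function.update_of_ne (by omega), hV,
      hP (Function.update σ (q + 1) (σ q)) σ fun i hi => Function.update_of_ne (by omega) _ _]
    ring
  rw [e, tcb_nu_mul_const hB hls]
  congr 1
  have hP1 : TrUses (q + 1) P := fun σ σ' h => hP σ σ' fun i hi => h i (by omega)
  rw [tr_nu_prune hB hls hτ₂ z hP1, tr_nu_prune hB hls (tr_isTr_mono hτ₂ (by omega)) z hP]

theorem ll_al_isTr_len {B : GhB S} (feat : Φ → S → ι → ℝ) {hs : List (ℝ × (Φ → ℝ) × (Φ → ℝ))} (hhs : GcAffAdm B.a hs) (θ : ℝ)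
    {q : ℕ} {τ : ℕ → ℕ → ℕ} (hτ : IsTr hs.length q τ) : IsTr (gcLs feat (gcAff hs θ)).length q τ := by
  rw [(tcb_gc_adm (B := B) feat hhs θ).2.1]; exact hτ

/-- splitting of the insertion into its off-diagonal part and the coincidence term -/
theorem ll_al_split {B : GhB S} (hB : B.Ok) (feat : Φ → S → ι → ℝ) {hs : List (ℝ × (Φ → ℝ) × (Φ → ℝ))}
    (hhs : GcAffAdm B.a hs) (hd : LlDiagC feat hs) {q : ℕ} {τ τ₂ : ℕ → ℕ → ℕ} (hτ₂ : IsTr hs.length (q + 2) τ₂)
    (hag : ∀ y z, y < q → z < q → τ₂ y z = τ y z) (z : S → ℝ) (P : (ℕ → S) → ℝ) (hP : TrUses q P) (θ : ℝ) :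
    gcNu B feat hs θ (q + 2) τ₂ z (fun σ => P σ * trV (gcDK feat hs) hs.length (τ₂ q (q + 1)) (σ q) (σ (q + 1)))
      = gcNu B feat hs θ (q + 2) τ₂ z (fun σ => P σ * llVo (gcDK feat hs) hs.length (τ₂ q (q + 1)) (σ q) (σ (q + 1)))
        + if τ₂ q (q + 1) = hs.length + 1 then llDg feat hs * gcNu B feat hs θ q τ z P else 0 := by
  have hadm := tcb_gc_adm (B := B) feat hhs θ
  by_cases hc : τ₂ q (q + 1) = hs.length + 1
  · rw [if_pos hc]
    have e0 : (fun σ : ℕ → S => P σ * llVo (gcDK feat hs) hs.length (τ₂ q (q + 1)) (σ q) (σ (q + 1))) = fun _ => 0 := by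
      funext σ
      unfold llVo
      rw [if_neg (by omega), mul_zero]
    unfold gcNu
    rw [e0, tcb_nu_const hB hadm.1, zero_add, hc]
    rw [ll_al_pair_coinc hB hadm.1 (ll_al_isTr_len feat hhs θ hτ₂) (by rw [hadm.2.1]; exact hc) z P hP
      (trV (gcDK feat hs) hs.length (hs.length + 1)) (llDg feat hs) (ll_al_V_diag hd)]
    rw [tr_nu_congr B _ hag]
  · rw [if_neg hc, add_zero]
    have hle : τ₂ q (q + 1) ≤ hs.length := by
      have := hτ₂.le q (q + 1) (by omega) (by omega)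
      omega
    congr 1
    funext σ
    unfold llVo
    rw [if_pos hle]

/-- **eq. (2) with OFF-DIAGONAL pairs only** (constant diagonal, at least one old label) -/
theorem ll_al_cov {B : GhB S} (hB : B.Ok) (feat : Φ → S → ι → ℝ) {hs : List (ℝ × (Φ → ℝ) × (Φ → ℝ))}
    (hhs : GcAffAdm B.a hs) (hd : LlDiagC feat hs) {q : ℕ} (hq : 0 < q) {τ : ℕ → ℕ → ℕ} (hτ : IsTr hs.length q τ) (z : S → ℝ)
    (P : (ℕ → S) → ℝ) (hP : TrUses q P) {θ : ℝ} (hθ : θ ∈ Set.Icc (0 : ℝ) 1) :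
    HasDerivWithinAt (fun θ => gcNu B feat hs θ q τ z P)
      (1 / 2 * trSumK (gcMs B.a hs) hs.length 2 q τ fun τ₂ =>
        gcNu B feat hs θ (q + 2) τ₂ z fun σ => P σ * llVo (gcDK feat hs) hs.length (τ₂ q (q + 1)) (σ q) (σ (q + 1)))
      (Set.Icc 0 1) θ := by
  refine (tr_cov_deriv hB feat hhs hτ z P hP hθ).congr_deriv ?_
  congr 1
  have h1 : (trSum (gcMs B.a hs) hs.length q τ fun τ₁ => trSum (gcMs B.a hs) hs.length (q + 1) τ₁ fun τ₂ =>
        gcNu B feat hs θ (q + 2) τ₂ z fun σ => P σ * trV (gcDK feat hs) hs.length (τ₂ q (q + 1)) (σ q) (σ (q + 1)))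
      = trSumK (gcMs B.a hs) hs.length 2 q τ fun τ₂ =>
        gcNu B feat hs θ (q + 2) τ₂ z fun σ => P σ * trV (gcDK feat hs) hs.length (τ₂ q (q + 1)) (σ q) (σ (q + 1)) := rfl
  rw [h1, tr_sumK_congr hτ 2 _ _ fun τ₂ hτ₂ hag => ll_al_split hB feat hhs hd hτ₂ hag z P hP θ]
  simp only [trSumK]
  simp_rw [ll_al_sum_add]
  rw [ll_al_coinc hτ hq, add_zero]

/-- one more off-diagonal pair on a signed sum of tree numbers; `R τ'` = test which may depend on the topology of the `n` labels present -/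
theorem ll_al_step {B : GhB S} (hB : B.Ok) (feat : Φ → S → ι → ℝ) {hs : List (ℝ × (Φ → ℝ) × (Φ → ℝ))}
    (hhs : GcAffAdm B.a hs) (hd : LlDiagC feat hs) {q k n : ℕ} (hn : q + k = n) (hn0 : 0 < n) {τ : ℕ → ℕ → ℕ}
    (hτ : IsTr hs.length q τ) (z : S → ℝ) (R : (ℕ → ℕ → ℕ) → (ℕ → S) → ℝ) (hR : ∀ τ', TrUses n (R τ'))
    (hloc : ∀ τ' τ'' : ℕ → ℕ → ℕ, (∀ y z, y < n → z < n → τ' y z = τ'' y z) → R τ' = R τ'')
    {θ : ℝ} (hθ : θ ∈ Set.Icc (0 : ℝ) 1) :
    HasDerivWithinAt (fun θ => trSumK (gcMs B.a hs) hs.length k q τ fun τ' => gcNu B feat hs θ n τ' z (R τ'))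
      (1 / 2 * trSumK (gcMs B.a hs) hs.length (k + 2) q τ fun τ₂ =>
        gcNu B feat hs θ (n + 2) τ₂ z fun σ => R τ₂ σ * llVo (gcDK feat hs) hs.length (τ₂ n (n + 1)) (σ n) (σ (n + 1)))
      (Set.Icc 0 1) θ := by
  subst hn
  have h1 := tcb_sumK_hasDeriv (ms := gcMs B.a hs) (s := Set.Icc (0 : ℝ) 1) (θ := θ) k hτ
    (fun θ τ' => gcNu B feat hs θ (q + k) τ' z (R τ'))
    (fun τ' => 1 / 2 * trSumK (gcMs B.a hs) hs.length 2 (q + k) τ' fun τ₂ =>
        gcNu B feat hs θ (q + k + 2) τ₂ z fun σ => R τ' σ *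
          llVo (gcDK feat hs) hs.length (τ₂ (q + k) (q + k + 1)) (σ (q + k)) (σ (q + k + 1)))
    (fun τ' hτ' => ll_al_cov hB feat hhs hd hn0 hτ' z (R τ') (hR τ') hθ)
  refine h1.congr_deriv ?_
  rw [tr_sumK_add k 2, tcb_sumK_mul_left]
  refine tr_sumK_congr hτ k _ _ fun τ' hτ' _ => ?_
  congr 1
  refine tr_sumK_congr hτ' 2 _ _ fun τ₂ _ hag => ?_
  rw [hloc τ₂ τ' hag]

/-- product of the off-diagonal insertions of the pairs `0..j-1` over `n` old labels -/
def llVp (dK : ℕ → S → S → ℝ) (N n j : ℕ) (τ : ℕ → ℕ → ℕ) (σ : ℕ → S) : ℝ :=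
  ∏ i ∈ Finset.range j, llVo dK N (τ (n + 2 * i) (n + 2 * i + 1)) (σ (n + 2 * i)) (σ (n + 2 * i + 1))

theorem ll_al_Vp_uses (dK : ℕ → S → S → ℝ) (N n j : ℕ) (τ : ℕ → ℕ → ℕ) : TrUses (n + 2 * j) (llVp dK N n j τ) := by
  intro σ σ' h
  unfold llVp
  refine Finset.prod_congr rfl fun i hi => ?_
  have hi' := Finset.mem_range.1 hi
  rw [h (n + 2 * i) (by omega), h (n + 2 * i + 1) (by omega)]

theorem ll_al_Vp_loc (dK : ℕ → S → S → ℝ) (N n j : ℕ) (τ τ' : ℕ → ℕ → ℕ)
    (h : ∀ y z, y < n + 2 * j → z < n + 2 * j → τ y z = τ' y z) : llVp dK N n j τ = llVp dK N n j τ' := by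
  funext σ
  unfold llVp
  refine Finset.prod_congr rfl fun i hi => ?_
  have hi' := Finset.mem_range.1 hi
  rw [h (n + 2 * i) (n + 2 * i + 1) (by omega) (by omega)]

theorem ll_al_Vp_succ (dK : ℕ → S → S → ℝ) (N n j : ℕ) (τ : ℕ → ℕ → ℕ) (σ : ℕ → S) :
    llVp dK N n (j + 1) τ σ = llVp dK N n j τ σ *
      llVo dK N (τ (n + 2 * j) (n + 2 * j + 1)) (σ (n + 2 * j)) (σ (n + 2 * j + 1)) := by
  unfold llVp
  rw [Finset.prod_range_succ]

/-- first pair split off -/
theorem ll_al_Vp_succ' (dK : ℕ → S → S → ℝ) (N n j : ℕ) (τ : ℕ → ℕ → ℕ) (σ : ℕ → S) :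
    llVp dK N n (j + 1) τ σ = llVo dK N (τ n (n + 1)) (σ n) (σ (n + 1)) * llVp dK N (n + 2) j τ σ := by
  unfold llVp
  rw [Finset.prod_range_succ', mul_comm]
  congr 1
  refine Finset.prod_congr rfl fun i _ => ?_
  have e : n + 2 * (i + 1) = n + 2 + 2 * i := by ring
  rw [e]

/-- **iterated derivative of a signed sum of tree numbers**: `j` more off-diagonal pairs, a factor `1/2` each -/
theorem ll_al_iter {B : GhB S} (hB : B.Ok) (feat : Φ → S → ι → ℝ) {hs : List (ℝ × (Φ → ℝ) × (Φ → ℝ))}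
    (hhs : GcAffAdm B.a hs) (hd : LlDiagC feat hs) {q k n : ℕ} (hn : q + k = n) (hn0 : 0 < n) {τ : ℕ → ℕ → ℕ}
    (hτ : IsTr hs.length q τ) (z : S → ℝ) (R : (ℕ → ℕ → ℕ) → (ℕ → S) → ℝ) (hR : ∀ τ', TrUses n (R τ'))
    (hloc : ∀ τ' τ'' : ℕ → ℕ → ℕ, (∀ y z, y < n → z < n → τ' y z = τ'' y z) → R τ' = R τ'') (j : ℕ) :
    ∀ θ ∈ Set.Icc (0 : ℝ) 1,
    iteratedDerivWithin j (fun θ => trSumK (gcMs B.a hs) hs.length k q τ fun τ' => gcNu B feat hs θ n τ' z (R τ'))
        (Set.Icc 0 1) θ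
      = (1 / 2) ^ j * trSumK (gcMs B.a hs) hs.length (k + 2 * j) q τ fun τ' =>
        gcNu B feat hs θ (n + 2 * j) τ' z fun σ => R τ' σ * llVp (gcDK feat hs) hs.length n j τ' σ := by
  induction j with
  | zero =>
    intro θ _
    simp [iteratedDerivWithin_zero, llVp]
  | succ j ih =>
    intro θ hθ
    rw [iteratedDerivWithin_succ]
    have hstep := ll_al_step hB feat hhs hd (q := q) (k := k + 2 * j) (n := n + 2 * j) (by omega) (by omega) hτ z
      (fun τ' σ => R τ' σ * llVp (gcDK feat hs) hs.length n j τ' σ)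
      (fun τ' σ σ' h => by
        beta_reduce
        rw [hR τ' σ σ' fun i hi => h i (by omega), ll_al_Vp_uses _ _ n j τ' σ σ' h])
      (fun τ' τ'' h => by
        funext σ
        rw [hloc τ' τ'' fun y z hy hz => h y z (by omega) (by omega), ll_al_Vp_loc _ _ n j τ' τ'' h]) hθ
    rw [derivWithin_congr (fun θ' hθ' => ih θ' hθ') (ih θ hθ),
      (hstep.const_mul ((1 / 2 : ℝ) ^ j)).derivWithin (uniqueDiffOn_Icc zero_lt_one θ hθ)]
    rw [pow_succ, mul_assoc]
    have e1 : k + 2 * (j + 1) = k + 2 * j + 2 := by ring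
    have e2 : n + 2 * (j + 1) = n + 2 * j + 2 := by ring
    rw [e1, e2]
    congr 3
    funext τ'
    congr 1
    funext σ
    rw [ll_al_Vp_succ, mul_assoc]

/-- **iterated eq. (2), every pair off-diagonal** -/
theorem ll_al_cov_iter {B : GhB S} (hB : B.Ok) (feat : Φ → S → ι → ℝ) {hs : List (ℝ × (Φ → ℝ) × (Φ → ℝ))}
    (hhs : GcAffAdm B.a hs) (hd : LlDiagC feat hs) {q : ℕ} (hq : 0 < q) {τ : ℕ → ℕ → ℕ} (hτ : IsTr hs.length q τ) (z : S → ℝ)
    (P : (ℕ → S) → ℝ) (hP : TrUses q P) (j : ℕ) {θ : ℝ} (hθ : θ ∈ Set.Icc (0 : ℝ) 1) :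
    iteratedDerivWithin j (fun θ => gcNu B feat hs θ q τ z P) (Set.Icc 0 1) θ
      = (1 / 2) ^ j * trSumK (gcMs B.a hs) hs.length (2 * j) q τ fun τ' =>
        gcNu B feat hs θ (q + 2 * j) τ' z fun σ => P σ * llVp (gcDK feat hs) hs.length q j τ' σ := by
  have h := ll_al_iter hB feat hhs hd (q := q) (k := 0) (n := q) rfl hq hτ z (fun _ => P) (fun _ => hP) (fun _ _ _ => rfl) j θ hθ
  rw [zero_add] at h
  exact h

/-! ### the self corrected pressure -/

/-- the tree on one label -/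
theorem ll_al_isTr_one (N : ℕ) : IsTr N 1 (fun _ _ => N + 1) :=
  ⟨fun _ _ _ _ => le_refl _, fun _ _ => rfl, fun _ _ _ _ => rfl, fun _ _ _ _ _ _ => by simp⟩

/-- the pressure after the SELF CORRECTION (the constant diagonal change of the covariance is removed) -/
noncomputable def llFc (B : GhB S) (feat : Φ → S → ι → ℝ) (hs : List (ℝ × (Φ → ℝ) × (Φ → ℝ))) (z : S → ℝ) (θ : ℝ) : ℝ :=
  ghF B (gcLs feat (gcAff hs θ)) z - B.a / 2 * (θ * llDg feat hs)

/-- **first derivative of the self corrected pressure**: per root sum over ONE attached label, off-diagonal pair, factor `1/2` -/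
theorem ll_al_press {B : GhB S} (hB : B.Ok) (feat : Φ → S → ι → ℝ) {hs : List (ℝ × (Φ → ℝ) × (Φ → ℝ))}
    (hhs : GcAffAdm B.a hs) (hd : LlDiagC feat hs) (z : S → ℝ) {θ : ℝ} (hθ : θ ∈ Set.Icc (0 : ℝ) 1) :
    HasDerivWithinAt (llFc B feat hs z)
      (1 / 2 * trSumK (gcMs B.a hs) hs.length 1 1 (fun _ _ => hs.length + 1) fun τ₂ =>
        gcNu B feat hs θ 2 τ₂ z fun σ => llVo (gcDK feat hs) hs.length (τ₂ 0 1) (σ 0) (σ 1))
      (Set.Icc 0 1) θ := by
  have h1 := tr_pressure_deriv hB feat hhs z hθ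
  have h2 : HasDerivWithinAt (fun θ : ℝ => B.a / 2 * (θ * llDg feat hs)) (B.a / 2 * (1 * llDg feat hs)) (Set.Icc 0 1) θ :=
    ((hasDerivWithinAt_id θ _).mul_const _).const_mul _
  refine (h1.sub h2).congr_deriv ?_
  have hτ1 := ll_al_isTr_one hs.length
  have hadm := tcb_gc_adm (B := B) feat hhs θ
  have e1 : (trSum (gcMs B.a hs) hs.length 1 (fun _ _ => hs.length + 1) fun τ₂ =>
        gcNu B feat hs θ 2 τ₂ z fun σ => trV (gcDK feat hs) hs.length (τ₂ 0 1) (σ 0) (σ 1))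
      = trSumK (gcMs B.a hs) hs.length 1 1 (fun _ _ => hs.length + 1) fun τ₂ =>
        gcNu B feat hs θ 2 τ₂ z fun σ => trV (gcDK feat hs) hs.length (τ₂ 0 1) (σ 0) (σ 1) := rfl
  have e2 : ∀ τ₂ : ℕ → ℕ → ℕ, IsTr hs.length (1 + 1) τ₂ → (∀ y z, y < 1 → z < 1 → τ₂ y z = hs.length + 1) →
      (gcNu B feat hs θ 2 τ₂ z fun σ => trV (gcDK feat hs) hs.length (τ₂ 0 1) (σ 0) (σ 1))
        = (gcNu B feat hs θ 2 τ₂ z fun σ => llVo (gcDK feat hs) hs.length (τ₂ 0 1) (σ 0) (σ 1))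
          + if τ₂ 0 (0 + 1) = hs.length + 1 then llDg feat hs else 0 := by
    intro τ₂ hτ₂ _
    have h := ll_al_split hB feat hhs hd (q := 0) (τ := τ₂) (τ₂ := τ₂) hτ₂ (fun _ _ _ _ => rfl) z (fun _ => 1)
      (fun _ _ _ => rfl) θ
    simp only [one_mul, zero_add] at h
    rw [h]
    congr 1
    unfold gcNu
    rw [tcb_nu_const hB hadm.1, mul_one]
  rw [e1, tr_sumK_congr hτ1 1 _ _ e2]
  simp only [trSumK]
  rw [ll_al_sum_add, ll_al_coinc_inner (q := 0) hτ1]
  have e3 : gcMs B.a hs hs.length = B.a := by simp [gcMs]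
  rw [e3]
  ring

/-- **all derivatives of the pressure**: the `j + 1`-st derivative is the per root sum over `2 j + 1` attached labels, `j + 1` off-diagonal pairs
(the shape of `JtCtx.evR`) -/
theorem ll_al_press_iter {B : GhB S} (hB : B.Ok) (feat : Φ → S → ι → ℝ) {hs : List (ℝ × (Φ → ℝ) × (Φ → ℝ))}
    (hhs : GcAffAdm B.a hs) (hd : LlDiagC feat hs) (z : S → ℝ) (j : ℕ) {θ : ℝ} (hθ : θ ∈ Set.Icc (0 : ℝ) 1) :
    iteratedDerivWithin (j + 1) (llFc B feat hs z) (Set.Icc 0 1) θ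
      = (1 / 2) ^ (j + 1) * trSumK (gcMs B.a hs) hs.length (2 * j + 1) 1 (fun _ _ => hs.length + 1) fun τ' =>
        gcNu B feat hs θ (2 * j + 2) τ' z (llVp (gcDK feat hs) hs.length 0 (j + 1) τ') := by
  have hτ1 := ll_al_isTr_one hs.length
  have hg : Set.EqOn (derivWithin (llFc B feat hs z) (Set.Icc 0 1))
      (fun θ => trSumK (gcMs B.a hs) hs.length 1 1 (fun _ _ => hs.length + 1) fun τ₂ =>
        gcNu B feat hs θ 2 τ₂ z fun σ => 1 / 2 * llVo (gcDK feat hs) hs.length (τ₂ 0 1) (σ 0) (σ 1)) (Set.Icc 0 1) := by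
    intro θ' hθ'
    rw [(ll_al_press hB feat hhs hd z hθ').derivWithin (uniqueDiffOn_Icc zero_lt_one θ' hθ'), tcb_sumK_mul_left]
    beta_reduce
    congr 1
    funext τ₂
    unfold gcNu
    rw [tcb_nu_mul_const hB (tcb_gc_adm (B := B) feat hhs θ').1]
  rw [iteratedDerivWithin_succ', iteratedDerivWithin_congr hg hθ]
  rw [ll_al_iter hB feat hhs hd (q := 1) (k := 1) (n := 2) rfl (by norm_num) hτ1 z
    (fun τ₂ σ => 1 / 2 * llVo (gcDK feat hs) hs.length (τ₂ 0 1) (σ 0) (σ 1))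
    (fun τ' σ σ' h => by
      beta_reduce
      rw [h 0 (by norm_num), h 1 (by norm_num)])
    (fun τ' τ'' h => by
      funext σ
      rw [h 0 1 (by norm_num) (by norm_num)]) j θ hθ]
  have e1 : 1 + 2 * j = 2 * j + 1 := by ring
  have e2 : 2 + 2 * j = 2 * j + 2 := by ring
  rw [e1, e2, pow_succ, mul_assoc, tcb_sumK_mul_left _ _ _ _ _ (1 / 2 : ℝ)]
  congr 2
  funext τ'
  unfold gcNu
  rw [← tcb_nu_mul_const hB (tcb_gc_adm (B := B) feat hhs θ).1]
  congr 1
  funext σ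
  rw [ll_al_Vp_succ']
  ring

/-! ### exact Taylor formulas (integral remainder) -/

/-- the `d`-th derivative of a tree number: `2^{-d} ×` signed allocation of `d` off-diagonal pairs -/
noncomputable def llDer (B : GhB S) (feat : Φ → S → ι → ℝ) (hs : List (ℝ × (Φ → ℝ) × (Φ → ℝ))) (z : S → ℝ) (q : ℕ) (τ : ℕ → ℕ → ℕ)
    (P : (ℕ → S) → ℝ) (d : ℕ) (θ : ℝ) : ℝ :=
  (1 / 2) ^ d * trSumK (gcMs B.a hs) hs.length (2 * d) q τ fun τ' =>
    gcNu B feat hs θ (q + 2 * d) τ' z fun σ => P σ * llVp (gcDK feat hs) hs.length q d τ' σ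

/-- the `d + 1`-st derivative of the pressure, per root -/
noncomputable def llDerF (B : GhB S) (feat : Φ → S → ι → ℝ) (hs : List (ℝ × (Φ → ℝ) × (Φ → ℝ))) (z : S → ℝ) (d : ℕ) (θ : ℝ) : ℝ :=
  (1 / 2) ^ (d + 1) * trSumK (gcMs B.a hs) hs.length (2 * d + 1) 1 (fun _ _ => hs.length + 1) fun τ' =>
    gcNu B feat hs θ (2 * d + 2) τ' z (llVp (gcDK feat hs) hs.length 0 (d + 1) τ')

/-- Taylor's formula on `[0,1]` in the form used below -/
theorem ll_al_taylor_gen (f : ℝ → ℝ) (k : ℕ) (hf : ContDiffOn ℝ (k + 1 : ℕ) f (Set.Icc 0 1)) :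
    f 1 = ∑ d ∈ Finset.range (k + 1), ((d.factorial : ℝ))⁻¹ * iteratedDerivWithin d f (Set.Icc 0 1) 0
      + ∫ θ in (0 : ℝ)..1, (1 - θ) ^ k / (k.factorial : ℝ) * iteratedDerivWithin (k + 1) f (Set.Icc 0 1) θ := by
  have hu : Set.uIcc (0 : ℝ) 1 = Set.Icc 0 1 := Set.uIcc_of_le zero_le_one
  have h := taylor_integral_remainder (f := f) (x := 1) (x₀ := 0) (n := k) (by rw [hu]; exact hf)
  rw [hu, taylor_within_apply] at h
  simp only [sub_zero, one_pow, mul_one, smul_eq_mul] at h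
  linarith

/-- **Taylor's formula for a tree number**, every pair off-diagonal -/
theorem ll_al_taylor {B : GhB S} (hB : B.Ok) (feat : Φ → S → ι → ℝ) {hs : List (ℝ × (Φ → ℝ) × (Φ → ℝ))}
    (hhs : GcAffAdm B.a hs) (hd : LlDiagC feat hs) {q : ℕ} (hq : 0 < q) {τ : ℕ → ℕ → ℕ} (hτ : IsTr hs.length q τ) (z : S → ℝ)
    (P : (ℕ → S) → ℝ) (hP : TrUses q P) (k : ℕ) :
    gcNu B feat hs 1 q τ z P = ∑ d ∈ Finset.range (k + 1), ((d.factorial : ℝ))⁻¹ * llDer B feat hs z q τ P d 0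
      + ∫ θ in (0 : ℝ)..1, (1 - θ) ^ k / (k.factorial : ℝ) * llDer B feat hs z q τ P (k + 1) θ := by
  have hc := (tr_cov_contDiffOn hB feat hhs hτ z P hP).of_le (m := ((k + 1 : ℕ) : WithTop ℕ∞)) (by exact_mod_cast le_top)
  rw [ll_al_taylor_gen (fun θ => gcNu B feat hs θ q τ z P) k hc]
  congr 1
  · refine Finset.sum_congr rfl fun d _ => ?_
    rw [ll_al_cov_iter hB feat hhs hd hq hτ z P hP d (Set.left_mem_Icc.2 zero_le_one)]
    rfl
  · refine intervalIntegral.integral_congr fun θ hθ => ?_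
    rw [Set.uIcc_of_le zero_le_one] at hθ
    rw [ll_al_cov_iter hB feat hhs hd hq hτ z P hP (k + 1) hθ]
    rfl

/-- the self corrected pressure is smooth on `[0,1]` -/
theorem ll_al_press_contDiffOn {B : GhB S} (hB : B.Ok) (feat : Φ → S → ι → ℝ) {hs : List (ℝ × (Φ → ℝ) × (Φ → ℝ))}
    (hhs : GcAffAdm B.a hs) (hd : LlDiagC feat hs) (z : S → ℝ) :
    ContDiffOn ℝ (⊤ : ℕ∞) (llFc B feat hs z) (Set.Icc 0 1) := by
  rw [contDiffOn_infty_iff_derivWithin (uniqueDiffOn_Icc zero_lt_one)]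
  refine ⟨fun θ hθ => (ll_al_press hB feat hhs hd z hθ).differentiableWithinAt, ?_⟩
  have hg : ContDiffOn ℝ (⊤ : ℕ∞) (fun θ => 1 / 2 * trSumK (gcMs B.a hs) hs.length 1 1 (fun _ _ => hs.length + 1) fun τ₂ =>
        gcNu B feat hs θ 2 τ₂ z fun σ => llVo (gcDK feat hs) hs.length (τ₂ 0 1) (σ 0) (σ 1)) (Set.Icc 0 1) := by
    refine contDiffOn_const.mul ?_
    refine tr_c3_sumK_contDiffOn (ll_al_isTr_one hs.length) 1
      (fun τ₂ θ => gcNu B feat hs θ 2 τ₂ z fun σ => llVo (gcDK feat hs) hs.length (τ₂ 0 1) (σ 0) (σ 1)) _ _ fun τ' hτ' => ?_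
    exact tr_cov_contDiffOn hB feat hhs hτ' z _ fun σ σ' h => by
      rw [h 0 (by norm_num), h 1 (by norm_num)]
  refine hg.congr fun θ hθ => ?_
  exact (ll_al_press hB feat hhs hd z hθ).derivWithin (uniqueDiffOn_Icc zero_lt_one θ hθ)

/-- **Taylor's formula for the self corrected pressure**, per root -/
theorem ll_al_press_taylor {B : GhB S} (hB : B.Ok) (feat : Φ → S → ι → ℝ) {hs : List (ℝ × (Φ → ℝ) × (Φ → ℝ))}
    (hhs : GcAffAdm B.a hs) (hd : LlDiagC feat hs) (z : S → ℝ) (k : ℕ) :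
    llFc B feat hs z 1 = llFc B feat hs z 0
      + ∑ d ∈ Finset.range k, (((d + 1).factorial : ℝ))⁻¹ * llDerF B feat hs z d 0
      + ∫ θ in (0 : ℝ)..1, (1 - θ) ^ k / (k.factorial : ℝ) * llDerF B feat hs z k θ := by
  have hc := (ll_al_press_contDiffOn hB feat hhs hd z).of_le (m := ((k + 1 : ℕ) : WithTop ℕ∞)) (by exact_mod_cast le_top)
  rw [ll_al_taylor_gen (llFc B feat hs z) k hc, Finset.sum_range_succ']
  congr 1
  · rw [add_comm]
    congr 1
    · simp [iteratedDerivWithin_zero]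
    · refine Finset.sum_congr rfl fun d _ => ?_
      rw [ll_al_press_iter hB feat hhs hd z d (Set.left_mem_Icc.2 zero_le_one)]
      rfl
  · refine intervalIntegral.integral_congr fun θ hθ => ?_
    rw [Set.uIcc_of_le zero_le_one] at hθ
    rw [ll_al_press_iter hB feat hhs hd z k hθ]
    rfl

end cov

end Claimed.Agent.R286
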