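-- OWNER helper115 (order of helper93, head LL 02)
import Claimed.Agent.R286.L02.Defs
import Claimed.Agent.R286.L02.Alloc
import Claimed.Agent.R286.Fd.TrB4
import Claimed.Agent.R286.Fd.TrB5
import Claimed.Agent.R286.Fd.CSym
import Claimed.Agent.R286.Defs.SkLem

/-!
# Row 286 (S0533), L02/Row : THE ROW MODEL of LL Lemma 2.2 (instance)      (owner helper115; prefix `l2rw_`; 0 sorry here)

TEX[LL:found:cavity-quotient] LL 02-foundations.tex l.379-392 (one interacting scalar row along the affine interpolation), on `L02/Defs.lean` sec. 3 (helper93).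
1. the moved path `llMv tl P`: `l2rw_mv_length/_get/_adm` (= `exit_a4_adm`), `l2rw_mv_cum` (= `exit_a4_cum`: masked clocks), `l2rw_take_sum`;
2. kernels of the 6 blocks `l2rw_ker_*`; insertion of one stage `l2rw_dK = ε ε' (dh + db R⁻ - dK)`; accumulated `l2rw_trV`, `l2rw_trV_J = ε ε' J⁻`;
   constant diagonal `l2rw_diagC`; admissibility `l2rw_adm`; masses `l2rw_ms`; bound `l2rw_V_bd` (`2 M0`);
3. `l2rw_D_eq`: `llRowD` = `llDer` of `L02/Alloc` (helper71);      EXITS `l2rw_row_one`, `l2rw_row_taylor` (any `r`, also `r = 0`);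
4. GRONWALL `l2rw_gron_two`, `l2rw_gron` (interpolated law `≤ e^{4 a² r (r+1) M0} ×` actual law on nonnegative tests);
5. GENERAL FACTORISATION `l2rw_fact_gen` (bijection with a product, additive kernels; no `TrUses`); site / rest splitting `l2rwSplit`, rest system `l2rwNuR`;
   `l2rw_fact` (rest × scalar row), EXIT `l2rw_row_zero`.
6. fields for `L2Row.Ok`: `l2rw_deriv` (PE (2), off-diagonal, any `r`), `l2rw_contDiffOn`, `l2rw_cont`, `l2rw_isMs`, `l2rw_abs_le`.
Upstream sorries: `tr_cov_deriv` (Fd/TrC2), `Fd/TrB1`.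
-/

set_option autoImplicit false

namespace Claimed.Agent.R286

open scoped BigOperators Nat

/-! ### the moved path -/

/-- cumulative sums as finite sums -/
theorem l2rw_take_sum {α : Type} (f : α → ℝ) (l : List α) (t : ℕ) :
    ((l.take t).map f).sum = ∑ j ∈ Finset.range t, ((l[j]?).map f).getD 0 := by
  induction t with
  | zero => simp
  | succ t ih =>
    rw [Finset.sum_range_succ, ← ih, List.take_add_one, List.map_append, List.sum_append]
    congr 1
    cases l[t]? <;> simp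

theorem l2rw_mv_length (tl : Option ℕ) (P : LlStp) : (llMv tl P).length = P.length := by
  cases tl <;> simp [llMv, llMvAt, llMat]

/-- matrix increment of the stage `j` of the ensemble -/
def l2rwDb (tl : Option ℕ) (P : LlStp) (j : ℕ) (e : LlInc) : ℝ :=
  match tl with
  | none => e.db
  | some js => if j < js then 0 else if j = js then skCumB (llMat P) (js + 1) else e.db

theorem l2rw_mv_get (tl : Option ℕ) (P : LlStp) (j : ℕ) :
    (llMv tl P)[j]? = (P[j]?).map fun e => ⟨e.m, l2rwDb tl P j e, e.dh⟩ := by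
  cases tl with
  | none => simp [llMv, llMat, l2rwDb]
  | some js => simp [llMv, llMvAt, l2rwDb, List.getElem?_mapIdx]

theorem l2rw_mat_get (P : LlStp) (j : ℕ) : (llMat P)[j]? = (P[j]?).map fun e => ⟨e.m, e.db, e.dh⟩ := by
  simp [llMat]

theorem l2rw_cumB_nonneg {a : ℝ} {P : LlStp} (hP : LlStpAdm a P) (t : ℕ) : 0 ≤ skCumB (llMat P) t := by
  unfold skCumB
  refine List.sum_nonneg fun x hx => ?_
  obtain ⟨e, he, rfl⟩ := List.mem_map.1 hx
  exact (hP.1.2 e (List.mem_of_mem_take he)).2.2.1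

/-- the moved path is admissible (= `exit_a4_adm`) -/
theorem l2rw_mv_adm {a : ℝ} {P : LlStp} (hP : LlStpAdm a P) (tl : Option ℕ) : SkAdm a (llMv tl P) := by
  cases tl with
  | none => exact hP.1
  | some js =>
    have h1 := hP.1
    constructor
    · rw [List.pairwise_iff_getElem]
      intro i j hi hj hij
      have h2 := List.pairwise_iff_getElem.1 h1.1 i j (by simpa [llMv, llMvAt, llMat] using hi)
        (by simpa [llMv, llMvAt, llMat] using hj) hij
      simpa [llMv, llMvAt, llMat] using h2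
    · intro e he
      obtain ⟨j, hj, rfl⟩ := List.getElem_of_mem he
      have hj' : j < P.length := by simpa [llMv, llMvAt] using hj
      have h3 := h1.2 ((llMat P)[j]'(by simpa [llMat] using hj')) (List.getElem_mem _)
      simp only [llMat, List.getElem_map] at h3
      simp only [llMv, llMvAt, List.getElem_mapIdx]
      refine ⟨h3.1, h3.2.1, ?_, h3.2.2.2⟩
      split_ifs
      · exact le_rfl
      · exact l2rw_cumB_nonneg hP _
      · exact h3.2.2.1

/-- the field clock is not moved -/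
theorem l2rw_mv_cumH (tl : Option ℕ) (P : LlStp) (t : ℕ) : skCumH (llMv tl P) t = skCumH (llMat P) t := by
  unfold skCumH
  rw [l2rw_take_sum, l2rw_take_sum]
  refine Finset.sum_congr rfl fun j _ => ?_
  rw [l2rw_mv_get, l2rw_mat_get]
  cases P[j]? <;> simp

/-- the matrix clock of the moved path is the masked clock, at the pairs which share `t ≤ N` stages (no hypothesis on the tilt stage) -/
theorem l2rw_mv_cumB_le (tl : Option ℕ) (P : LlStp) {t : ℕ} (ht : t ≤ P.length) :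
    skCumB (llMv tl P) t = llMk tl t * skCumB (llMat P) t := by
  cases tl with
  | none => simp [llMv, llMk]
  | some js =>
    induction t with
    | zero => simp [skCumB]
    | succ t ih =>
      have ih' := ih (by omega)
      have ht' : t < P.length := by omega
      have e1 : skCumB (llMv (some js) P) (t + 1) = skCumB (llMv (some js) P) t + l2rwDb (some js) P t P[t] := by
        unfold skCumB
        rw [l2rw_take_sum, l2rw_take_sum, Finset.sum_range_succ, l2rw_mv_get]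
        simp [ht']
      have e2 : skCumB (llMat P) (t + 1) = skCumB (llMat P) t + P[t].db := by
        unfold skCumB
        rw [l2rw_take_sum, l2rw_take_sum, Finset.sum_range_succ, l2rw_mat_get]
        simp [ht']
      rw [e1, ih']
      unfold llMk l2rwDb
      rcases lt_trichotomy t js with h | h | h
      · simp [h, show ¬ js < t by omega, show ¬ js < t + 1 by omega]
      · subst h
        simp
      · rw [e2]
        simp [h, show ¬ t < js by omega, show t ≠ js by omega, show js < t + 1 by omega]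

/-- the clocks of the moved path are the masked clocks (= `exit_a4_cum`) -/
theorem l2rw_mv_cum {P : LlStp} {tl : Option ℕ} (h : LlTiltOk P tl) (t : ℕ) :
    skCumB (llMv tl P) t = llMk tl t * skCumB (llMat P) t ∧ skCumH (llMv tl P) t = skCumH (llMat P) t := by
  refine ⟨?_, l2rw_mv_cumH tl P t⟩
  rcases le_total t P.length with ht | ht
  · exact l2rw_mv_cumB_le tl P ht
  · have h1 : skCumB (llMv tl P) t = skCumB (llMv tl P) P.length := by
      unfold skCumB
      rw [List.take_of_length_le (by rw [l2rw_mv_length]; exact ht), List.take_of_length_le (by rw [l2rw_mv_length])]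
    have h2 : skCumB (llMat P) t = skCumB (llMat P) P.length := by
      unfold skCumB
      rw [List.take_of_length_le (by simpa [llMat] using ht), List.take_of_length_le (by simp [llMat])]
    have h3 : llMk tl t = llMk tl P.length := by
      cases tl with
      | none => rfl
      | some js =>
        have := h.1
        simp [llMk, show js < t by omega, this]
    rw [h1, h2, h3]
    exact l2rw_mv_cumB_le tl P le_rfl

theorem l2rw_mk_mem (tl : Option ℕ) (t : ℕ) : llMk tl t = 0 ∨ llMk tl t = 1 := by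
  cases tl with
  | none => right; rfl
  | some js => unfold llMk; split_ifs <;> simp

/-! ### kernels of the blocks -/

theorem l2rw_sum_blk (f : LlBlk → ℝ) : ∑ r, f r = f .am + f .af + f .rm + f .rf + f .st + f .cs := by
  have : (Finset.univ : Finset LlBlk) = {.am, .af, .rm, .rf, .st, .cs} := rfl
  rw [this]
  simp [Finset.sum_insert]
  ring

/-- unnormalised overlap -/
theorem l2rw_ov_split {n : ℕ} (i0 : Fin n) (s t : SkCfg n) :
    ∑ i, skSp s i * skSp t i = (∑ i, if i = i0 then 0 else skSp s i * skSp t i) + skSp s i0 * skSp t i0 := by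
  have : ∀ i, skSp s i * skSp t i = (if i = i0 then 0 else skSp s i * skSp t i) + (if i = i0 then skSp s i0 * skSp t i0 else 0) := by
    intro i
    by_cases h : i = i0
    · subst h; simp
    · simp [h]
  rw [Finset.sum_congr rfl fun i _ => this i, Finset.sum_add_distrib]
  simp

theorem l2rw_ker_am {n : ℕ} (hn : 0 < n) (i0 : Fin n) (s t : SkCfg n) :
    gcKer (llFeat n i0) .am s t = (∑ i, skSp s i * skSp t i) ^ 2 / (2 * n) := by
  have hn' : (0 : ℝ) < 2 * n := by positivity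
  unfold gcKer llFeat
  rw [Fintype.sum_sum_type]
  simp only [Sum.elim_inl, Sum.elim_inr, mul_zero, Finset.sum_const_zero, add_zero]
  rw [sq, Finset.sum_mul_sum, Fintype.sum_prod_type, Finset.sum_div]
  refine Finset.sum_congr rfl fun i _ => ?_
  rw [Finset.sum_div]
  refine Finset.sum_congr rfl fun j _ => ?_
  rw [div_mul_div_comm, Real.mul_self_sqrt hn'.le]
  ring

theorem l2rw_ker_rm {n : ℕ} (hn : 0 < n) (i0 : Fin n) (s t : SkCfg n) :
    gcKer (llFeat n i0) .rm s t = (∑ i, if i = i0 then 0 else skSp s i * skSp t i) ^ 2 / (2 * n) := by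
  have hn' : (0 : ℝ) < 2 * n := by positivity
  unfold gcKer llFeat
  rw [Fintype.sum_sum_type]
  simp only [Sum.elim_inl, Sum.elim_inr, mul_zero, Finset.sum_const_zero, add_zero]
  rw [sq, Finset.sum_mul_sum, Fintype.sum_prod_type, Finset.sum_div]
  refine Finset.sum_congr rfl fun i _ => ?_
  rw [Finset.sum_div]
  refine Finset.sum_congr rfl fun j _ => ?_
  by_cases hi : i = i0
  · simp [hi]
  · by_cases hj : j = i0
    · simp [hj]
    · simp only [hi, hj, or_self, if_false]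
      rw [div_mul_div_comm, Real.mul_self_sqrt hn'.le]
      ring

theorem l2rw_ker_af {n : ℕ} (i0 : Fin n) (s t : SkCfg n) :
    gcKer (llFeat n i0) .af s t = ∑ i, skSp s i * skSp t i := by
  unfold gcKer llFeat
  rw [Fintype.sum_sum_type]
  simp

theorem l2rw_ker_rf {n : ℕ} (i0 : Fin n) (s t : SkCfg n) :
    gcKer (llFeat n i0) .rf s t = ∑ i, if i = i0 then 0 else skSp s i * skSp t i := by
  unfold gcKer llFeat
  rw [Fintype.sum_sum_type]
  simp only [Sum.elim_inl, Sum.elim_inr, mul_zero, Finset.sum_const_zero, zero_add]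
  refine Finset.sum_congr rfl fun i _ => ?_
  split_ifs <;> simp

theorem l2rw_ker_st {n : ℕ} (i0 : Fin n) (s t : SkCfg n) :
    gcKer (llFeat n i0) .st s t = skSp s i0 * skSp t i0 := by
  unfold gcKer llFeat
  rw [Fintype.sum_sum_type]
  simp

theorem l2rw_ker_cs {n : ℕ} (i0 : Fin n) (s t : SkCfg n) :
    gcKer (llFeat n i0) .cs s t = 1 := by
  unfold gcKer llFeat
  rw [Fintype.sum_sum_type]
  simp


/-! ### the affine family -/

theorem l2rw_hs_length (n : ℕ) (P : LlStp) (tl : Option ℕ) : (llRowHs n P tl).length = P.length := by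
  unfold llRowHs
  rw [List.length_zipWith, l2rw_mv_length, min_self]

theorem l2rw_hs_get (n : ℕ) (P : LlStp) (tl : Option ℕ) (j : ℕ) :
    (llRowHs n P tl)[j]? = (P[j]?).map fun e =>
      (e.m, llRow0 n ⟨e.m, l2rwDb tl P j e, e.dh⟩ e.dK, llRow1 n ⟨e.m, l2rwDb tl P j e, e.dh⟩ e.dK) := by
  unfold llRowHs
  rw [List.getElem?_zipWith, l2rw_mv_get]
  cases P[j]? <;> rfl

theorem l2rw_ms (n : ℕ) (a : ℝ) (P : LlStp) (tl : Option ℕ) : gcMs a (llRowHs n P tl) = llMs a P := by
  funext j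
  unfold gcMs llMs
  rw [l2rw_hs_get, List.getElem?_map]
  cases P[j]? <;> rfl

/-- **the insertion of one stage**: `ε ε' (dh + db R⁻ - dK)` -/
theorem l2rw_dK {n : ℕ} (hn : 0 < n) (P : LlStp) (tl : Option ℕ) (i0 : Fin n) (j : ℕ) (s t : SkCfg n) :
    gcDK (llFeat n i0) (llRowHs n P tl) j s t
      = skSp s i0 * skSp t i0 * ((((llMv tl P)[j]?).map SkInc.dh).getD 0
          + (((llMv tl P)[j]?).map SkInc.db).getD 0 * skOvD i0 s t - ((P[j]?).map LlInc.dK).getD 0) := by
  have hn' : (0 : ℝ) < n := by exact_mod_cast hn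
  unfold gcDK
  rw [l2rw_sum_blk, l2rw_hs_get, l2rw_mv_get, l2rw_ker_am hn, l2rw_ker_rm hn, l2rw_ker_af, l2rw_ker_rf, l2rw_ker_st, l2rw_ker_cs,
    l2rw_ov_split i0 s t]
  unfold skOvD
  have h1 : (skSp s i0 * skSp t i0) * (skSp s i0 * skSp t i0) = 1 := by
    have := sk_d_sp_mul s i0
    have := sk_d_sp_mul t i0
    nlinarith
  set A := ∑ i, if i = i0 then 0 else skSp s i * skSp t i
  set ε := skSp s i0 * skSp t i0
  cases P[j]? with
  | none => simp
  | some e =>
    simp only [Option.map_some, Option.getD_some, llRow1]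
    field_simp
    linear_combination (l2rwDb tl P j e) * h1


/-- **the insertion accumulated along `t` shared stages** (any `t`) -/
theorem l2rw_trV {n : ℕ} (hn : 0 < n) (P : LlStp) (tl : Option ℕ) (i0 : Fin n) (t : ℕ) (s s' : SkCfg n) :
    trV (gcDK (llFeat n i0) (llRowHs n P tl)) P.length t s s'
      = skSp s i0 * skSp s' i0 * (skCumH (llMv tl P) t + skCumB (llMv tl P) t * skOvD i0 s s' - llCumK P t) := by
  unfold trV skCumH skCumB llCumK
  rw [l2rw_take_sum, l2rw_take_sum, l2rw_take_sum, Finset.sum_mul, ← Finset.sum_add_distrib, ← Finset.sum_sub_distrib,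
    Finset.mul_sum]
  have hsub : Finset.range (min t P.length) ⊆ Finset.range t := Finset.range_subset_range.2 (min_le_left _ _)
  rw [← Finset.sum_subset hsub]
  · exact Finset.sum_congr rfl fun j _ => l2rw_dK hn P tl i0 j s s'
  · intro j hj hj'
    rw [Finset.mem_range] at hj hj'
    have h1 : P.length ≤ j := by omega
    have h2 : P[j]? = none := List.getElem?_eq_none h1
    rw [l2rw_mv_get, h2]
    simp

/-- the insertion in the vocabulary of the jets: `ε ε' J⁻` -/
theorem l2rw_trV_J {n : ℕ} (hn : 0 < n) (a : ℝ) {P : LlStp} {tl : Option ℕ} (htl : LlTiltOk P tl) (i0 : Fin n) (τ : ℕ → ℕ → ℕ)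
    (σ : ℕ → SkCfg n) (c d : ℕ) :
    trV (gcDK (llFeat n i0) (llRowHs n P tl)) P.length (τ c d) (σ c) (σ d)
      = skSp (σ c) i0 * skSp (σ d) i0 * (llJsD n a P tl i0).J τ σ c d := by
  rw [l2rw_trV hn, (l2rw_mv_cum htl _).1, (l2rw_mv_cum htl _).2]
  unfold JtCtx.J JtCtx.Qs llJsD llJs
  simp only
  ring

theorem l2rw_ovD_diag {n : ℕ} (i0 : Fin n) (s s' : SkCfg n) : skOvD i0 s s = skOvD i0 s' s' := by
  unfold skOvD
  simp only [sk_d_sp_mul]

theorem l2rw_diagC {n : ℕ} (hn : 0 < n) (P : LlStp) (tl : Option ℕ) (i0 : Fin n) : LlDiagC (llFeat n i0) (llRowHs n P tl) := by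
  intro j s s'
  rw [l2rw_dK hn, l2rw_dK hn, sk_d_sp_mul, sk_d_sp_mul, l2rw_ovD_diag i0 s s']

theorem l2rw_adm (n : ℕ) {a : ℝ} {P : LlStp} (hP : LlStpAdm a P) (tl : Option ℕ) : GcAffAdm a (llRowHs n P tl) := by
  have h1 := l2rw_mv_adm hP tl
  have h2 := hP.2
  constructor
  · rw [List.pairwise_iff_getElem]
    intro i j hi hj hij
    have hi' : i < P.length := by simpa [l2rw_hs_length] using hi
    have hj' : j < P.length := by simpa [l2rw_hs_length] using hj
    have h3 := List.pairwise_iff_getElem.1 h1.1 i j (by rw [l2rw_mv_length]; exact hi') (by rw [l2rw_mv_length]; exact hj') hij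
    simpa [llRowHs] using h3
  · intro h hh
    obtain ⟨j, hj, rfl⟩ := List.getElem_of_mem hh
    have hj' : j < P.length := by simpa [l2rw_hs_length] using hj
    have h3 := h1.2 ((llMv tl P)[j]'(by rw [l2rw_mv_length]; exact hj')) (List.getElem_mem _)
    have h4 := h2.2 ((llSc P)[j]'(by simpa [llSc] using hj')) (List.getElem_mem _)
    simp only [llSc, List.getElem_map] at h4
    simp only [llRowHs, List.getElem_zipWith]
    refine ⟨⟨h3.1, h3.2.1⟩, fun r => ?_⟩
    have h5 : 0 ≤ ((llMv tl P)[j]'(by rw [l2rw_mv_length]; exact hj')).db / (2 * n) := div_nonneg h3.2.2.1 (by positivity)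
    cases r <;> simp only [llRow0, llRow1] <;> constructor <;> linarith [h3.2.2.1, h3.2.2.2, h4.2.2.2]


theorem l2rw_base_ok (n : ℕ) {a : ℝ} (ha : 0 < a) : (skBase n a).Ok where
  nonneg := fun _ => by unfold skBase ghUnif; positivity
  sum := by
    unfold skBase ghUnif
    simp
  pos := ha

/-! ### the derivatives -/

/-- product of the off-diagonal insertions = `off × ε-product × J⁻-product` -/
theorem l2rw_Vp {n : ℕ} (hn : 0 < n) (a : ℝ) {P : LlStp} {tl : Option ℕ} (htl : LlTiltOk P tl) (i0 : Fin n) (r k : ℕ)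
    (τ : ℕ → ℕ → ℕ) (σ : ℕ → SkCfg n) :
    llVp (gcDK (llFeat n i0) (llRowHs n P tl)) P.length r k τ σ
      = (llJsD n a P tl i0).off r k τ * (llEps i0 r k σ * (llJsD n a P tl i0).Jprod r k τ σ) := by
  unfold llVp JtCtx.off llEps JtCtx.Jprod
  rw [← Finset.prod_mul_distrib, ← Finset.prod_mul_distrib]
  refine Finset.prod_congr rfl fun i _ => ?_
  have hN : (llJsD n a P tl i0).N = P.length := rfl
  rw [hN]
  unfold llVo jtC jtD
  split_ifs with h
  · rw [l2rw_trV_J hn a htl, one_mul]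
  · rw [zero_mul]

/-- `llRowD` is the derivative `llDer` of helper71's engine -/
theorem l2rw_D_eq {n : ℕ} (hn : 0 < n) {a : ℝ} (ha : 0 < a) {P : LlStp} {tl : Option ℕ} (hP : LlStpAdm a P) (htl : LlTiltOk P tl)
    (i0 : Fin n) (θ : ℝ) (k r : ℕ) (τ : ℕ → ℕ → ℕ) (T : (ℕ → SkCfg n) → ℝ) :
    llRowD n a P tl i0 θ k r τ T = llDer (skBase n a) (llFeat n i0) (llRowHs n P tl) 0 r τ T k θ := by
  unfold llRowD llDer
  have e1 : (skBase n a).a = a := rfl
  have e2 : (llJsD n a P tl i0).sumK = trSumK (llMs a P) P.length := rfl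
  rw [e1, l2rw_ms, l2rw_hs_length, e2, one_div, inv_pow]
  congr 2
  funext τ'
  unfold llRowNu gcNu
  rw [← tcb_nu_mul_const (l2rw_base_ok n ha) (gc_adm (B := skBase n a) (llFeat n i0) (l2rw_adm n hP tl) θ).1]
  congr 1
  funext σ
  rw [l2rw_Vp hn a htl]
  ring


/-! ### the end point `θ = 1` -/

theorem l2rw_ms_sk (n : ℕ) (a : ℝ) (P : LlStp) (tl : Option ℕ) (j : ℕ) :
    trMs (skBase n a) (skLvs n (llMv tl P)) j = llMs a P j := by
  unfold trMs llMs skLvs
  rw [List.getElem?_map, List.getElem?_map, l2rw_mv_get]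
  cases P[j]? <;> rfl

/-- the row model at `θ = 1` is the actual model -/
theorem l2rw_row_one {n : ℕ} (hn : 0 < n) {a : ℝ} (ha : 0 < a) {P : LlStp} (hP : LlStpAdm a P) (tl : Option ℕ) (i0 : Fin n)
    (q : ℕ) (τ : ℕ → ℕ → ℕ) (T : (ℕ → SkCfg n) → ℝ) : llRowNu n a P tl i0 1 q τ T = llNu n a P tl q τ T := by
  have hn' : (0 : ℝ) < n := by exact_mod_cast hn
  have hadm := l2rw_adm n hP tl
  obtain ⟨-, h2, h3⟩ := gc_adm (B := skBase n a) (llFeat n i0) hadm 1
  unfold llRowNu gcNu llNu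
  refine tr_nu_cov_congr (l2rw_base_ok n ha) ?_ ?_ ?_ q τ 0 T
  · rw [h2, l2rw_hs_length]
    simp [skLvs, l2rw_mv_length]
  · intro j
    rw [h3, l2rw_ms_sk]
    exact congrFun (l2rw_ms n a P tl) j
  · intro j hj hj' s t
    have hjP : j < P.length := by rw [h2, l2rw_hs_length] at hj; exact hj
    have hjM : j < (llMv tl P).length := by rw [l2rw_mv_length]; exact hjP
    have h4 := (l2rw_mv_adm hP tl).2 ((llMv tl P)[j]) (List.getElem_mem hjM)
    have h5 := hadm.2 ((llRowHs n P tl)[j]'(by rw [l2rw_hs_length]; exact hjP)) (List.getElem_mem _)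
    simp only [gcLs, gcAff, List.getElem_map, skLvs]
    rw [gc_cov _ _ _ (fun r => by simpa using (h5.2 r).2), sk_d_cov n hn _ h4.2.2.1 h4.2.2.2, l2rw_sum_blk, l2rw_ker_am hn, l2rw_ker_af]
    simp only [llRowHs, List.getElem_zipWith, llRow0, llRow1]
    unfold skOv
    field_simp
    ring


/-! ### Taylor's formula -/

/-- no old label: nothing can be attached -/
theorem l2rw_sumK_zero_labels (ms : ℕ → ℝ) (N k : ℕ) (τ : ℕ → ℕ → ℕ) (Φ : (ℕ → ℕ → ℕ) → ℝ) :
    trSumK ms N (k + 1) 0 τ Φ = 0 := by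
  simp [trSumK, trSum]

/-- Taylor's formula of the row model, EXACT -/
theorem l2rw_row_taylor {n : ℕ} (hn : 0 < n) {a : ℝ} (ha : 0 < a) {P : LlStp} {tl : Option ℕ} (hP : LlStpAdm a P) (htl : LlTiltOk P tl)
    (i0 : Fin n) {r : ℕ} {τ : ℕ → ℕ → ℕ} (hτ : IsTr P.length r τ) {T : (ℕ → SkCfg n) → ℝ} (hT : TrUses r T) {k : ℕ} (hk : 0 < k) :
    llNu n a P tl r τ T
      = ∑ d ∈ Finset.range k, ((d ! : ℝ))⁻¹ * llRowD n a P tl i0 0 d r τ T + llRowRem n a P tl i0 k r τ T := by
  obtain ⟨k, rfl⟩ : ∃ k', k = k' + 1 := ⟨k - 1, by omega⟩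
  rw [← l2rw_row_one hn ha hP tl i0]
  unfold llRowRem
  simp only [l2rw_D_eq hn ha hP htl, Nat.add_sub_cancel]
  rcases Nat.eq_zero_or_pos r with rfl | hr
  · have hz : ∀ d θ, llDer (skBase n a) (llFeat n i0) (llRowHs n P tl) 0 0 τ T (d + 1) θ = 0 := by
      intro d θ
      unfold llDer
      rw [show 2 * (d + 1) = 2 * d + 1 + 1 by ring, l2rw_sumK_zero_labels, mul_zero]
    have h0 : llDer (skBase n a) (llFeat n i0) (llRowHs n P tl) 0 0 τ T 0 0 = llRowNu n a P tl i0 1 0 τ T := by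
      unfold llDer llRowNu gcNu
      simp only [pow_zero, one_mul, mul_zero, trSumK, add_zero, llVp, Finset.range_zero, Finset.prod_empty, mul_one]
      rw [tr_b3_nu_zero (l2rw_base_ok n ha) ((gc_adm (B := skBase n a) (llFeat n i0) (l2rw_adm n hP tl) 0).1.ghNn le_rfl),
        tr_b3_nu_zero (l2rw_base_ok n ha) ((gc_adm (B := skBase n a) (llFeat n i0) (l2rw_adm n hP tl) 1).1.ghNn le_rfl)]
    rw [Finset.sum_range_succ', Finset.sum_eq_zero (fun d _ => by rw [hz, mul_zero]), h0]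
    simp [hz]
  · exact ll_al_taylor (l2rw_base_ok n ha) (llFeat n i0) (l2rw_adm n hP tl) (l2rw_diagC hn P tl i0) hr
      (by rw [l2rw_hs_length]; exact hτ) 0 T hT k

/-! ### Gronwall -/

theorem l2rw_sp_abs {n : ℕ} (s : SkCfg n) (i : Fin n) : |skSp s i| = 1 := by
  unfold skSp Claims.C0461.pmSpin; split_ifs <;> norm_num

theorem l2rw_ovD_abs {n : ℕ} (hn : 0 < n) (i0 : Fin n) (s s' : SkCfg n) : |skOvD i0 s s'| ≤ 1 := by
  have hn' : (0 : ℝ) < n := by exact_mod_cast hn
  unfold skOvD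
  rw [abs_div, abs_of_pos hn', div_le_one hn']
  refine (Finset.abs_sum_le_sum_abs _ _).trans ?_
  calc ∑ i : Fin n, |if i = i0 then 0 else skSp s i * skSp s' i| ≤ ∑ _i : Fin n, (1 : ℝ) := by
        refine Finset.sum_le_sum fun i _ => ?_
        split_ifs
        · simp
        · rw [abs_mul, l2rw_sp_abs, l2rw_sp_abs, one_mul]
    _ = n := by simp

/-- the insertions of the row model are bounded by `2 M0` -/
theorem l2rw_V_bd {n : ℕ} (hn : 0 < n) {a : ℝ} {P : LlStp} {tl : Option ℕ} (hP : LlStpAdm a P) (htl : LlTiltOk P tl) {M0 : ℝ}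
    (hM : LlBd M0 P) (i0 : Fin n) (t : ℕ) (s s' : SkCfg n) :
    |trV (gcDK (llFeat n i0) (llRowHs n P tl)) (llRowHs n P tl).length t s s'| ≤ 2 * M0 := by
  rw [l2rw_hs_length, l2rw_trV hn, (l2rw_mv_cum htl t).1, (l2rw_mv_cum htl t).2, abs_mul, abs_mul, l2rw_sp_abs, l2rw_sp_abs, one_mul,
    one_mul]
  have h1 := (hM t).1
  have h2 := (hM t).2
  have h3 := l2rw_cumB_nonneg hP t
  have h4 := l2rw_ovD_abs hn i0 s s'
  have h5 : |llMk tl t * skCumB (llMat P) t * skOvD i0 s s'| ≤ M0 := by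
    rw [abs_mul, abs_mul, abs_of_nonneg h3]
    have h6 : |llMk tl t| ≤ 1 := by rcases l2rw_mk_mem tl t with h | h <;> rw [h] <;> norm_num
    calc |llMk tl t| * skCumB (llMat P) t * |skOvD i0 s s'| ≤ 1 * skCumB (llMat P) t * 1 := by
          refine mul_le_mul (mul_le_mul_of_nonneg_right h6 h3) h4 (abs_nonneg _) (by linarith)
      _ ≤ M0 := by linarith
  have e : skCumH (llMat P) t + llMk tl t * skCumB (llMat P) t * skOvD i0 s s' - llCumK P t
      = (skCumH (llMat P) t - llCumK P t) + llMk tl t * skCumB (llMat P) t * skOvD i0 s s' := by ring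
  rw [e]
  exact (abs_add_le _ _).trans (by linarith)

/-- **Gronwall for the row model** (PE Lemma 2.9), two parameters -/
theorem l2rw_gron_two {n : ℕ} (hn : 0 < n) {a : ℝ} (ha : 0 < a) {P : LlStp} {tl : Option ℕ} (hP : LlStpAdm a P) (htl : LlTiltOk P tl)
    {M0 : ℝ} (hM : LlBd M0 P) (i0 : Fin n) {r : ℕ} {τ : ℕ → ℕ → ℕ} (hτ : IsTr P.length r τ) {R : (ℕ → SkCfg n) → ℝ} (hR : TrUses r R)
    (hR0 : ∀ σ, 0 ≤ R σ) {θ θ' : ℝ} (hθ : θ ∈ Set.Icc (0 : ℝ) 1) (hθ' : θ' ∈ Set.Icc (0 : ℝ) 1) :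
    llRowNu n a P tl i0 θ r τ R ≤ Real.exp (4 * a ^ 2 * r * (r + 1) * M0) * llRowNu n a P tl i0 θ' r τ R := by
  have hB := l2rw_base_ok n ha
  have hM0 : 0 ≤ M0 := (abs_nonneg _).trans (hM 0).2
  have h1 := tr_gronwall hB (llFeat n i0) (l2rw_adm n hP tl) (by rw [l2rw_hs_length]; exact hτ) 0 R hR (2 * M0)
    (l2rw_V_bd hn hP htl hM i0) hR0 hθ hθ'
  have h2 : 0 ≤ llRowNu n a P tl i0 θ' r τ R := gh_n_nonneg _ hB _ _ _ _ fun _ _ => hR0 _
  refine h1.trans (mul_le_mul_of_nonneg_right (Real.exp_le_exp.2 ?_) h2)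
  have h3 : |θ - θ'| ≤ 1 := by
    rw [abs_le]; constructor <;> linarith [hθ.1, hθ.2, hθ'.1, hθ'.2]
  have e1 : (skBase n a).a = a := rfl
  rw [e1]
  have h4 : 0 ≤ 2 * a ^ 2 * r * (r + 1) * (2 * M0) := by positivity
  calc 2 * a ^ 2 * r * (r + 1) * (2 * M0) * |θ - θ'| ≤ 2 * a ^ 2 * r * (r + 1) * (2 * M0) * 1 :=
        mul_le_mul_of_nonneg_left h3 h4
    _ = 4 * a ^ 2 * r * (r + 1) * M0 := by ring

/-- **Gronwall**: the interpolated law is dominated by the ACTUAL law on nonnegative tests (H5 of the cut of (A7)) -/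
theorem l2rw_gron {n : ℕ} (hn : 0 < n) {a : ℝ} (ha : 0 < a) {P : LlStp} {tl : Option ℕ} (hP : LlStpAdm a P) (htl : LlTiltOk P tl)
    {M0 : ℝ} (hM : LlBd M0 P) (i0 : Fin n) {r : ℕ} {τ : ℕ → ℕ → ℕ} (hτ : IsTr P.length r τ) {R : (ℕ → SkCfg n) → ℝ} (hR : TrUses r R)
    (hR0 : ∀ σ, 0 ≤ R σ) {θ : ℝ} (hθ : θ ∈ Set.Icc (0 : ℝ) 1) :
    llRowNu n a P tl i0 θ r τ R ≤ Real.exp (4 * a ^ 2 * r * (r + 1) * M0) * llNu n a P tl r τ R := by
  rw [← l2rw_row_one hn ha hP tl i0]
  exact l2rw_gron_two hn ha hP htl hM i0 hτ hR hR0 hθ (Set.right_mem_Icc.2 zero_le_one)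


/-! ### the independent end point `θ = 0` -/

/-- **GENERAL FACTORISATION** of tree numbers: the configuration space is in bijection with a product, product prior, common masses, additive kernels.
No `TrUses` hypothesis: the bijection preserves the default configuration. -/
theorem l2rw_fact_gen {S S₁ S₂ ι ι₁ ι₂ : Type} [Fintype S] [Fintype S₁] [Fintype S₂] [Fintype ι] [Fintype ι₁] [Fintype ι₂]
    [Inhabited S] [Inhabited S₁] [Inhabited S₂] (e : S ≃ S₁ × S₂) (he : e default = default)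
    {B : GhB S} {B₁ : GhB S₁} {B₂ : GhB S₂} (hB : B.Ok) (hB₁ : B₁.Ok) (hB₂ : B₂.Ok) (ha₁ : B₁.a = B.a) (ha₂ : B₂.a = B.a)
    (hw : ∀ s, B.w s = B₁.w (e s).1 * B₂.w (e s).2)
    {ls : List (GhLv S ι)} {ls₁ : List (GhLv S₁ ι₁)} {ls₂ : List (GhLv S₂ ι₂)} (hnn : GhNn ls)
    (hm₁ : ls₁.map GhLv.m = ls.map GhLv.m) (hm₂ : ls₂.map GhLv.m = ls.map GhLv.m)
    (hc : ∀ j (h : j < ls.length) (h₁ : j < ls₁.length) (h₂ : j < ls₂.length) (s t : S),
      (ls[j]).cov s t = (ls₁[j]).cov (e s).1 (e t).1 + (ls₂[j]).cov (e s).2 (e t).2)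
    {q : ℕ} {τ : ℕ → ℕ → ℕ} (hτ : IsTr ls.length q τ) (P₁ : (ℕ → S₁) → ℝ) (P₂ : (ℕ → S₂) → ℝ) :
    trNu B ls q τ 0 (fun σ => P₁ (fun x => (e (σ x)).1) * P₂ fun x => (e (σ x)).2)
      = trNu B₁ ls₁ q τ 0 P₁ * trNu B₂ ls₂ q τ 0 P₂ := by
  let B' : GhB (S₁ × S₂) := ⟨fun p => B₁.w p.1 * B₂.w p.2, B.a⟩
  let ls' : List (GhLv (S₁ × S₂) ι) := ls.map fun l => ⟨l.m, fun p => l.A (e.symm p)⟩
  have hlen' : ls'.length = ls.length := by simp [ls']
  have hm' : ls'.map GhLv.m = ls.map GhLv.m := by simp [ls', List.map_map, Function.comp_def]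
  have hcov' : ∀ j (h : j < ls.length) (h' : j < ls'.length) (p p' : S₁ × S₂),
      (ls'[j]).cov p p' = (ls[j]).cov (e.symm p) (e.symm p') := by
    intro j h h' p p'
    simp only [ls', List.getElem_map]
    rfl
  have hrep := tb2_repOk hτ
  have hT : GhIsoT (fun t => trRep q τ t) (fun _ : Fin q => e) B B' ls ls' :=
    { a := rfl
      w := fun _ s => (hw s).symm
      m := hm'
      cov := by
        intro _ _ j h h' _ s t
        rw [hcov' j h h', Equiv.symm_apply_apply, Equiv.symm_apply_apply]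
      term := fun _ _ _ => rfl }
  have hPr : GhPrd B' B₁ B₂ ls' ls₁ ls₂ :=
    { a₁ := ha₁
      a₂ := ha₂
      w := fun _ => rfl
      m₁ := hm₁.trans hm'.symm
      m₂ := hm₂.trans hm'.symm
      cov := by
        intro j h h₁ h₂ s t
        rw [hcov' j (by rw [← hlen']; exact h) h, hc j (by rw [← hlen']; exact h) h₁ h₂, Equiv.apply_symm_apply,
          Equiv.apply_symm_apply] }
  have hnn' : GhNn ls' := by
    intro l hl
    obtain ⟨l0, hl0, rfl⟩ := List.mem_map.1 hl
    exact hnn l0 hl0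
  have k1 := gh_sy_nu hB hnn hrep hT (fun _ => 0) (fun _ => 0) (fun _ _ => rfl) (fun _ => rfl) (fun _ => rfl)
    (fun σ' : Fin q → S₁ × S₂ => P₁ (trExt fun x => (σ' x).1) * P₂ (trExt fun x => (σ' x).2))
  have k2 := gh_sy_prod_nu hB₁ hB₂ hnn' hPr hrep (fun _ => 0) (fun _ => 0) (fun _ => rfl) (fun _ => rfl)
    (fun σ₁ => P₁ (trExt σ₁)) (fun σ₂ => P₂ (trExt σ₂))
  have e0 : (fun (_ : Fin q) (s : S₁ × S₂) => (0 : S₁ → ℝ) s.1 + (0 : S₂ → ℝ) s.2) = fun _ => 0 := by
    funext _ s; simp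
  rw [e0] at k2
  unfold trNu
  rw [← k2, k1]
  congr 1
  funext _ σ
  have e1 : (fun x => (e (trExt σ x)).1) = trExt fun x => (e (σ x)).1 := by
    funext x
    unfold trExt
    split
    · rfl
    · rw [he]; rfl
  have e2 : (fun x => (e (trExt σ x)).2) = trExt fun x => (e (σ x)).2 := by
    funext x
    unfold trExt
    split
    · rfl
    · rw [he]; rfl
  show P₁ (fun x => (e (trExt σ x)).1) * P₂ (fun x => (e (trExt σ x)).2) = _
  rw [e1, e2]


theorem l2rw_unif_ok (S : Type) [Fintype S] [Nonempty S] {a : ℝ} (ha : 0 < a) : (ghUnif S a).Ok where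
  nonneg := fun _ => by unfold ghUnif; positivity
  sum := by
    unfold ghUnif
    simp
  pos := ha

/-- the rest configurations (all the sites but `i0`) -/
abbrev L2rwRest (n : ℕ) (i0 : Fin n) : Type := {j : Fin n // j ≠ i0} → Bool

/-- site / rest splitting of a configuration -/
def l2rwSplit {n : ℕ} (i0 : Fin n) : SkCfg n ≃ L2rwRest n i0 × SkCfg 1 where
  toFun s := (fun j => s j.1, fun _ => s i0)
  invFun p := fun i => if h : i = i0 then p.2 0 else p.1 ⟨i, h⟩
  left_inv s := by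
    funext i
    by_cases h : i = i0
    · simp [h]
    · simp [h]
  right_inv p := by
    refine Prod.ext ?_ ?_
    · funext j
      simp [j.2]
    · funext j
      have : j = 0 := Subsingleton.elim _ _
      simp [this]

/-- completion of a rest configuration (default spin at the site) -/
def l2rwUp {n : ℕ} (i0 : Fin n) (u : L2rwRest n i0) : SkCfg n := (l2rwSplit i0).symm (u, default)

theorem l2rw_up_apply {n : ℕ} (i0 : Fin n) (s : SkCfg n) {i : Fin n} (hi : i ≠ i0) :
    l2rwUp i0 (l2rwSplit i0 s).1 i = s i := by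
  simp [l2rwUp, l2rwSplit, hi]

/-- increments of the rest system: rest matrix, rest field, spin constant block -/
noncomputable def l2rwRestHs (n : ℕ) (P : LlStp) (tl : Option ℕ) : List (ℝ × (LlBlk → ℝ) × (LlBlk → ℝ)) :=
  (llRowHs n P tl).map fun h => (h.1, (fun r => if r = LlBlk.st then 0 else h.2.1 r), fun _ => 0)

/-- the hierarchy of the rest system -/
noncomputable def l2rwRestLs (n : ℕ) (i0 : Fin n) (P : LlStp) (tl : Option ℕ) : List (GhLv (L2rwRest n i0) (LlBlk × SkDr n)) :=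
  gcLs (fun r u => llFeat n i0 r (l2rwUp i0 u)) (gcAff (l2rwRestHs n P tl) 0)

/-- tree numbers of the rest system -/
noncomputable def l2rwNuR (n : ℕ) (a : ℝ) (P : LlStp) (tl : Option ℕ) (i0 : Fin n) (q : ℕ) (τ : ℕ → ℕ → ℕ)
    (T : (ℕ → L2rwRest n i0) → ℝ) : ℝ :=
  trNu (ghUnif (L2rwRest n i0) a) (l2rwRestLs n i0 P tl) q τ 0 T

theorem l2rw_rest_adm (n : ℕ) {a : ℝ} {P : LlStp} (hP : LlStpAdm a P) (tl : Option ℕ) : GcAffAdm a (l2rwRestHs n P tl) := by
  have h := l2rw_adm n hP tl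
  constructor
  · have e : (l2rwRestHs n P tl).map Prod.fst = (llRowHs n P tl).map Prod.fst := by
      simp [l2rwRestHs, List.map_map, Function.comp_def]
    rw [e]
    exact h.1
  · intro x hx
    obtain ⟨y, hy, rfl⟩ := List.mem_map.1 hx
    refine ⟨(h.2 y hy).1, fun r => ?_⟩
    have := ((h.2 y hy).2 r).1
    simp only [add_zero, and_self]
    split_ifs
    · exact le_rfl
    · exact this


theorem l2rw_Am_up {n : ℕ} (i0 : Fin n) (s t : SkCfg n) :
    (∑ i, if i = i0 then 0 else skSp (l2rwUp i0 (l2rwSplit i0 s).1) i * skSp (l2rwUp i0 (l2rwSplit i0 t).1) i)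
      = ∑ i, if i = i0 then 0 else skSp s i * skSp t i := by
  refine Finset.sum_congr rfl fun i _ => ?_
  by_cases hi : i = i0
  · simp [hi]
  · simp only [hi, if_false]
    unfold skSp
    rw [l2rw_up_apply i0 s hi, l2rw_up_apply i0 t hi]

/-- **FACTORISATION at `θ = 0`**: rest system × independent scalar row at `K` -/
theorem l2rw_fact {n : ℕ} (hn : 0 < n) {a : ℝ} (ha : 0 < a) {P : LlStp} (hP : LlStpAdm a P) (tl : Option ℕ) (i0 : Fin n)
    {r : ℕ} {τ : ℕ → ℕ → ℕ} (hτ : IsTr P.length r τ) (T₁ : (ℕ → L2rwRest n i0) → ℝ) (g : (ℕ → Bool) → ℝ) :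
    llRowNu n a P tl i0 0 r τ (fun σ => T₁ (fun x => (l2rwSplit i0 (σ x)).1) * g fun x => σ x i0)
      = l2rwNuR n a P tl i0 r τ T₁ * llNuS a P r τ g := by
  have hn' : (0 : ℝ) < n := by exact_mod_cast hn
  have hadm := l2rw_adm n hP tl
  have hadm₁ := l2rw_rest_adm n hP tl
  obtain ⟨g1, g2, -⟩ := gc_adm (B := skBase n a) (llFeat n i0) hadm 0
  unfold llRowNu gcNu l2rwNuR llNuS
  refine l2rw_fact_gen (l2rwSplit i0) rfl (l2rw_base_ok n ha) (l2rw_unif_ok _ ha) (l2rw_base_ok 1 ha) rfl rfl ?_ (g1.ghNn le_rfl)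
    ?_ ?_ ?_ (by rw [g2, l2rw_hs_length]; exact hτ) T₁ (fun σ => g fun x => σ x 0)
  · intro s
    unfold skBase ghUnif
    simp only
    rw [Fintype.card_congr (l2rwSplit i0), Fintype.card_prod]
    push_cast
    rw [mul_inv]
  · simp [l2rwRestLs, l2rwRestHs, gcLs, gcAff, gcLv, List.map_map, Function.comp_def]
  · refine List.ext_getElem? fun j => ?_
    simp only [gcLs, gcAff, skLvs, llSc, List.map_map, List.getElem?_map, l2rw_hs_get]
    cases P[j]? <;> rfl
  · intro j h h₁ h₂ s t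
    have hjP : j < P.length := by rw [g2, l2rw_hs_length] at h; exact h
    have hjM : j < (llMv tl P).length := by rw [l2rw_mv_length]; exact hjP
    have h5 := hadm.2 ((llRowHs n P tl)[j]'(by rw [l2rw_hs_length]; exact hjP)) (List.getElem_mem _)
    have h6 := hP.2.2 ((llSc P)[j]'(by simpa [llSc] using hjP)) (List.getElem_mem _)
    simp only [llSc, List.getElem_map] at h6
    simp only [l2rwRestLs, l2rwRestHs, gcLs, gcAff, List.getElem_map, skLvs, llSc]
    rw [gc_cov _ _ _ (fun r => by simpa using (h5.2 r).1),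
      gc_cov _ _ _ (fun r => by
        have := (h5.2 r).1
        simp only [zero_mul, add_zero]
        split_ifs
        · exact le_rfl
        · exact this),
      sk_d_cov 1 one_pos _ le_rfl h6.2.2.2, l2rw_sum_blk, l2rw_sum_blk]
    have k1 : ∀ b u u', gcKer (fun r u => llFeat n i0 r (l2rwUp i0 u)) b u u' = gcKer (llFeat n i0) b (l2rwUp i0 u) (l2rwUp i0 u') :=
      fun _ _ _ => rfl
    simp only [k1, l2rw_ker_rm hn, l2rw_ker_rf, l2rw_ker_cs, l2rw_ker_st, l2rw_Am_up]
    simp only [llRowHs, List.getElem_zipWith, llRow0]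
    have k2 : skOv (l2rwSplit i0 s).2 (l2rwSplit i0 t).2 = skSp s i0 * skSp t i0 := by
      unfold skOv
      simp only [Finset.univ_unique, Finset.sum_singleton, Nat.cast_one, div_one]
      rfl
    rw [k2]
    simp
    ring

/-- factorisation at `θ = 0`: the site `i0` is an independent scalar row at `K` -/
theorem l2rw_row_zero {n : ℕ} (hn : 0 < n) {a : ℝ} (ha : 0 < a) {P : LlStp} (hP : LlStpAdm a P) (tl : Option ℕ) (i0 : Fin n)
    {r : ℕ} {τ : ℕ → ℕ → ℕ} (hτ : IsTr P.length r τ) {T : (ℕ → SkCfg n) → ℝ} (hT0 : LlNoSite i0 T) (g : (ℕ → Bool) → ℝ) :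
    llRowNu n a P tl i0 0 r τ (fun σ => T σ * g fun x => σ x i0) = llRowNu n a P tl i0 0 r τ T * llNuS a P r τ g := by
  have e : ∀ σ : ℕ → SkCfg n, T σ = T fun x => l2rwUp i0 (l2rwSplit i0 (σ x)).1 :=
    fun σ => hT0 _ _ fun x i hi => (l2rw_up_apply i0 (σ x) hi).symm
  have h1 := l2rw_fact hn ha hP tl i0 hτ (fun u => T fun x => l2rwUp i0 (u x)) g
  have h2 := l2rw_fact hn ha hP tl i0 hτ (fun u => T fun x => l2rwUp i0 (u x)) (fun _ => 1)
  have h3 : llNuS a P r τ (fun _ => 1) = 1 := by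
    unfold llNuS
    exact tcb_nu_const (l2rw_base_ok 1 ha) (sk_sy_adm hP.2) r τ 0 1
  simp only [← e, mul_one, h3] at h1 h2
  rw [h1, h2]


/-! ### fields of the abstract row interpolation (`L2Row.Ok` of `L02/A7Defs`) -/

/-- **PE (2) for the row model**, off-diagonal form, any number `r` of old labels (also `r = 0`), within `[0,1]` -/
theorem l2rw_deriv {n : ℕ} (hn : 0 < n) {a : ℝ} (ha : 0 < a) {P : LlStp} {tl : Option ℕ} (hP : LlStpAdm a P) (htl : LlTiltOk P tl)
    (i0 : Fin n) {r : ℕ} {τ : ℕ → ℕ → ℕ} (hτ : IsTr P.length r τ) {R : (ℕ → SkCfg n) → ℝ} (hR : TrUses r R) {θ : ℝ}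
    (hθ : θ ∈ Set.Icc (0 : ℝ) 1) :
    HasDerivWithinAt (fun θ => llRowNu n a P tl i0 θ r τ R)
      (2⁻¹ * trSumK (llMs a P) P.length 2 r τ fun τ' => (if τ' r (r + 1) ≤ P.length then (1 : ℝ) else 0) *
        llRowNu n a P tl i0 θ (r + 2) τ' fun σ => R σ *
          (skSp (σ r) i0 * skSp (σ (r + 1)) i0 * (llJsD n a P tl i0).J τ' σ r (r + 1))) (Set.Icc 0 1) θ := by
  have hB := l2rw_base_ok n ha
  have hadm := l2rw_adm n hP tl
  rcases Nat.eq_zero_or_pos r with rfl | hr
  · have e : (fun θ => llRowNu n a P tl i0 θ 0 τ R) = fun _ => R fun _ => default := by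
      funext θ
      unfold llRowNu gcNu
      exact tr_b3_nu_zero hB ((gc_adm (B := skBase n a) (llFeat n i0) hadm θ).1.ghNn le_rfl) τ 0 R
    rw [e, l2rw_sumK_zero_labels, mul_zero]
    exact hasDerivWithinAt_const _ _ _
  · have h := ll_al_cov hB (llFeat n i0) hadm (l2rw_diagC hn P tl i0) hr (by rw [l2rw_hs_length]; exact hτ) 0 R hR hθ
    refine h.congr_deriv ?_
    have e1 : (skBase n a).a = a := rfl
    rw [e1, l2rw_ms, l2rw_hs_length, one_div]
    congr 2
    funext τ'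
    unfold llRowNu gcNu
    rw [← tcb_nu_mul_const hB (gc_adm (B := skBase n a) (llFeat n i0) hadm θ).1]
    congr 1
    funext σ
    unfold llVo
    split_ifs with h1
    · rw [l2rw_trV_J hn a htl, one_mul]
    · rw [mul_zero, zero_mul]

/-- the row model is smooth in `θ` on `[0,1]` -/
theorem l2rw_contDiffOn {n : ℕ} {a : ℝ} (ha : 0 < a) {P : LlStp} (tl : Option ℕ) (hP : LlStpAdm a P)
    (i0 : Fin n) {r : ℕ} {τ : ℕ → ℕ → ℕ} (hτ : IsTr P.length r τ) {R : (ℕ → SkCfg n) → ℝ} (hR : TrUses r R) :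
    ContDiffOn ℝ (⊤ : ℕ∞) (fun θ => llRowNu n a P tl i0 θ r τ R) (Set.Icc 0 1) :=
  tr_cov_contDiffOn (l2rw_base_ok n ha) (llFeat n i0) (l2rw_adm n hP tl) (by rw [l2rw_hs_length]; exact hτ) 0 R hR

theorem l2rw_cont {n : ℕ} {a : ℝ} (ha : 0 < a) {P : LlStp} (tl : Option ℕ) (hP : LlStpAdm a P)
    (i0 : Fin n) {r : ℕ} {τ : ℕ → ℕ → ℕ} (hτ : IsTr P.length r τ) {R : (ℕ → SkCfg n) → ℝ} (hR : TrUses r R) :
    ContinuousOn (fun θ => llRowNu n a P tl i0 θ r τ R) (Set.Icc 0 1) :=
  (l2rw_contDiffOn ha tl hP i0 hτ hR).continuousOn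

/-- masses of the common grid -/
theorem l2rw_isMs (n : ℕ) {a : ℝ} (ha : 0 < a) {P : LlStp} (hP : LlStpAdm a P) : IsMs P.length (llMs a P) ∧ llMs a P P.length = a := by
  have h := tr_c3_isMs (l2rw_base_ok (n + 1) ha) (llFeat (n + 1) 0) (l2rw_adm (n + 1) hP none)
  have e1 : (skBase (n + 1) a).a = a := rfl
  rwa [e1, l2rw_ms, l2rw_hs_length] at h

/-- positivity / domination for the row model -/
theorem l2rw_abs_le {n : ℕ} {a : ℝ} (ha : 0 < a) {P : LlStp} (tl : Option ℕ) (hP : LlStpAdm a P) (i0 : Fin n) (θ : ℝ) (r : ℕ)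
    (τ : ℕ → ℕ → ℕ) {R R' : (ℕ → SkCfg n) → ℝ} (h : ∀ σ, |R σ| ≤ R' σ) :
    |llRowNu n a P tl i0 θ r τ R| ≤ llRowNu n a P tl i0 θ r τ R' :=
  tcb_nu_abs_le_nu (l2rw_base_ok n ha) (gc_adm (B := skBase n a) (llFeat n i0) (l2rw_adm n hP tl) θ).1 r τ 0 h


theorem l2rw_eqns_cite : True := by
  have := @l2rwDb.eq_1
  have := @l2rwDb.eq_2
  have := @l2rwDb.eq_def
  have := @l2rwSplit.eq_1
  have := @l2rwUp.eq_1
  have := @l2rwRestHs.eq_1
  have := @l2rwRestLs.eq_1
  have := @l2rwNuR.eq_1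
  trivial

end Claimed.Agent.R286
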