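-- OWNER helper93 (head LL 02+11)
import Claimed.Agent.R286.L02.A7Main
import Claimed.Agent.R286.L02.Inst
import Claimed.Agent.R286.L02.Row

/-!
# Row 286 (S0533), L02/A7Inst : THE INSTANCE of the abstract row interpolation (`L02/A7Defs`, helper4) on the row model of `L02/Defs` (facts: `L02/Row`, helper115)
(owner helper93; prefix `ll2w_`, `llRw`)      TEX[LL:found:cavity-quotient]

State space of the abstract cut: `S1 × Bool`.  Here `S1 := SkCfg n`, the REST of a configuration = the configuration with the site `i0` reset (`llRs`),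
`llSpl i0 σ x = (rest of σ x, σ x i0)`.      `llRw n a P tl i0 M0 : L2Row (SkCfg n)`; `M0` enters the Gronwall exponent only.
* `ll2w_ok`    : `(llRw ..).Ok`
* transport    : `W.jt.evLt`, `W.jt.rem`, `W.remA7` = `(llJsD ..).evLt`, `.rem`, `llRemA7`
* `ll2w_exact`, `ll2w_abs` : the statements of `exit_a7_exact`, `exit_a7_abs`.
-/

set_option autoImplicit false

namespace Claimed.Agent.R286

open scoped BigOperators Nat

/-- the configuration with the site `i0` reset -/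
def llRs {n : ℕ} (i0 : Fin n) (σ : SkCfg n) : SkCfg n := Function.update σ i0 false

/-- (rest, removed spin) of every label -/
def llSpl {n : ℕ} (i0 : Fin n) (σ : ℕ → SkCfg n) : ℕ → SkCfg n × Bool := fun x => (llRs i0 (σ x), σ x i0)

/-- the row model as an abstract row interpolation -/
noncomputable def llRw (n : ℕ) (a : ℝ) (P : LlStp) (tl : Option ℕ) (i0 : Fin n) (M0 : ℝ) : L2Row (SkCfg n) where
  N := P.length
  ms := llMs a P
  nu := fun θ r τ R => llRowNu n a P tl i0 θ r τ fun σ => R (llSpl i0 σ)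
  nuR := fun r τ R1 => llRowNu n a P tl i0 0 r τ fun σ => R1 fun x => llRs i0 (σ x)
  nuK := llNuS a P
  ov := skOvD i0
  bC := fun t => skCumB (llMat P) t
  hC := fun t => skCumH (llMat P) t
  KC := fun t => llCumK P t
  qC := fun t => llQs a P t
  msk := llMk tl
  G := fun r => 4 * a ^ 2 * r * (r + 1) * M0

theorem ll2w_eqns_cite : True := by
  have := @llRs.eq_1
  have := @llSpl.eq_1
  have := @llRw.eq_1
  trivial

/-! ### elementary facts -/

theorem ll2w_rs_ne {n : ℕ} (i0 : Fin n) (σ : SkCfg n) {i : Fin n} (hi : i ≠ i0) : llRs i0 σ i = σ i := by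
  unfold llRs; exact Function.update_of_ne hi _ _

theorem ll2w_ovD_rs {n : ℕ} (i0 : Fin n) (s s' : SkCfg n) : skOvD i0 (llRs i0 s) (llRs i0 s') = skOvD i0 s s' := by
  unfold skOvD
  congr 1
  refine Finset.sum_congr rfl fun i _ => ?_
  split_ifs with h
  · rfl
  · unfold skSp; rw [ll2w_rs_ne i0 s h, ll2w_rs_ne i0 s' h]

theorem ll2w_noSite {n : ℕ} {i0 : Fin n} {T : (ℕ → SkCfg n) → ℝ} (hT : LlNoSite i0 T) (σ : ℕ → SkCfg n) :
    T (fun x => llRs i0 (σ x)) = T σ := hT _ _ fun x _ hi => ll2w_rs_ne i0 (σ x) hi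

theorem ll2w_noSite_rs {n : ℕ} (i0 : Fin n) (R : (ℕ → SkCfg n) → ℝ) : LlNoSite i0 fun σ => R fun x => llRs i0 (σ x) := by
  intro σ σ' h
  have e : (fun x => llRs i0 (σ x)) = fun x => llRs i0 (σ' x) := by
    funext x i
    by_cases hi : i = i0
    · subst hi; simp [llRs]
    · rw [ll2w_rs_ne i0 _ hi, ll2w_rs_ne i0 _ hi, h x i hi]
  show R _ = R _
  rw [e]

theorem ll2w_uses {n : ℕ} (i0 : Fin n) {r : ℕ} {R : (ℕ → SkCfg n × Bool) → ℝ} (hR : TrUses r R) :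
    TrUses r fun σ : ℕ → SkCfg n => R (llSpl i0 σ) := by
  intro σ σ' h
  exact hR _ _ fun i hi => by unfold llSpl; rw [h i hi]

theorem ll2w_uses_rs {n : ℕ} (i0 : Fin n) {r : ℕ} {R : (ℕ → SkCfg n) → ℝ} (hR : TrUses r R) :
    TrUses r fun σ : ℕ → SkCfg n => R fun x => llRs i0 (σ x) := by
  intro σ σ' h
  exact hR _ _ fun i hi => by rw [h i hi]

/-- a bound `M0` always exists -/
theorem ll2w_bd_ex (P : LlStp) : ∃ M0 : ℝ, LlBd M0 P := by
  refine ⟨∑ t ∈ Finset.range (P.length + 1), (|skCumB (llMat P) t| + |skCumH (llMat P) t - llCumK P t|), fun t => ?_⟩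
  have key : ∀ t, t ≤ P.length → |skCumB (llMat P) t| + |skCumH (llMat P) t - llCumK P t|
      ≤ ∑ t ∈ Finset.range (P.length + 1), (|skCumB (llMat P) t| + |skCumH (llMat P) t - llCumK P t|) := fun t ht =>
    Finset.single_le_sum (f := fun t => |skCumB (llMat P) t| + |skCumH (llMat P) t - llCumK P t|) (fun i _ => by positivity)
      (Finset.mem_range.2 (by omega))
  have red : ∀ t, P.length ≤ t → skCumB (llMat P) t = skCumB (llMat P) P.length ∧ skCumH (llMat P) t = skCumH (llMat P) P.length ∧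
      llCumK P t = llCumK P P.length := by
    intro t ht
    have h1 : (llMat P).length ≤ t := by rw [ll2_mat_len]; exact ht
    have h2 : (llMat P).length ≤ P.length := by rw [ll2_mat_len]
    unfold skCumB skCumH llCumK
    rw [List.take_of_length_le h1, List.take_of_length_le h2, List.take_of_length_le ht, List.take_of_length_le le_rfl]
    exact ⟨rfl, rfl, rfl⟩
  rcases le_total t P.length with ht | ht
  · have h := key t ht
    have h1 := abs_nonneg (skCumB (llMat P) t)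
    have h2 := abs_nonneg (skCumH (llMat P) t - llCumK P t)
    have h3 := le_abs_self (skCumB (llMat P) t)
    exact ⟨by linarith, by linarith⟩
  · obtain ⟨e1, e2, e3⟩ := red t ht
    rw [e1, e2, e3]
    have h := key P.length le_rfl
    have h1 := abs_nonneg (skCumB (llMat P) P.length)
    have h2 := abs_nonneg (skCumH (llMat P) P.length - llCumK P P.length)
    have h3 := le_abs_self (skCumB (llMat P) P.length)
    exact ⟨by linarith, by linarith⟩

/-! ### the laws of the row model -/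

theorem ll2w_law (n : ℕ) {a : ℝ} (ha : 0 < a) {P : LlStp} (hP : LlStpAdm a P) (tl : Option ℕ) (i0 : Fin n) (θ : ℝ) :
    JtNuLaw P.length fun q τ T => llRowNu n a P tl i0 θ q τ T := by
  obtain ⟨h1, h2, -⟩ := gc_adm (B := skBase n a) (llFeat n i0) (l2rw_adm n hP tl) θ
  have hB := l2rw_base_ok n ha
  rw [l2rw_hs_length] at h2
  exact
    { rep := fun q τ => ⟨trPr (skBase n a) _ q τ 0, fun s => tr_pr_nonneg hB h1 q τ 0 s, tr_pr_sum hB h1 q τ 0,
        fun T => tr_nu_eq_sum hB h1 q τ 0 T⟩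
      congr := fun q τ τ' h T => tr_nu_congr _ _ h 0 T
      comap := fun q p τ hτ f hf T hT => tr_nu_comap hB h1 (by rw [h2]; exact hτ) 0 f hf T hT }

section inst
variable {n : ℕ} {a : ℝ} {P : LlStp} {tl : Option ℕ} (i0 : Fin n) (M0 : ℝ)

/-- the insertion -/
theorem ll2w_Jv (τ : JtTopo) (σ : ℕ → SkCfg n) (c d : ℕ) :
    (llRw n a P tl i0 M0).Jv (τ c d) (llRs i0 (σ c)) (llRs i0 (σ d)) = (llJsD n a P tl i0).J τ σ c d := by
  unfold L2Row.Jv JtCtx.J JtCtx.Qs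
  show skCumH (llMat P) (τ c d) + skCumB (llMat P) (τ c d) * (llMk tl (τ c d) * skOvD i0 (llRs i0 (σ c)) (llRs i0 (σ d))) - llCumK P (τ c d) = _
  rw [ll2w_ovD_rs]
  rfl

theorem ll2w_ins (q m : ℕ) (τ : JtTopo) (σ : ℕ → SkCfg n) :
    (llRw n a P tl i0 M0).ins q m τ (fun x => llRs i0 (σ x)) = (llJsD n a P tl i0).Jprod q m τ σ := by
  unfold L2Row.ins JtCtx.Jprod
  exact Finset.prod_congr rfl fun l _ => ll2w_Jv i0 M0 τ σ _ _

theorem ll2w_insE (q m : ℕ) (τ : JtTopo) (σ : ℕ → SkCfg n) :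
    (llRw n a P tl i0 M0).insE q m τ (llSpl i0 σ) = llEps i0 q m σ * (llJsD n a P tl i0).Jprod q m τ σ := by
  unfold L2Row.insE JtCtx.Jprod llEps
  rw [← Finset.prod_mul_distrib]
  refine Finset.prod_congr rfl fun l _ => ?_
  rw [← ll2w_Jv i0 M0 τ σ, mul_comm]
  rfl

theorem ll2w_Jprod (q m : ℕ) (τ : JtTopo) (σ : ℕ → SkCfg n) :
    (llRw n a P tl i0 M0).jt.Jprod q m τ (llSpl i0 σ) = (llJsD n a P tl i0).Jprod q m τ σ := by
  rw [← ll2w_ins i0 M0]
  rfl

theorem ll2w_off (q m : ℕ) (τ : JtTopo) : l2Off P.length q m τ = (llJsD n a P tl i0).off q m τ := rfl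

theorem ll2w_quo (r q i j : ℕ) (τ : JtTopo) :
    (llRw n a P tl i0 M0).jt.Quo r q i j τ = (llJsD n a P tl i0).Quo r q i j τ := rfl

/-- the derivatives -/
theorem ll2w_dn (θ : ℝ) (m r : ℕ) (τ : JtTopo) (R : (ℕ → SkCfg n × Bool) → ℝ) :
    (llRw n a P tl i0 M0).dn θ m r τ R = llRowD n a P tl i0 θ m r τ fun σ => R (llSpl i0 σ) := by
  unfold L2Row.dn llRowD
  rw [inv_pow]
  show _ * trSumK (llMs a P) P.length (2 * m) r τ _ = _ * trSumK (llMs a P) P.length (2 * m) r τ _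
  congr 2
  funext τ'
  show l2Off P.length r m τ' * llRowNu n a P tl i0 θ (r + 2 * m) τ' (fun σ => R (llSpl i0 σ) * (llRw n a P tl i0 M0).insE r m τ' (llSpl i0 σ)) = _
  simp only [ll2w_insE]
  rfl

theorem ll2w_remT (k r : ℕ) (τ : JtTopo) (R : (ℕ → SkCfg n × Bool) → ℝ) :
    (llRw n a P tl i0 M0).remT k r τ R = llRowRem n a P tl i0 (k + 1) r τ fun σ => R (llSpl i0 σ) := by
  unfold L2Row.remT llRowRem
  have e : ∀ θ, (llRw n a P tl i0 M0).dn θ (k + 1) r τ R = llRowD n a P tl i0 θ (k + 1) r τ fun σ => R (llSpl i0 σ) :=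
    fun θ => ll2w_dn i0 M0 θ (k + 1) r τ R
  have e2 : k + 1 - 1 = k := rfl
  rw [e2]
  exact intervalIntegral.integral_congr fun θ _ => by simp only [e]

/-- **transport of the exact remainder** -/
theorem ll2w_remA7 {T : (ℕ → SkCfg n) → ℝ} (hT0 : LlNoSite i0 T) (k q : ℕ) (τ0 : JtTopo) (i j : ℕ) :
    (llRw n a P tl i0 M0).remA7 k q τ0 T i j = llRemA7 n a P tl i0 q τ0 T i j (k + 1) := by
  have h1 : (llRw n a P tl i0 M0).remT k q τ0 (l2Obs T i j)
      = llRowRem n a P tl i0 (k + 1) q τ0 (fun σ => T σ * (skSp (σ i) i0 * skSp (σ j) i0)) := by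
    rw [ll2w_remT]
    have e : (fun σ => l2Obs T i j (llSpl i0 σ)) = fun σ => T σ * (skSp (σ i) i0 * skSp (σ j) i0) := by
      funext σ
      show T (fun x => llRs i0 (σ x)) * _ = _
      rw [ll2w_noSite hT0]
      rfl
    rw [e]
  have h2 : (llRw n a P tl i0 M0).rem2 (fun r τ => (llRw n a P tl i0 M0).jt.Quo r q i j τ) k q τ0 T
      = ∑ d ∈ Finset.range (k + 1), ((2 : ℝ) ^ d * (d ! : ℝ))⁻¹ * (llJsD n a P tl i0).sumK (2 * d) q τ0 fun τ =>
        (llJsD n a P tl i0).off q d τ * (llJsD n a P tl i0).Quo (q + 2 * d) q i j τ (Finset.range d) *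
          llRowRem n a P tl i0 (k + 1 - d) (q + 2 * d) τ fun σ => T σ * (llJsD n a P tl i0).Jprod q d τ σ := by
    unfold L2Row.rem2
    refine Finset.sum_congr rfl fun d hd => ?_
    have hd' : d ≤ k := Nat.lt_succ_iff.1 (Finset.mem_range.1 hd)
    have e3 : ∀ τ : JtTopo, (llRw n a P tl i0 M0).remT (k - d) (q + 2 * d) τ
          (fun σ => T (l2F σ) * (llRw n a P tl i0 M0).ins q d τ (l2F σ))
        = llRowRem n a P tl i0 (k + 1 - d) (q + 2 * d) τ fun σ => T σ * (llJsD n a P tl i0).Jprod q d τ σ := by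
      intro τ
      rw [ll2w_remT, show k - d + 1 = k + 1 - d by omega]
      have e : (fun σ : ℕ → SkCfg n => T (l2F (llSpl i0 σ)) * (llRw n a P tl i0 M0).ins q d τ (l2F (llSpl i0 σ)))
          = fun σ => T σ * (llJsD n a P tl i0).Jprod q d τ σ := by
        funext σ
        show T (fun x => llRs i0 (σ x)) * (llRw n a P tl i0 M0).ins q d τ (fun x => llRs i0 (σ x)) = _
        rw [ll2w_noSite hT0, ll2w_ins]
      rw [e]
    simp only [e3]
    rfl
  unfold L2Row.remA7 llRemA7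
  rw [h1, h2]

theorem ll2w_nu_one (ha : 0 < a) (hP : LlStpAdm a P) (r : ℕ) (τ : JtTopo) (R : (ℕ → SkCfg n × Bool) → ℝ) :
    (llRw n a P tl i0 M0).jt.nu r τ R = llNu n a P tl r τ fun σ => R (llSpl i0 σ) :=
  l2rw_row_one i0.pos ha hP tl i0 r τ fun σ => R (llSpl i0 σ)

/-- **transport of the evaluations** -/
theorem ll2w_ev (ha : 0 < a) (hP : LlStpAdm a P) {T : (ℕ → SkCfg n) → ℝ} (hT0 : LlNoSite i0 T) (q : ℕ) (τ0 : JtTopo)
    (F : ℕ → JtTopo → JtFn) (m : ℕ) :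
    (llRw n a P tl i0 M0).jt.ev q τ0 F (fun σ => T (l2F σ)) m = (llJsD n a P tl i0).ev q τ0 F T m := by
  have e : ∀ τ : JtTopo, (llRw n a P tl i0 M0).jt.nu (q + 2 * m) τ (fun σ => T (l2F σ) * (llRw n a P tl i0 M0).jt.Jprod q m τ σ)
      = (llJsD n a P tl i0).nu (q + 2 * m) τ fun σ => T σ * (llJsD n a P tl i0).Jprod q m τ σ := by
    intro τ
    rw [ll2w_nu_one i0 M0 ha hP]
    have e1 : (fun σ : ℕ → SkCfg n => T (l2F (llSpl i0 σ)) * (llRw n a P tl i0 M0).jt.Jprod q m τ (llSpl i0 σ))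
        = fun σ => T σ * (llJsD n a P tl i0).Jprod q m τ σ := by
      funext σ
      show T (fun x => llRs i0 (σ x)) * _ = _
      rw [ll2w_noSite hT0, ll2w_Jprod]
    rw [e1]
    rfl
  unfold JtCtx.ev
  simp only [e]
  rfl

theorem ll2w_evLt (ha : 0 < a) (hP : LlStpAdm a P) {T : (ℕ → SkCfg n) → ℝ} (hT0 : LlNoSite i0 T) (q : ℕ) (τ0 : JtTopo)
    (F : ℕ → JtTopo → JtFn) (k : ℕ) :
    (llRw n a P tl i0 M0).jt.evLt q τ0 F (fun σ => T (l2F σ)) k = (llJsD n a P tl i0).evLt q τ0 F T k := by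
  unfold JtCtx.evLt
  exact Finset.sum_congr rfl fun m _ => ll2w_ev i0 M0 ha hP hT0 q τ0 F m

/-- **transport of the majorant** -/
theorem ll2w_rem (ha : 0 < a) (hP : LlStpAdm a P) {T : (ℕ → SkCfg n) → ℝ} (hT0 : LlNoSite i0 T) (q : ℕ) (τ0 : JtTopo) (k : ℕ) :
    (llRw n a P tl i0 M0).jt.rem q τ0 (fun σ => T (l2F σ)) k = (llJsD n a P tl i0).rem q τ0 T k := by
  have e : ∀ τ : JtTopo, (llRw n a P tl i0 M0).jt.nu (q + 2 * k) τ (fun σ => |T (l2F σ)| * |(llRw n a P tl i0 M0).jt.Jprod q k τ σ|)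
      = (llJsD n a P tl i0).nu (q + 2 * k) τ fun σ => |T σ| * |(llJsD n a P tl i0).Jprod q k τ σ| := by
    intro τ
    rw [ll2w_nu_one i0 M0 ha hP]
    have e1 : (fun σ : ℕ → SkCfg n => |T (l2F (llSpl i0 σ))| * |(llRw n a P tl i0 M0).jt.Jprod q k τ (llSpl i0 σ)|)
        = fun σ => |T σ| * |(llJsD n a P tl i0).Jprod q k τ σ| := by
      funext σ
      show |T (fun x => llRs i0 (σ x))| * _ = _
      rw [ll2w_noSite hT0, ll2w_Jprod]
    rw [e1]
    rfl
  unfold JtCtx.rem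
  simp only [e]
  rfl

/-! ### the hypotheses of the abstract cut -/

theorem ll2w_deriv (ha : 0 < a) (hP : LlStpAdm a P) (htl : LlTiltOk P tl) (r : ℕ) (τ : JtTopo) (R : (ℕ → SkCfg n × Bool) → ℝ) (θ : ℝ)
    (hτ : IsTr P.length r τ) (hR : TrUses r R) (hθ : θ ∈ Set.Ioo (0 : ℝ) 1) :
    HasDerivAt (fun θ => llRowNu n a P tl i0 θ r τ fun σ => R (llSpl i0 σ))
      (2⁻¹ * trSumK (llMs a P) P.length 2 r τ fun τ' => (if τ' r (r + 1) ≤ P.length then (1 : ℝ) else 0) *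
        llRowNu n a P tl i0 θ (r + 2) τ' fun σ => R (llSpl i0 σ) *
          ((llRw n a P tl i0 M0).Jv (τ' r (r + 1)) (llRs i0 (σ r)) (llRs i0 (σ (r + 1))) * (jtSp (σ r i0) * jtSp (σ (r + 1) i0)))) θ := by
  have hn : 0 < n := i0.pos
  have hB := l2rw_base_ok n ha
  rcases Nat.eq_zero_or_pos r with rfl | hr
  · have h0 : (fun θ => llRowNu n a P tl i0 θ 0 τ fun σ => R (llSpl i0 σ)) = fun _ => R (llSpl i0 fun _ => default) := by
      funext θ
      unfold llRowNu gcNu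
      rw [tr_b3_nu_zero hB ((gc_adm (B := skBase n a) (llFeat n i0) (l2rw_adm n hP tl) θ).1.ghNn le_rfl)]
    rw [h0, l2rw_sumK_zero_labels, mul_zero]
    exact hasDerivAt_const _ _
  · have h := ll_al_cov hB (llFeat n i0) (l2rw_adm n hP tl) (l2rw_diagC hn P tl i0) hr (by rw [l2rw_hs_length]; exact hτ) 0 _
      (ll2w_uses i0 hR) (Set.Ioo_subset_Icc_self hθ)
    have h' := h.hasDerivAt (Icc_mem_nhds hθ.1 hθ.2)
    have e1 : (skBase n a).a = a := rfl
    rw [e1, l2rw_ms, l2rw_hs_length, one_div] at h'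
    refine h'.congr_deriv ?_
    congr 2
    funext τ'
    by_cases hle : τ' r (r + 1) ≤ P.length
    · simp only [llVo, hle, if_true, one_mul]
      show llRowNu n a P tl i0 θ (r + 2) τ' _ = _
      congr 1
      funext σ
      rw [l2rw_trV_J hn a htl i0 τ' σ r (r + 1), ll2w_Jv, mul_comm ((llJsD n a P tl i0).J τ' σ r (r + 1))]
      rfl
    · simp only [llVo, hle, if_false, mul_zero, zero_mul]
      exact (ll2w_law n ha hP tl i0 θ).const (r + 2) τ' 0

theorem ll2w_cont (ha : 0 < a) (hP : LlStpAdm a P) (r : ℕ) (τ : JtTopo) (T : (ℕ → SkCfg n) → ℝ)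
    (hτ : IsTr P.length r τ) (hT : TrUses r T) :
    ContinuousOn (fun θ => llRowNu n a P tl i0 θ r τ T) (Set.Icc 0 1) := fun θ hθ =>
  (tr_cov_deriv (l2rw_base_ok n ha) (llFeat n i0) (l2rw_adm n hP tl) (by rw [l2rw_hs_length]; exact hτ) 0 T hT hθ).continuousWithinAt

/-- **INSTANCE**: the row model satisfies the hypotheses of the abstract cut of (A7) -/
theorem ll2w_ok (ha : 0 < a) (hP : LlStpAdm a P) (htl : LlTiltOk P tl) (hM : LlBd M0 P) : (llRw n a P tl i0 M0).Ok where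
  ms := ll2_isMs ha hP
  deriv := fun r τ R θ hτ hR hθ => ll2w_deriv i0 M0 ha hP htl r τ R θ hτ hR hθ
  cont := fun r τ R hτ hR => ll2w_cont i0 ha hP r τ (fun σ => R (llSpl i0 σ)) hτ (ll2w_uses i0 hR)
  fact := fun r τ R1 R2 hτ => l2rw_row_zero i0.pos ha hP tl i0 hτ (ll2w_noSite_rs i0 R1) R2
  nu_congr := fun θ r τ τ' R h => (ll2w_law n ha hP tl i0 θ).congr r τ τ' h fun σ => R (llSpl i0 σ)
  nuR_congr := fun r τ τ' R h => (ll2w_law n ha hP tl i0 0).congr r τ τ' h fun σ => R fun x => llRs i0 (σ x)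
  nuK_congr := fun r τ τ' R h => (ll2_nuS_law ha hP).congr r τ τ' h R
  nuR_perm := fun r τ R e hτ hR he =>
    (ll2w_law n ha hP tl i0 0).perm hτ (fun σ => R fun x => llRs i0 (σ x)) (ll2w_uses_rs i0 hR) e he
  nuK_perm := fun r τ R e hτ hR he => (ll2_nuS_law ha hP).perm hτ R hR e he
  nuK_prune := fun r τ R hτ hR => (ll2_nuS_law ha hP).prune (k := 1) hτ hR
  nuK_one := fun r τ => (ll2_nuS_law ha hP).const r τ 1
  nuK_bd := fun r τ R h => (ll2_nuS_law ha hP).abs_le_const r τ h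
  gron := fun θ r τ R hτ hR h0 hθ =>
    l2rw_gron_two i0.pos ha hP htl hM i0 hτ (ll2w_uses i0 hR) (fun σ => h0 _) hθ (Set.right_mem_Icc.2 zero_le_one)
  nu_abs := fun θ r τ R R' _ h =>
    ((ll2w_law n ha hP tl i0 θ).abs_le r τ fun σ => R (llSpl i0 σ)).trans ((ll2w_law n ha hP tl i0 θ).mono r τ fun σ => h _)

end inst

/-! ### the exits -/

theorem ll2w_obs {n : ℕ} {i0 : Fin n} {T : (ℕ → SkCfg n) → ℝ} (hT0 : LlNoSite i0 T) (i j : ℕ) :
    (fun σ => l2Obs T i j (llSpl i0 σ)) = fun σ => T σ * (skSp (σ i) i0 * skSp (σ j) i0) := by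
  funext σ
  show T (fun x => llRs i0 (σ x)) * _ = _
  rw [ll2w_noSite hT0]
  rfl

/-- TEX[LL:found:cavity-quotient] **(A7), EXACT** (statement of `exit_a7_exact`) -/
theorem ll2w_exact {n : ℕ} {a : ℝ} (ha : 0 < a) {P : LlStp} {tl : Option ℕ} (hP : LlStpAdm a P) (htl : LlTiltOk P tl) (i0 : Fin n)
    {q : ℕ} {τ0 : ℕ → ℕ → ℕ} (hτ : IsTr P.length q τ0) {T : (ℕ → SkCfg n) → ℝ} (hT : TrUses q T) (hT0 : LlNoSite i0 T)
    {i j : ℕ} (hi : i < q) (hj : j < q) (hij : i ≠ j) {k : ℕ} (hk : 0 < k) :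
    llNu n a P tl q τ0 (fun σ => T σ * (skSp (σ i) i0 * skSp (σ j) i0))
      = (llJsD n a P tl i0).evLt q τ0 (fun r τ => (llJsD n a P tl i0).Quo r q i j τ) T k + llRemA7 n a P tl i0 q τ0 T i j k := by
  obtain ⟨k, rfl⟩ : ∃ k', k = k' + 1 := ⟨k - 1, by omega⟩
  obtain ⟨M0, hM⟩ := ll2w_bd_ex P
  have h := l2a7_exact (llRw n a P tl i0 M0) (ll2w_ok i0 M0 ha hP htl hM) hτ hT hi hj hij k
  rw [ll2w_nu_one i0 M0 ha hP, ll2w_evLt i0 M0 ha hP hT0, ll2w_remA7 i0 M0 hT0, ll2w_obs hT0] at h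
  exact h

/-- TEX[LL:found:cavity-quotient] **(A7), absolute bound of the remainder** (statement of `exit_a7_abs`) -/
theorem ll2w_abs (q k : ℕ) (M0 : ℝ) : ∃ C : ℝ, ∀ (n : ℕ) (a : ℝ) (P : LlStp) (tl : Option ℕ) (i0 : Fin n) (τ0 : ℕ → ℕ → ℕ)
    (T : (ℕ → SkCfg n) → ℝ) (i j : ℕ), 0 < a → a ≤ 4 → LlStpAdm a P → LlTiltOk P tl → LlBd M0 P → IsTr P.length q τ0 → TrUses q T →
    LlNoSite i0 T → i < q → j < q → i ≠ j → 0 < k →
      |llRemA7 n a P tl i0 q τ0 T i j k| ≤ C * (llJsD n a P tl i0).rem q τ0 T k := by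
  obtain ⟨C, hC0, hC⟩ := l2a7_abs (k - 1)
  refine ⟨C * Real.exp (64 * ((q + 2 * k : ℕ) : ℝ) * (((q + 2 * k : ℕ) : ℝ) + 1) * M0), ?_⟩
  intro n a P tl i0 τ0 T i j ha ha4 hP htl hM hτ hT hT0 hi hj _ hk
  obtain ⟨k, rfl⟩ : ∃ k', k = k' + 1 := ⟨k - 1, by omega⟩
  simp only [Nat.add_sub_cancel] at hC
  have h := hC (SkCfg n) (llRw n a P tl i0 M0) (ll2w_ok i0 M0 ha hP htl hM) q τ0 T i j hτ hT hi hj
  rw [ll2w_remA7 i0 M0 hT0, ll2w_rem i0 M0 ha hP hT0] at h
  refine h.trans (mul_le_mul_of_nonneg_right (mul_le_mul_of_nonneg_left (Real.exp_le_exp.2 ?_) hC0) ?_)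
  · show 4 * a ^ 2 * ((q + 2 * (k + 1) : ℕ) : ℝ) * (((q + 2 * (k + 1) : ℕ) : ℝ) + 1) * M0 ≤ _
    have hM0 : 0 ≤ M0 := (abs_nonneg _).trans (hM 0).2
    have ha2 : 4 * a ^ 2 ≤ 64 := by nlinarith
    have hr : (0 : ℝ) ≤ ((q + 2 * (k + 1) : ℕ) : ℝ) := Nat.cast_nonneg _
    have h1 : 4 * a ^ 2 * ((q + 2 * (k + 1) : ℕ) : ℝ) ≤ 64 * ((q + 2 * (k + 1) : ℕ) : ℝ) := mul_le_mul_of_nonneg_right ha2 hr
    exact mul_le_mul_of_nonneg_right (mul_le_mul_of_nonneg_right h1 (by linarith)) hM0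
  · have hL := ll2_lawD n ha hP tl i0
    unfold JtCtx.rem
    exact hL.absK_nonneg _ _ _ fun τ' => mul_nonneg (JtCtx.Law.off_nonneg _ _ _ _) (hL.nu.nonneg _ _ fun σ => by positivity)

end Claimed.Agent.R286
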