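import Claimed.Agent.R286.L02.SzAlg

/-!
# Row 286 (S0533), LL Lemma `found:size-increment` (T7): ASSEMBLY      (architect helper115; head helper93; ADV helper73)

TEX[LL:found:size-increment]
EXITS
* `sz_ens`  : ONE ensemble: `F_{n+j} - F_n = det(j) + ∑_{t=1}^k j^t c_t + O(1/n) + O(remainder with k+1 factors |Δ|+|J|)`, `c_t = X.szC k t` independent of `j`,
              `c_1 = X.presR k + det1` (`sz_a_C_one`), `det`, `det1` deterministic and common to the two ensembles (`sz_det_congr`);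
* `sz_main` : the difference of the two ensembles (tilted `Rs, Xs`, untilted `R0, X0`): this is `(n+j) ψ_{n+j} - n ψ_n` since `n ψ_n = F_n^s - F_n^0` (equal total clocks).
No factor `n + j` in front of the remainder.  The constant depends on `k`, on the bound `J` of `j`, on `M0` (bounds of `b`, `|h - K|`, `b q²`) and on the bound `aM` of `a`.
-/

set_option autoImplicit false

namespace Claimed.Agent.R286

open scoped BigOperators Nat
open Set

/-- the two ensembles have the same stages except for the matrix increments, and the same total matrix clock -/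
def SzSame (R0 Rs : SzStp) : Prop :=
  R0.map (fun e => (e.m, e.dh, e.dK, e.dg)) = Rs.map (fun e => (e.m, e.dh, e.dK, e.dg)) ∧ szB R0 R0.length = szB Rs Rs.length

/-- LEAF: the deterministic terms are common to the two ensembles.  (every ingredient is a function of `R.map (m, dh, dK, dg)`: write `szSc R`, `szMs a R t`, `szH`, `szK`, `szG`, `R.length` through this list.) -/
theorem sz_det_congr {R0 Rs : SzStp} (h : SzSame R0 Rs) (a : ℝ) (j : ℕ) :
    szDet a R0 j = szDet a Rs j ∧ szDet1 a R0 = szDet1 a Rs := by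
  obtain ⟨h1, h2⟩ := h
  have hlen : R0.length = Rs.length := by simpa using congrArg List.length h1
  have hSc : szSc R0 = szSc Rs := by
    have := congrArg (List.map fun p : ℝ × ℝ × ℝ × ℝ => (⟨p.1, 0, p.2.2.1⟩ : SkInc)) h1
    simpa [szSc, List.map_map, Function.comp_def] using this
  have hMs : szMs a R0 = szMs a Rs := by
    funext t
    have := congrArg (fun L : List (ℝ × ℝ × ℝ × ℝ) => (L[t]?.map fun p => p.1).getD a) h1
    simpa [szMs, List.getElem?_map, Option.map_map, Function.comp_def] using this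
  have hH : szH R0 = szH Rs := by
    funext t
    have := congrArg (fun L : List (ℝ × ℝ × ℝ × ℝ) => ((L.take t).map fun p => p.2.1).sum) h1
    simpa [szH, ← List.map_take, List.map_map, Function.comp_def] using this
  have hK : szK R0 = szK Rs := by
    funext t
    have := congrArg (fun L : List (ℝ × ℝ × ℝ × ℝ) => ((L.take t).map fun p => p.2.2.1).sum) h1
    simpa [szK, ← List.map_take, List.map_map, Function.comp_def] using this
  have hG : szG R0 = szG Rs := by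
    funext t
    have := congrArg (fun L : List (ℝ × ℝ × ℝ × ℝ) => ((L.take t).map fun p => p.2.2.2).sum) h1
    simpa [szG, ← List.map_take, List.map_map, Function.comp_def] using this
  constructor
  · unfold szDet
    rw [h2, hSc, hMs, hH, hK, hG, hlen]
  · unfold szDet1
    rw [hMs, hG, hlen]

/-- **T7, one ensemble.** -/
theorem sz_ens (k J : ℕ) (M0 aM : ℝ) : ∃ C : ℝ, 0 ≤ C ∧ ∀ (n j : ℕ) (a : ℝ) (R : SzStp) (X : JtCtx (SkCfg n)),
    0 < n → 1 ≤ j → j ≤ J → 0 < a → a ≤ aM → SzAdm a R → SzBd M0 R → SzFit X a R → (∀ t, X.bC t ≤ M0) →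
    |skF (n + j) a (szMat R) 0 - skF n a (szMat R) 0 - szDet a R j - ∑ t ∈ Finset.Icc 1 k, (j : ℝ) ^ t * X.szC k t|
      ≤ C / n + C * X.szRem (k + 1) := by
  obtain ⟨C5, hC5, h5⟩ := sz_a_rem (k + 1) J M0 aM
  choose C2 hC2 h2 using fun r => sz_a_err r J M0 aM
  set G : ℝ := Real.exp (2 * aM ^ 2 * (2 * (k + 1) : ℕ) * ((2 * (k + 1) : ℕ) + 1) * (5 * M0 * J)) with hG
  have hG0 : 0 ≤ G := (Real.exp_pos _).le
  refine ⟨∑ r ∈ Finset.Icc 1 k, C2 r + G * C5, by
    have : 0 ≤ ∑ r ∈ Finset.Icc 1 k, C2 r := Finset.sum_nonneg fun r _ => hC2 r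
    positivity, ?_⟩
  intro n j a R X hn hj hjJ ha haM hR hb hX hbM
  have hn' : (0 : ℝ) < n := Nat.cast_pos.2 hn
  have hM0 : 0 ≤ M0 := (sz_k_clk_nonneg hR 0).1.trans (hb 0).1
  have hB : (skBase (n + j) a).Ok := sz_a_base_ok _ ha
  have hhs : GcAffAdm (skBase (n + j) a).a (szHs j R) := sz_k_hs_adm hR j
  have hMv : ∀ t s s', |trV (gcDK (szFeat n j) (szHs j R)) (szHs j R).length t s s'| ≤ 5 * M0 * j := by
    intro t s s'
    rw [sz_k_trV hn]
    exact (sz_k_V_bd hn j hR hb t _ _ (sz_k_ov_le _ _) (sz_k_Rr_le _ _)).2.2.2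
  have hrem0 : 0 ≤ X.szRem (k + 1) := sz_a_rem_nonneg ha hR hX (k + 1) (by omega)
  have hSA := h5 n j a R X hn hj hjJ ha haM hR hb hX hbM (by omega)
  -- the Gronwall factor
  have hGle : Real.exp (2 * (skBase (n + j) a).a ^ 2 * (2 * (k + 1) : ℕ) * ((2 * (k + 1) : ℕ) + 1) * (5 * M0 * j)) ≤ G := by
    apply Real.exp_le_exp.2
    have e : (skBase (n + j) a).a = a := rfl
    rw [e]
    have hjJ' : (j : ℝ) ≤ J := Nat.cast_le.2 hjJ
    gcongr
  have hSA0 : 0 ≤ szSA (skBase (n + j) a) (szFeat n j) (szHs j R) 0 (k + 1) 0 :=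
    (abs_nonneg _).trans (sz_g_abs hB (szFeat n j) hhs 0 (k + 1) (by omega) (by simp))
  have hsup : ∀ θ ∈ Icc (0 : ℝ) 1, |szS (skBase (n + j) a) (szFeat n j) (szHs j R) 0 (k + 1) θ|
      ≤ G * (C5 / n + C5 * X.szRem (k + 1)) := by
    intro θ hθ
    calc _ ≤ szSA (skBase (n + j) a) (szFeat n j) (szHs j R) 0 (k + 1) θ := sz_g_abs hB _ hhs 0 (k + 1) (by omega) hθ
      _ ≤ _ * szSA (skBase (n + j) a) (szFeat n j) (szHs j R) 0 (k + 1) 0 := sz_g_gron hB _ hhs 0 _ hMv (k + 1) (by omega) hθ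
      _ ≤ G * szSA (skBase (n + j) a) (szFeat n j) (szHs j R) 0 (k + 1) 0 := mul_le_mul_of_nonneg_right hGle hSA0
      _ ≤ _ := mul_le_mul_of_nonneg_left hSA hG0
  have tay := sz_g_taylor hB (szFeat n j) hhs (sz_a_diagC hn j R) 0 _ (sz_k_diag hn j R) k _ hsup
  have eF1 : ghF (skBase (n + j) a) (gcLs (szFeat n j) (gcAff (szHs j R) 1)) 0 = szF n j a R 1 := rfl
  have eF0 : ghF (skBase (n + j) a) (gcLs (szFeat n j) (gcAff (szHs j R) 0)) 0 = szF n j a R 0 := rfl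
  rw [eF1, eF0, sz_k_F_one hn j ha hR, sz_k_F_zero hn j hj ha hR] at tay
  -- the orders 1..k
  have hord : |∑ r ∈ Finset.Icc 1 k, szS (skBase (n + j) a) (szFeat n j) (szHs j R) 0 r 0 / ((2 : ℝ) ^ r * (r ! : ℝ))
      - ∑ t ∈ Finset.Icc 1 k, (j : ℝ) ^ t * X.szC k t| ≤ (∑ r ∈ Finset.Icc 1 k, C2 r) / n := by
    rw [← sz_a_poly_sum ha hR hX k j, ← Finset.sum_sub_distrib, Finset.sum_div]
    refine (Finset.abs_sum_le_sum_abs _ _).trans (Finset.sum_le_sum fun r hr => ?_)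
    have hr1 := (Finset.mem_Icc.1 hr).1
    rw [← sz_a_main hn j hj ha hR hX r hr1, ← sub_div, abs_div]
    have hden : (1 : ℝ) ≤ |(2 : ℝ) ^ r * (r ! : ℝ)| := by
      rw [abs_of_nonneg (by positivity)]
      have h1 : (1 : ℝ) ≤ (2 : ℝ) ^ r := one_le_pow₀ (by norm_num)
      have h2 : (1 : ℝ) ≤ (r ! : ℝ) := by exact_mod_cast Nat.succ_le_of_lt (Nat.factorial_pos r)
      nlinarith
    calc _ ≤ |szS (skBase (n + j) a) (szFeat n j) (szHs j R) 0 r 0 - szS0 n j a R r| :=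
          div_le_self (abs_nonneg _) hden
      _ ≤ _ := h2 r n j a R hn hj hjJ ha haM hR hb hr1
  have hlast : G * (C5 / n + C5 * X.szRem (k + 1)) / ((2 : ℝ) ^ (k + 1) * ((k + 1)! : ℝ))
      ≤ G * (C5 / n + C5 * X.szRem (k + 1)) := by
    apply div_le_self (by positivity)
    have h1 : (1 : ℝ) ≤ (2 : ℝ) ^ (k + 1) := one_le_pow₀ (by norm_num)
    have h2 : (1 : ℝ) ≤ ((k + 1)! : ℝ) := by exact_mod_cast Nat.succ_le_of_lt (Nat.factorial_pos (k + 1))
    nlinarith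
  have e : (skBase (n + j) a).a = a := rfl
  rw [e] at tay
  have hC2s : 0 ≤ ∑ r ∈ Finset.Icc 1 k, C2 r := Finset.sum_nonneg fun r _ => hC2 r
  have hfin : |skF (n + j) a (szMat R) 0 - skF n a (szMat R) 0 - szDet a R j - ∑ t ∈ Finset.Icc 1 k, (j : ℝ) ^ t * X.szC k t|
      ≤ G * (C5 / n + C5 * X.szRem (k + 1)) + (∑ r ∈ Finset.Icc 1 k, C2 r) / n := by
    refine le_trans ?_ (add_le_add (tay.trans hlast) hord)
    refine le_trans (le_of_eq ?_) (abs_add_le _ _)
    congr 1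
    unfold szDet
    ring
  refine hfin.trans ?_
  have h3 : 0 ≤ (∑ r ∈ Finset.Icc 1 k, C2 r) * X.szRem (k + 1) := mul_nonneg hC2s hrem0
  have e4 : (∑ r ∈ Finset.Icc 1 k, C2 r + G * C5) / n + (∑ r ∈ Finset.Icc 1 k, C2 r + G * C5) * X.szRem (k + 1)
      = G * (C5 / n + C5 * X.szRem (k + 1)) + (∑ r ∈ Finset.Icc 1 k, C2 r) / n + (∑ r ∈ Finset.Icc 1 k, C2 r) * X.szRem (k + 1) := by
    ring
  rw [e4]
  linarith

/-- **T7 (LL Lemma `found:size-increment`).**  `c_t = Xs.szC k t - X0.szC k t` does not depend on `j`. -/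
theorem sz_main (k J : ℕ) (hk : 1 ≤ k) (M0 aM : ℝ) : ∃ C : ℝ, 0 ≤ C ∧ ∀ (n : ℕ) (a : ℝ) (R0 Rs : SzStp) (X0 Xs : JtCtx (SkCfg n)),
    0 < n → 0 < a → a ≤ aM → SzAdm a R0 → SzAdm a Rs → SzBd M0 R0 → SzBd M0 Rs → SzFit X0 a R0 → SzFit Xs a Rs →
    (∀ t, X0.bC t ≤ M0) → (∀ t, Xs.bC t ≤ M0) → SzSame R0 Rs → ∀ j : ℕ, 1 ≤ j → j ≤ J →
    |((skF (n + j) a (szMat Rs) 0 - skF (n + j) a (szMat R0) 0) - (skF n a (szMat Rs) 0 - skF n a (szMat R0) 0))
        - j * (Xs.presR k - X0.presR k) - ∑ t ∈ Finset.Icc 2 k, (j : ℝ) ^ t * (Xs.szC k t - X0.szC k t)|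
      ≤ C / n + C * (Xs.szRem (k + 1) + X0.szRem (k + 1)) := by
  obtain ⟨C, hC, h⟩ := sz_ens k J M0 aM
  refine ⟨2 * C, by positivity, ?_⟩
  intro n a R0 Rs X0 Xs hn ha haM hR0 hRs hb0 hbs hX0 hXs hM0 hMs hsame j hj hjJ
  have hn' : (0 : ℝ) < n := Nat.cast_pos.2 hn
  have h0 := h n j a R0 X0 hn hj hjJ ha haM hR0 hb0 hX0 hM0
  have hs := h n j a Rs Xs hn hj hjJ ha haM hRs hbs hXs hMs
  obtain ⟨d1, d2⟩ := sz_det_congr hsame a j
  have hsplit : Finset.Icc 1 k = insert 1 (Finset.Icc 2 k) := by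
    ext x; simp only [Finset.mem_Icc, Finset.mem_insert]; omega
  have hnot : (1 : ℕ) ∉ Finset.Icc 2 k := by simp
  rw [hsplit, Finset.sum_insert hnot, sz_a_C_one ha hR0 hX0 k hk] at h0
  rw [hsplit, Finset.sum_insert hnot, sz_a_C_one ha hRs hXs k hk] at hs
  have hr0 : 0 ≤ X0.szRem (k + 1) := sz_a_rem_nonneg ha hR0 hX0 (k + 1) (by omega)
  have hrs : 0 ≤ Xs.szRem (k + 1) := sz_a_rem_nonneg ha hRs hXs (k + 1) (by omega)
  have key := abs_sub _ _ |>.trans (add_le_add hs h0)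
  refine le_trans (le_of_eq ?_) (key.trans ?_)
  · congr 1
    rw [d1, d2]
    simp only [mul_sub, Finset.sum_sub_distrib, pow_one]
    ring
  · have e5 : 2 * C / n = C / n + C / n := by ring
    have h6 : 0 ≤ C * Xs.szRem (k + 1) := mul_nonneg hC hrs
    have h7 : 0 ≤ C * X0.szRem (k + 1) := mul_nonneg hC hr0
    rw [e5]
    nlinarith

end Claimed.Agent.R286
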