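-- OWNER helper211 (bridge of T7; architect of the cut: helper115; head helper93; ADV helper73)
import Claimed.Agent.R286.L02.SzMain
import Claimed.Agent.R286.L02.Inst
import Claimed.Agent.R286.Exit.LL02A4

/-!
# Row 286 (S0533), LL Lemma `found:size-increment` (T7): THE INSTANCE      (helper211; prefix `sz_i_`, `szOf`, `szGq`)

TEX[LL:found:size-increment]
`sz_main` (abstract size systems `SzStp`, contexts with `SzFit`) ⟹ `sz_inst_size : L02SizeIncr llJs llMv` (the contract of `L02/Contract2.lean` at THE instance of `L02/Defs.lean`).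
* `szOf a P tl` : the size system of the ensemble `tl` on the fine path `P`: stages `(m, db^*, dh, dK, d(b q²))`;
* `sz_i_fit`    : `SzFit (llJs n a P tl) a (szOf a P tl)`;   `sz_i_adm`, `sz_i_bd`, `sz_i_same` : admissibility (uses `b q²` nondecreasing), bounds, common deterministic data;
* `sz_i_pr`     : `n ψ_n = F_n^s - F_n^0` (equal total clocks);
* `sz_i_quad`   : the case `k = 0` of the contract (`presR 0 = - quadR`): `|quadR - ¼ (∑ b q²)_#| ≤ (M0/2) ×` remainder with one factor.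
-/

set_option autoImplicit false
set_option linter.unusedVariables false

namespace Claimed.Agent.R286

open scoped BigOperators Nat

/-! ### general facts on size systems -/

theorem sz_i_B (R : SzStp) (t : ℕ) : szB R t = skCumB (szMat R) t := by
  simp [szB, skCumB, szMat, ← List.map_take, List.map_map, Function.comp_def]

theorem sz_i_H (R : SzStp) (t : ℕ) : szH R t = skCumH (szMat R) t := by
  simp [szH, skCumH, szMat, ← List.map_take, List.map_map, Function.comp_def]

theorem sz_i_K (R : SzStp) (t : ℕ) : szK R t = skCumH (szSc R) t := by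
  simp [szK, skCumH, szSc, ← List.map_take, List.map_map, Function.comp_def]

theorem sz_i_adm_of {a : ℝ} {R : SzStp} (h1 : SkAdm a (szMat R)) (h2 : SkAdm a (szSc R)) (h3 : ∀ e ∈ R, 0 ≤ e.dg) : SzAdm a R := by
  refine ⟨?_, fun e he => ?_⟩
  · have := h1.1
    unfold szMat at this
    rw [List.pairwise_map] at this
    exact this
  · have m1 := h1.2 _ (List.mem_map_of_mem (f := fun e : SzInc => (⟨e.m, e.db, e.dh⟩ : SkInc)) he)
    have m2 := h2.2 _ (List.mem_map_of_mem (f := fun e : SzInc => (⟨e.m, 0, e.dK⟩ : SkInc)) he)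
    exact ⟨m1.1, m1.2.1, m1.2.2.1, m1.2.2.2, m2.2.2.2, h3 e he⟩

theorem sz_i_G_tele (R : SzStp) (G : ℕ → ℝ) (hG : ∀ l (h : l < R.length), (R[l]).dg = G (l + 1) - G l) :
    ∀ t, t ≤ R.length → szG R t = G t - G 0 := by
  intro t
  induction t with
  | zero => intro _; simp [szG]
  | succ t ih =>
    intro ht
    have ht' : t < R.length := by omega
    have : szG R (t + 1) = szG R t + (R[t]).dg := by
      unfold szG
      rw [List.map_take, List.map_take, List.sum_take_succ _ _ (by simpa using ht')]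
      simp
    rw [this, ih (by omega), hG t ht']
    ring

theorem sz_i_G_cap (R : SzStp) (t : ℕ) (ht : R.length ≤ t) : szG R t = szG R R.length := by
  unfold szG; rw [List.take_of_length_le ht, List.take_length]

/-! ### the size system of an ensemble -/

/-- the counterterm clock `g = b q²` (unmasked) -/
noncomputable def szGq (a : ℝ) (P : LlStp) (t : ℕ) : ℝ := skCumB (llMat P) t * llQs a P t ^ 2

/-- the size system of the ensemble `tl` on the fine path `P` -/
noncomputable def szOf (a : ℝ) (P : LlStp) (tl : Option ℕ) : SzStp :=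
  P.mapIdx fun l e => ⟨e.m, (((llMv tl P)[l]?).map SkInc.db).getD 0, e.dh, e.dK, szGq a P (l + 1) - szGq a P l⟩

theorem sz_i_len (a : ℝ) (P : LlStp) (tl : Option ℕ) : (szOf a P tl).length = P.length := by simp [szOf]

theorem sz_i_mat (a : ℝ) (P : LlStp) (tl : Option ℕ) : szMat (szOf a P tl) = llMv tl P := by
  apply List.ext_getElem
  · simp [szMat, szOf, ll2_mv_len]
  · intro l h1 h2
    have hl : l < P.length := by simpa [szMat, szOf] using h1
    cases tl with
    | none => simp [szMat, szOf, llMv, llMat, hl]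
    | some js => simp [szMat, szOf, llMv, llMvAt, hl]

theorem sz_i_sc (a : ℝ) (P : LlStp) (tl : Option ℕ) : szSc (szOf a P tl) = llSc P := by
  apply List.ext_getElem
  · simp [szSc, szOf, llSc]
  · intro l h1 h2
    simp [szSc, szOf, llSc]

theorem sz_i_ms (a : ℝ) (P : LlStp) (tl : Option ℕ) : szMs a (szOf a P tl) = llMs a P := by
  funext t
  unfold szMs llMs szOf
  by_cases ht : t < P.length
  · simp [ht]
  · simp [not_lt.1 ht]

theorem sz_i_Gq_zero (a : ℝ) (P : LlStp) : szGq a P 0 = 0 := by simp [szGq, skCumB]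

theorem sz_i_G (a : ℝ) (P : LlStp) (tl : Option ℕ) (t : ℕ) (ht : t ≤ P.length) : szG (szOf a P tl) t = szGq a P t := by
  rw [sz_i_G_tele (szOf a P tl) (szGq a P) (fun l h => by simp [szOf]) t (by rw [sz_i_len]; exact ht), sz_i_Gq_zero, sub_zero]

theorem sz_i_q1 {a : ℝ} (ha : 0 < a) {P : LlStp} (hP : LlStpAdm a P) (t : ℕ) : |llQs a P t| ≤ 1 := by
  unfold llQs llNuS
  refine tcb_nu_abs_le (sk_sy_base_ok 1 ha) (sk_sy_adm hP.2) _ _ _ fun σ => ?_
  unfold jtSp
  beta_reduce
  split_ifs <;> norm_num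

theorem sz_i_cumK (P : LlStp) (t : ℕ) : skCumH (llSc P) t = llCumK P t := by
  simp [llCumK, skCumH, llSc, ← List.map_take, List.map_map, Function.comp_def]

/-- **the instance**: the jet context of `L02/Defs.lean` fits the size system -/
theorem sz_i_fit (n : ℕ) {a : ℝ} (ha : 0 < a) {P : LlStp} (hP : LlStpAdm a P) {tl : Option ℕ} (htl : LlTiltOk P tl) :
    SzFit (llJs n a P tl) a (szOf a P tl) where
  N := (sz_i_len a P tl).symm
  sumK := fun k q τ Φ => by
    show trSumK (llMs a P) P.length k q τ Φ = _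
    rw [sz_i_ms, sz_i_len]
  absK := fun k q τ Φ => by
    show trAbsK (llMs a P) P.length k q τ Φ = _
    rw [sz_i_ms, sz_i_len]
  nu := fun q τ T => by
    show llNu n a P tl q τ T = _
    rw [sz_i_mat]; rfl
  nuK := fun r τ Q => by
    show llNuS a P r τ Q = _
    rw [sz_i_sc]; rfl
  ov := rfl
  msk := ll2_mk tl
  b0 := fun t => ll2_cumB_nonneg hP.1 t
  b := fun t => by
    show skCumB (llMat P) t * llMk tl t = _
    rw [sz_i_B, sz_i_mat, (exit_a4_cum htl t).1]; ring
  h := fun t => by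
    show skCumH (llMat P) t = _
    rw [sz_i_H, sz_i_mat, (exit_a4_cum htl t).2]
  K := fun t => by
    show llCumK P t = _
    rw [sz_i_K, sz_i_sc, sz_i_cumK]
  g := fun t ht => by
    show skCumB (llMat P) t * llQs a P t ^ 2 = _
    rw [sz_i_G a P tl t (by rwa [sz_i_len] at ht)]; rfl
  q1 := sz_i_q1 ha hP

theorem sz_i_adm {a : ℝ} {P : LlStp} (hP : LlStpAdm a P) (tl : Option ℕ) (hmono : ∀ t, szGq a P t ≤ szGq a P (t + 1)) :
    SzAdm a (szOf a P tl) := by
  refine sz_i_adm_of (by rw [sz_i_mat]; exact ll2_mv_adm hP tl) (by rw [sz_i_sc]; exact hP.2) fun e he => ?_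
  obtain ⟨l, hl, rfl⟩ := List.getElem_of_mem he
  simp only [szOf, List.getElem_mapIdx]
  exact sub_nonneg.2 (hmono l)

theorem sz_i_Gq_le {a M0 : ℝ} (ha : 0 < a) {P : LlStp} (hP : LlStpAdm a P) (hbd : LlBd M0 P) (t : ℕ) : szGq a P t ≤ M0 := by
  unfold szGq
  have h1 := sz_i_q1 ha hP t
  have h2 : llQs a P t ^ 2 ≤ 1 := by
    rw [← sq_abs]; exact pow_le_one₀ (abs_nonneg _) h1
  calc _ ≤ skCumB (llMat P) t * 1 := mul_le_mul_of_nonneg_left h2 (ll2_cumB_nonneg hP.1 t)
    _ ≤ M0 := by rw [mul_one]; exact (hbd t).1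

theorem sz_i_bd {a M0 : ℝ} (ha : 0 < a) {P : LlStp} (hP : LlStpAdm a P) (hbd : LlBd M0 P) {tl : Option ℕ} (htl : LlTiltOk P tl) :
    SzBd M0 (szOf a P tl) := by
  intro t
  refine ⟨?_, ?_, ?_⟩
  · rw [sz_i_B, sz_i_mat, (exit_a4_cum htl t).1]
    have h0 := ll2_cumB_nonneg hP.1 t
    rcases ll2_mk tl t with h | h <;> rw [h]
    · rw [zero_mul]; exact h0.trans (hbd t).1
    · rw [one_mul]; exact (hbd t).1
  · rw [sz_i_H, sz_i_mat, (exit_a4_cum htl t).2, sz_i_K, sz_i_sc, sz_i_cumK]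
    exact (hbd t).2
  · by_cases ht : t ≤ P.length
    · rw [sz_i_G a P tl t ht]; exact sz_i_Gq_le ha hP hbd t
    · rw [sz_i_G_cap _ t (by rw [sz_i_len]; omega), sz_i_len, sz_i_G a P tl _ le_rfl]
      exact sz_i_Gq_le ha hP hbd _

theorem sz_i_mk_top {P : LlStp} {js : ℕ} (h : LlTiltOk P (some js)) : llMk (some js) P.length = 1 := by
  unfold llMk
  exact if_pos h.1

theorem sz_i_same (a : ℝ) {P : LlStp} {js : ℕ} (h : LlTiltOk P (some js)) : SzSame (szOf a P none) (szOf a P (some js)) := by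
  refine ⟨?_, ?_⟩
  · apply List.ext_getElem
    · simp [szOf]
    · intro l h1 h2
      simp [szOf]
  · rw [sz_i_B, sz_i_B, sz_i_mat, sz_i_mat, sz_i_len, sz_i_len, (exit_a4_cum h P.length).1, sz_i_mk_top h, one_mul]
    rfl

theorem sz_i_tot (Q : SkStp) : skTotB Q = skCumB Q Q.length ∧ skTotH Q = skCumH Q Q.length := by
  simp [skTotB, skCumB, skTotH, skCumH]

/-- `n ψ_n = F_n^s - F_n^0`: the self corrections of the two ensembles are equal -/
theorem sz_i_pr {n : ℕ} (hn : 0 < n) (a : ℝ) {P : LlStp} {js : ℕ} (h : LlTiltOk P (some js)) :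
    (n : ℝ) * llPsi llMv n a js P = skF n a (llMv (some js) P) 0 - skF n a (llMv none P) 0 := by
  have hn' : (n : ℝ) ≠ 0 := by positivity
  have hB : skTotB (llMv (some js) P) = skTotB (llMv none P) := by
    rw [(sz_i_tot _).1, (sz_i_tot _).1, ll2_mv_len, ll2_mv_len, (exit_a4_cum h P.length).1, sz_i_mk_top h, one_mul]
    rfl
  have hH : skTotH (llMv (some js) P) = skTotH (llMv none P) := by
    rw [(sz_i_tot _).2, (sz_i_tot _).2, ll2_mv_len, ll2_mv_len, (exit_a4_cum h P.length).2]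
    rfl
  unfold llPsi skPr
  rw [hB, hH]
  field_simp
  ring

theorem sz_i_errS {S : Type} (X : JtCtx S) (k : ℕ) : X.errS k = X.szRem (k + 1) := rfl

/-- the quadratic term of (A6) up to its deterministic part: one factor `|Δ|` -/
theorem sz_i_quad {n : ℕ} {a M0 : ℝ} (ha : 0 < a) {R : SzStp} (hR : SzAdm a R) {X : JtCtx (SkCfg n)} (hX : SzFit X a R)
    (hbM : ∀ t, X.bC t ≤ M0) : |X.quadR - szDet1 a R| ≤ M0 / 2 * X.szRem 1 := by
  have hB := sz_a_base_ok n ha
  have hadm : GhAdm (skBase n a) 0 (skLvs n (szMat R)) := sk_sy_adm (sz_k_mat_adm hR).1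
  have hM0 : 0 ≤ M0 := (hX.b0 0).trans (hbM 0)
  unfold JtCtx.quadR szDet1 JtCtx.szRem
  simp only [Nat.mul_one, Nat.reduceSub]
  rw [hX.sumK, hX.absK, sz_a_tau1 hX, ← mul_sub, ← sz_sumK_sub, abs_mul, abs_of_nonneg (by norm_num : (0 : ℝ) ≤ 4⁻¹)]
  have hpt : ∀ τ', IsTr R.length (1 + 1) τ' →
      |X.off 0 1 τ' * X.bC (τ' 0 1) * X.nu 2 τ' (fun σ => X.Qs τ' σ 0 1 ^ 2) - szOff R.length 1 τ' * szG R (τ' 0 1)|
        ≤ 2 * M0 * (X.off 0 1 τ' * X.nu 2 τ' fun σ =>
            ∏ i ∈ Finset.range 1, (|X.Dl τ' σ (jtC 0 i) (jtD 0 i)| + |X.J τ' σ (jtC 0 i) (jtD 0 i)|)) := by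
    intro τ' _
    rw [sz_a_off hX]
    by_cases hoff : ∀ i ∈ Finset.range 1, τ' (jtC 0 i) (jtD 0 i) ≤ R.length
    swap
    · rw [sz_a_off_zero hoff]; simp
    have ht : τ' 0 1 ≤ R.length := hoff 0 (by simp)
    rw [sz_a_off_one hoff, one_mul, one_mul, one_mul, ← hX.g _ ht, hX.nu, hX.nu]
    have e : X.bC (τ' 0 1) * trNu (skBase n a) (skLvs n (szMat R)) 2 τ' 0 (fun σ => X.Qs τ' σ 0 1 ^ 2)
          - X.bC (τ' 0 1) * X.qC (τ' 0 1) ^ 2
        = trNu (skBase n a) (skLvs n (szMat R)) 2 τ' 0 fun σ => X.szCt τ' σ 0 := by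
      unfold JtCtx.szCt jtC jtD
      simp only [Nat.mul_zero, Nat.add_zero, Nat.zero_add]
      rw [sz_a_nu_sub hB hadm, tcb_nu_mul_const hB hadm, tcb_nu_const hB hadm]
    rw [e, ← tcb_nu_mul_const hB hadm]
    refine tcb_nu_abs_le_nu hB hadm _ _ _ fun σ => ?_
    rw [Finset.prod_range_one]
    refine (sz_a_Ct_le hX hbM τ' σ 0).trans ?_
    exact mul_le_mul_of_nonneg_left (le_add_of_nonneg_right (abs_nonneg _)) (by positivity)
  have h1 := (tr_sumK_le (ms := szMs a R) (N := R.length) (q := 1) (τ := fun _ _ => R.length + 1) 1 _).trans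
    (tr_absK_mono (ll_al_isTr_one R.length) 1 _ _ hpt)
  rw [sz_absK_const_mul] at h1
  calc _ ≤ 4⁻¹ * (2 * M0 * _) := mul_le_mul_of_nonneg_left h1 (by norm_num)
    _ = _ := by ring

/-- **T7 = LL Lemma 2.5 at THE instance.**  TEX[LL:found:size-increment] -/
theorem sz_inst_size : L02SizeIncr llJs llMv := by
  intro k r M0
  rcases Nat.eq_zero_or_pos k with rfl | hk
  · obtain ⟨C, hC, h⟩ := sz_ens 0 r M0 4
    refine ⟨2 * C + r * |M0|, ?_⟩
    intro n a P js hn ha1 ha4 hP hbd htl hmono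
    have ha : 0 < a := by linarith
    have hn0 : 0 < n := hn
    refine ⟨fun _ => 0, fun j hj hjr => ?_⟩
    have hmono' : ∀ t, szGq a P t ≤ szGq a P (t + 1) := hmono
    have hbM : ∀ t, skCumB (llMat P) t ≤ M0 := fun t => (hbd t).1
    have hM0 : 0 ≤ M0 := (ll2_cumB_nonneg hP.1 0).trans (hbM 0)
    have fit0 := sz_i_fit n ha hP (tl := none) trivial
    have fits := sz_i_fit n ha hP htl
    have adm0 := sz_i_adm hP none hmono'
    have adms := sz_i_adm hP (some js) hmono'
    have h0 := h n j a (szOf a P none) (llJs n a P none) hn0 hj hjr ha ha4 adm0 (sz_i_bd ha hP hbd (tl := none) trivial) fit0 hbM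
    have hs := h n j a (szOf a P (some js)) (llJs n a P (some js)) hn0 hj hjr ha ha4 adms (sz_i_bd ha hP hbd htl) fits hbM
    obtain ⟨d1, d2⟩ := sz_det_congr (sz_i_same a htl) a j
    have q0 := sz_i_quad ha adm0 fit0 hbM
    have qs := sz_i_quad ha adms fits hbM
    have r0 := sz_a_rem_nonneg ha adm0 fit0 1 le_rfl
    have rs := sz_a_rem_nonneg ha adms fits 1 le_rfl
    rw [sz_i_mat] at h0 hs
    rw [sz_i_pr (Nat.add_pos_left hn0 j) a htl, sz_i_pr hn0 a htl, sz_i_errS, sz_i_errS, abs_of_nonneg hM0]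
    simp only [JtCtx.presR, Finset.Icc_eq_empty (show ¬ (1 : ℕ) ≤ 0 by omega), Finset.Icc_eq_empty (show ¬ (2 : ℕ) ≤ 0 by omega),
      Finset.sum_empty, sub_zero, zero_sub, Nat.zero_add] at h0 hs ⊢
    have hjr' : (j : ℝ) ≤ r := Nat.cast_le.2 hjr
    have hj0 : (0 : ℝ) ≤ j := Nat.cast_nonneg j
    have hr0 : (0 : ℝ) ≤ r := Nat.cast_nonneg r
    have hn' : (0 : ℝ) < n := Nat.cast_pos.2 hn0
    have hq0 : |(j : ℝ) * ((llJs n a P none).quadR - szDet1 a (szOf a P none))| ≤ r * (M0 / 2 * (llJs n a P none).szRem 1) := by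
      rw [abs_mul, abs_of_nonneg hj0]
      exact mul_le_mul hjr' q0 (abs_nonneg _) hr0
    have hqs : |(j : ℝ) * ((llJs n a P (some js)).quadR - szDet1 a (szOf a P (some js)))|
        ≤ r * (M0 / 2 * (llJs n a P (some js)).szRem 1) := by
      rw [abs_mul, abs_of_nonneg hj0]
      exact mul_le_mul hjr' qs (abs_nonneg _) hr0
    rw [d1] at h0
    rw [d2] at hq0
    have hu : 0 ≤ 1 / (n : ℝ) := by positivity
    have eCn : C / n = C * (1 / (n : ℝ)) := by ring
    rw [eCn] at h0 hs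
    have p1 := mul_nonneg hC r0
    have p2 := mul_nonneg hC rs
    have p3 := mul_nonneg (mul_nonneg hr0 hM0) hu
    have p4 := mul_nonneg (mul_nonneg hr0 hM0) r0
    have p5 := mul_nonneg (mul_nonneg hr0 hM0) rs
    rw [abs_le] at h0 hs hq0 hqs ⊢
    constructor <;> nlinarith [h0.1, h0.2, hs.1, hs.2, hq0.1, hq0.2, hqs.1, hqs.2]
  · obtain ⟨C, hC, h⟩ := sz_main k r hk M0 4
    refine ⟨C, ?_⟩
    intro n a P js hn ha1 ha4 hP hbd htl hmono
    have ha : 0 < a := by linarith
    have hn0 : 0 < n := hn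
    refine ⟨fun t => (llJs n a P (some js)).szC k t - (llJs n a P none).szC k t, fun j hj hjr => ?_⟩
    have hmono' : ∀ t, szGq a P t ≤ szGq a P (t + 1) := hmono
    have hbM : ∀ t, skCumB (llMat P) t ≤ M0 := fun t => (hbd t).1
    have key := h n a (szOf a P none) (szOf a P (some js)) (llJs n a P none) (llJs n a P (some js)) hn0 ha ha4
      (sz_i_adm hP none hmono') (sz_i_adm hP (some js) hmono') (sz_i_bd ha hP hbd (tl := none) trivial) (sz_i_bd ha hP hbd htl)
      (sz_i_fit n ha hP (tl := none) trivial) (sz_i_fit n ha hP htl) hbM hbM (sz_i_same a htl) j hj hjr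
    rw [sz_i_mat, sz_i_mat] at key
    rw [sz_i_pr (Nat.add_pos_left hn0 j) a htl, sz_i_pr hn0 a htl, sz_i_errS, sz_i_errS]
    refine key.trans (le_of_eq ?_)
    ring

end Claimed.Agent.R286
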