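import Claimed.Agent.R286.L02.A7Defs
import Claimed.Agent.R286.Fd.TrA1
import Claimed.Agent.R286.Fd.TrCb
import Claimed.Agent.R286.Gk.Taylor

/-!
# Row 286 (S0533), L02/A7Tay : (A7), steps L1-L4: Taylor expansion of the row interpolation      (owner helper4; prefix `l2a7_`)

`W.dn θ n r τ R` is the `n`-th derivative of `θ ↦ W.nu θ r τ R`; Taylor's formula with the exact integral remainder `W.remT`;
value of the derivatives at the independent end point `θ = 0`.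
-/

set_option autoImplicit false

namespace Claimed.Agent.R286

open scoped BigOperators Nat

variable {S1 : Type} (W : L2Row S1)

/-! ### bookkeeping -/

theorem l2a7_off_succ (N q n : ℕ) (τ : JtTopo) :
    l2Off N q (n + 1) τ = l2Off N q n τ * (if τ (q + 2 * n) (q + 2 * n + 1) ≤ N then (1 : ℝ) else 0) := by
  unfold l2Off
  rw [Finset.prod_range_succ]
  rfl

theorem l2a7_off_congr (N q n : ℕ) {τ τ' : JtTopo} (h : ∀ x y, x < q + 2 * n → y < q + 2 * n → τ x y = τ' x y) :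
    l2Off N q n τ = l2Off N q n τ' := by
  unfold l2Off
  refine Finset.prod_congr rfl fun i hi => ?_
  have := Finset.mem_range.1 hi
  rw [h _ _ (by unfold jtC; omega) (by unfold jtD; omega)]

theorem l2a7_off_nonneg (N q n : ℕ) (τ : JtTopo) : 0 ≤ l2Off N q n τ := by
  unfold l2Off
  refine Finset.prod_nonneg fun i _ => ?_
  split_ifs <;> norm_num

theorem l2a7_off_add (N q n p : ℕ) (τ : JtTopo) :
    l2Off N q (n + p) τ = l2Off N q n τ * l2Off N (q + 2 * n) p τ := by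
  unfold l2Off
  rw [Finset.prod_range_add]
  congr 1
  refine Finset.prod_congr rfl fun i _ => ?_
  have h1 : jtC q (n + i) = jtC (q + 2 * n) i := by unfold jtC; ring
  have h2 : jtD q (n + i) = jtD (q + 2 * n) i := by unfold jtD; ring
  rw [h1, h2]

theorem l2a7_insE_succ (q n : ℕ) (τ : JtTopo) (σ : ℕ → S1 × Bool) :
    W.insE q (n + 1) τ σ = W.insE q n τ σ *
      (W.Jv (τ (q + 2 * n) (q + 2 * n + 1)) (σ (q + 2 * n)).1 (σ (q + 2 * n + 1)).1
        * (jtSp (σ (q + 2 * n)).2 * jtSp (σ (q + 2 * n + 1)).2)) := by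
  unfold L2Row.insE
  rw [Finset.prod_range_succ]
  rfl

theorem l2a7_insE_congr (q n : ℕ) {τ τ' : JtTopo} (h : ∀ x y, x < q + 2 * n → y < q + 2 * n → τ x y = τ' x y)
    (σ : ℕ → S1 × Bool) : W.insE q n τ σ = W.insE q n τ' σ := by
  unfold L2Row.insE
  refine Finset.prod_congr rfl fun i hi => ?_
  have := Finset.mem_range.1 hi
  rw [h _ _ (by unfold jtC; omega) (by unfold jtD; omega)]

theorem l2a7_ins_congr (q n : ℕ) {τ τ' : JtTopo} (h : ∀ x y, x < q + 2 * n → y < q + 2 * n → τ x y = τ' x y)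
    (s : ℕ → S1) : W.ins q n τ s = W.ins q n τ' s := by
  unfold L2Row.ins
  refine Finset.prod_congr rfl fun i hi => ?_
  have := Finset.mem_range.1 hi
  rw [h _ _ (by unfold jtC; omega) (by unfold jtD; omega)]

theorem l2a7_ins_add (q n p : ℕ) (τ : JtTopo) (s : ℕ → S1) :
    W.ins q (n + p) τ s = W.ins q n τ s * W.ins (q + 2 * n) p τ s := by
  unfold L2Row.ins
  rw [Finset.prod_range_add]
  congr 1
  refine Finset.prod_congr rfl fun i _ => ?_
  have h1 : jtC q (n + i) = jtC (q + 2 * n) i := by unfold jtC; ring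
  have h2 : jtD q (n + i) = jtD (q + 2 * n) i := by unfold jtD; ring
  rw [h1, h2]

/-- the full insertions = (rest parts) x (removed spins) -/
theorem l2a7_insE_eq (q n : ℕ) (τ : JtTopo) (σ : ℕ → S1 × Bool) :
    W.insE q n τ σ = W.ins q n τ (l2F σ) * l2Sp q (Finset.range n) (l2S σ) := by
  unfold L2Row.insE L2Row.ins l2Sp l2F l2S
  rw [← Finset.prod_mul_distrib]

theorem l2a7_uses_insE {r : ℕ} {R : (ℕ → S1 × Bool) → ℝ} (hR : TrUses r R) (n : ℕ) (τ : JtTopo) :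
    TrUses (r + 2 * n) fun σ => R σ * W.insE r n τ σ := by
  intro σ σ' h
  have h1 : R σ = R σ' := hR σ σ' fun i hi => h i (by omega)
  have h2 : W.insE r n τ σ = W.insE r n τ σ' := by
    unfold L2Row.insE
    refine Finset.prod_congr rfl fun l hl => ?_
    have := Finset.mem_range.1 hl
    rw [h (jtC r l) (by unfold jtC; omega), h (jtD r l) (by unfold jtD; omega)]
  simp only [h1, h2]

/-- the insertion of `W.jt` is `W.Jv` -/
theorem l2a7_jt_J (τ : JtTopo) (σ : ℕ → S1 × Bool) (c d : ℕ) :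
    W.jt.J τ σ c d = W.Jv (τ c d) (σ c).1 (σ d).1 := rfl

theorem l2a7_jt_Jprod (q n : ℕ) (τ : JtTopo) (σ : ℕ → S1 × Bool) : W.jt.Jprod q n τ σ = W.ins q n τ (l2F σ) := rfl

theorem l2a7_jt_off (q n : ℕ) (τ : JtTopo) : W.jt.off q n τ = l2Off W.N q n τ := rfl

/-! ### L1: calculus through the finite signed sums -/

theorem l2a7_sumK_cont {N : ℕ} {ms : ℕ → ℝ} {s : Set ℝ} (k : ℕ) :
    ∀ {q : ℕ} {τ : ℕ → ℕ → ℕ}, IsTr N q τ → ∀ (Φ : ℝ → (ℕ → ℕ → ℕ) → ℝ),
    (∀ τ', IsTr N (q + k) τ' → ContinuousOn (fun θ => Φ θ τ') s) →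
    ContinuousOn (fun θ => trSumK ms N k q τ (Φ θ)) s := by
  induction k with
  | zero => intro q τ hτ Φ h; simpa [trSumK] using h τ hτ
  | succ k ih =>
    intro q τ hτ Φ h
    simp only [trSumK, trSum]
    refine continuousOn_finsetSum _ fun x hx => continuousOn_finsetSum _ fun j hj => ?_
    refine ContinuousOn.mul continuousOn_const ?_
    have hj' := Finset.mem_range.1 hj
    refine ih (tr_att_isTr hτ (Finset.mem_range.1 hx) (by omega)) Φ fun τ'' hτ'' => h τ'' ?_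
    have e : q + 1 + k = q + (k + 1) := by omega
    rwa [e] at hτ''

theorem l2a7_sumK_add (ms : ℕ → ℝ) (N : ℕ) (k : ℕ) : ∀ (q : ℕ) (τ : ℕ → ℕ → ℕ) (Φ Ψ : (ℕ → ℕ → ℕ) → ℝ),
    trSumK ms N k q τ (fun τ' => Φ τ' + Ψ τ') = trSumK ms N k q τ Φ + trSumK ms N k q τ Ψ := by
  induction k with
  | zero => intro q τ Φ Ψ; rfl
  | succ k ih =>
    intro q τ Φ Ψ
    simp only [trSumK, trSum, ih, mul_add, Finset.sum_add_distrib]

theorem l2a7_sumK_sum (ms : ℕ → ℝ) (N : ℕ) (k q : ℕ) (τ : ℕ → ℕ → ℕ) {α : Type} (s : Finset α) (Φ : α → (ℕ → ℕ → ℕ) → ℝ) :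
    trSumK ms N k q τ (fun τ' => ∑ a ∈ s, Φ a τ') = ∑ a ∈ s, trSumK ms N k q τ (Φ a) := by
  classical
  induction s using Finset.induction_on with
  | empty =>
    simp only [Finset.sum_empty]
    have := tcb_sumK_mul_left ms N k q τ 0 fun _ => 0
    simpa using this.symm
  | insert a s ha ih =>
    simp only [Finset.sum_insert ha]
    rw [l2a7_sumK_add, ih]

/-! ### L2: the chain of derivatives -/

theorem l2a7_dn_zero (θ : ℝ) (r : ℕ) (τ : JtTopo) (R : (ℕ → S1 × Bool) → ℝ) : W.dn θ 0 r τ R = W.nu θ r τ R := by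
  simp [L2Row.dn, trSumK, l2Off, L2Row.insE]

theorem l2a7_dn_deriv (hW : W.Ok) {r : ℕ} {τ : JtTopo} (hτ : IsTr W.N r τ) {R : (ℕ → S1 × Bool) → ℝ} (hR : TrUses r R)
    (n : ℕ) {θ : ℝ} (hθ : θ ∈ Set.Ioo (0 : ℝ) 1) :
    HasDerivAt (fun θ => W.dn θ n r τ R) (W.dn θ (n + 1) r τ R) θ := by
  unfold L2Row.dn
  have h1 : HasDerivAt (fun θ => trSumK W.ms W.N (2 * n) r τ fun τ' =>
        l2Off W.N r n τ' * W.nu θ (r + 2 * n) τ' fun σ => R σ * W.insE r n τ' σ)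
      (trSumK W.ms W.N (2 * n) r τ fun τ' => l2Off W.N r n τ' *
        (2⁻¹ * trSumK W.ms W.N 2 (r + 2 * n) τ' fun τ'' =>
          (if τ'' (r + 2 * n) (r + 2 * n + 1) ≤ W.N then (1 : ℝ) else 0) *
          W.nu θ (r + 2 * n + 2) τ'' fun σ => (R σ * W.insE r n τ' σ) *
            (W.Jv (τ'' (r + 2 * n) (r + 2 * n + 1)) (σ (r + 2 * n)).1 (σ (r + 2 * n + 1)).1
              * (jtSp (σ (r + 2 * n)).2 * jtSp (σ (r + 2 * n + 1)).2)))) θ := by
    rw [← hasDerivWithinAt_univ]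
    refine tcb_sumK_hasDeriv (2 * n) hτ
      (fun θ τ' => l2Off W.N r n τ' * W.nu θ (r + 2 * n) τ' fun σ => R σ * W.insE r n τ' σ) _ fun τ' hτ' => ?_
    rw [hasDerivWithinAt_univ]
    exact (hW.deriv _ _ _ θ hτ' (l2a7_uses_insE W hR n τ') hθ).const_mul _
  have h2 := h1.const_mul ((2⁻¹ : ℝ) ^ n)
  refine h2.congr_deriv ?_
  symm
  rw [show 2 * (n + 1) = 2 * n + 2 by ring, tr_sumK_add, pow_succ, mul_assoc, tcb_sumK_mul_left]
  congr 1
  refine tr_sumK_congr hτ (2 * n) _ _ fun τ' hτ' _ => ?_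
  rw [← mul_assoc, mul_comm (l2Off W.N r n τ') 2⁻¹, mul_assoc, tcb_sumK_mul_left _ _ _ _ _ (l2Off W.N r n τ')]
  congr 1
  refine tr_sumK_congr hτ' 2 _ _ fun τ'' _ hag => ?_
  rw [l2a7_off_succ, l2a7_off_congr W.N r n hag, mul_assoc]
  congr 2
  change W.nu θ (r + 2 * n + 2) τ'' _ = _
  congr 1
  funext σ
  rw [l2a7_insE_succ, l2a7_insE_congr W r n hag, mul_assoc]

theorem l2a7_dn_cont (hW : W.Ok) {r : ℕ} {τ : JtTopo} (hτ : IsTr W.N r τ) {R : (ℕ → S1 × Bool) → ℝ} (hR : TrUses r R)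
    (n : ℕ) : ContinuousOn (fun θ => W.dn θ n r τ R) (Set.Icc 0 1) := by
  unfold L2Row.dn
  refine ContinuousOn.mul continuousOn_const ?_
  refine l2a7_sumK_cont (2 * n) hτ
    (fun θ τ' => l2Off W.N r n τ' * W.nu θ (r + 2 * n) τ' fun σ => R σ * W.insE r n τ' σ) fun τ' hτ' => ?_
  exact ContinuousOn.mul continuousOn_const (hW.cont _ _ _ hτ' (l2a7_uses_insE W hR n τ'))

/-! ### L3: Taylor's formula -/

/-- TEX[LL:found:cavity-quotient] Taylor's formula of the row interpolation, exact integral remainder -/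
theorem l2a7_taylor (hW : W.Ok) {r : ℕ} {τ : JtTopo} (hτ : IsTr W.N r τ) {R : (ℕ → S1 × Bool) → ℝ} (hR : TrUses r R)
    (k : ℕ) :
    W.nu 1 r τ R = ∑ p ∈ Finset.range (k + 1), W.dn 0 p r τ R / (p ! : ℝ) + W.remT k r τ R := by
  have h := ght_taylor_one (fun j θ => W.dn θ j r τ R) k (fun j _ => l2a7_dn_cont W hW hτ hR j)
    (fun j _ θ hθ => l2a7_dn_deriv W hW hτ hR j hθ)
  simp only [l2a7_dn_zero] at h
  rw [h]
  rfl

/-! ### L4: the independent end point -/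

/-- TEX[LL:found:cavity-quotient] at `θ = 0` the removed spin is averaged by the scalar reference -/
theorem l2a7_dn_at0 (hW : W.Ok) {r : ℕ} {τ : JtTopo} (hτ : IsTr W.N r τ) (R1 : (ℕ → S1) → ℝ) (R2 : (ℕ → Bool) → ℝ) (p : ℕ) :
    W.dn 0 p r τ (fun σ => R1 (l2F σ) * R2 (l2S σ))
      = (2⁻¹ : ℝ) ^ p * trSumK W.ms W.N (2 * p) r τ fun τ' =>
        l2Off W.N r p τ' * (W.nuR (r + 2 * p) τ' (fun s => R1 s * W.ins r p τ' s)
          * W.nuK (r + 2 * p) τ' fun t => R2 t * l2Sp r (Finset.range p) t) := by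
  unfold L2Row.dn
  congr 1
  refine tr_sumK_congr hτ (2 * p) _ _ fun τ' hτ' _ => ?_
  congr 1
  rw [← hW.fact _ _ _ _ hτ']
  congr 1
  funext σ
  rw [l2a7_insE_eq]
  ring

/-! ## The scalar coefficients (relabelling of the pairs, restriction consistency, equivariance) -/

/-! ### the relabelling -/

theorem l2a7_lab_old (q : ℕ) (π : Equiv.Perm ℕ) {x : ℕ} (hx : x < q) : l2Lab q π x = x := by
  simp [l2Lab, hx]

theorem l2a7_lab_C (q : ℕ) (π : Equiv.Perm ℕ) (l : ℕ) : l2Lab q π (jtC q l) = jtC q (π l) := by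
  have h1 : ¬ (q + 2 * l < q) := by omega
  simp [l2Lab, jtC, h1]

theorem l2a7_lab_D (q : ℕ) (π : Equiv.Perm ℕ) (l : ℕ) : l2Lab q π (jtD q l) = jtD q (π l) := by
  have h1 : ¬ (q + 2 * l + 1 < q) := by omega
  have h2 : (q + 2 * l + 1 - q) / 2 = l := by omega
  have h3 : (q + 2 * l + 1 - q) % 2 = 1 := by omega
  simp [l2Lab, jtD, h1, h2, h3]

theorem l2a7_lab_symm (q : ℕ) (π : Equiv.Perm ℕ) : (l2Lab q π).symm = l2Lab q π.symm := rfl

theorem l2a7_lab_big (q t : ℕ) (π : Equiv.Perm ℕ) (hπ : ∀ l, t ≤ l → π l = l) {x : ℕ} (hx : q + 2 * t ≤ x) :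
    l2Lab q π x = x := by
  have h1 : ¬ (x < q) := by omega
  have h2 : π ((x - q) / 2) = (x - q) / 2 := hπ _ (by omega)
  simp only [l2Lab, Equiv.coe_fn_mk, h1, if_false, h2]
  omega

theorem l2a7_perm_symm_fix {t : ℕ} {π : Equiv.Perm ℕ} (hπ : ∀ l, t ≤ l → π l = l) : ∀ l, t ≤ l → π.symm l = l := by
  intro l hl
  rw [Equiv.symm_apply_eq, hπ l hl]

theorem l2a7_perm_supp {t : ℕ} {π : Equiv.Perm ℕ} (hπ : ∀ l, t ≤ l → π l = l) :
    {a | π a ≠ a} ⊆ ((Finset.range t : Finset ℕ) : Set ℕ) := by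
  intro a ha
  by_contra h
  exact ha (hπ a (by simpa using h))

theorem l2a7_perm_lt {t : ℕ} {π : Equiv.Perm ℕ} (hπ : ∀ l, t ≤ l → π l = l) {l : ℕ} (hl : l < t) : π l < t := by
  by_contra h
  have h1 : π (π l) = π l := hπ _ (not_lt.1 h)
  have h2 : π l = l := π.injective h1
  omega

theorem l2a7_map_range {t : ℕ} {π : Equiv.Perm ℕ} (hπ : ∀ l, t ≤ l → π l = l) :
    (Finset.range t).map π.toEmbedding = Finset.range t := by
  ext x
  simp only [Finset.mem_map, Finset.mem_range, Equiv.coe_toEmbedding]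
  constructor
  · rintro ⟨l, hl, rfl⟩
    exact l2a7_perm_lt hπ hl
  · intro hx
    exact ⟨π.symm x, l2a7_perm_lt (l2a7_perm_symm_fix hπ) hx, by simp⟩

/-! ### scalar moments -/

/-- scalar moments: only the values of the topology on the labels matter -/
theorem l2a7_scM_cg (hW : W.Ok) (q : ℕ) (ob : Finset ℕ) (r : ℕ) (τ τ' : JtTopo)
    (h : ∀ x y, x < r → y < r → τ x y = τ' x y) : W.jt.scM r q ob τ = W.jt.scM r q ob τ' := by
  funext A
  exact hW.nuK_congr r τ τ' _ h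

theorem l2a7_nuK_prune (hW : W.Ok) {r : ℕ} {R : (ℕ → Bool) → ℝ} (hR : TrUses r R) (d : ℕ) {τ : JtTopo}
    (hτ : IsTr W.N (r + d) τ) : W.nuK (r + d) τ R = W.nuK r τ R := by
  induction d with
  | zero => rfl
  | succ d ih =>
    have h1 : TrUses (r + d) R := fun σ σ' h => hR σ σ' fun i hi => h i (by omega)
    rw [← ih (tr_isTr_mono hτ (by omega))]
    exact hW.nuK_prune (r + d) τ R hτ h1

/-- scalar moments: restriction consistency -/
theorem l2a7_scM_rc (hW : W.Ok) (q : ℕ) (ob : Finset ℕ) (hob : ∀ y ∈ ob, y < q) (r r' : ℕ) (τ τ' : JtTopo) (A : Finset ℕ)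
    (hr : r ≤ r') (hτ' : IsTr W.N r' τ') (h : ∀ x y, x < r → y < r → τ x y = τ' x y) (hq : q ≤ r)
    (hA : ∀ l ∈ A, jtD q l < r) : W.jt.scM r q ob τ A = W.jt.scM r' q ob τ' A := by
  rw [l2a7_scM_cg W hW q ob r τ τ' h]
  obtain ⟨d, rfl⟩ := Nat.exists_eq_add_of_le hr
  symm
  refine l2a7_nuK_prune W hW ?_ d hτ'
  intro σ σ' hσ
  have h1 : ∏ y ∈ ob, jtSp (σ y) = ∏ y ∈ ob, jtSp (σ' y) :=
    Finset.prod_congr rfl fun y hy => by rw [hσ y (lt_of_lt_of_le (hob y hy) hq)]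
  have h2 : ∏ i ∈ A, jtSp (σ (jtC q i)) * jtSp (σ (jtD q i)) = ∏ i ∈ A, jtSp (σ' (jtC q i)) * jtSp (σ' (jtD q i)) :=
    Finset.prod_congr rfl fun i hi => by
      have := hA i hi
      rw [hσ (jtC q i) (by unfold jtC; unfold jtD at this; omega), hσ (jtD q i) this]
  simp only [h1, h2]

/-- scalar moments: equivariance under renumbering of the pairs -/
theorem l2a7_scM_eq (hW : W.Ok) (q : ℕ) (ob : Finset ℕ) (hob : ∀ y ∈ ob, y < q) (t : ℕ) (τ : JtTopo) (π : Equiv.Perm ℕ)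
    (A : Finset ℕ) (hτ : IsTr W.N (q + 2 * t) τ) (hπ : ∀ l, t ≤ l → π l = l) (hA : A ⊆ Finset.range t) :
    W.jt.scM (q + 2 * t) q ob (fun x y => τ (l2Lab q π x) (l2Lab q π y)) A
      = W.jt.scM (q + 2 * t) q ob τ (A.map π.toEmbedding) := by
  have hu : TrUses (q + 2 * t) fun s : ℕ → Bool =>
      (∏ y ∈ ob, jtSp (s y)) * ∏ i ∈ A.map π.toEmbedding, jtSp (s (jtC q i)) * jtSp (s (jtD q i)) := by
    intro σ σ' hσ
    have h1 : ∏ y ∈ ob, jtSp (σ y) = ∏ y ∈ ob, jtSp (σ' y) :=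
      Finset.prod_congr rfl fun y hy => by rw [hσ y (by have := hob y hy; omega)]
    have h2 : ∏ i ∈ A.map π.toEmbedding, jtSp (σ (jtC q i)) * jtSp (σ (jtD q i))
        = ∏ i ∈ A.map π.toEmbedding, jtSp (σ' (jtC q i)) * jtSp (σ' (jtD q i)) :=
      Finset.prod_congr rfl fun i hi => by
        obtain ⟨l, hl, rfl⟩ := Finset.mem_map.1 hi
        have := l2a7_perm_lt hπ (Finset.mem_range.1 (hA hl))
        simp only [Equiv.coe_toEmbedding]
        rw [hσ (jtC q (π l)) (by unfold jtC; omega), hσ (jtD q (π l)) (by unfold jtD; omega)]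
    simp only [h1, h2]
  have key := hW.nuK_perm (q + 2 * t) τ _ (l2Lab q π) hτ hu (fun x hx => l2a7_lab_big q t π hπ hx)
  unfold JtCtx.scM
  change W.nuK _ _ _ = W.nuK _ _ _
  rw [← key]
  congr 1
  funext s
  rw [Finset.prod_map]
  congr 1
  · refine Finset.prod_congr rfl fun y hy => ?_
    simp only [l2a7_lab_symm, l2a7_lab_old q π.symm (hob y hy)]
  · refine Finset.prod_congr rfl fun i _ => ?_
    simp only [Equiv.coe_toEmbedding, l2a7_lab_symm, l2a7_lab_C, l2a7_lab_D, Equiv.symm_apply_apply]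

theorem l2a7_psi_sym (hW : W.Ok) (q : ℕ) : W.Sym q fun r τ => W.jt.Psi r q τ :=
  ⟨fun r τ τ' h => l2a7_scM_cg W hW q ∅ r τ τ' h, fun r r' τ τ' A hr hτ' h hq hA => l2a7_scM_rc W hW q ∅ (by simp) r r' τ τ' A hr hτ' h hq hA,
    fun t τ π A hτ hπ hA => l2a7_scM_eq W hW q ∅ (by simp) t τ π A hτ hπ hA⟩

end Claimed.Agent.R286
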