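-- OWNER helper138 (architect + prover).  Source: LL 02-foundations.tex l.402-425 (Lemma 2.3 = T4 of origin/helper73:notes/R286/L02_adv_73.md).
import Claimed.Agent.R286.L02.Contract2
import Claimed.Agent.R286.L02.Law
import Claimed.Agent.R286.L02.A7Tay
import Claimed.Agent.R286.LL.Jet.Alg
import Claimed.Agent.R286.L02.Inst
import Claimed.Agent.R286.L02.Alloc
import Claimed.Agent.R286.L02.Row

/-!
# Row 286 (S0533), LL Lemma 2.3 (change of scalar reference) : PROOF of the contract `L02RefChange`      TEX[LL:found:reference-change]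

ROUTE (no Taylor expansion, no binomial count: ONE derivative + telescoping).   `K_t = K + t δ`, `δ = K' - K`, `J_t = J_0 - t δ`, `J_1 = J'`.
`Φ(t) = ∑_{n<k} E_n(t)`, `E_n(t) = (2^n n!)⁻¹ ∑_signed off_n · Quo_t(range n) · ν[R ∏_{l<n} J_t(l)]`.      `Φ(0)`, `Φ(1)` = the two truncated quotients.
* (2) for the scalar law: `d/dt κ_t[f] = 𝖫[κ_t[f τ_c τ_d]]`, `𝖫 u = ½ ∑_signed(2 labels) off · δ_{cd} · u`;
* the shift `A ↦ A ∪ {new pair}` is a derivation of the subset convolution, so `d/dt H_t(A) = 𝖫[H_t(A ∪ {new})]` passes to products and quotients (`l2rc_quot_deriv`);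
* `d/dt E_n = (2^{n+1} n!)⁻¹ T_{n+1,n} - (2^n n!)⁻¹ ∑_{l<n} T_{n,l}`,  `T_{m,l}` = the sum with `δ` at the pair `l` and `J_t` at the others;
* order symmetry (`l2rc_Xi_perm`, ANY permutation of the pairs, ANY pair factors): `T_{m,l} = T_{m,m-1}`;  the sum telescopes: `Φ' = (2^k (k-1)!)⁻¹ T_{k,k-1}`;
* `|T_{k,k-1}| ≤ C(k) remMix`;  mean value inequality.

The core is typed on `Defs/Tr` (`trSumK`) + two laws `JtNuLaw` (`L02/Law.lean`): `ν` (matrix model) and `κ t` (scalar model at the reference `K_t`, `L2rcSc`).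
EXIT: `l2rc_exit : L02RcInst Jt → L02RefChange Jt`;   `L02RcInst Jt` = the instance supplies the interpolating scalar laws (sec. 8: `l2ri_inst : L02RcInst llJs`).
-/

set_option autoImplicit false

namespace Claimed.Agent.R286

open scoped BigOperators Nat

/-! ## 0. Definitions -/

/-- linear functionals on functions of the topology which only see the topologies of `T` -/
structure L2rcLin (T : Set JtTopo) (L : (JtTopo → ℝ) → ℝ) : Prop where
  add : ∀ u v : JtTopo → ℝ, L (fun τ => u τ + v τ) = L u + L v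
  smul : ∀ (c : ℝ) (u : JtTopo → ℝ), L (fun τ => c * u τ) = c * L u
  congr : ∀ u v : JtTopo → ℝ, (∀ τ ∈ T, u τ = v τ) → L u = L v

/-- the trees on `r + k` labels which extend `τ` -/
def l2rcExt (N r k : ℕ) (τ : JtTopo) : Set JtTopo := {τ' | IsTr N (r + k) τ' ∧ ∀ x y, x < r → y < r → τ' x y = τ x y}

/-- weight of the new pair `(r, r+1)`: different leaves, change of reference at their split -/
def l2rcW (N : ℕ) (δ : ℕ → ℝ) (r : ℕ) (τ : JtTopo) : ℝ := (if τ r (r + 1) ≤ N then (1 : ℝ) else 0) * δ (τ r (r + 1))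

/-- the insertion operator `𝖫`: one new pair with the weight `½ δ` -/
noncomputable def l2rcL (ms : ℕ → ℝ) (N : ℕ) (δ : ℕ → ℝ) (r : ℕ) (τ : JtTopo) (u : JtTopo → ℝ) : ℝ :=
  2⁻¹ * trSumK ms N 2 r τ fun τ' => l2rcW N δ r τ' * u τ'

/-- abbreviation: a law on the spin tests of type `S` -/
abbrev L2rcLaw (S : Type) : Type := ℕ → JtTopo → ((ℕ → S) → ℝ) → ℝ

/-- what is used of the scalar laws `κ t` at the references `K + t δ`, `t ∈ [0,1]` -/
structure L2rcSc (ms : ℕ → ℝ) (N : ℕ) (δ : ℕ → ℝ) (κ : ℝ → L2rcLaw Bool) : Prop where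
  law : ∀ t ∈ Set.Icc (0 : ℝ) 1, JtNuLaw N (κ t)
  /-- PE (2) along `K + t δ`; the coinciding new labels drop out (`tr_sum_diag0`) -/
  deriv : ∀ t ∈ Set.Icc (0 : ℝ) 1, ∀ (r : ℕ) (τ : JtTopo) (f : (ℕ → Bool) → ℝ), IsTr N r τ → TrUses r f →
    HasDerivWithinAt (fun t => κ t r τ f)
      (l2rcL ms N δ r τ fun τ' => κ t (r + 2) τ' fun s => f s * (jtSp (s r) * jtSp (s (r + 1)))) (Set.Icc 0 1) t

/-- the scalar test of `JtCtx.scM` -/
def l2rcTest (q : ℕ) (obs A : Finset ℕ) (s : ℕ → Bool) : ℝ :=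
  (∏ y ∈ obs, jtSp (s y)) * ∏ i ∈ A, jtSp (s (jtC q i)) * jtSp (s (jtD q i))

/-- `JtCtx.scM` for a scalar law -/
def l2rcM (κ0 : L2rcLaw Bool) (r q : ℕ) (obs : Finset ℕ) (τ : JtTopo) : JtFn := fun A => κ0 r τ (l2rcTest q obs A)

/-- `JtCtx.Quo` for a scalar law -/
noncomputable def l2rcQ (κ0 : L2rcLaw Bool) (r q i j : ℕ) (τ : JtTopo) : JtFn :=
  jtMul (l2rcM κ0 r q {i, j} τ) (jtInv (l2rcM κ0 r q ∅ τ))

/-- the pair factor `J_t = J_0 - t δ`;  `g u s s'` = `J_0` at a pair of configurations `s, s'` which share `u` stages -/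
def l2rcJt {S : Type} (g : ℕ → S → S → ℝ) (δ : ℕ → ℝ) (t : ℝ) : ℕ → S → S → ℝ := fun u s s' => g u s s' - t * δ u

/-- the pair factor `δ` -/
def l2rcDl {S : Type} (δ : ℕ → ℝ) : ℕ → S → S → ℝ := fun u _ _ => δ u

/-- product of the pair factors `a l` over the pairs `l < m` -/
def l2rcPr {S : Type} (q m : ℕ) (a : ℕ → ℕ → S → S → ℝ) (τ : JtTopo) (σ : ℕ → S) : ℝ :=
  ∏ l ∈ Finset.range m, a l (τ (jtC q l) (jtD q l)) (σ (jtC q l)) (σ (jtD q l))

section core
variable {S : Type} (ms : ℕ → ℝ) (N : ℕ) (ν : L2rcLaw S) (κ : ℝ → L2rcLaw Bool) (g : ℕ → S → S → ℝ) (δ : ℕ → ℝ)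
  (q : ℕ) (τ0 : JtTopo) (i j : ℕ) (R : (ℕ → S) → ℝ)

/-- the summand of the general sum at the topology `τ` -/
noncomputable def l2rcSm (κ0 : L2rcLaw Bool) (m : ℕ) (a : ℕ → ℕ → S → S → ℝ) (τ : JtTopo) : ℝ :=
  l2Off N q m τ * l2rcQ κ0 (q + 2 * m) q i j τ (Finset.range m) * ν (q + 2 * m) τ fun σ => R σ * l2rcPr q m a τ σ

/-- the general sum: `m` pairs, quotient at the scalar law `κ0`, pair factors `a l` -/
noncomputable def l2rcXi (κ0 : L2rcLaw Bool) (m : ℕ) (a : ℕ → ℕ → S → S → ℝ) : ℝ :=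
  trSumK ms N (2 * m) q τ0 (l2rcSm N ν q i j R κ0 m a)

/-- `E_n(t)`: degree `n` part of the quotient at the reference `K_t`, argument `J_t` -/
noncomputable def l2rcE (n : ℕ) (t : ℝ) : ℝ :=
  ((2 : ℝ) ^ n * (n ! : ℝ))⁻¹ * l2rcXi ms N ν q τ0 i j R (κ t) n fun _ => l2rcJt g δ t

/-- `T_{m,l}(t)`: `m` pairs, `δ` at the pair `l`, `J_t` at the others -/
noncomputable def l2rcT (m l : ℕ) (t : ℝ) : ℝ :=
  l2rcXi ms N ν q τ0 i j R (κ t) m fun l' => if l' = l then l2rcDl δ else l2rcJt g δ t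

/-- the majorant (`JtCtx.remMix`) -/
noncomputable def l2rcRem (k : ℕ) : ℝ :=
  trAbsK ms N (2 * k) q τ0 fun τ => l2Off N q k τ * ν (q + 2 * k) τ fun σ =>
    |R σ| * l2rcPr q k (fun _ u s s' => |l2rcJt g δ 1 u s s'| + |δ u|) τ σ

end core

theorem l2rc_eqns_cite : True := by
  have := @l2rcExt.eq_1
  have := @l2rcW.eq_1
  have := @l2rcL.eq_1
  have := @l2rcTest.eq_1
  have := @l2rcM.eq_1
  have := @l2rcQ.eq_1
  have := @l2rcJt.eq_1
  have := @l2rcDl.eq_1
  have := @l2rcPr.eq_1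
  have := @l2rcSm.eq_1
  have := @l2rcXi.eq_1
  have := @l2rcE.eq_1
  have := @l2rcT.eq_1
  have := @l2rcRem.eq_1
  trivial

/-! ## 1. The quotient rule -/

theorem l2rc_lin_zero {T : Set JtTopo} {L : (JtTopo → ℝ) → ℝ} (hL : L2rcLin T L) : L (fun _ => 0) = 0 := by
  have := hL.smul 0 (fun _ => 0)
  simpa using this

theorem l2rc_lin_sum {T : Set JtTopo} {L : (JtTopo → ℝ) → ℝ} (hL : L2rcLin T L) {ι : Type} (s : Finset ι) (u : ι → JtTopo → ℝ) :
    L (fun τ => ∑ c ∈ s, u c τ) = ∑ c ∈ s, L (u c) := by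
  classical
  induction s using Finset.induction_on with
  | empty => simpa using l2rc_lin_zero hL
  | insert a s ha ih =>
    simp only [Finset.sum_insert ha]
    rw [hL.add, ih]

theorem l2rc_lin_sub {T : Set JtTopo} {L : (JtTopo → ℝ) → ℝ} (hL : L2rcLin T L) (u v : JtTopo → ℝ) :
    L (fun τ => u τ - v τ) = L u - L v := by
  have h1 : (fun τ => u τ - v τ) = fun τ => u τ + (-1) * v τ := by funext τ; ring
  rw [h1, hL.add, hL.smul]
  ring

theorem l2rc_lin_mul_right {T : Set JtTopo} {L : (JtTopo → ℝ) → ℝ} (hL : L2rcLin T L) (u : JtTopo → ℝ) (c : ℝ) :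
    L (fun τ => u τ * c) = L u * c := by
  have h1 : (fun τ => u τ * c) = fun τ => c * u τ := by funext τ; ring
  rw [h1, hL.smul]
  ring

theorem l2rc_sum_powerset (B : Finset ℕ) (f : Finset ℕ → ℝ) : ∑ C ∈ B.powerset, f C = f B + ∑ C ∈ B.ssubsets, f C := by
  rw [Finset.ssubsets, Finset.add_sum_erase _ _ (Finset.mem_powerset_self B)]

theorem l2rc_quot_mul (F G : JtFn) (h : G ∅ = 1) : jtMul (jtMul F (jtInv G)) G = F := by
  rw [jt_mul_assoc, jt_mul_comm (jtInv G) G, jt_mul_inv G h, jt_mul_comm, jt_one_mul]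

/-- recursion for the quotient -/
theorem l2rc_quot_rec (F G : JtFn) (h : G ∅ = 1) (A : Finset ℕ) :
    jtMul F (jtInv G) A = F A - ∑ B ∈ A.ssubsets, jtMul F (jtInv G) B * G (A \ B) := by
  have h1 := congrFun (l2rc_quot_mul F G h) A
  have h2 : jtMul (jtMul F (jtInv G)) G A = ∑ B ∈ A.powerset, jtMul F (jtInv G) B * G (A \ B) := rfl
  rw [h2, l2rc_sum_powerset, sdiff_self] at h1
  have h3 : G (⊥ : Finset ℕ) = 1 := h
  rw [h3, mul_one] at h1
  rw [← h1]
  ring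

/-- the quotient at `A` depends on the values on the subsets of `A` only -/
theorem l2rc_quot_local (F F' G G' : JtFn) (A : Finset ℕ) (hF : ∀ B ⊆ A, F B = F' B) (hG : ∀ B ⊆ A, G B = G' B) :
    jtMul F (jtInv G) A = jtMul F' (jtInv G') A := by
  unfold jtMul
  refine Finset.sum_congr rfl fun B hB => ?_
  rw [hF B (Finset.mem_powerset.1 hB), (jt_local G G' (A \ B) fun C hC => hG C (hC.trans Finset.sdiff_subset)).1]

/-- recursion for the quotient at `insert n B` -/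
theorem l2rc_quot_rec_insert (F G : JtFn) (h : G ∅ = 1) (n : ℕ) (B : Finset ℕ) (hn : n ∉ B) :
    jtMul F (jtInv G) (insert n B) = F (insert n B) - ∑ C ∈ B.powerset, jtMul F (jtInv G) C * G (insert n (B \ C))
      - ∑ C ∈ B.ssubsets, jtMul F (jtInv G) (insert n C) * G (B \ C) := by
  have h1 := congrFun (l2rc_quot_mul F G h) (insert n B)
  have h2 : jtMul (jtMul F (jtInv G)) G (insert n B)
      = ∑ C ∈ (insert n B).powerset, jtMul F (jtInv G) C * G (insert n B \ C) := rfl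
  rw [h2, Finset.sum_powerset_insert hn] at h1
  have h3 : ∑ C ∈ B.powerset, jtMul F (jtInv G) C * G (insert n B \ C)
      = ∑ C ∈ B.powerset, jtMul F (jtInv G) C * G (insert n (B \ C)) := by
    refine Finset.sum_congr rfl fun C hC => ?_
    rw [Finset.insert_sdiff_of_notMem _ fun hh => hn (Finset.mem_powerset.1 hC hh)]
  have h4 : ∑ C ∈ B.powerset, jtMul F (jtInv G) (insert n C) * G (insert n B \ insert n C)
      = ∑ C ∈ B.powerset, jtMul F (jtInv G) (insert n C) * G (B \ C) := by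
    refine Finset.sum_congr rfl fun C _ => ?_
    rw [Finset.insert_sdiff_insert, Finset.sdiff_insert_of_notMem hn]
  rw [h3, h4, l2rc_sum_powerset B fun C => jtMul F (jtInv G) (insert n C) * G (B \ C), sdiff_self] at h1
  have h5 : G (⊥ : Finset ℕ) = 1 := h
  rw [h5, mul_one] at h1
  rw [← h1]
  ring

/-- leaf A: quotient rule.  `F t, G t` = symbols at the tree `τ`, `F' τ', G' τ'` = the same symbols (at `t0`) at the enlarged trees; `n` = number of the new pair. -/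
theorem l2rc_quot_deriv {T : Set JtTopo} {L : (JtTopo → ℝ) → ℝ} (hL : L2rcLin T L) {s : Set ℝ} {t0 : ℝ} (ht0 : t0 ∈ s)
    (n : ℕ) (A : Finset ℕ) (hnA : n ∉ A) (F G : ℝ → JtFn) (F' G' : JtTopo → JtFn)
    (hG0 : ∀ t ∈ s, G t ∅ = 1)
    (hFp : ∀ τ ∈ T, ∀ B ⊆ A, F' τ B = F t0 B) (hGp : ∀ τ ∈ T, ∀ B ⊆ A, G' τ B = G t0 B)
    (hFd : ∀ B ⊆ A, HasDerivWithinAt (fun t => F t B) (L fun τ => F' τ (insert n B)) s t0)
    (hGd : ∀ B ⊆ A, HasDerivWithinAt (fun t => G t B) (L fun τ => G' τ (insert n B)) s t0)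
    (hG1 : L (fun τ => G' τ {n}) = 0) :
    HasDerivWithinAt (fun t => jtMul (F t) (jtInv (G t)) A)
      (L fun τ => jtMul (F' τ) (jtInv (G' τ)) (insert n A)) s t0 := by
  classical
  have hG0' : ∀ τ ∈ T, G' τ ∅ = 1 := fun τ hτ => by rw [hGp τ hτ ∅ (Finset.empty_subset _), hG0 t0 ht0]
  have hQp : ∀ τ ∈ T, ∀ B ⊆ A, jtMul (F' τ) (jtInv (G' τ)) B = jtMul (F t0) (jtInv (G t0)) B := fun τ hτ B hB =>
    l2rc_quot_local _ _ _ _ B (fun C hC => hFp τ hτ C (hC.trans hB)) (fun C hC => hGp τ hτ C (hC.trans hB))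
  have key : ∀ B : Finset ℕ, B ⊆ A → HasDerivWithinAt (fun t => jtMul (F t) (jtInv (G t)) B)
      (L fun τ => jtMul (F' τ) (jtInv (G' τ)) (insert n B)) s t0 := by
    intro B
    induction B using Finset.strongInduction with
    | H B ih =>
      intro hB
      have hnB : n ∉ B := fun h => hnA (hB h)
      have h1 : HasDerivWithinAt (fun t => F t B - ∑ C ∈ B.ssubsets, jtMul (F t) (jtInv (G t)) C * G t (B \ C))
          ((L fun τ => F' τ (insert n B)) - ∑ C ∈ B.ssubsets,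
            ((L fun τ => jtMul (F' τ) (jtInv (G' τ)) (insert n C)) * G t0 (B \ C)
              + jtMul (F t0) (jtInv (G t0)) C * (L fun τ => G' τ (insert n (B \ C))))) s t0 := by
        refine (hFd B hB).sub (HasDerivWithinAt.fun_sum fun C hC => ?_)
        have hC' := Finset.mem_ssubsets.1 hC
        exact (ih C hC' (hC'.subset.trans hB)).mul (hGd (B \ C) (Finset.sdiff_subset.trans hB))
      refine (h1.congr_deriv ?_).congr (fun t ht => l2rc_quot_rec _ _ (hG0 t ht) B) (l2rc_quot_rec _ _ (hG0 t0 ht0) B)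
      have h2 : (L fun τ => jtMul (F' τ) (jtInv (G' τ)) (insert n B))
          = L fun τ => F' τ (insert n B) - ∑ C ∈ B.powerset, jtMul (F t0) (jtInv (G t0)) C * G' τ (insert n (B \ C))
            - ∑ C ∈ B.ssubsets, jtMul (F' τ) (jtInv (G' τ)) (insert n C) * G t0 (B \ C) := by
        refine hL.congr _ _ fun τ hτ => ?_
        rw [l2rc_quot_rec_insert (F' τ) (G' τ) (hG0' τ hτ) n B hnB]
        congr 1
        · congr 1
          refine Finset.sum_congr rfl fun C hC => ?_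
          rw [hQp τ hτ C ((Finset.mem_powerset.1 hC).trans hB)]
        · refine Finset.sum_congr rfl fun C _ => ?_
          rw [hGp τ hτ (B \ C) (Finset.sdiff_subset.trans hB)]
      rw [h2, l2rc_lin_sub hL, l2rc_lin_sub hL, l2rc_lin_sum hL, l2rc_lin_sum hL]
      simp only [hL.smul, l2rc_lin_mul_right hL]
      rw [l2rc_sum_powerset, sdiff_self]
      have h3 : (L fun τ => G' τ (insert n (⊥ : Finset ℕ))) = 0 := hG1
      rw [h3, mul_zero, zero_add, Finset.sum_add_distrib]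
      ring
  exact key A (Finset.Subset.refl A)

/-! ## 2. The signed sums are linear -/

theorem l2rc_sumK_lin (ms : ℕ → ℝ) {N q : ℕ} {τ : JtTopo} (hτ : IsTr N q τ) (k : ℕ) :
    L2rcLin (l2rcExt N q k τ) (trSumK ms N k q τ) where
  add := fun u v => l2a7_sumK_add ms N k q τ u v
  smul := fun c u => (tcb_sumK_mul_left ms N k q τ c u).symm
  congr := fun u v h => tr_sumK_congr hτ k u v fun τ' h1 h2 => h τ' ⟨h1, h2⟩

/-- `𝖫` is linear and sees only the trees which extend `τ` -/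
theorem l2rc_L_lin (ms : ℕ → ℝ) {N : ℕ} (δ : ℕ → ℝ) {r : ℕ} {τ : JtTopo} (hτ : IsTr N r τ) :
    L2rcLin (l2rcExt N r 2 τ) (l2rcL ms N δ r τ) where
  add := fun u v => by
    unfold l2rcL
    rw [← mul_add, ← l2a7_sumK_add]
    congr 2
    funext τ'
    ring
  smul := fun c u => by
    unfold l2rcL
    rw [show (fun τ' => l2rcW N δ r τ' * (c * u τ')) = fun τ' => c * (l2rcW N δ r τ' * u τ') from by funext τ'; ring,
      ← tcb_sumK_mul_left]
    ring
  congr := fun u v h => by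
    unfold l2rcL
    rw [tr_sumK_congr hτ 2 _ _ fun τ' h1 h2 => by rw [h τ' ⟨h1, h2⟩]]

/-! ## 3. The scalar symbols -/

theorem l2rc_sp_abs (b : Bool) : |jtSp b| = 1 := by cases b <;> simp [jtSp]

theorem l2rc_test_abs (q : ℕ) (obs A : Finset ℕ) (s : ℕ → Bool) : |l2rcTest q obs A s| ≤ 1 := by
  unfold l2rcTest
  rw [abs_mul, Finset.abs_prod, Finset.abs_prod]
  simp [abs_mul, l2rc_sp_abs]

theorem l2rc_test_uses {r q : ℕ} {obs A : Finset ℕ} (ho : ∀ y ∈ obs, y < r) (hA : ∀ i ∈ A, jtD q i < r) :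
    TrUses r (l2rcTest q obs A) := by
  intro s s' h
  unfold l2rcTest
  congr 1
  · exact Finset.prod_congr rfl fun y hy => by rw [h y (ho y hy)]
  · refine Finset.prod_congr rfl fun i hi => ?_
    have h1 := hA i hi
    rw [h (jtC q i) (by unfold jtC; unfold jtD at h1; omega), h (jtD q i) h1]

theorem l2rc_test_insert (q : ℕ) (obs A : Finset ℕ) (n : ℕ) (hn : n ∉ A) (s : ℕ → Bool) :
    l2rcTest q obs (insert n A) s = l2rcTest q obs A s * (jtSp (s (jtC q n)) * jtSp (s (jtD q n))) := by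
  unfold l2rcTest
  rw [Finset.prod_insert hn]
  ring

theorem l2rc_test_empty (q : ℕ) : l2rcTest q ∅ ∅ = fun _ => 1 := by
  funext s
  simp [l2rcTest]

theorem l2rc_range_D {q n : ℕ} {A : Finset ℕ} (hA : A ⊆ Finset.range n) : ∀ i ∈ A, jtD q i < q + 2 * n := by
  intro i hi
  have := Finset.mem_range.1 (hA hi)
  unfold jtD
  omega

theorem l2rc_M_abs {N : ℕ} {κ0 : L2rcLaw Bool} (h : JtNuLaw N κ0) (r q : ℕ) (obs : Finset ℕ) (τ : JtTopo) (A : Finset ℕ) :
    |l2rcM κ0 r q obs τ A| ≤ 1 :=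
  h.abs_le_const r τ fun s => l2rc_test_abs q obs A s

theorem l2rc_M_empty {N : ℕ} {κ0 : L2rcLaw Bool} (h : JtNuLaw N κ0) (r q : ℕ) (τ : JtTopo) : l2rcM κ0 r q ∅ τ ∅ = 1 := by
  unfold l2rcM
  rw [l2rc_test_empty]
  exact h.const r τ 1

theorem l2rc_M_congr {N : ℕ} {κ0 : L2rcLaw Bool} (h : JtNuLaw N κ0) (r q : ℕ) (obs : Finset ℕ) {τ τ' : JtTopo}
    (hτ : ∀ x y, x < r → y < r → τ x y = τ' x y) : l2rcM κ0 r q obs τ = l2rcM κ0 r q obs τ' := by
  funext A
  exact h.congr r τ τ' hτ _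

/-- the coefficient of `A` is evaluated on the restriction of the topology to the labels it uses -/
theorem l2rc_M_ext {N : ℕ} {κ0 : L2rcLaw Bool} (h : JtNuLaw N κ0) {r k q : ℕ} {obs A : Finset ℕ} {τ τ' : JtTopo}
    (hτ' : τ' ∈ l2rcExt N r k τ) (ho : ∀ y ∈ obs, y < r) (hA : ∀ i ∈ A, jtD q i < r) :
    l2rcM κ0 (r + k) q obs τ' A = l2rcM κ0 r q obs τ A := by
  unfold l2rcM
  rw [h.prune hτ'.1 (l2rc_test_uses ho hA)]
  exact h.congr r τ' τ hτ'.2 _

theorem l2rc_M_deriv {ms : ℕ → ℝ} {N : ℕ} {δ : ℕ → ℝ} {κ : ℝ → L2rcLaw Bool} (hκ : L2rcSc ms N δ κ) {q n : ℕ}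
    {obs B : Finset ℕ} (ho : ∀ y ∈ obs, y < q + 2 * n) (hB : B ⊆ Finset.range n) {τ : JtTopo} (hτ : IsTr N (q + 2 * n) τ)
    {t : ℝ} (ht : t ∈ Set.Icc (0 : ℝ) 1) :
    HasDerivWithinAt (fun t => l2rcM (κ t) (q + 2 * n) q obs τ B)
      (l2rcL ms N δ (q + 2 * n) τ fun τ' => l2rcM (κ t) (q + 2 * n + 2) q obs τ' (insert n B)) (Set.Icc 0 1) t := by
  have h := hκ.deriv t ht (q + 2 * n) τ (l2rcTest q obs B) hτ (l2rc_test_uses ho (l2rc_range_D hB))
  have hn : n ∉ B := fun hh => by simpa using hB hh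
  have e : ∀ τ' : JtTopo, (κ t (q + 2 * n + 2) τ' fun s => l2rcTest q obs B s * (jtSp (s (q + 2 * n)) * jtSp (s (q + 2 * n + 1))))
      = l2rcM (κ t) (q + 2 * n + 2) q obs τ' (insert n B) := by
    intro τ'
    unfold l2rcM
    congr 1
    funext s
    rw [l2rc_test_insert _ _ _ _ hn]
    rfl
  simp only [e] at h
  exact h

section core
variable {S : Type} {ms : ℕ → ℝ} {N : ℕ} {ν : L2rcLaw S} {κ : ℝ → L2rcLaw Bool} {g : ℕ → S → S → ℝ} {δ : ℕ → ℝ}
  {q : ℕ} {τ0 : JtTopo} {i j : ℕ} {R : (ℕ → S) → ℝ}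

/-- derivative of the quotient in the reference = insertion of one more pair -/
theorem l2rc_Q_deriv (hκ : L2rcSc ms N δ κ) (hi : i < q) (hj : j < q) (n : ℕ) {τ : JtTopo} (hτ : IsTr N (q + 2 * n) τ)
    {t : ℝ} (ht : t ∈ Set.Icc (0 : ℝ) 1) :
    HasDerivWithinAt (fun t => l2rcQ (κ t) (q + 2 * n) q i j τ (Finset.range n))
      (l2rcL ms N δ (q + 2 * n) τ fun τ' => l2rcQ (κ t) (q + 2 * (n + 1)) q i j τ' (Finset.range (n + 1))) (Set.Icc 0 1) t := by
  have ho : ∀ y ∈ ({i, j} : Finset ℕ), y < q + 2 * n := by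
    intro y hy
    simp only [Finset.mem_insert, Finset.mem_singleton] at hy
    rcases hy with rfl | rfl <;> omega
  have ho' : ∀ y ∈ (∅ : Finset ℕ), y < q + 2 * n := fun y hy => absurd hy (Finset.notMem_empty y)
  have hG0 : ∀ t ∈ Set.Icc (0 : ℝ) 1, l2rcM (κ t) (q + 2 * n) q ∅ τ ∅ = 1 := fun t ht => l2rc_M_empty (hκ.law t ht) _ _ _
  have hG1 : l2rcL ms N δ (q + 2 * n) τ (fun τ' => l2rcM (κ t) (q + 2 * n + 2) q ∅ τ' {n}) = 0 := by
    have h1 := l2rc_M_deriv hκ ho' (Finset.empty_subset (Finset.range n)) hτ ht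
    have h2 : HasDerivWithinAt (fun t => l2rcM (κ t) (q + 2 * n) q ∅ τ ∅) 0 (Set.Icc 0 1) t :=
      (hasDerivWithinAt_const t (Set.Icc (0 : ℝ) 1) (1 : ℝ)).congr (fun x hx => hG0 x hx) (hG0 t ht)
    exact (uniqueDiffOn_Icc zero_lt_one t ht).eq_deriv _ h1 h2
  have h := l2rc_quot_deriv (l2rc_L_lin ms δ hτ) ht n (Finset.range n) (by simp)
    (fun t => l2rcM (κ t) (q + 2 * n) q {i, j} τ) (fun t => l2rcM (κ t) (q + 2 * n) q ∅ τ)
    (fun τ' => l2rcM (κ t) (q + 2 * n + 2) q {i, j} τ') (fun τ' => l2rcM (κ t) (q + 2 * n + 2) q ∅ τ') hG0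
    (fun τ' hτ' B hB => l2rc_M_ext (hκ.law t ht) hτ' ho (l2rc_range_D hB))
    (fun τ' hτ' B hB => l2rc_M_ext (hκ.law t ht) hτ' ho' (l2rc_range_D hB))
    (fun B hB => l2rc_M_deriv hκ ho hB hτ ht) (fun B hB => l2rc_M_deriv hκ ho' hB hτ ht) hG1
  rw [← Finset.range_add_one] at h
  exact h

end core

/-- bound of the quotient -/
theorem l2rc_Q_bd (k : ℕ) : ∃ C : ℝ, 0 ≤ C ∧ ∀ (N : ℕ) (κ0 : L2rcLaw Bool), JtNuLaw N κ0 →
    ∀ (r q i j : ℕ) (τ : JtTopo) (A : Finset ℕ), A.card ≤ k → |l2rcQ κ0 r q i j τ A| ≤ C := by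
  obtain ⟨C1, hC1⟩ := jt_bounds k
  refine ⟨2 ^ k * |C1|, by positivity, fun N κ0 h r q i j τ A hA => ?_⟩
  unfold l2rcQ jtMul
  calc |∑ B ∈ A.powerset, l2rcM κ0 r q {i, j} τ B * jtInv (l2rcM κ0 r q ∅ τ) (A \ B)|
      ≤ ∑ B ∈ A.powerset, |l2rcM κ0 r q {i, j} τ B * jtInv (l2rcM κ0 r q ∅ τ) (A \ B)| := Finset.abs_sum_le_sum_abs _ _
    _ ≤ ∑ _B ∈ A.powerset, |C1| := by
        refine Finset.sum_le_sum fun B _ => ?_
        rw [abs_mul]
        have h1 := l2rc_M_abs h r q {i, j} τ B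
        have h2 := (hC1 (l2rcM κ0 r q ∅ τ) (A \ B) (fun B' => l2rc_M_abs h r q ∅ τ B')
          ((Finset.card_le_card Finset.sdiff_subset).trans hA)).1
        calc |l2rcM κ0 r q {i, j} τ B| * |jtInv (l2rcM κ0 r q ∅ τ) (A \ B)| ≤ 1 * |C1| :=
              mul_le_mul h1 (h2.trans (le_abs_self _)) (abs_nonneg _) zero_le_one
          _ = |C1| := one_mul _
    _ = 2 ^ A.card * |C1| := by rw [Finset.sum_const, Finset.card_powerset, nsmul_eq_mul]; push_cast; ring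
    _ ≤ 2 ^ k * |C1| := by
        refine mul_le_mul_of_nonneg_right ?_ (abs_nonneg _)
        exact pow_le_pow_right₀ (by norm_num) hA

/-! ## 4. Renumbering of the pairs -/

theorem l2rc_lab_lt (q : ℕ) (π : Equiv.Perm ℕ) {x : ℕ} (hx : x < q) : l2Lab q π x = x := by
  show (if x < q then x else q + 2 * π ((x - q) / 2) + (x - q) % 2) = x
  rw [if_pos hx]

theorem l2rc_lab_C (q : ℕ) (π : Equiv.Perm ℕ) (l : ℕ) : l2Lab q π (jtC q l) = jtC q (π l) := by
  show (if jtC q l < q then jtC q l else q + 2 * π ((jtC q l - q) / 2) + (jtC q l - q) % 2) = jtC q (π l)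
  unfold jtC
  have h1 : (q + 2 * l - q) / 2 = l := by omega
  have h2 : (q + 2 * l - q) % 2 = 0 := by omega
  rw [if_neg (by omega), h1, h2]
  rfl

theorem l2rc_lab_D (q : ℕ) (π : Equiv.Perm ℕ) (l : ℕ) : l2Lab q π (jtD q l) = jtD q (π l) := by
  show (if jtD q l < q then jtD q l else q + 2 * π ((jtD q l - q) / 2) + (jtD q l - q) % 2) = jtD q (π l)
  unfold jtD
  have h1 : (q + 2 * l + 1 - q) / 2 = l := by omega
  have h2 : (q + 2 * l + 1 - q) % 2 = 1 := by omega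
  rw [if_neg (by omega), h1, h2]

theorem l2rc_lab_ge (q : ℕ) (π : Equiv.Perm ℕ) (m : ℕ) (hπ : ∀ l, m ≤ l → π l = l) {x : ℕ} (hx : q + 2 * m ≤ x) :
    l2Lab q π x = x := by
  show (if x < q then x else q + 2 * π ((x - q) / 2) + (x - q) % 2) = x
  rw [if_neg (by omega), hπ _ (by omega)]
  omega

theorem l2rc_lab_symm (q : ℕ) (π : Equiv.Perm ℕ) : (l2Lab q π).symm = l2Lab q π.symm := rfl

theorem l2rc_moved {m : ℕ} {π : Equiv.Perm ℕ} (hπ : ∀ l, m ≤ l → π l = l) : {a | π a ≠ a} ⊆ ((Finset.range m : Finset ℕ) : Set ℕ) := by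
  intro a ha
  by_contra h
  exact ha (hπ a (by simpa using h))

theorem l2rc_test_perm (q : ℕ) (obs A : Finset ℕ) (ho : ∀ y ∈ obs, y < q) (π : Equiv.Perm ℕ) (s : ℕ → Bool) :
    l2rcTest q obs (A.map π.toEmbedding) (fun x => s ((l2Lab q π).symm x)) = l2rcTest q obs A s := by
  unfold l2rcTest
  rw [Finset.prod_map]
  congr 1
  · refine Finset.prod_congr rfl fun y hy => ?_
    show jtSp (s ((l2Lab q π.symm) y)) = jtSp (s y)
    rw [l2rc_lab_lt q π.symm (ho y hy)]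
  · refine Finset.prod_congr rfl fun i _ => ?_
    have h1 : (l2Lab q π).symm (jtC q (π i)) = jtC q i := by rw [Equiv.symm_apply_eq, l2rc_lab_C]
    have h2 : (l2Lab q π).symm (jtD q (π i)) = jtD q i := by rw [Equiv.symm_apply_eq, l2rc_lab_D]
    simp only [Equiv.coe_toEmbedding]
    rw [h1, h2]

theorem l2rc_M_perm {N : ℕ} {κ0 : L2rcLaw Bool} (h : JtNuLaw N κ0) {q m : ℕ} {obs A : Finset ℕ} (ho : ∀ y ∈ obs, y < q)
    (hA : A ⊆ Finset.range m) {τ : JtTopo} (hτ : IsTr N (q + 2 * m) τ) (π : Equiv.Perm ℕ) (hπ : ∀ l, m ≤ l → π l = l) :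
    l2rcM κ0 (q + 2 * m) q obs (fun x y => τ (l2Lab q π x) (l2Lab q π y)) A
      = l2rcM κ0 (q + 2 * m) q obs τ (A.map π.toEmbedding) := by
  have hu : TrUses (q + 2 * m) (l2rcTest q obs (A.map π.toEmbedding)) := by
    refine l2rc_test_uses (fun y hy => by have := ho y hy; omega) ?_
    intro i hi
    obtain ⟨i', hi', rfl⟩ := Finset.mem_map.1 hi
    have h1 := tr5_perm_lt π hπ (Finset.mem_range.1 (hA hi'))
    show jtD q (π i') < _
    unfold jtD
    omega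
  have h2 := h.perm hτ _ hu (l2Lab q π) (fun x hx => l2rc_lab_ge q π m hπ hx)
  unfold l2rcM
  rw [← h2]
  congr 1
  funext s
  exact (l2rc_test_perm q obs A ho π s).symm

/-- the quotient commutes with an injective renumbering of the pairs -/
theorem l2rc_quot_map (F G : JtFn) (e : ℕ ↪ ℕ) (A : Finset ℕ) :
    jtMul (fun B => F (B.map e)) (jtInv fun B => G (B.map e)) A = jtMul F (jtInv G) (A.map e) := by
  rw [jtr_mul, jtr_mul, jtr_inv, jtr_inv]
  show (Jt.comap e (Jt.mk F) * Jt.inv (Jt.comap e (Jt.mk G))) A = Jt.comap e (Jt.mk F * Jt.inv (Jt.mk G)) A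
  rw [map_mul, Jt.comap_inv]

theorem l2rc_Q_perm {N : ℕ} {κ0 : L2rcLaw Bool} (h : JtNuLaw N κ0) {q m i j : ℕ} (hi : i < q) (hj : j < q) {A : Finset ℕ}
    (hA : A ⊆ Finset.range m) {τ : JtTopo} (hτ : IsTr N (q + 2 * m) τ) (π : Equiv.Perm ℕ) (hπ : ∀ l, m ≤ l → π l = l) :
    l2rcQ κ0 (q + 2 * m) q i j (fun x y => τ (l2Lab q π x) (l2Lab q π y)) A
      = l2rcQ κ0 (q + 2 * m) q i j τ (A.map π.toEmbedding) := by
  have ho : ∀ y ∈ ({i, j} : Finset ℕ), y < q := by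
    intro y hy
    simp only [Finset.mem_insert, Finset.mem_singleton] at hy
    rcases hy with rfl | rfl <;> assumption
  have ho' : ∀ y ∈ (∅ : Finset ℕ), y < q := fun y hy => absurd hy (Finset.notMem_empty y)
  unfold l2rcQ
  rw [← l2rc_quot_map]
  exact l2rc_quot_local _ _ _ _ A (fun B hB => l2rc_M_perm h ho (hB.trans hA) hτ π hπ)
    (fun B hB => l2rc_M_perm h ho' (hB.trans hA) hτ π hπ)

theorem l2rc_Q_congr {N : ℕ} {κ0 : L2rcLaw Bool} (h : JtNuLaw N κ0) (r q i j : ℕ) {τ τ' : JtTopo}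
    (hτ : ∀ x y, x < r → y < r → τ x y = τ' x y) : l2rcQ κ0 r q i j τ = l2rcQ κ0 r q i j τ' := by
  unfold l2rcQ
  rw [l2rc_M_congr h r q _ hτ, l2rc_M_congr h r q _ hτ]

theorem l2rc_Pr_congr {S : Type} (q m : ℕ) (a : ℕ → ℕ → S → S → ℝ) {τ τ' : JtTopo}
    (h : ∀ x y, x < q + 2 * m → y < q + 2 * m → τ x y = τ' x y) (σ : ℕ → S) : l2rcPr q m a τ σ = l2rcPr q m a τ' σ := by
  unfold l2rcPr
  refine Finset.prod_congr rfl fun l hl => ?_
  have := Finset.mem_range.1 hl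
  rw [h _ _ (by unfold jtC; omega) (by unfold jtD; omega)]

theorem l2rc_Pr_uses {S : Type} {q : ℕ} {R : (ℕ → S) → ℝ} (hR : TrUses q R) (m : ℕ) (a : ℕ → ℕ → S → S → ℝ) (τ : JtTopo) :
    TrUses (q + 2 * m) fun σ => R σ * l2rcPr q m a τ σ := by
  intro σ σ' h
  show R σ * l2rcPr q m a τ σ = R σ' * l2rcPr q m a τ σ'
  rw [hR σ σ' fun x hx => h x (by omega)]
  congr 1
  unfold l2rcPr
  refine Finset.prod_congr rfl fun l hl => ?_
  have := Finset.mem_range.1 hl
  rw [h _ (show jtC q l < q + 2 * m by unfold jtC; omega), h _ (show jtD q l < q + 2 * m by unfold jtD; omega)]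

section core
variable {S : Type} [Fintype S] [Inhabited S] {ms : ℕ → ℝ} {N : ℕ} {ν : L2rcLaw S} {κ : ℝ → L2rcLaw Bool} {κ0 : L2rcLaw Bool}
  {g : ℕ → S → S → ℝ} {δ : ℕ → ℝ} {q : ℕ} {τ0 : JtTopo} {i j : ℕ} {R : (ℕ → S) → ℝ}

theorem l2rc_Sm_congr (hν : JtNuLaw N ν) (hκ0 : JtNuLaw N κ0) (m : ℕ) (a : ℕ → ℕ → S → S → ℝ) {τ τ' : JtTopo}
    (h : ∀ x y, x < q + 2 * m → y < q + 2 * m → τ x y = τ' x y) :
    l2rcSm N ν q i j R κ0 m a τ = l2rcSm N ν q i j R κ0 m a τ' := by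
  unfold l2rcSm
  rw [l2a7_off_congr N q m h, l2rc_Q_congr hκ0 _ q i j h, hν.congr _ τ τ' h]
  congr 2
  funext σ
  rw [l2rc_Pr_congr q m a h]

theorem l2rc_Sm_perm (hν : JtNuLaw N ν) (hκ0 : JtNuLaw N κ0) (hi : i < q) (hj : j < q) (hR : TrUses q R) (m : ℕ)
    (a : ℕ → ℕ → S → S → ℝ) (π : Equiv.Perm ℕ) (hπ : ∀ l, m ≤ l → π l = l) {τ : JtTopo} (hτ : IsTr N (q + 2 * m) τ) :
    l2rcSm N ν q i j R κ0 m a (fun x y => τ (l2Lab q π.symm x) (l2Lab q π.symm y))
      = l2rcSm N ν q i j R κ0 m (fun l => a (π l)) τ := by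
  have hρ : ∀ l, m ≤ l → π.symm l = l := tr5_perm_symm π hπ
  unfold l2rcSm
  congr 1
  · congr 1
    · unfold l2Off
      simp only [l2rc_lab_C, l2rc_lab_D]
      exact Equiv.Perm.prod_comp π.symm (Finset.range m)
        (fun l => if τ (jtC q l) (jtD q l) ≤ N then (1 : ℝ) else 0) (l2rc_moved hρ)
    · rw [l2rc_Q_perm hκ0 hi hj (Finset.Subset.refl _) hτ π.symm hρ]
      congr 1
      exact Finset.map_perm (l2rc_moved hρ)
  · rw [← hν.perm hτ _ (l2rc_Pr_uses hR m (fun l => a (π l)) τ) (l2Lab q π.symm) (fun x hx => l2rc_lab_ge q π.symm m hρ hx)]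
    congr 1
    funext σ
    rw [hR (fun x => σ ((l2Lab q π.symm).symm x)) σ fun x hx => by rw [l2rc_lab_symm, l2rc_lab_lt q _ hx]]
    congr 1
    unfold l2rcPr
    simp only [l2rc_lab_C, l2rc_lab_D, l2rc_lab_symm, Equiv.symm_symm]
    rw [← Equiv.Perm.prod_comp π (Finset.range m)
      (fun l => a l (τ (jtC q (π.symm l)) (jtD q (π.symm l))) (σ (jtC q l)) (σ (jtD q l))) (l2rc_moved hπ)]
    simp only [Equiv.symm_apply_apply]

/-- **order symmetry**: any permutation of the pairs, any pair factors -/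
theorem l2rc_Xi_perm (hν : JtNuLaw N ν) (hκ0 : JtNuLaw N κ0) (hτ0 : IsTr N q τ0) (hi : i < q) (hj : j < q) (hR : TrUses q R)
    (m : ℕ) (a : ℕ → ℕ → S → S → ℝ) (π : Equiv.Perm ℕ) (hπ : ∀ l, m ≤ l → π l = l) :
    l2rcXi ms N ν q τ0 i j R κ0 m a = l2rcXi ms N ν q τ0 i j R κ0 m fun l => a (π l) := by
  have hρ : ∀ l, m ≤ l → π.symm l = l := tr5_perm_symm π hπ
  unfold l2rcXi
  rw [tr_sumK_perm hτ0 (2 * m) _ (fun τ₁ τ₂ h => l2rc_Sm_congr hν hκ0 m a h) (l2Lab q π.symm) (by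
    rintro y (hy | hy)
    · exact l2rc_lab_lt q _ hy
    · exact l2rc_lab_ge q _ m hρ hy)]
  exact tr_sumK_congr hτ0 (2 * m) _ _ fun τ hτ _ => l2rc_Sm_perm hν hκ0 hi hj hR m a π hπ hτ

end core

/-! ## 5. The derivative of `E_n` -/

theorem l2rc_Pr_succ {S : Type} (q n : ℕ) (a : ℕ → ℕ → S → S → ℝ) (b : ℕ → S → S → ℝ) (τ : JtTopo) (σ : ℕ → S) :
    l2rcPr q (n + 1) (fun l' => if l' = n then b else a l') τ σ
      = l2rcPr q n a τ σ * b (τ (jtC q n) (jtD q n)) (σ (jtC q n)) (σ (jtD q n)) := by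
  unfold l2rcPr
  rw [Finset.prod_range_succ]
  beta_reduce
  rw [if_pos rfl]
  congr 1
  refine Finset.prod_congr rfl fun l hl => ?_
  rw [if_neg (Finset.mem_range.1 hl).ne]

/-- derivative of the product of the insertions `J_t` -/
theorem l2rc_Pr_deriv {S : Type} (q n : ℕ) (g : ℕ → S → S → ℝ) (δ : ℕ → ℝ) (τ : JtTopo) (σ : ℕ → S) (s : Set ℝ) (t : ℝ) :
    HasDerivWithinAt (fun t => l2rcPr q n (fun _ => l2rcJt g δ t) τ σ)
      (- ∑ l ∈ Finset.range n, l2rcPr q n (fun l' => if l' = l then l2rcDl δ else l2rcJt g δ t) τ σ) s t := by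
  unfold l2rcPr
  have h := HasDerivWithinAt.finsetProd (u := Finset.range n) (s := s) (x := t)
    (f := fun l t => l2rcJt g δ t (τ (jtC q l) (jtD q l)) (σ (jtC q l)) (σ (jtD q l)))
    (f' := fun l => - δ (τ (jtC q l) (jtD q l))) (fun l _ => by
      unfold l2rcJt
      have h1 := ((hasDerivWithinAt_id t s).mul_const (δ (τ (jtC q l) (jtD q l)))).const_sub
        (g (τ (jtC q l) (jtD q l)) (σ (jtC q l)) (σ (jtD q l)))
      simpa using h1)
  refine (h.congr_deriv ?_).congr (fun x _ => ?_) ?_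
  · rw [← Finset.sum_neg_distrib]
    refine Finset.sum_congr rfl fun l hl => ?_
    rw [← Finset.mul_prod_erase _ _ hl]
    beta_reduce
    rw [if_pos rfl]
    have h2 : ∏ x ∈ (Finset.range n).erase l, (if x = l then l2rcDl δ else l2rcJt g δ t)
          (τ (jtC q x) (jtD q x)) (σ (jtC q x)) (σ (jtD q x))
        = ∏ x ∈ (Finset.range n).erase l, l2rcJt g δ t (τ (jtC q x) (jtD q x)) (σ (jtC q x)) (σ (jtD q x)) :=
      Finset.prod_congr rfl fun x hx => by rw [if_neg (Finset.ne_of_mem_erase hx)]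
    rw [h2]
    unfold l2rcDl
    simp only [smul_eq_mul]
    ring
  · simp only [Finset.prod_apply]
  · simp only [Finset.prod_apply]

section core
variable {S : Type} [Fintype S] [Inhabited S] {ms : ℕ → ℝ} {N : ℕ} {ν : L2rcLaw S} {κ : ℝ → L2rcLaw Bool} {κ0 : L2rcLaw Bool}
  {g : ℕ → S → S → ℝ} {δ : ℕ → ℝ} {q : ℕ} {τ0 : JtTopo} {i j : ℕ} {R : (ℕ → S) → ℝ}

/-- concatenation: the pair inserted by `𝖫` becomes the last pair of the sum, with the factor `δ` -/
theorem l2rc_cat (hν : JtNuLaw N ν) (hτ0 : IsTr N q τ0) (hR : TrUses q R) (n : ℕ) (a : ℕ → ℕ → S → S → ℝ) :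
    trSumK ms N (2 * n) q τ0 (fun τ => l2Off N q n τ
        * l2rcL ms N δ (q + 2 * n) τ (fun τ' => l2rcQ κ0 (q + 2 * (n + 1)) q i j τ' (Finset.range (n + 1)))
        * ν (q + 2 * n) τ fun σ => R σ * l2rcPr q n a τ σ)
      = 2⁻¹ * l2rcXi ms N ν q τ0 i j R κ0 (n + 1) fun l' => if l' = n then l2rcDl δ else a l' := by
  unfold l2rcXi
  rw [show trSumK ms N (2 * (n + 1)) q τ0 (l2rcSm N ν q i j R κ0 (n + 1) fun l' => if l' = n then l2rcDl δ else a l')
      = trSumK ms N (2 * n + 2) q τ0 (l2rcSm N ν q i j R κ0 (n + 1) fun l' => if l' = n then l2rcDl δ else a l') from rfl,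
    tr_sumK_add (2 * n) 2, tcb_sumK_mul_left]
  refine tr_sumK_congr hτ0 (2 * n) _ _ fun τ hτ _ => ?_
  unfold l2rcL
  beta_reduce
  rw [show ∀ x y z : ℝ, x * (2⁻¹ * y) * z = 2⁻¹ * ((x * z) * y) from fun x y z => by ring, tcb_sumK_mul_left]
  congr 1
  refine tr_sumK_congr hτ 2 _ _ fun τ' hτ' hag => ?_
  unfold l2rcSm
  have h1 : (ν (q + 2 * (n + 1)) τ' fun σ => R σ * l2rcPr q (n + 1) (fun l' => if l' = n then l2rcDl δ else a l') τ' σ)
      = δ (τ' (q + 2 * n) (q + 2 * n + 1)) * ν (q + 2 * n) τ fun σ => R σ * l2rcPr q n a τ σ := by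
    have h2 : (fun σ => R σ * l2rcPr q (n + 1) (fun l' => if l' = n then l2rcDl δ else a l') τ' σ)
        = fun σ => δ (τ' (q + 2 * n) (q + 2 * n + 1)) * (R σ * l2rcPr q n a τ σ) := by
      funext σ
      rw [l2rc_Pr_succ, l2rc_Pr_congr q n a hag]
      unfold l2rcDl
      show R σ * (l2rcPr q n a τ σ * δ (τ' (q + 2 * n) (q + 2 * n + 1))) = _
      ring
    rw [h2, hν.const_mul]
    congr 1
    rw [show q + 2 * (n + 1) = q + 2 * n + 2 from rfl, hν.prune hτ' (l2rc_Pr_uses hR n a τ)]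
    exact hν.congr _ τ' τ hag _
  rw [h1, l2a7_off_succ, l2a7_off_congr N q n hag]
  unfold l2rcW
  ring

/-- derivative of the summand of `E_n` at a fixed topology -/
theorem l2rc_Sm_deriv (hν : JtNuLaw N ν) (hκ : L2rcSc ms N δ κ) (hi : i < q) (hj : j < q) (n : ℕ) {τ : JtTopo}
    (hτ : IsTr N (q + 2 * n) τ) {t : ℝ} (ht : t ∈ Set.Icc (0 : ℝ) 1) :
    HasDerivWithinAt (fun t => l2rcSm N ν q i j R (κ t) n (fun _ => l2rcJt g δ t) τ)
      (l2Off N q n τ * l2rcL ms N δ (q + 2 * n) τ (fun τ' => l2rcQ (κ t) (q + 2 * (n + 1)) q i j τ' (Finset.range (n + 1)))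
          * (ν (q + 2 * n) τ fun σ => R σ * l2rcPr q n (fun _ => l2rcJt g δ t) τ σ)
        - ∑ l ∈ Finset.range n, l2rcSm N ν q i j R (κ t) n (fun l' => if l' = l then l2rcDl δ else l2rcJt g δ t) τ)
      (Set.Icc 0 1) t := by
  have hQ := l2rc_Q_deriv hκ hi hj n hτ ht
  have hP := hν.hasDerivWithinAt (q + 2 * n) τ (I := Set.Icc (0 : ℝ) 1) (ϑ₀ := t)
    (fun t σ => R σ * l2rcPr q n (fun _ => l2rcJt g δ t) τ σ)
    (fun σ => R σ * (- ∑ l ∈ Finset.range n, l2rcPr q n (fun l' => if l' = l then l2rcDl δ else l2rcJt g δ t) τ σ))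
    (fun σ => (l2rc_Pr_deriv q n g δ τ σ _ t).const_mul (R σ))
  have h := (hQ.mul hP).const_mul (l2Off N q n τ)
  unfold l2rcSm
  refine (h.congr_deriv ?_).congr (fun x _ => ?_) ?_
  · have h3 : (ν (q + 2 * n) τ fun σ => R σ * (- ∑ l ∈ Finset.range n,
          l2rcPr q n (fun l' => if l' = l then l2rcDl δ else l2rcJt g δ t) τ σ))
        = - ∑ l ∈ Finset.range n, ν (q + 2 * n) τ fun σ =>
          R σ * l2rcPr q n (fun l' => if l' = l then l2rcDl δ else l2rcJt g δ t) τ σ := by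
      rw [← hν.sum, ← hν.neg]
      congr 1
      funext σ
      rw [mul_neg, Finset.mul_sum]
    rw [h3, ← Finset.mul_sum]
    ring
  · exact mul_assoc _ _ _
  · exact mul_assoc _ _ _

/-- derivative of `E_n` -/
theorem l2rc_E_deriv (hν : JtNuLaw N ν) (hκ : L2rcSc ms N δ κ) (hτ0 : IsTr N q τ0) (hi : i < q) (hj : j < q) (hR : TrUses q R)
    (n : ℕ) {t : ℝ} (ht : t ∈ Set.Icc (0 : ℝ) 1) :
    HasDerivWithinAt (l2rcE ms N ν κ g δ q τ0 i j R n)
      (((2 : ℝ) ^ (n + 1) * (n ! : ℝ))⁻¹ * l2rcT ms N ν κ g δ q τ0 i j R (n + 1) n t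
        - ((2 : ℝ) ^ n * (n ! : ℝ))⁻¹ * ∑ l ∈ Finset.range n, l2rcT ms N ν κ g δ q τ0 i j R n l t) (Set.Icc 0 1) t := by
  have h := (tcb_sumK_hasDeriv (ms := ms) (2 * n) hτ0
    (fun t τ => l2rcSm N ν q i j R (κ t) n (fun _ => l2rcJt g δ t) τ) _
    (fun τ hτ => l2rc_Sm_deriv (g := g) (R := R) hν hκ hi hj n hτ ht)).const_mul ((2 : ℝ) ^ n * (n ! : ℝ))⁻¹
  refine h.congr_deriv ?_
  have hlin := l2rc_sumK_lin ms hτ0 (2 * n)
  rw [l2rc_lin_sub hlin, l2rc_lin_sum hlin, l2rc_cat hν hτ0 hR n]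
  unfold l2rcT l2rcXi
  rw [pow_succ]
  have h2 : ((2 : ℝ) ^ n * 2 * (n ! : ℝ))⁻¹ = ((2 : ℝ) ^ n * (n ! : ℝ))⁻¹ * 2⁻¹ := by
    rw [← mul_inv]
    congr 1
    ring
  rw [h2]
  ring

/-- order symmetry: the pair which carries `δ` may be taken to be the last one -/
theorem l2rc_T_symm (hν : JtNuLaw N ν) (hκ : L2rcSc ms N δ κ) (hτ0 : IsTr N q τ0) (hi : i < q) (hj : j < q) (hR : TrUses q R)
    {m l : ℕ} (hl : l < m + 1) {t : ℝ} (ht : t ∈ Set.Icc (0 : ℝ) 1) :
    l2rcT ms N ν κ g δ q τ0 i j R (m + 1) l t = l2rcT ms N ν κ g δ q τ0 i j R (m + 1) m t := by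
  unfold l2rcT
  rw [l2rc_Xi_perm hν (hκ.law t ht) hτ0 hi hj hR (m + 1) _ (Equiv.swap l m) (fun x hx =>
    Equiv.swap_apply_of_ne_of_ne (by omega) (by omega))]
  congr 1
  funext l'
  by_cases h : l' = m
  · rw [if_pos h, h, Equiv.swap_apply_right, if_pos rfl]
  · rw [if_neg h, if_neg]
    intro h2
    apply h
    have h3 := congrArg (Equiv.swap l m) h2
    rwa [Equiv.swap_apply_self, Equiv.swap_apply_left] at h3

/-- bound of `T_{k,k-1}` -/
theorem l2rc_T_bd (hν : JtNuLaw N ν) {C : ℝ} (m : ℕ) {t : ℝ} (ht : t ∈ Set.Icc (0 : ℝ) 1)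
    (hC : ∀ τ : JtTopo, |l2rcQ (κ t) (q + 2 * (m + 1)) q i j τ (Finset.range (m + 1))| ≤ C) :
    |l2rcT ms N ν κ g δ q τ0 i j R (m + 1) m t| ≤ C * l2rcRem ms N ν g δ q τ0 R (m + 1) := by
  unfold l2rcT l2rcXi l2rcRem
  refine (tr_sumK_le _ _).trans ?_
  rw [← tra2_absK_const_mul]
  refine trw_absK_mono ms N _ q τ0 fun τ => ?_
  unfold l2rcSm
  have h0 := l2a7_off_nonneg N q (m + 1) τ
  have h1 : |ν (q + 2 * (m + 1)) τ fun σ => R σ * l2rcPr q (m + 1) (fun l' => if l' = m then l2rcDl δ else l2rcJt g δ t) τ σ|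
      ≤ ν (q + 2 * (m + 1)) τ fun σ => |R σ| * l2rcPr q (m + 1) (fun _ u s s' => |l2rcJt g δ 1 u s s'| + |δ u|) τ σ := by
    refine (hν.abs_le _ _ _).trans (hν.mono _ _ fun σ => ?_)
    rw [abs_mul]
    refine mul_le_mul_of_nonneg_left ?_ (abs_nonneg _)
    unfold l2rcPr
    rw [Finset.abs_prod]
    refine Finset.prod_le_prod (fun l _ => abs_nonneg _) fun l _ => ?_
    beta_reduce
    by_cases h : l = m
    · rw [if_pos h]
      unfold l2rcDl
      exact le_add_of_nonneg_left (abs_nonneg _)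
    · rw [if_neg h]
      unfold l2rcJt
      set G := g (τ (jtC q l) (jtD q l)) (σ (jtC q l)) (σ (jtD q l))
      set D := δ (τ (jtC q l) (jtD q l))
      have h2 : G - t * D = (G - 1 * D) + (1 - t) * D := by ring
      rw [h2]
      refine (abs_add_le _ _).trans (add_le_add le_rfl ?_)
      rw [abs_mul, abs_of_nonneg (by linarith [ht.2] : (0 : ℝ) ≤ 1 - t)]
      exact mul_le_of_le_one_left (abs_nonneg _) (by linarith [ht.1])
  have h3 := hν.nonneg (q + 2 * (m + 1)) τ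
    (P := fun σ => |R σ| * l2rcPr q (m + 1) (fun _ u s s' => |l2rcJt g δ 1 u s s'| + |δ u|) τ σ) (fun σ => by
      refine mul_nonneg (abs_nonneg _) ?_
      unfold l2rcPr
      exact Finset.prod_nonneg fun l _ => by positivity)
  rw [abs_mul, abs_mul, abs_of_nonneg h0]
  calc l2Off N q (m + 1) τ * |l2rcQ (κ t) (q + 2 * (m + 1)) q i j τ (Finset.range (m + 1))| * _
      ≤ l2Off N q (m + 1) τ * C * (ν (q + 2 * (m + 1)) τ fun σ =>
          |R σ| * l2rcPr q (m + 1) (fun _ u s s' => |l2rcJt g δ 1 u s s'| + |δ u|) τ σ) :=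
        mul_le_mul (mul_le_mul_of_nonneg_left (hC τ) h0) h1 (abs_nonneg _)
          (mul_nonneg h0 ((abs_nonneg _).trans (hC τ)))
    _ = _ := by ring

/-- the majorant is nonnegative -/
theorem l2rc_rem_nonneg (hν : JtNuLaw N ν) (k : ℕ) : 0 ≤ l2rcRem ms N ν g δ q τ0 R k := by
  unfold l2rcRem
  refine trw_absK_nonneg ms N _ q τ0 fun τ => mul_nonneg (l2a7_off_nonneg N q k τ) (hν.nonneg _ _ fun σ => ?_)
  refine mul_nonneg (abs_nonneg _) ?_
  unfold l2rcPr
  exact Finset.prod_nonneg fun l _ => by positivity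

/-! ## 6. Telescoping, mean value inequality -/

/-- telescoping: `Φ' = (2^{m+1} m!)⁻¹ T_{m+1,m}` -/
theorem l2rc_Phi_deriv (hν : JtNuLaw N ν) (hκ : L2rcSc ms N δ κ) (hτ0 : IsTr N q τ0) (hi : i < q) (hj : j < q) (hR : TrUses q R)
    (m : ℕ) {t : ℝ} (ht : t ∈ Set.Icc (0 : ℝ) 1) :
    HasDerivWithinAt (fun t => ∑ n ∈ Finset.range (m + 1), l2rcE ms N ν κ g δ q τ0 i j R n t)
      (((2 : ℝ) ^ (m + 1) * (m ! : ℝ))⁻¹ * l2rcT ms N ν κ g δ q τ0 i j R (m + 1) m t) (Set.Icc 0 1) t := by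
  induction m with
  | zero =>
    have h := l2rc_E_deriv (g := g) hν hκ hτ0 hi hj hR 0 ht
    simp only [Finset.range_zero, Finset.sum_empty, mul_zero, sub_zero] at h
    simpa only [zero_add, Finset.sum_range_one] using h
  | succ m ih =>
    have h := l2rc_E_deriv (g := g) hν hκ hτ0 hi hj hR (m + 1) ht
    have hsum : ∑ l ∈ Finset.range (m + 1), l2rcT ms N ν κ g δ q τ0 i j R (m + 1) l t
        = ((m : ℝ) + 1) * l2rcT ms N ν κ g δ q τ0 i j R (m + 1) m t := by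
      rw [Finset.sum_congr rfl fun l hl => l2rc_T_symm (g := g) hν hκ hτ0 hi hj hR (Finset.mem_range.1 hl) ht,
        Finset.sum_const, Finset.card_range, nsmul_eq_mul]
      push_cast
      ring
    rw [hsum] at h
    have h2 := ih.add h
    refine (h2.congr_deriv ?_).congr (fun x _ => ?_) ?_
    · have hf : (((m + 1)! : ℕ) : ℝ) = ((m : ℝ) + 1) * (m ! : ℝ) := by
        rw [Nat.factorial_succ]; push_cast; ring
      have h1 : ((m : ℝ) + 1) ≠ 0 := by positivity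
      have h3 : ((m ! : ℕ) : ℝ) ≠ 0 := by positivity
      rw [hf]
      field_simp
      ring
    · exact Finset.sum_range_succ _ _
    · exact Finset.sum_range_succ _ _

end core

/-- **core of T4** -/
theorem l2rc_core (k : ℕ) : ∃ C : ℝ, 0 ≤ C ∧ ∀ {S : Type} [Fintype S] [Inhabited S] (ms : ℕ → ℝ) (N : ℕ) (ν : L2rcLaw S)
    (κ : ℝ → L2rcLaw Bool) (g : ℕ → S → S → ℝ) (δ : ℕ → ℝ) (q : ℕ) (τ0 : JtTopo) (i j : ℕ) (R : (ℕ → S) → ℝ),
    JtNuLaw N ν → L2rcSc ms N δ κ → IsTr N q τ0 → i < q → j < q → TrUses q R →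
    |∑ n ∈ Finset.range k, l2rcE ms N ν κ g δ q τ0 i j R n 1 - ∑ n ∈ Finset.range k, l2rcE ms N ν κ g δ q τ0 i j R n 0|
      ≤ C * l2rcRem ms N ν g δ q τ0 R k := by
  cases k with
  | zero => exact ⟨0, le_rfl, fun _ _ _ _ _ _ _ _ _ _ _ _ _ _ _ _ _ => by simp⟩
  | succ m =>
    obtain ⟨C, hC0, hC⟩ := l2rc_Q_bd (m + 1)
    refine ⟨C, hC0, fun ms N ν κ g δ q τ0 i j R hν hκ hτ0 hi hj hR => ?_⟩
    have hb : ∀ t ∈ Set.Icc (0 : ℝ) 1,
        ‖((2 : ℝ) ^ (m + 1) * (m ! : ℝ))⁻¹ * l2rcT ms N ν κ g δ q τ0 i j R (m + 1) m t‖ ≤ C * l2rcRem ms N ν g δ q τ0 R (m + 1) := by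
      intro t ht
      have h1 := l2rc_T_bd (ms := ms) (κ := κ) (δ := δ) (q := q) (τ0 := τ0) (g := g) (R := R) (i := i) (j := j) hν m ht
        fun τ => hC N (κ t) (hκ.law t ht) _ q i j τ _ (by simp)
      have h2 : ((2 : ℝ) ^ (m + 1) * (m ! : ℝ))⁻¹ ≤ 1 := by
        apply inv_le_one_of_one_le₀
        have h3 : (1 : ℝ) ≤ 2 ^ (m + 1) := one_le_pow₀ (by norm_num)
        have h4 : (1 : ℝ) ≤ (m ! : ℝ) := by exact_mod_cast Nat.succ_le_of_lt (Nat.factorial_pos m)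
        nlinarith
      have h5 : (0 : ℝ) ≤ ((2 : ℝ) ^ (m + 1) * (m ! : ℝ))⁻¹ := by positivity
      rw [Real.norm_eq_abs, abs_mul, abs_of_nonneg h5]
      calc ((2 : ℝ) ^ (m + 1) * (m ! : ℝ))⁻¹ * |l2rcT ms N ν κ g δ q τ0 i j R (m + 1) m t|
          ≤ 1 * |l2rcT ms N ν κ g δ q τ0 i j R (m + 1) m t| := mul_le_mul_of_nonneg_right h2 (abs_nonneg _)
        _ ≤ C * l2rcRem ms N ν g δ q τ0 R (m + 1) := by rw [one_mul]; exact h1
    have h := Convex.norm_image_sub_le_of_norm_hasDerivWithin_le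
      (f := fun t => ∑ n ∈ Finset.range (m + 1), l2rcE ms N ν κ g δ q τ0 i j R n t)
      (fun t ht => l2rc_Phi_deriv (g := g) hν hκ hτ0 hi hj hR m ht) hb (convex_Icc 0 1)
      (Set.left_mem_Icc.2 zero_le_one) (Set.right_mem_Icc.2 zero_le_one)
    simpa using h

/-! ## 7. Contexts -/

/-- two contexts which differ only by the scalar reference, and scalar laws `κ t` which interpolate between the two references -/
structure L2rcPair {S : Type} [Fintype S] [Inhabited S] (X X' : JtCtx S) (ms : ℕ → ℝ) (κ : ℝ → L2rcLaw Bool) : Prop where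
  law : X.Law ms
  law' : X'.Law ms
  hN : X'.N = X.N
  hnu : X'.nu = X.nu
  hov : X'.ov = X.ov
  hb : X'.bC = X.bC
  hh : X'.hC = X.hC
  hmsk : X'.msk = X.msk
  sc : L2rcSc ms X.N (fun u => X'.KC u - X.KC u) κ
  k0 : κ 0 = X.nuK
  k1 : κ 1 = X'.nuK

/-- `J_0` as a function of the number of shared stages and of the two configurations -/
def l2rcG {S : Type} (X : JtCtx S) (u : ℕ) (s s' : S) : ℝ := X.hC u + X.bC u * (X.msk u * X.ov s s') - X.KC u

theorem l2rc_G_eqns_cite : True := by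
  have := @l2rcG.eq_1
  trivial

section ctx
variable {S : Type} [Fintype S] [Inhabited S] {X X' : JtCtx S} {ms : ℕ → ℝ} {κ : ℝ → L2rcLaw Bool}

theorem l2rc_ev0 (h : L2rcPair X X' ms κ) (q : ℕ) (τ0 : JtTopo) (i j : ℕ) (R : (ℕ → S) → ℝ) (n : ℕ) :
    X.ev q τ0 (fun r τ => X.Quo r q i j τ) R n
      = l2rcE ms X.N X.nu κ (l2rcG X) (fun u => X'.KC u - X.KC u) q τ0 i j R n 0 := by
  unfold JtCtx.ev l2rcE l2rcXi
  rw [h.law.sumK, h.k0]
  refine congrArg _ (congrArg _ (funext fun τ => ?_))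
  unfold l2rcSm
  show l2Off X.N q n τ * l2rcQ X.nuK (q + 2 * n) q i j τ (Finset.range n) * _ = _
  refine congrArg _ (congrArg _ (funext fun σ => ?_))
  refine congrArg _ ?_
  unfold JtCtx.Jprod l2rcPr
  refine Finset.prod_congr rfl fun l _ => ?_
  unfold JtCtx.J JtCtx.Qs l2rcJt l2rcG
  ring

theorem l2rc_ev1 (h : L2rcPair X X' ms κ) (q : ℕ) (τ0 : JtTopo) (i j : ℕ) (R : (ℕ → S) → ℝ) (n : ℕ) :
    X'.ev q τ0 (fun r τ => X'.Quo r q i j τ) R n
      = l2rcE ms X.N X.nu κ (l2rcG X) (fun u => X'.KC u - X.KC u) q τ0 i j R n 1 := by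
  unfold JtCtx.ev l2rcE l2rcXi
  rw [h.law'.sumK, h.k1, h.hnu, h.hN]
  refine congrArg _ (congrArg _ (funext fun τ => ?_))
  have hoff : X'.off q n τ = l2Off X.N q n τ := by
    unfold JtCtx.off l2Off
    rw [h.hN]
  rw [hoff]
  unfold l2rcSm
  show l2Off X.N q n τ * l2rcQ X'.nuK (q + 2 * n) q i j τ (Finset.range n) * _ = _
  refine congrArg _ (congrArg _ (funext fun σ => ?_))
  refine congrArg _ ?_
  unfold JtCtx.Jprod l2rcPr
  refine Finset.prod_congr rfl fun l _ => ?_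
  unfold JtCtx.J JtCtx.Qs l2rcJt l2rcG
  rw [h.hov, h.hb, h.hh, h.hmsk]
  ring

theorem l2rc_rem_eq (h : L2rcPair X X' ms κ) (q : ℕ) (τ0 : JtTopo) (R : (ℕ → S) → ℝ) (k : ℕ) :
    X.remMix X' q τ0 R k = l2rcRem ms X.N X.nu (l2rcG X) (fun u => X'.KC u - X.KC u) q τ0 R k := by
  unfold JtCtx.remMix l2rcRem
  rw [h.law.absK]
  refine congrArg _ (funext fun τ => ?_)
  show l2Off X.N q k τ * _ = _
  refine congrArg _ (congrArg _ (funext fun σ => ?_))
  refine congrArg _ ?_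
  unfold l2rcPr
  refine Finset.prod_congr rfl fun l _ => ?_
  unfold JtCtx.J JtCtx.Qs l2rcJt l2rcG
  rw [h.hov, h.hb, h.hh, h.hmsk]
  congr 2
  ring

end ctx

/-- T4 for a pair of contexts -/
theorem l2rc_pair (k : ℕ) : ∃ C : ℝ, 0 ≤ C ∧ ∀ {S : Type} [Fintype S] [Inhabited S] (X X' : JtCtx S) (ms : ℕ → ℝ)
    (κ : ℝ → L2rcLaw Bool), L2rcPair X X' ms κ →
    ∀ (q : ℕ) (τ0 : JtTopo) (i j : ℕ) (R : (ℕ → S) → ℝ), IsTr X.N q τ0 → i < q → j < q → TrUses q R →
    |X'.evLt q τ0 (fun r τ => X'.Quo r q i j τ) R k - X.evLt q τ0 (fun r τ => X.Quo r q i j τ) R k|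
      ≤ C * X.remMix X' q τ0 R k := by
  obtain ⟨C, hC0, hC⟩ := l2rc_core k
  refine ⟨C, hC0, fun X X' ms κ h q τ0 i j R hτ0 hi hj hR => ?_⟩
  unfold JtCtx.evLt
  rw [Finset.sum_congr rfl fun n _ => l2rc_ev1 h q τ0 i j R n, Finset.sum_congr rfl fun n _ => l2rc_ev0 h q τ0 i j R n,
    l2rc_rem_eq h]
  exact hC ms X.N X.nu κ (l2rcG X) _ q τ0 i j R h.law.nu h.sc hτ0 hi hj hR

/-- **what the instance must supply**: for two fine paths which differ only by the reference, scalar laws at the references `K + t (K' - K)`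
(`L2rcSc`: `JtNuLaw` + `tr_cov_deriv` for the affine family of the field clock of the one-site model, with `tr_sum_diag0` for the coinciding new labels). -/
def L02RcInst (Jt : LlJtFam) : Prop :=
  ∀ (n : ℕ) (a : ℝ) (P P' : LlStp), 1 ≤ n → 1 ≤ a → a ≤ 4 → LlStpAdm a P → LlStpAdm a P' → LlSameMat P P' →
    ∃ (ms : ℕ → ℝ) (κ : ℝ → L2rcLaw Bool), ∀ tl : Option ℕ, LlTiltOk P tl →
      (Jt n a P tl).N = P.length ∧ L2rcPair (Jt n a P tl) (Jt n a P' tl) ms κ

/-- **EXIT: T4 = LL Lemma 2.3**  TEX[LL:found:reference-change] -/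
theorem l2rc_exit {Jt : LlJtFam} (hJ : L02RcInst Jt) : L02RefChange Jt := by
  intro k q
  obtain ⟨C, _, hC⟩ := l2rc_pair k
  refine ⟨C, fun n a P P' tl τ0 i j R hn ha1 ha4 hP hP' hPP htl hτ0 hi hj _ hR => ?_⟩
  obtain ⟨ms, κ, hh⟩ := hJ n a P P' hn ha1 ha4 hP hP' hPP
  obtain ⟨hN, h⟩ := hh tl htl
  exact hC _ _ ms κ h q τ0 i j R (by rw [hN]; exact hτ0) hi hj hR

/-! ## 8. The instance `llJs` -/

/-- the feature of the one-site scalar model -/
def l2riFeat : Unit → SkCfg 1 → Unit → ℝ := fun _ σ _ => skSp σ 0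

/-- affine family of the field clock of the one-site model, from the reference `K` of `P` to the reference `K'` of `P'` -/
def l2riHs (P P' : LlStp) : List (ℝ × (Unit → ℝ) × (Unit → ℝ)) :=
  List.zipWith (fun e e' => (e.m, (fun _ => e.dK), fun _ => e'.dK - e.dK)) P P'

/-- the scalar law at the reference `K + t (K' - K)` -/
noncomputable def l2riKap (a : ℝ) (P P' : LlStp) (t : ℝ) : L2rcLaw Bool := fun r τ f =>
  gcNu (skBase 1 a) l2riFeat (l2riHs P P') t r τ 0 fun σ => f fun x => σ x 0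

theorem l2ri_eqns_cite : True := by
  have := @l2riFeat.eq_1
  have := @l2riHs.eq_1
  have := @l2riKap.eq_1
  trivial

theorem l2ri_len {P P' : LlStp} (h : LlSameMat P P') : P'.length = P.length := by
  have := congrArg List.length h
  simpa [llMat] using this.symm

theorem l2ri_hs_len {P P' : LlStp} (h : LlSameMat P P') : (l2riHs P P').length = P.length := by
  simp [l2riHs, l2ri_len h]

theorem l2ri_hs_get {P P' : LlStp} (h : LlSameMat P P') (j : ℕ) (hj : j < P.length) :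
    (l2riHs P P')[j]'(by rw [l2ri_hs_len h]; exact hj)
      = (P[j].m, (fun _ => P[j].dK), fun _ => (P'[j]'(by rw [l2ri_len h]; exact hj)).dK - P[j].dK) := by
  simp [l2riHs]

theorem l2ri_get_m {P P' : LlStp} (h : LlSameMat P P') (j : ℕ) (hj : j < P.length) :
    (P'[j]'(by rw [l2ri_len h]; exact hj)).m = P[j].m := by
  have h1 : (llMat P)[j]? = (llMat P')[j]? := by rw [show llMat P = llMat P' from h]
  have hj' : j < P'.length := by rw [l2ri_len h]; exact hj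
  simp only [llMat, List.getElem?_map, List.getElem?_eq_getElem hj, List.getElem?_eq_getElem hj', Option.map_some,
    Option.some.injEq, SkInc.mk.injEq] at h1
  exact h1.1.symm

theorem l2ri_map_m {P P' : LlStp} (h : LlSameMat P P') : P'.map LlInc.m = P.map LlInc.m := by
  have h1 := congrArg (List.map SkInc.m) (show llMat P = llMat P' from h)
  simpa [llMat, Function.comp_def] using h1.symm

theorem l2ri_ms_eq (a : ℝ) {P P' : LlStp} (h : LlSameMat P P') : llMs a P' = llMs a P := by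
  funext j
  unfold llMs
  rw [l2ri_map_m h]

theorem l2ri_mv_eq {P P' : LlStp} (h : LlSameMat P P') (tl : Option ℕ) : llMv tl P' = llMv tl P := by
  cases tl with
  | none => exact h.symm
  | some js =>
    have hl := l2ri_len h
    show llMvAt js P' = llMvAt js P
    unfold llMvAt
    rw [show llMat P' = llMat P from h.symm]
    apply List.ext_getElem
    · simp [hl]
    · intro i h1 h2
      simp only [List.getElem_mapIdx]
      have hi : i < P.length := by simpa using h2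
      have hi' : i < P'.length := by simpa using h1
      have h3 : (llMat P)[i]? = (llMat P')[i]? := by rw [show llMat P = llMat P' from h]
      simp only [llMat, List.getElem?_map, List.getElem?_eq_getElem hi, List.getElem?_eq_getElem hi', Option.map_some,
        Option.some.injEq, SkInc.mk.injEq] at h3
      rw [h3.1, h3.2.1, h3.2.2]

theorem l2ri_hs_get? {P P' : LlStp} (h : LlSameMat P P') (j : ℕ) :
    (l2riHs P P')[j]? = (P[j]?).map fun e => (e.m, (fun _ => e.dK), fun _ => ((P'[j]?).map LlInc.dK).getD 0 - e.dK) := by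
  by_cases hj : j < P.length
  · have hj' : j < P'.length := by rw [l2ri_len h]; exact hj
    have hj2 : j < (l2riHs P P').length := by rw [l2ri_hs_len h]; exact hj
    rw [List.getElem?_eq_getElem hj2, l2ri_hs_get h j hj, List.getElem?_eq_getElem hj, List.getElem?_eq_getElem hj']
    rfl
  · have hj2 : ¬ j < (l2riHs P P').length := by rw [l2ri_hs_len h]; exact hj
    rw [List.getElem?_eq_none (by omega), List.getElem?_eq_none (l := P) (by omega)]
    rfl

theorem l2ri_ms (a : ℝ) {P P' : LlStp} (h : LlSameMat P P') : gcMs a (l2riHs P P') = llMs a P := by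
  funext j
  unfold gcMs llMs
  rw [l2ri_hs_get? h, List.getElem?_map]
  cases P[j]? <;> rfl

theorem l2ri_adm {a : ℝ} {P P' : LlStp} (hP : LlStpAdm a P) (hP' : LlStpAdm a P') (h : LlSameMat P P') :
    GcAffAdm a (l2riHs P P') := by
  constructor
  · have h1 : (l2riHs P P').map Prod.fst = (llSc P).map SkInc.m := by
      apply List.ext_getElem
      · simp [l2ri_hs_len h, llSc]
      · intro i h1 h2
        have hi : i < P.length := by simpa [llSc] using h2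
        simp only [List.getElem_map]
        rw [l2ri_hs_get h i hi]
        simp [llSc]
    rw [h1, List.pairwise_map]
    exact hP.2.1
  · intro x hx
    obtain ⟨i, hi, rfl⟩ := List.getElem_of_mem hx
    have hi' : i < P.length := by rw [l2ri_hs_len h] at hi; exact hi
    have hi2 : i < P'.length := by rw [l2ri_len h]; exact hi'
    rw [l2ri_hs_get h i hi']
    have m1 : (⟨P[i].m, 0, P[i].dK⟩ : SkInc) ∈ llSc P := List.mem_map.2 ⟨P[i], List.getElem_mem hi', rfl⟩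
    have m2 : (⟨P'[i].m, 0, P'[i].dK⟩ : SkInc) ∈ llSc P' := List.mem_map.2 ⟨P'[i], List.getElem_mem hi2, rfl⟩
    have q1 := hP.2.2 _ m1
    have q2 := hP'.2.2 _ m2
    refine ⟨⟨q1.1, q1.2.1⟩, fun _ => ⟨q1.2.2.2, ?_⟩⟩
    have := q2.2.2.2
    simpa using this

theorem l2ri_ker (r : Unit) (s t : SkCfg 1) : gcKer l2riFeat r s t = skSp s 0 * skSp t 0 := by
  simp [gcKer, l2riFeat]

theorem l2ri_ov (s t : SkCfg 1) : skOv s t = skSp s 0 * skSp t 0 := by
  simp [skOv]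

theorem l2ri_sp (s : SkCfg 1) : skSp s 0 = jtSp (s 0) := by
  unfold skSp jtSp Claims.C0461.pmSpin
  rfl

theorem l2ri_bridge {a : ℝ} (ha : 0 < a) {P P' Q : LlStp} (hP : LlStpAdm a P) (hP' : LlStpAdm a P') (h : LlSameMat P P')
    (hQ : LlStpAdm a Q) (hQm : LlSameMat P Q) (θ : ℝ)
    (hθ : ∀ j (hj : j < P.length), (Q[j]'(by rw [l2ri_len hQm]; exact hj)).dK
      = P[j].dK + θ * ((P'[j]'(by rw [l2ri_len h]; exact hj)).dK - P[j].dK)) :
    l2riKap a P P' θ = llNuS a Q := by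
  have hadm := l2ri_adm hP hP' h
  obtain ⟨-, h2, h3⟩ := gc_adm (B := skBase 1 a) l2riFeat hadm θ
  funext r τ f
  unfold l2riKap gcNu llNuS
  refine tr_nu_cov_congr (sk_sy_base_ok 1 ha) ?_ ?_ ?_ r τ 0 _
  · rw [h2, l2ri_hs_len h, ll2_lvs_len, ll2_sc_len, l2ri_len hQm]
  · intro j
    rw [h3, ll2_trMs 1 a (llSc Q) Q (ll2_sc_mass Q), l2ri_ms_eq a hQm]
    exact congrFun (l2ri_ms a h) j
  · intro j hj hj' s t
    have hjP : j < P.length := by rw [h2, l2ri_hs_len h] at hj; exact hj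
    have hjQ : j < Q.length := by rw [l2ri_len hQm]; exact hjP
    have m2 : (⟨Q[j].m, 0, Q[j].dK⟩ : SkInc) ∈ llSc Q := List.mem_map.2 ⟨Q[j], List.getElem_mem hjQ, rfl⟩
    have q2 := (hQ.2.2 _ m2).2.2.2
    simp only [gcLs, gcAff, List.getElem_map, skLvs, llSc]
    rw [l2ri_hs_get h j hjP]
    rw [gc_cov _ _ _ (fun r => by simp only []; rw [← hθ j hjP]; exact q2), sk_d_cov 1 one_pos _ le_rfl q2]
    simp only [Finset.univ_unique, Finset.sum_singleton, l2ri_ker, l2ri_ov]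
    rw [← hθ j hjP]
    simp

theorem l2ri_k0 {a : ℝ} (ha : 0 < a) {P P' : LlStp} (hP : LlStpAdm a P) (hP' : LlStpAdm a P') (h : LlSameMat P P') :
    l2riKap a P P' 0 = llNuS a P :=
  l2ri_bridge ha hP hP' h hP rfl 0 fun j hj => by simp

theorem l2ri_k1 {a : ℝ} (ha : 0 < a) {P P' : LlStp} (hP : LlStpAdm a P) (hP' : LlStpAdm a P') (h : LlSameMat P P') :
    l2riKap a P P' 1 = llNuS a P' :=
  l2ri_bridge ha hP hP' h hP' h 1 fun j hj => by simp

theorem l2ri_nu_law {ι : Type} [Fintype ι] {a : ℝ} (ha : 0 < a) {ls : List (GhLv (SkCfg 1) ι)} (hls : GhAdm (skBase 1 a) 0 ls) :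
    JtNuLaw ls.length (fun q τ (T : (ℕ → Bool) → ℝ) => trNu (skBase 1 a) ls q τ 0 fun σ => T fun x => σ x 0) := by
  have h : JtNuLaw ls.length fun q τ T => trNu (skBase 1 a) ls q τ 0 T :=
    { rep := fun q τ => ⟨trPr (skBase 1 a) ls q τ 0,
        fun s => tr_pr_nonneg (sk_sy_base_ok 1 ha) hls q τ 0 s,
        tr_pr_sum (sk_sy_base_ok 1 ha) hls q τ 0,
        fun P => tr_nu_eq_sum (sk_sy_base_ok 1 ha) hls q τ 0 P⟩
      congr := fun q τ τ' h P => tr_nu_congr _ _ h 0 P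
      comap := fun q p τ hτ f hf P hP => tr_nu_comap (sk_sy_base_ok 1 ha) hls hτ 0 f hf P hP }
  refine ⟨?_, ?_, ?_⟩
  · intro q τ
    obtain ⟨p, h0, h1, hp⟩ := h.rep q τ
    let E : (Fin q → Fin 1 → Bool) ≃ (Fin q → Bool) := Equiv.piCongrRight fun _ => ll2One
    refine ⟨fun s => p (E.symm s), fun s => h0 _, ?_, ?_⟩
    · rw [← h1]; exact Equiv.sum_comp E.symm p
    · intro T
      show trNu (skBase 1 a) ls q τ 0 (fun σ => T fun x => σ x 0) = _
      rw [hp]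
      rw [← Equiv.sum_comp E.symm]
      apply Finset.sum_congr rfl
      intro s _
      congr 2
      funext x
      unfold trExt
      split_ifs with hx
      · rfl
      · rfl
  · intro q τ τ' hτ T
    exact h.congr q τ τ' hτ _
  · intro q p τ hτ f hf T hT
    exact h.comap q p τ hτ f hf (fun σ => T fun x => σ x 0)
      (fun σ σ' hσ => hT _ _ fun i hi => by rw [hσ i hi])

theorem l2ri_law {a : ℝ} (ha : 0 < a) {P P' : LlStp} (hP : LlStpAdm a P) (hP' : LlStpAdm a P') (h : LlSameMat P P') (t : ℝ) :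
    JtNuLaw P.length (l2riKap a P P' t) := by
  obtain ⟨h1, h2, -⟩ := gc_adm (B := skBase 1 a) l2riFeat (l2ri_adm hP hP' h) t
  have := l2ri_nu_law ha h1
  rw [h2, l2ri_hs_len h] at this
  exact this

theorem l2ri_dK {P P' : LlStp} (h : LlSameMat P P') (j : ℕ) (s t : SkCfg 1) :
    gcDK l2riFeat (l2riHs P P') j s t
      = (((P'[j]?).map LlInc.dK).getD 0 - ((P[j]?).map LlInc.dK).getD 0) * (skSp s 0 * skSp t 0) := by
  unfold gcDK
  simp only [Finset.univ_unique, Finset.sum_singleton, l2ri_ker]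
  congr 1
  rw [l2ri_hs_get? h]
  by_cases hj : j < P.length
  · rw [List.getElem?_eq_getElem hj]; rfl
  · have hj' : ¬ j < P'.length := by rw [l2ri_len h]; exact hj
    rw [List.getElem?_eq_none (l := P) (by omega), List.getElem?_eq_none (l := P') (by omega)]
    simp

theorem l2ri_trV {P P' : LlStp} (h : LlSameMat P P') (u : ℕ) (hu : u ≤ P.length) (s t : SkCfg 1) :
    trV (gcDK l2riFeat (l2riHs P P')) (l2riHs P P').length u s t
      = (llCumK P' u - llCumK P u) * (skSp s 0 * skSp t 0) := by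
  unfold trV llCumK
  rw [l2ri_hs_len h, min_eq_left hu, l2rw_take_sum, l2rw_take_sum, ← Finset.sum_sub_distrib, Finset.sum_mul]
  exact Finset.sum_congr rfl fun j _ => l2ri_dK h j s t

theorem l2ri_diagC {P P' : LlStp} (h : LlSameMat P P') : LlDiagC l2riFeat (l2riHs P P') := by
  intro j s s'
  rw [l2ri_dK h, l2ri_dK h]
  have e : ∀ s : SkCfg 1, skSp s 0 * skSp s 0 = 1 := by
    intro s
    have := ll2_sp_abs s 0
    rw [← abs_mul_abs_self, this]; norm_num
  rw [e, e]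

theorem l2ri_sc {a : ℝ} (ha : 0 < a) {P P' : LlStp} (hP : LlStpAdm a P) (hP' : LlStpAdm a P') (h : LlSameMat P P') :
    L2rcSc (llMs a P) P.length (fun u => llCumK P' u - llCumK P u) (l2riKap a P P') := by
  refine ⟨fun t _ => l2ri_law ha hP hP' h t, ?_⟩
  intro t ht r τ f hτ hf
  rcases Nat.eq_zero_or_pos r with rfl | hr
  · have e1 : (fun t => l2riKap a P P' t 0 τ f) = fun _ => f fun _ => default := by
      funext t
      have e2 : f = fun _ => f fun _ => default := by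
        funext s
        exact hf _ _ fun i hi => absurd hi (by omega)
      rw [e2]
      exact (l2ri_law ha hP hP' h t).const 0 τ _
    rw [e1]
    unfold l2rcL
    rw [l2rw_sumK_zero_labels, mul_zero]
    exact hasDerivWithinAt_const _ _ _
  · have hadm := l2ri_adm hP hP' h
    have hl := l2ri_hs_len h
    have h1 := ll_al_cov (B := skBase 1 a) (sk_sy_base_ok 1 ha) l2riFeat hadm (l2ri_diagC h) hr (τ := τ)
      (by rw [hl]; exact hτ) 0 (fun σ => f fun x => σ x 0) (fun σ σ' hσ => hf _ _ fun i hi => by rw [hσ i hi]) ht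
    refine h1.congr_deriv ?_
    unfold l2rcL
    rw [one_div]
    congr 1
    have hms : gcMs (skBase 1 a).a (l2riHs P P') = llMs a P := l2ri_ms a h
    rw [hms, hl]
    refine congrArg _ (funext fun τ' => ?_)
    unfold l2rcW llVo
    beta_reduce
    by_cases hc : τ' r (r + 1) ≤ P.length
    · simp only [if_pos hc, one_mul]
      rw [← (l2ri_law ha hP hP' h t).const_mul]
      show _ = gcNu (skBase 1 a) l2riFeat (l2riHs P P') t (r + 2) τ' 0 _
      refine congrArg _ (funext fun σ => ?_)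
      have := l2ri_trV h _ hc (σ r) (σ (r + 1))
      rw [hl] at this
      rw [this, l2ri_sp, l2ri_sp]
      ring
    · simp only [if_neg hc, zero_mul, mul_zero]
      exact (l2ri_law ha hP hP' h t).const _ _ 0

/-- **THE PAIR OF CONTEXTS**: masses `llMs a P` and scalar laws `l2riKap a P P'` are COMMON to all the ensembles `tl` -/
theorem l2ri_pair (n : ℕ) {a : ℝ} (ha : 0 < a) {P P' : LlStp} (hP : LlStpAdm a P) (hP' : LlStpAdm a P') (hPP : LlSameMat P P')
    (tl : Option ℕ) : L2rcPair (llJs n a P tl) (llJs n a P' tl) (llMs a P) (l2riKap a P P') where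
  law := ll2_law n ha hP tl
  law' := by rw [← l2ri_ms_eq a hPP]; exact ll2_law n ha hP' tl
  hN := l2ri_len hPP
  hnu := by
    show llNu n a P' tl = llNu n a P tl
    unfold llNu
    rw [l2ri_mv_eq hPP]
  hov := rfl
  hb := by
    show (fun t => skCumB (llMat P') t) = fun t => skCumB (llMat P) t
    rw [show llMat P' = llMat P from hPP.symm]
  hh := by
    show (fun t => skCumH (llMat P') t) = fun t => skCumH (llMat P) t
    rw [show llMat P' = llMat P from hPP.symm]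
  hmsk := rfl
  sc := l2ri_sc ha hP hP' hPP
  k0 := l2ri_k0 ha hP hP' hPP
  k1 := l2ri_k1 ha hP hP' hPP

/-- **INSTANCE** of `L02RcInst` -/
theorem l2ri_inst : L02RcInst llJs := fun n a P P' _ ha1 _ hP hP' hPP =>
  ⟨llMs a P, l2riKap a P P', fun tl _ => ⟨rfl, l2ri_pair n (by linarith) hP hP' hPP tl⟩⟩

end Claimed.Agent.R286
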