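-- OWNER helper239 (architect + prover).  Source: LL 02-foundations.tex l.426-487 (Lemma 2.4, (A9)).  Contract: `L02RowDeriv` of `L02/Contract2.lean` (helper73).
import Claimed.Agent.R286.L02.Contract2
import Claimed.Agent.R286.L02.Law
import Claimed.Agent.R286.LL.Jet.Alg
import Claimed.Agent.R286.Fd.ExtD

/-!
# Row 286 (S0533), LL Lemma 2.4 = (A9), ABSTRACT PROOF      (helper239; prefix `rd_`, `Rd`)      TEX[LL:found:row-derivative]

DATA (`RdData`): the context `X` at `ϑ₀` (law, allocation, variables `Δ`), the contexts `Y ϑ` along the family (only the COEFFICIENTS `bC hC KC qC nuK` are used),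
the dotted clocks `bd hd Kd qd`, the formal rate `e`.
HYPOTHESES (`RdData.Ok`): the laws of `X` (`L02/Law.lean`), `Y ϑ₀ = X`, the derivatives of the coefficients, formula (2) for the scalar reference (`dnuK`).

ROUTE.  `G w m i` := per-root sum of `m` pairs, coefficient `κ_K`, the pair `i` carries the factor `w`, the other pairs carry `J`.
 1. `rd_frz_deriv` : `d/dϑ frz = D2 := ∑_n (2^n n!)⁻¹ (Kp n + ∑_{i<n} G Jd n i) - ¼ Qd`         (product rule; `rd_kap_deriv` = derivative of the cumulants)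
 2. `rd_sym`       : `G w m i = G w m 0`                                                        (order symmetry of the per-root allocation, `rd_root_perm`)
 3. `rd_Kp`        : `Kp n = ½ G K̇ (n+1) n`                                                     (a differentiated scalar coefficient inserts a pair `K̇ τ τ / 2`)
 4. `rd_tele`      : the `K̇` terms telescope: there remain `- ½ G K̇ 1 0 = - detR` and the top term `(2^{k+1} k!)⁻¹ G K̇ (k+1) 0`
 5. `rd_A_ev`      : `∑_n (2^n (n-1)!)⁻¹ G Pd n 0 = ½ ∑_{pair 0} evLt (N_{01}/Ψ; Pd) k`          (`∂_0 log Ψ = N_{01}/Ψ`)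
 6. (A7) at `q = 2`, then `rd_alg`: `½ Pd Q^* - ¼ (ḃ Q^{*2} + 2 b Q^* 𝒟Q^*) = ½ ḣ Q^* + ¼ ḃ Q^{*2}` = integrand of the pressure derivative.
-/

set_option autoImplicit false

namespace Claimed.Agent.R286

open scoped BigOperators Nat
open Finset

/-- data of (A9) -/
structure RdData (S : Type) where
  X : JtCtx S
  Y : ℝ → JtCtx S
  ms : ℕ → ℝ
  I : Set ℝ
  t0 : ℝ
  e : ℝ
  bd : ℕ → ℝ
  hd : ℕ → ℝ
  Kd : ℕ → ℝ
  qd : ℕ → ℝ

namespace RdData

variable {S : Type} (D : RdData S)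

/-- the two labels are different leaves -/
def od (τ : JtTopo) (c d : ℕ) : ℝ := if τ c d ≤ D.X.N then 1 else 0

/-- the insertion `J` as a function of (shared stages, two configurations) -/
def wJ (t : ℕ) (s s' : S) : ℝ := D.X.hC t + D.X.bC t * (D.X.msk t * D.X.ov s s') - D.X.KC t

/-- `ḣ + ḃ Q^* + b 𝒟Q^*`, `𝒟Q^* = q̇ - e Δ` -/
def wP (t : ℕ) (s s' : S) : ℝ :=
  D.hd t + D.bd t * (D.X.msk t * D.X.ov s s') + D.X.bC t * (D.qd t - D.e * (D.X.msk t * D.X.ov s s' - D.X.qC t))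

/-- `K̇` -/
def wK (t : ℕ) (_ _ : S) : ℝ := D.Kd t

/-- `𝒟J = ḣ + ḃ Q^* + b 𝒟Q^* - K̇` -/
def wD (t : ℕ) (s s' : S) : ℝ := D.wP t s s' - D.Kd t

/-- per-root sum of `m` pairs with the coefficient `κ_K`: the pair `i` carries `w`, the others carry `J` -/
noncomputable def G (w : ℕ → S → S → ℝ) (m i : ℕ) : ℝ :=
  D.X.sumK (2 * m - 1) 1 D.X.tau1 fun τ =>
    D.X.off 0 m τ * D.X.Kap (2 * m) 0 τ (range m) * D.X.nu (2 * m) τ fun σ =>
      w (τ (jtC 0 i) (jtD 0 i)) (σ (jtC 0 i)) (σ (jtD 0 i)) * ∏ l ∈ (range m).erase i, D.X.J τ σ (jtC 0 l) (jtD 0 l)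

/-- derivative of the cumulant `κ_K` of the pairs `0..n-1` at the topology `τ` on `2 n` labels -/
noncomputable def kapD (n : ℕ) (τ : JtTopo) : ℝ :=
  2⁻¹ * D.X.sumK 2 (2 * n) τ fun τ' =>
    D.od τ' (jtC 0 n) (jtD 0 n) * D.Kd (τ' (jtC 0 n) (jtD 0 n)) * D.X.Kap (2 * n + 2) 0 τ' (range (n + 1))

/-- the part of the derivative which differentiates the scalar coefficients -/
noncomputable def Kp (n : ℕ) : ℝ :=
  D.X.sumK (2 * n - 1) 1 D.X.tau1 fun τ => D.X.off 0 n τ * D.kapD n τ * D.X.nu (2 * n) τ fun σ => D.X.Jprod 0 n τ σ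

/-- derivative of the quadratic counterterm (without the factor `¼`) -/
noncomputable def Qd : ℝ :=
  D.X.sumK 1 1 D.X.tau1 fun τ => D.X.off 0 1 τ *
    (D.bd (τ 0 1) * (D.X.nu 2 τ fun σ => D.X.Qs τ σ 0 1 ^ 2)
      + D.X.bC (τ 0 1) * D.X.nu 2 τ fun σ => 2 * D.X.Qs τ σ 0 1 * (D.qd (τ 0 1) - D.e * D.X.Dl τ σ 0 1))

/-- `(ν[𝒟 I])_#`, `log Ψ` truncated after the degree `k` -/
noncomputable def D2 (k : ℕ) : ℝ :=
  (∑ n ∈ Icc 1 k, ((2 : ℝ) ^ n * (n ! : ℝ))⁻¹ * (D.Kp n + ∑ i ∈ range n, D.G D.wD n i)) - 4⁻¹ * D.Qd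

/-- the pressure derivative in the vocabulary of the jets: `(½ ḣ Q^* + ¼ ḃ Q^{*2})_#`, off diagonal -/
noncomputable def D1 : ℝ :=
  D.X.sumK 1 1 D.X.tau1 fun τ => D.X.off 0 1 τ *
    (2⁻¹ * D.hd (τ 0 1) * (D.X.nu 2 τ fun σ => D.X.Qs τ σ 0 1)
      + 4⁻¹ * D.bd (τ 0 1) * D.X.nu 2 τ fun σ => D.X.Qs τ σ 0 1 ^ 2)

/-- the weight of (A9) -/
def W (t : ℕ) : ℝ := |D.e| + |D.hd t| + |D.bd t| + |D.Kd t| + |D.qd t|

/-- hypotheses of (A9) -/
structure Ok [Fintype S] [Inhabited S] (D : RdData S) : Prop where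
  law : D.X.Law D.ms
  Y0 : D.Y D.t0 = D.X
  db : ∀ t, HasDerivWithinAt (fun ϑ => (D.Y ϑ).bC t) (D.bd t) D.I D.t0
  dh : ∀ t, HasDerivWithinAt (fun ϑ => (D.Y ϑ).hC t) (D.hd t) D.I D.t0
  dK : ∀ t, HasDerivWithinAt (fun ϑ => (D.Y ϑ).KC t) (D.Kd t) D.I D.t0
  dq : ∀ t, HasDerivWithinAt (fun ϑ => (D.Y ϑ).qC t) (D.qd t) D.I D.t0
  dnuK : ∀ (r : ℕ) (τ : JtTopo) (R : (ℕ → Bool) → ℝ), 1 ≤ r → IsTr D.X.N r τ → TrUses r R →
    HasDerivWithinAt (fun ϑ => (D.Y ϑ).nuK r τ R)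
      (2⁻¹ * D.X.sumK 2 r τ fun τ' => D.od τ' r (r + 1) * D.Kd (τ' r (r + 1)) *
        D.X.nuK (r + 2) τ' fun t => R t * (jtSp (t r) * jtSp (t (r + 1)))) D.I D.t0

end RdData

/-! ### jets: moments, `∂ log Ψ = N / Ψ` -/

/-- the renumbering `l ↦ l + 1` of the pairs -/
def rdSucc : ℕ ↪ ℕ := ⟨fun l => l + 1, fun _ _ h => Nat.succ.inj h⟩

theorem rd_succ_apply (l : ℕ) : rdSucc l = l + 1 := rfl

theorem rd_jtC_succ (i : ℕ) : jtC 0 (rdSucc i) = jtC 2 i := by rw [rd_succ_apply]; unfold jtC; ring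

theorem rd_jtD_succ (i : ℕ) : jtD 0 (rdSucc i) = jtD 2 i := by rw [rd_succ_apply]; unfold jtD; ring

theorem rd_range_succ (n : ℕ) : range (n + 1) = insert 0 ((range n).map rdSucc) := by
  ext x
  simp only [mem_range, mem_insert, mem_map, rd_succ_apply]
  constructor
  · intro hx
    rcases Nat.eq_zero_or_pos x with h0 | h0
    · exact Or.inl h0
    · exact Or.inr ⟨x - 1, by omega, by omega⟩
  · rintro (h0 | ⟨y, hy, rfl⟩) <;> omega

theorem rd_zero_notMem (A : Finset ℕ) : 0 ∉ A.map rdSucc := by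
  simp [rd_succ_apply]

/-- `∂_0 log F = ∂_0 F / F`, in the coordinates `l ↦ l + 1` -/
theorem rd_log_zero (F : JtFn) (A : Finset ℕ) :
    jtLog F (insert 0 (A.map rdSucc)) = jtMul (fun B => F (insert 0 (B.map rdSucc))) (jtInv fun B => F (B.map rdSucc)) A := by
  have h0 := rd_zero_notMem A
  have e1 : jtLog F (insert 0 (A.map rdSucc)) = Jt.shift 0 (Jt.log (Jt.mk F)) (A.map rdSucc) := by
    rw [jtr_log]
    show _ = if 0 ∈ A.map rdSucc then 0 else _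
    rw [if_neg h0]
  rw [e1, Jt.shift_log, ← Jt.comap_apply, map_mul, Jt.comap_inv, mul_comm, jtr_inv, jtr_mul]
  have e2 : Jt.comap rdSucc (Jt.cut 0 (Jt.mk F)) = Jt.mk fun B => F (B.map rdSucc) := by
    ext B
    rw [Jt.comap_apply, Jt.cut_apply_notMem (rd_zero_notMem B)]
  have e3 : Jt.comap rdSucc (Jt.shift 0 (Jt.mk F)) = Jt.mk fun B => F (insert 0 (B.map rdSucc)) := by
    ext B
    rw [Jt.comap_apply]
    show (if 0 ∈ B.map rdSucc then 0 else _) = _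
    rw [if_neg (rd_zero_notMem B)]
  rw [e2, e3]

namespace JtCtx

variable {S : Type} (X : JtCtx S)

theorem rd_off_succ (n : ℕ) (τ : JtTopo) : X.off 0 (n + 1) τ = X.off 0 1 τ * X.off 2 n τ := by
  unfold off
  rw [Finset.prod_range_succ', mul_comm, Finset.prod_range_one]
  congr 1
  refine Finset.prod_congr rfl fun i _ => ?_
  rw [show jtC 0 (i + 1) = jtC 2 i by unfold jtC; ring, show jtD 0 (i + 1) = jtD 2 i by unfold jtD; ring]

theorem rd_off_one (τ : JtTopo) : X.off 0 1 τ = if τ 0 1 ≤ X.N then 1 else 0 := by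
  unfold off
  simp only [Finset.prod_range_one, jtC, jtD, mul_zero, zero_add]

theorem rd_Psi_two (r : ℕ) (τ : JtTopo) (A : Finset ℕ) : X.Psi r 2 τ A = X.Psi r 0 τ (A.map rdSucc) := by
  unfold Psi scM
  congr 1
  funext t
  rw [Finset.prod_map]
  congr 1
  refine Finset.prod_congr rfl fun i _ => ?_
  rw [rd_jtC_succ, rd_jtD_succ]

theorem rd_Nij_two (r : ℕ) (τ : JtTopo) (A : Finset ℕ) : X.Nij r 2 0 1 τ A = X.Psi r 0 τ (insert 0 (A.map rdSucc)) := by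
  unfold Psi Nij scM
  congr 1
  funext t
  rw [Finset.prod_insert (rd_zero_notMem A), Finset.prod_map, Finset.prod_pair (by norm_num), Finset.prod_empty, one_mul]
  congr 1
  refine Finset.prod_congr rfl fun i _ => ?_
  rw [rd_jtC_succ, rd_jtD_succ]

/-- `∂_0 log Ψ = N_{01} / Ψ` -/
theorem rd_Kap_eq_Quo (r n : ℕ) (τ : JtTopo) : X.Kap r 0 τ (range (n + 1)) = X.Quo r 2 0 1 τ (range n) := by
  unfold Kap Quo
  rw [rd_range_succ, rd_log_zero]
  congr 1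
  · funext B; rw [rd_Nij_two]
  · congr 1; funext B; rw [rd_Psi_two]

theorem rd_Jprod_two (n : ℕ) (τ : JtTopo) (σ : ℕ → S) :
    ∏ l ∈ (range (n + 1)).erase 0, X.J τ σ (jtC 0 l) (jtD 0 l) = X.Jprod 2 n τ σ := by
  rw [rd_range_succ, Finset.erase_insert (rd_zero_notMem _), Finset.prod_map]
  unfold Jprod
  refine Finset.prod_congr rfl fun i _ => ?_
  rw [rd_jtC_succ, rd_jtD_succ]

theorem rd_J_congr {τ τ' : JtTopo} {c d : ℕ} (h : τ' c d = τ c d) (σ : ℕ → S) : X.J τ' σ c d = X.J τ σ c d := by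
  unfold J Qs; rw [h]

theorem rd_Jprod_congr {q n : ℕ} {τ τ' : JtTopo} (h : ∀ y z, y < q + 2 * n → z < q + 2 * n → τ' y z = τ y z) (σ : ℕ → S) :
    X.Jprod q n τ' σ = X.Jprod q n τ σ := by
  unfold Jprod
  refine Finset.prod_congr rfl fun i hi => X.rd_J_congr (h _ _ ?_ ?_) σ
  · have := mem_range.1 hi; unfold jtC; omega
  · have := mem_range.1 hi; unfold jtD; omega

theorem rd_off_congr {q n : ℕ} {τ τ' : JtTopo} (h : ∀ y z, y < q + 2 * n → z < q + 2 * n → τ' y z = τ y z) :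
    X.off q n τ' = X.off q n τ := by
  unfold off
  refine Finset.prod_congr rfl fun i hi => ?_
  rw [h _ _ ?_ ?_]
  · have := mem_range.1 hi; unfold jtC; omega
  · have := mem_range.1 hi; unfold jtD; omega

theorem rd_Jprod_uses (q n : ℕ) (τ : JtTopo) : TrUses (q + 2 * n) (X.Jprod q n τ) := by
  intro σ σ' H
  unfold Jprod
  refine Finset.prod_congr rfl fun i hi => ?_
  have := mem_range.1 hi
  unfold J Qs
  rw [H (jtC q i) (by unfold jtC; omega), H (jtD q i) (by unfold jtD; omega)]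

theorem rd_Psi_empty [Fintype S] [Inhabited S] {ms : ℕ → ℝ} (h : X.Law ms) (r q : ℕ) (τ : JtTopo) : X.Psi r q τ ∅ = 1 := by
  unfold Psi scM
  simp only [Finset.prod_empty, mul_one]
  exact h.nuK.const r τ 1

end JtCtx

/-! ### a pair of new labels whose summand sees only its own split has total signed weight `0` -/

theorem rd_pair_row {N : ℕ} {ms : ℕ → ℝ} (g : ℕ → ℝ) : ∀ (q : ℕ) (τ : JtTopo), IsTr N (q + 1) τ →
    trSum ms N (q + 1) τ (fun τ₂ => g (τ₂ q (q + 1))) = trSum ms N 1 (fun _ _ => N + 1) fun τ₂ => g (τ₂ 0 1) := by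
  intro q
  induction q with
  | zero =>
    intro τ hτ
    have := tr_sumK_tree_congr (N := N) (q := 1) (ms := ms) (τ := τ) (τ' := fun _ _ => N + 1)
      (fun y z hy hz => by
        have hy0 : y = 0 := by omega
        have hz0 : z = 0 := by omega
        subst hy0; subst hz0
        exact hτ.diag 0 (by norm_num)) 1 (fun τ₂ => g (τ₂ 0 1))
      (fun τ₁ τ₂ H => by rw [H 0 1 (by norm_num) (by norm_num)])
    simpa only [trSumK] using this
  | succ q ih =>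
    intro τ hτ
    have h1 := tr5_sum_del (ms := ms) (q := q + 1) (p := 0) hτ (Nat.zero_le _) (fun τ' => g (τ' q (q + 1)))
      (fun τ₁ τ₂ H => by rw [H q (q + 1) (by omega) (by omega)])
    have h2 : (fun τ' : JtTopo => g (trDel 0 τ' q (q + 1))) = fun τ₂ => g (τ₂ (q + 1) (q + 1 + 1)) := by
      funext τ'
      simp [trDel]
    rw [h2] at h1
    rw [h1]
    refine ih _ ?_
    have := tr_del_isTr (N := N) (q := 0) (k := q + 1) (τ := τ) (by rwa [show 0 + 1 + (q + 1) = q + 1 + 1 by omega])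
    rwa [Nat.zero_add] at this

theorem rd_pair_zero {N r : ℕ} {ms : ℕ → ℝ} {τ : JtTopo} (hτ : IsTr N r τ) (g : ℕ → ℝ) :
    trSumK ms N 2 r τ (fun τ' => g (τ' r (r + 1))) = 0 := by
  simp only [trSumK]
  exact tr_sum_const' hτ _ (trSum ms N 1 (fun _ _ => N + 1) fun τ₂ => g (τ₂ 0 1)) fun x j hx hj =>
    rd_pair_row g r _ (tr_att_isTr hτ hx hj)

/-- the permutation of the labels induced by a permutation of the pairs -/
def rdLift (π : Equiv.Perm ℕ) : Equiv.Perm ℕ where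
  toFun y := 2 * π (y / 2) + y % 2
  invFun y := 2 * π.symm (y / 2) + y % 2
  left_inv y := by
    have h1 : (2 * π (y / 2) + y % 2) / 2 = π (y / 2) := by omega
    have h2 : (2 * π (y / 2) + y % 2) % 2 = y % 2 := by omega
    simp only [h1, h2, Equiv.symm_apply_apply]
    omega
  right_inv y := by
    have h1 : (2 * π.symm (y / 2) + y % 2) / 2 = π.symm (y / 2) := by omega
    have h2 : (2 * π.symm (y / 2) + y % 2) % 2 = y % 2 := by omega
    simp only [h1, h2, Equiv.apply_symm_apply]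
    omega

theorem rd_lift_C (π : Equiv.Perm ℕ) (l : ℕ) : rdLift π (jtC 0 l) = jtC 0 (π l) := by
  show 2 * π (jtC 0 l / 2) + jtC 0 l % 2 = _
  unfold jtC
  rw [show (0 + 2 * l) / 2 = l by omega, show (0 + 2 * l) % 2 = 0 by omega]
  omega

theorem rd_lift_D (π : Equiv.Perm ℕ) (l : ℕ) : rdLift π (jtD 0 l) = jtD 0 (π l) := by
  show 2 * π (jtD 0 l / 2) + jtD 0 l % 2 = _
  unfold jtD
  rw [show (0 + 2 * l + 1) / 2 = l by omega, show (0 + 2 * l + 1) % 2 = 1 by omega]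
  omega

theorem rd_lift_fix {π : Equiv.Perm ℕ} {m : ℕ} (hπ : ∀ l, m ≤ l → π l = l) (y : ℕ) (hy : 2 * m ≤ y) : rdLift π y = y := by
  show 2 * π (y / 2) + y % 2 = y
  rw [hπ (y / 2) (by omega)]
  omega

theorem rd_map_range {π : Equiv.Perm ℕ} {m : ℕ} (hπ : ∀ l, m ≤ l → π l = l) : (range m).map π.toEmbedding = range m := by
  ext x
  simp only [mem_map, mem_range, Equiv.coe_toEmbedding]
  constructor
  · rintro ⟨y, hy, rfl⟩; exact tr5_perm_lt π hπ hy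
  · intro hx; exact ⟨π.symm x, tr5_perm_lt π.symm (tr5_perm_symm π hπ) hx, π.apply_symm_apply x⟩

/-- the test of the scalar moment `Ψ A` (no old labels) -/
def rdR (A : Finset ℕ) (t : ℕ → Bool) : ℝ :=
  (∏ y ∈ (∅ : Finset ℕ), jtSp (t y)) * ∏ i ∈ A, jtSp (t (jtC 0 i)) * jtSp (t (jtD 0 i))

theorem rd_Psi_eq {S : Type} (X : JtCtx S) (r : ℕ) (τ : JtTopo) (A : Finset ℕ) : X.Psi r 0 τ A = X.nuK r τ (rdR A) := rfl

theorem rd_R_uses {n : ℕ} {A : Finset ℕ} (hA : ∀ a ∈ A, a < n) : TrUses (2 * n) (rdR A) := by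
  intro t t' H
  unfold rdR
  congr 1
  refine Finset.prod_congr rfl fun i hi => ?_
  have := hA i hi
  rw [H (jtC 0 i) (by unfold jtC; omega), H (jtD 0 i) (by unfold jtD; omega)]

theorem rd_R_insert {n : ℕ} {A : Finset ℕ} (hn : n ∉ A) (t : ℕ → Bool) :
    rdR (insert n A) t = rdR A t * (jtSp (t (2 * n)) * jtSp (t (2 * n + 1))) := by
  unfold rdR
  rw [Finset.prod_insert hn]
  simp only [jtC, jtD, zero_add]
  ring

/-! ### leaves -/

/-- leaf RD1 (pure `Defs/Tr`): ORDER SYMMETRY OF THE PER-ROOT ALLOCATION, the root label included.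
Route: `e 0 = 0`: `tr_sumK_perm` with `q = 1`;  `swap 0 1`: `trSumK (m) 1 = trSum 1 ∘ trSumK (m-1) 2`, `tr_sumK_relabel` with `q = 2` + `tr_sumK_tree_congr` (a tree on two labels is symmetric);
`swap 0 j = swap 1 j * swap 0 1 * swap 1 j`;  a general `e` is `swap 0 (e 0)` times a permutation which fixes `0`;  invariance is stable under composition. -/
theorem rd_root_perm {N : ℕ} {ms : ℕ → ℝ} (m : ℕ) (Φ : JtTopo → ℝ)
    (hΦ : ∀ τ₁ τ₂ : JtTopo, (∀ y z, y < m + 1 → z < m + 1 → τ₁ y z = τ₂ y z) → Φ τ₁ = Φ τ₂)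
    (e : Equiv.Perm ℕ) (he : ∀ y, m + 1 ≤ y → e y = y) :
    trSumK ms N m 1 (fun _ _ => N + 1) Φ = trSumK ms N m 1 (fun _ _ => N + 1) fun τ => Φ fun y z => τ (e y) (e z) :=
  (tr_x_root_perm0 ⟨fun _ _ _ _ => le_rfl, fun _ _ => rfl, fun _ _ _ _ => rfl, fun _ _ _ _ _ _ => by simp⟩ m Φ hΦ e he).symm

/-- leaf RD6: telescoping of the `K̇` terms (pure algebra, induction on `k`) -/
theorem rd_tele (A B : ℕ → ℝ) (k : ℕ) :
    ∑ n ∈ Icc 1 k, ((2 : ℝ) ^ n * (n ! : ℝ))⁻¹ * (2⁻¹ * B (n + 1) + (n : ℝ) * (A n - B n))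
      = ∑ n ∈ Icc 1 k, ((2 : ℝ) ^ n * (n ! : ℝ))⁻¹ * (n : ℝ) * A n - 2⁻¹ * B 1 + ((2 : ℝ) ^ (k + 1) * (k ! : ℝ))⁻¹ * B (k + 1) := by
  induction k with
  | zero => simp
  | succ k ih =>
    rw [Finset.sum_Icc_succ_top (by omega), Finset.sum_Icc_succ_top (by omega), ih]
    have h1 : (((k + 1)! : ℕ) : ℝ) = ((k : ℝ) + 1) * (k ! : ℝ) := by rw [Nat.factorial_succ]; push_cast; ring
    have h2 : ((k ! : ℕ) : ℝ) ≠ 0 := by positivity
    have h3 : ((k : ℝ) + 1) ≠ 0 := by positivity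
    rw [h1]
    push_cast
    field_simp
    ring

namespace RdData

variable {S : Type} [Fintype S] [Inhabited S] {D : RdData S}

/-- leaf RD2: the pair which carries the special factor may be moved to the slot `0`.
Route: `rd_root_perm` with `e = swap (2 i) 0 * swap (2 i + 1) 1`; equivariance of `off`, of `Kap` (`JtNuLaw.perm` for `nuK` + `jt_map`), of `nu` (`JtNuLaw.perm`). -/
theorem rd_G_perm (h : D.Ok) (w : ℕ → S → S → ℝ) {m i : ℕ} (hi : i < m) (π : Equiv.Perm ℕ) (hπ : ∀ l, m ≤ l → π l = l) :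
    D.G w m i = D.G w m (π i) := by
  have em : 2 * m - 1 + 1 = 2 * m := by omega
  have e1m : 1 + (2 * m - 1) = 2 * m := by omega
  set T : ℕ → JtTopo → (ℕ → S) → ℝ := fun i τ σ =>
    w (τ (jtC 0 i) (jtD 0 i)) (σ (jtC 0 i)) (σ (jtD 0 i)) * ∏ l ∈ (range m).erase i, D.X.J τ σ (jtC 0 l) (jtD 0 l) with hT
  set Φ : JtTopo → ℝ := fun τ => D.X.off 0 m τ * D.X.Kap (2 * m) 0 τ (range m) * D.X.nu (2 * m) τ (T i τ) with hΦdef
  have hΦ : ∀ τ₁ τ₂ : JtTopo, (∀ y z, y < 2 * m - 1 + 1 → z < 2 * m - 1 + 1 → τ₁ y z = τ₂ y z) → Φ τ₁ = Φ τ₂ := by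
    intro τ₁ τ₂ H
    rw [em] at H
    have H0 : ∀ y z, y < 0 + 2 * m → z < 0 + 2 * m → τ₁ y z = τ₂ y z := fun y z hy hz => H y z (by omega) (by omega)
    have hP : D.X.Psi (2 * m) 0 τ₁ = D.X.Psi (2 * m) 0 τ₂ := by
      funext A; exact h.law.nuK.congr _ _ _ H _
    have hTT : T i τ₁ = T i τ₂ := by
      funext σ
      simp only [hT]
      rw [H (jtC 0 i) (jtD 0 i) (by unfold jtC; omega) (by unfold jtD; omega)]
      congr 1
      refine Finset.prod_congr rfl fun l hl => D.X.rd_J_congr (H _ _ ?_ ?_) σ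
      · have := mem_range.1 (Finset.mem_of_mem_erase hl); unfold jtC; omega
      · have := mem_range.1 (Finset.mem_of_mem_erase hl); unfold jtD; omega
    simp only [hΦdef]
    rw [D.X.rd_off_congr H0, hTT, h.law.nu.congr _ _ _ H]
    unfold JtCtx.Kap
    rw [hP]
  have he : ∀ y, 2 * m - 1 + 1 ≤ y → rdLift π y = y := fun y hy => rd_lift_fix hπ y (by omega)
  have h1 := rd_root_perm (N := D.X.N) (ms := D.ms) (2 * m - 1) Φ hΦ (rdLift π) he
  have hG : ∀ j, D.G w m j = D.X.sumK (2 * m - 1) 1 D.X.tau1 fun τ =>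
      D.X.off 0 m τ * D.X.Kap (2 * m) 0 τ (range m) * D.X.nu (2 * m) τ (T j τ) := fun j => rfl
  rw [hG, hG, h.law.sumK, h.law.sumK]
  refine h1.trans (tr_sumK_congr (JtCtx.Law.tau1_isTr D.X) _ _ _ fun τ hτ _ => ?_)
  rw [e1m] at hτ
  set τe : JtTopo := fun y z => τ (rdLift π y) (rdLift π z) with hτe
  have hτeCD : ∀ l, τe (jtC 0 l) (jtD 0 l) = τ (jtC 0 (π l)) (jtD 0 (π l)) := fun l => by
    simp only [hτe, rd_lift_C, rd_lift_D]
  have he2 : ∀ y, 2 * m ≤ y → rdLift π y = y := fun y hy => rd_lift_fix hπ y hy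
  -- `off`
  have ho : D.X.off 0 m τe = D.X.off 0 m τ := by
    unfold JtCtx.off
    simp only [hτeCD]
    conv_rhs => rw [← rd_map_range hπ, Finset.prod_map]
    rfl
  -- `Kap`
  have hK : D.X.Kap (2 * m) 0 τe (range m) = D.X.Kap (2 * m) 0 τ (range m) := by
    unfold JtCtx.Kap
    have hloc : ∀ B ⊆ range m, D.X.Psi (2 * m) 0 τe B = (fun B => D.X.Psi (2 * m) 0 τ (B.map π.toEmbedding)) B := by
      intro B hB
      have hB' : ∀ a ∈ B.map π.toEmbedding, a < m := by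
        intro a ha
        have : a ∈ (range m).map π.toEmbedding := Finset.map_subset_map.2 hB ha
        rw [rd_map_range hπ] at this
        exact mem_range.1 this
      show D.X.nuK (2 * m) τe (rdR B) = D.X.nuK (2 * m) τ (rdR (B.map π.toEmbedding))
      rw [← h.law.nuK.perm hτ _ (rd_R_uses hB') (rdLift π) he2]
      congr 1
      funext t
      unfold rdR
      rw [Finset.prod_map]
      congr 1
      refine Finset.prod_congr rfl fun l _ => ?_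
      rw [Equiv.coe_toEmbedding, ← rd_lift_C, ← rd_lift_D]
      simp only [Equiv.symm_apply_apply]
    rw [(jt_local _ _ _ hloc).2, (jt_map _ π.toEmbedding (range m)).2, rd_map_range hπ]
  -- `nu`
  have hπi : π i < m := tr5_perm_lt π hπ hi
  have hu : TrUses (2 * m) (T (π i) τ) := by
    intro σ σ' H
    simp only [hT]
    rw [H (jtC 0 (π i)) (by unfold jtC; omega), H (jtD 0 (π i)) (by unfold jtD; omega)]
    congr 1
    refine Finset.prod_congr rfl fun l hl => ?_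
    have := mem_range.1 (Finset.mem_of_mem_erase hl)
    unfold JtCtx.J JtCtx.Qs
    rw [H (jtC 0 l) (by unfold jtC; omega), H (jtD 0 l) (by unfold jtD; omega)]
  have hν : D.X.nu (2 * m) τe (T i τe) = D.X.nu (2 * m) τ (T (π i) τ) := by
    rw [← h.law.nu.perm hτ _ hu (rdLift π) he2]
    congr 1
    funext σ
    simp only [hT]
    rw [hτeCD, ← rd_lift_C, ← rd_lift_D, Equiv.symm_apply_apply, Equiv.symm_apply_apply]
    congr 1
    have e3 : (range m).erase (π i) = ((range m).erase i).map π.toEmbedding := by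
      rw [Finset.map_erase, rd_map_range hπ, Equiv.coe_toEmbedding]
    rw [e3, Finset.prod_map]
    refine Finset.prod_congr rfl fun l _ => ?_
    unfold JtCtx.J JtCtx.Qs
    rw [hτeCD, Equiv.coe_toEmbedding]
    simp only [← rd_lift_C, ← rd_lift_D, Equiv.symm_apply_apply]
  show D.X.off 0 m τe * D.X.Kap (2 * m) 0 τe (range m) * D.X.nu (2 * m) τe (T i τe) = _
  rw [ho, hK, hν]

theorem rd_sym (h : D.Ok) (w : ℕ → S → S → ℝ) {m i : ℕ} (hi : i < m) : D.G w m i = D.G w m 0 := by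
  have h0 : 0 < m := by omega
  have := rd_G_perm h w h0 (Equiv.swap 0 i) fun l hl => Equiv.swap_apply_of_ne_of_ne (by omega) (by omega)
  rw [Equiv.swap_apply_left] at this
  exact this.symm

/-- leaf RD3: derivative of the cumulants: a differentiated scalar coefficient inserts a pair `K̇ τ τ / 2`.
Route: `dnuK` for the moments `Ψ A`, `A ⊆ range n`;  `Jt.hasDerivWithinAt_log` (`D log Ψ = inv Ψ * DΨ`);  linearity of `trSumK`;  pruning (`Ψ_{τ'} B = Ψ_τ B`) + `jt_local`;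
`Jt.shift_log` at the new slot `n`. -/
theorem rd_kap_deriv (h : D.Ok) {n : ℕ} (hn : 1 ≤ n) {τ : JtTopo} (hτ : IsTr D.X.N (2 * n) τ) :
    HasDerivWithinAt (fun ϑ => (D.Y ϑ).Kap (2 * n) 0 τ (range n)) (D.kapD n τ) D.I D.t0 := by
  classical
  set c : JtTopo → ℝ := fun τ' => D.od τ' (2 * n) (2 * n + 1) * D.Kd (τ' (2 * n) (2 * n + 1)) with hc
  set M : Finset ℕ → ℝ := fun A => 2⁻¹ * D.X.sumK 2 (2 * n) τ fun τ' =>
    c τ' * D.X.nuK (2 * n + 2) τ' fun t => rdR A t * (jtSp (t (2 * n)) * jtSp (t (2 * n + 1))) with hM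
  set F' : Jt ℕ ℝ := Jt.mk fun A => if ∀ a ∈ A, a < n then M A else 0 with hF'
  set F : ℝ → Jt ℕ ℝ := fun ϑ => Jt.res (fun a => a < n) (Jt.mk ((D.Y ϑ).Psi (2 * n) 0 τ)) with hFdef
  have hF : ∀ A, HasDerivWithinAt (fun ϑ => F ϑ A) (F' A) D.I D.t0 := by
    intro A
    simp only [hFdef, hF', Jt.res_apply, Jt.mk_apply]
    by_cases hA : ∀ a ∈ A, a < n
    · simp only [if_pos hA]
      exact h.dnuK (2 * n) τ (rdR A) (by omega) hτ (rd_R_uses hA)
    · simp only [if_neg hA]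
      exact hasDerivWithinAt_const _ _ _
  have h1 := Jt.hasDerivWithinAt_log hF (range n)
  have hr : ∀ a ∈ range n, a < n := fun a ha => mem_range.1 ha
  have e1 : ∀ ϑ, (D.Y ϑ).Kap (2 * n) 0 τ (range n) = Jt.log (F ϑ) (range n) := by
    intro ϑ
    unfold JtCtx.Kap
    rw [jtr_log]
    simp only [hFdef]
    rw [← Jt.res_log, Jt.res_apply, if_pos hr]
  simp only [e1]
  convert h1 using 1
  -- the moment of the empty set has the derivative `0`
  have hM0 : M ∅ = 0 := by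
    simp only [hM]
    have e : (D.X.sumK 2 (2 * n) τ fun τ' =>
        c τ' * D.X.nuK (2 * n + 2) τ' fun t => rdR ∅ t * (jtSp (t (2 * n)) * jtSp (t (2 * n + 1))))
        = D.X.sumK 2 (2 * n) τ fun τ' => (fun t => (if t ≤ D.X.N then 1 else 0) * D.Kd t * D.X.qC t) (τ' (2 * n) (2 * n + 1)) := by
      refine h.law.sumK_congr hτ fun τ' hτ' _ => ?_
      have h2 := h.law.nuK.comap (2 * n + 2) 2 τ' hτ' (fun x => 2 * n + x) (fun x hx => by omega)
        (fun t => jtSp (t 0) * jtSp (t 1)) (fun t t' H => by show jtSp (t 0) * jtSp (t 1) = jtSp (t' 0) * jtSp (t' 1); rw [H 0 (by norm_num), H 1 (by norm_num)])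
      have h3 := h.law.qC (fun x y => τ' (2 * n + x) (2 * n + y)) (tr_comap_isTr hτ' _ fun x hx => by omega)
      simp only [add_zero] at h2 h3
      simp only [hc, od, rdR, Finset.prod_empty, one_mul]
      rw [h2, ← h3]
    rw [e, h.law.sumK, rd_pair_zero hτ fun t => (if t ≤ D.X.N then 1 else 0) * D.Kd t * D.X.qC t, mul_zero]
  have haug : Jt.aug F' = F' := by
    ext A
    by_cases hA : A = ∅
    · subst hA
      rw [Jt.aug_apply_empty]
      simp only [hF', Jt.mk_apply]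
      rw [if_pos (by simp), hM0]
    · rw [Jt.aug_apply_ne _ hA]
  rw [haug, Jt.mul_apply]
  -- the cumulant at the enlarged tree
  have hK : ∀ τ', IsTr D.X.N (2 * n + 2) τ' → (∀ y z, y < 2 * n → z < 2 * n → τ' y z = τ y z) →
      D.X.Kap (2 * n + 2) 0 τ' (range (n + 1)) = ∑ B ∈ (range n).powerset, Jt.inv (F D.t0) B *
        D.X.nuK (2 * n + 2) τ' fun t => rdR (range n \ B) t * (jtSp (t (2 * n)) * jtSp (t (2 * n + 1))) := by
    intro τ' hτ' hag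
    set G' : Jt ℕ ℝ := Jt.mk (D.X.Psi (2 * n + 2) 0 τ') with hG'
    have hres : Jt.res (fun a => a < n) G' = F D.t0 := by
      ext A
      simp only [hFdef, hG', Jt.res_apply, h.Y0]
      by_cases hA : ∀ a ∈ A, a < n
      · rw [if_pos hA, if_pos hA, rd_Psi_eq, rd_Psi_eq, h.law.nuK.prune hτ' (rd_R_uses hA)]
        exact h.law.nuK.congr _ _ _ hag _
      · rw [if_neg hA, if_neg hA]
    have hn' : n ∉ range n := by simp
    unfold JtCtx.Kap
    rw [jtr_log, Finset.range_add_one]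
    have e2 : (Jt.log (Jt.mk (D.X.Psi (2 * n + 2) 0 τ'))).c (insert n (range n)) = Jt.shift n (Jt.log G') (range n) := by
      show _ = if n ∈ range n then 0 else _
      rw [if_neg hn']
    rw [e2, Jt.shift_log, Jt.mul_apply]
    refine Finset.sum_congr rfl fun B hB => ?_
    have hB' : ∀ a ∈ B, a < n := fun a ha => hr a (mem_powerset.1 hB ha)
    have hnB : n ∉ B := fun hh => lt_irrefl _ (hB' n hh)
    congr 1
    · rw [← Jt.cut_inv, Jt.cut_apply_notMem hnB, ← hres, ← Jt.res_inv, Jt.res_apply, if_pos hB']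
    · have hnC : n ∉ range n \ B := fun hh => hn' (Finset.sdiff_subset hh)
      show (if n ∈ range n \ B then 0 else _) = _
      rw [if_neg hnC]
      simp only [hG', Jt.mk_apply, rd_Psi_eq]
      congr 1
      funext t
      exact rd_R_insert hnC t
  unfold kapD
  have e3 : (D.X.sumK 2 (2 * n) τ fun τ' =>
      D.od τ' (jtC 0 n) (jtD 0 n) * D.Kd (τ' (jtC 0 n) (jtD 0 n)) * D.X.Kap (2 * n + 2) 0 τ' (range (n + 1)))
      = D.X.sumK 2 (2 * n) τ fun τ' => ∑ B ∈ (range n).powerset, Jt.inv (F D.t0) B *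
        (c τ' * D.X.nuK (2 * n + 2) τ' fun t => rdR (range n \ B) t * (jtSp (t (2 * n)) * jtSp (t (2 * n + 1)))) := by
    refine h.law.sumK_congr hτ fun τ' hτ' hag => ?_
    rw [hK τ' hτ' hag, Finset.mul_sum]
    refine Finset.sum_congr rfl fun B _ => ?_
    simp only [hc, jtC, jtD, zero_add]
    ring
  rw [e3, h.law.sumK_sum, Finset.mul_sum]
  refine Finset.sum_congr rfl fun B _ => ?_
  rw [h.law.sumK_const_mul]
  simp only [hF', Jt.mk_apply]
  rw [if_pos fun a ha => hr a (Finset.sdiff_subset ha)]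
  simp only [hM]
  ring

omit [Fintype S] [Inhabited S] in
/-- the formal rate: `c = exp (- e (ϑ - ϑ₀))`      (helper153) -/
theorem rd_c_deriv (D : RdData S) : HasDerivWithinAt (fun ϑ => Real.exp (-D.e * (ϑ - D.t0))) (-D.e) D.I D.t0 := by
  have h1 : HasDerivAt (fun ϑ : ℝ => -D.e * (ϑ - D.t0)) (-D.e) D.t0 := by
    simpa using ((hasDerivAt_id D.t0).sub_const D.t0).const_mul (-D.e)
  have h2 := h1.exp
  simp only [sub_self, mul_zero, Real.exp_zero, one_mul] at h2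
  exact h2.hasDerivWithinAt

/-- derivative of one frozen insertion: `𝒟J`      (helper153) -/
theorem rd_Jfz_deriv (h : D.Ok) (τ : JtTopo) (σ : ℕ → S) (x y : ℕ) :
    HasDerivWithinAt (fun ϑ => D.X.Jfz (D.Y ϑ) (Real.exp (-D.e * (ϑ - D.t0))) τ σ x y) (D.wD (τ x y) (σ x) (σ y)) D.I D.t0 := by
  unfold JtCtx.Jfz JtCtx.dC
  have h1 := ((h.db (τ x y)).mul ((rd_c_deriv D).mul_const (D.X.Dl τ σ x y))).add
    (((h.dh (τ x y)).sub (h.dK (τ x y))).add ((h.db (τ x y)).mul (h.dq (τ x y))))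
  refine h1.congr_deriv ?_
  simp only [h.Y0, sub_self, mul_zero, Real.exp_zero, wD, wP, JtCtx.Dl, JtCtx.Qs]
  ring

omit [Fintype S] [Inhabited S] in
theorem rd_Jfz_zero (h : D.Y D.t0 = D.X) (τ : JtTopo) (σ : ℕ → S) (x y : ℕ) :
    D.X.Jfz (D.Y D.t0) (Real.exp (-D.e * (D.t0 - D.t0))) τ σ x y = D.X.J τ σ x y := by
  rw [h, sub_self, mul_zero, Real.exp_zero, JtCtx.Jfz_self]

/-- leaf RD4: the product rule.  Route: `tcb_sumK_hasDeriv`, `JtNuLaw.hasDerivWithinAt`, `HasDerivWithinAt.finset_prod`, `rd_kap_deriv`, `JtCtx.Jfz_self`. -/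
theorem rd_frz_deriv (h : D.Ok) (k : ℕ) :
    HasDerivWithinAt (fun ϑ => D.X.frz (D.Y ϑ) (Real.exp (-D.e * (ϑ - D.t0))) k) (D.D2 k) D.I D.t0 := by
  unfold JtCtx.frz D2
  refine HasDerivWithinAt.sub (HasDerivWithinAt.fun_sum fun n hn => HasDerivWithinAt.const_mul _ ?_)
    (HasDerivWithinAt.const_mul _ ?_)
  · have hn1 : 1 ≤ n := (mem_Icc.1 hn).1
    have e1 : 1 + (2 * n - 1) = 2 * n := by omega
    have hs : D.Kp n + ∑ i ∈ range n, D.G D.wD n i = D.X.sumK (2 * n - 1) 1 D.X.tau1 fun τ =>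
        D.X.off 0 n τ * D.kapD n τ * (D.X.nu (2 * n) τ fun σ => D.X.Jprod 0 n τ σ)
          + ∑ i ∈ range n, D.X.off 0 n τ * D.X.Kap (2 * n) 0 τ (range n) * D.X.nu (2 * n) τ fun σ =>
              D.wD (τ (jtC 0 i) (jtD 0 i)) (σ (jtC 0 i)) (σ (jtD 0 i)) * ∏ l ∈ (range n).erase i, D.X.J τ σ (jtC 0 l) (jtD 0 l) := by
      rw [h.law.sumK_add, h.law.sumK_sum]
      rfl
    rw [hs]
    refine h.law.sumK_hasDeriv (JtCtx.Law.tau1_isTr D.X) _ _ fun τ hτ => ?_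
    rw [e1] at hτ
    have hK := rd_kap_deriv h hn1 hτ
    have hN : HasDerivWithinAt (fun ϑ => D.X.nu (2 * n) τ fun σ =>
          ∏ i ∈ range n, D.X.Jfz (D.Y ϑ) (Real.exp (-D.e * (ϑ - D.t0))) τ σ (jtC 0 i) (jtD 0 i))
        (D.X.nu (2 * n) τ fun σ => ∑ i ∈ range n,
          D.wD (τ (jtC 0 i) (jtD 0 i)) (σ (jtC 0 i)) (σ (jtD 0 i)) * ∏ l ∈ (range n).erase i, D.X.J τ σ (jtC 0 l) (jtD 0 l)) D.I D.t0 := by
      refine h.law.nu.hasDerivWithinAt _ _ _ _ fun σ => ?_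
      refine (HasDerivWithinAt.fun_finsetProd fun i _ => rd_Jfz_deriv h τ σ (jtC 0 i) (jtD 0 i)).congr_deriv ?_
      refine Finset.sum_congr rfl fun i _ => ?_
      simp only [rd_Jfz_zero h.Y0, smul_eq_mul]
      ring
    refine (((hK.const_mul (D.X.off 0 n τ)).mul hN)).congr_deriv ?_
    simp only [h.Y0, sub_self, mul_zero, Real.exp_zero, JtCtx.Jfz_self]
    rw [h.law.nu.sum, Finset.mul_sum]
    rfl
  · unfold Qd
    refine h.law.sumK_hasDeriv (JtCtx.Law.tau1_isTr D.X) _ _ fun τ hτ => ?_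
    have hN : HasDerivWithinAt (fun ϑ => D.X.nu 2 τ fun σ =>
          (Real.exp (-D.e * (ϑ - D.t0)) * D.X.Dl τ σ 0 1 + (D.Y ϑ).qC (τ 0 1)) ^ 2)
        (D.X.nu 2 τ fun σ => 2 * D.X.Qs τ σ 0 1 * (D.qd (τ 0 1) - D.e * D.X.Dl τ σ 0 1)) D.I D.t0 := by
      refine h.law.nu.hasDerivWithinAt _ _ _ _ fun σ => ?_
      refine ((((rd_c_deriv D).mul_const (D.X.Dl τ σ 0 1)).add (h.dq (τ 0 1))).pow 2).congr_deriv ?_
      simp only [Pi.add_apply, h.Y0, sub_self, mul_zero, Real.exp_zero, JtCtx.Dl]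
      ring
    refine ((((h.db (τ 0 1)).const_mul (D.X.off 0 1 τ))).mul hN).congr_deriv ?_
    simp only [h.Y0, sub_self, mul_zero, Real.exp_zero, JtCtx.Dl, one_mul, sub_add_cancel]
    ring

/-- leaf RD5: tower + pruning.  Route: `tr_sumK_add` (`2 (n+1) - 1 = (2 n - 1) + 2`), `tcb_sumK_mul_left`, `tr_sumK_congr`, `JtNuLaw.prune`, `JtNuLaw.congr`. -/
theorem rd_Kp (h : D.Ok) {n : ℕ} (hn : 1 ≤ n) : D.Kp n = 2⁻¹ * D.G D.wK (n + 1) n := by
  have e : 1 + (2 * n - 1) = 2 * n := by omega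
  unfold Kp G
  rw [show 2 * (n + 1) - 1 = (2 * n - 1) + 2 by omega, h.law.sumK_tower, ← h.law.sumK_const_mul]
  refine h.law.sumK_congr (JtCtx.Law.tau1_isTr D.X) fun τ hτ _ => ?_
  rw [e] at hτ ⊢
  unfold kapD
  rw [mul_comm (D.X.off 0 n τ), mul_assoc, mul_assoc, mul_comm (D.X.sumK 2 (2 * n) τ _), ← h.law.sumK_const_mul]
  congr 1
  refine h.law.sumK_congr hτ fun τ' hτ' hag => ?_
  have hag' : ∀ y z, y < 0 + 2 * n → z < 0 + 2 * n → τ' y z = τ y z := fun y z hy hz => hag y z (by omega) (by omega)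
  have ho : D.X.off 0 (n + 1) τ' = D.X.off 0 n τ * D.od τ' (jtC 0 n) (jtD 0 n) := by
    rw [← D.X.rd_off_congr hag']
    unfold JtCtx.off od
    rw [Finset.prod_range_succ]
  have hν : (D.X.nu (2 * (n + 1)) τ' fun σ => D.wK (τ' (jtC 0 n) (jtD 0 n)) (σ (jtC 0 n)) (σ (jtD 0 n)) *
      ∏ l ∈ (range (n + 1)).erase n, D.X.J τ' σ (jtC 0 l) (jtD 0 l))
      = D.Kd (τ' (jtC 0 n) (jtD 0 n)) * D.X.nu (2 * n) τ fun σ => D.X.Jprod 0 n τ σ := by
    have e1 : (range (n + 1)).erase n = range n := by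
      rw [Finset.range_add_one, Finset.erase_insert (by simp)]
    simp only [wK, e1]
    rw [h.law.nu.const_mul]
    congr 1
    have e2 : (fun σ : ℕ → S => ∏ l ∈ range n, D.X.J τ' σ (jtC 0 l) (jtD 0 l)) = fun σ => D.X.Jprod 0 n τ σ := by
      funext σ; exact D.X.rd_Jprod_congr hag' σ
    have hu : TrUses (2 * n) fun σ => D.X.Jprod 0 n τ σ := by
      have := D.X.rd_Jprod_uses 0 n τ
      rwa [Nat.zero_add] at this
    rw [e2, show 2 * (n + 1) = 2 * n + 2 by ring, h.law.nu.prune hτ' hu]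
    exact h.law.nu.congr _ _ _ hag _
  rw [ho, hν, show 2 * (n + 1) = 2 * n + 2 by ring]
  ring

/-- leaf RD7: linearity -/
theorem rd_G_sub (h : D.Ok) (n i : ℕ) : D.G D.wD n i = D.G D.wP n i - D.G D.wK n i := by
  unfold G
  rw [← h.law.sumK_sub]
  congr 1
  funext τ
  rw [← mul_sub, ← h.law.nu.sub]
  congr 2
  funext σ
  simp only [wD, wK]
  ring

/-- leaf RD8: the deterministic term.  Route: `jt_log_small`, `Law.qC`, `JtNuLaw.const`, `tr_sumK_congr`. -/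
theorem rd_det (h : D.Ok) : 2⁻¹ * D.G D.wK 1 0 = D.X.detR D.Kd := by
  unfold G JtCtx.detR
  congr 1
  refine h.law.sumK_congr (JtCtx.Law.tau1_isTr D.X) fun τ hτ _ => ?_
  have hK : D.X.Kap (2 * 1) 0 τ (range 1) = D.X.qC (τ 0 1) := by
    unfold JtCtx.Kap
    rw [Finset.range_one, (jt_log_small _ (D.X.rd_Psi_empty h.law _ _ _) 0 1 (by norm_num)).1, h.law.qC τ hτ]
    unfold JtCtx.Psi JtCtx.scM
    simp [jtC, jtD]
  have hν : (D.X.nu (2 * 1) τ fun σ => D.wK (τ (jtC 0 0) (jtD 0 0)) (σ (jtC 0 0)) (σ (jtD 0 0)) *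
      ∏ l ∈ (range 1).erase 0, D.X.J τ σ (jtC 0 l) (jtD 0 l)) = D.Kd (τ 0 1) := by
    simp only [Finset.range_one, Finset.erase_singleton, Finset.prod_empty, mul_one, wK, jtC, jtD]
    exact h.law.nu.const _ _ _
  rw [hK, hν]
  ring

/-- leaf RD9 (EXPORTED IDENTITY): `∂_0 log Ψ = N_{01} / Ψ` + tower: the per-root sum of `n + 1` pairs whose pair `0` carries `w` is the sum over the pair `0`
of the degree `n` part of the cavity quotient tested against `w`. -/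
theorem rd_G_ev (h : D.Ok) (w : ℕ → S → S → ℝ) (n : ℕ) :
    ((2 : ℝ) ^ (n + 1) * (n ! : ℝ))⁻¹ * D.G w (n + 1) 0
      = 2⁻¹ * D.X.sumK 1 1 D.X.tau1 fun τ0 => D.X.off 0 1 τ0 *
          D.X.ev 2 τ0 (fun r τ => D.X.Quo r 2 0 1 τ) (fun σ => w (τ0 0 1) (σ 0) (σ 1)) n := by
  have hc : ((2 : ℝ) ^ (n + 1) * (n ! : ℝ))⁻¹ = 2⁻¹ * ((2 : ℝ) ^ n * (n ! : ℝ))⁻¹ := by
    rw [← mul_inv]; congr 1; ring
  unfold G
  rw [show 2 * (n + 1) - 1 = 1 + 2 * n by omega, h.law.sumK_tower, hc, mul_assoc, ← h.law.sumK_const_mul]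
  congr 1
  refine h.law.sumK_congr (JtCtx.Law.tau1_isTr D.X) fun τ0 hτ0 _ => ?_
  unfold JtCtx.ev
  rw [mul_left_comm, ← h.law.sumK_const_mul _ _ _ (D.X.off 0 1 τ0)]
  congr 1
  refine h.law.sumK_congr hτ0 fun τ hτ hag => ?_
  have h01 : τ 0 1 = τ0 0 1 := hag 0 1 (by norm_num) (by norm_num)
  have ho : D.X.off 0 1 τ = D.X.off 0 1 τ0 := by
    unfold JtCtx.off
    simp only [Finset.prod_range_one, jtC, jtD, mul_zero, zero_add, h01]
  rw [D.X.rd_off_succ, ho, D.X.rd_Kap_eq_Quo, show 2 * (n + 1) = 2 + 2 * n by ring]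
  simp only [D.X.rd_Jprod_two]
  simp only [jtC, jtD, mul_zero, add_zero, zero_add, h01]
  ring

/-- the sum over the degrees of `rd_G_ev` -/
theorem rd_A_ev (h : D.Ok) (k : ℕ) :
    ∑ n ∈ Icc 1 k, ((2 : ℝ) ^ n * (n ! : ℝ))⁻¹ * (n : ℝ) * D.G D.wP n 0
      = 2⁻¹ * D.X.sumK 1 1 D.X.tau1 fun τ0 => D.X.off 0 1 τ0 *
          D.X.evLt 2 τ0 (fun r τ => D.X.Quo r 2 0 1 τ) (fun σ => D.wP (τ0 0 1) (σ 0) (σ 1)) k := by
  unfold JtCtx.evLt
  simp only [Finset.mul_sum]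
  rw [h.law.sumK_sum, Finset.mul_sum]
  have e : Icc 1 k = (range k).map rdSucc := by
    ext x
    simp only [mem_Icc, mem_map, mem_range, rd_succ_apply]
    constructor
    · intro hx; exact ⟨x - 1, by omega, by omega⟩
    · rintro ⟨y, hy, rfl⟩; omega
  rw [e, Finset.sum_map]
  refine Finset.sum_congr rfl fun n _ => ?_
  rw [← rd_G_ev h, rd_succ_apply]
  congr 1
  have h1 : (((n + 1)! : ℕ) : ℝ) = ((n : ℝ) + 1) * (n ! : ℝ) := by rw [Nat.factorial_succ]; push_cast; ring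
  have h2 : ((n ! : ℕ) : ℝ) ≠ 0 := by positivity
  have h3 : ((n : ℝ) + 1) ≠ 0 := by positivity
  rw [h1]
  push_cast
  field_simp

/-- leaf RD10: the cancellation of `b Q^* 𝒟Q^*` (linearity of `nu`) -/
theorem rd_alg (h : D.Ok) (τ0 : JtTopo) :
    2⁻¹ * (D.X.nu 2 τ0 fun σ => D.wP (τ0 0 1) (σ 0) (σ 1) * D.X.Qs τ0 σ 0 1)
        - 4⁻¹ * (D.bd (τ0 0 1) * (D.X.nu 2 τ0 fun σ => D.X.Qs τ0 σ 0 1 ^ 2)
          + D.X.bC (τ0 0 1) * D.X.nu 2 τ0 fun σ => 2 * D.X.Qs τ0 σ 0 1 * (D.qd (τ0 0 1) - D.e * D.X.Dl τ0 σ 0 1))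
      = 2⁻¹ * D.hd (τ0 0 1) * (D.X.nu 2 τ0 fun σ => D.X.Qs τ0 σ 0 1)
        + 4⁻¹ * D.bd (τ0 0 1) * D.X.nu 2 τ0 fun σ => D.X.Qs τ0 σ 0 1 ^ 2 := by
  have e1 : (fun σ : ℕ → S => D.wP (τ0 0 1) (σ 0) (σ 1) * D.X.Qs τ0 σ 0 1)
      = fun σ => (D.hd (τ0 0 1) * D.X.Qs τ0 σ 0 1 + D.bd (τ0 0 1) * D.X.Qs τ0 σ 0 1 ^ 2)
          + D.X.bC (τ0 0 1) * (D.X.Qs τ0 σ 0 1 * (D.qd (τ0 0 1) - D.e * D.X.Dl τ0 σ 0 1)) := by
    funext σ
    simp only [wP, JtCtx.Dl, JtCtx.Qs]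
    ring
  have e2 : (fun σ : ℕ → S => 2 * D.X.Qs τ0 σ 0 1 * (D.qd (τ0 0 1) - D.e * D.X.Dl τ0 σ 0 1))
      = fun σ => 2 * (D.X.Qs τ0 σ 0 1 * (D.qd (τ0 0 1) - D.e * D.X.Dl τ0 σ 0 1)) := by
    funext σ; ring
  rw [e1, e2, h.law.nu.add, h.law.nu.add, h.law.nu.const_mul, h.law.nu.const_mul, h.law.nu.const_mul, h.law.nu.const_mul]
  ring

theorem rd_Icc_map (k : ℕ) : Icc 1 k = (range k).map rdSucc := by
  ext x
  simp only [mem_Icc, mem_map, mem_range, rd_succ_apply]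
  constructor
  · intro hx; exact ⟨x - 1, by omega, by omega⟩
  · rintro ⟨y, hy, rfl⟩; omega

/-- leaf RD11: the majorant of the remainders of (A7), summed over the pair `0`, is `errW`.
Route: `tr_absK_add` (`2 k + 1 = 1 + 2 k`), `tra2_absK_const_mul`, `tr_absK_congr`, reindexing `l ↦ l + 1`. -/
theorem rd_err_rem (h : D.Ok) (w : ℕ → ℝ) (k : ℕ) :
    (D.X.absK 1 1 D.X.tau1 fun τ0 => D.X.off 0 1 τ0 * (w (τ0 0 1) *
        D.X.absK (2 * k) 2 τ0 fun τ => D.X.off 2 k τ * D.X.nu (2 + 2 * k) τ fun σ => |D.X.Jprod 2 k τ σ|))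
      = D.X.errW w k := by
  unfold JtCtx.errW
  rw [show 2 * k + 1 = 1 + 2 * k by ring, h.law.absK_tower]
  refine h.law.absK_congr (JtCtx.Law.tau1_isTr D.X) fun τ0 hτ0 _ => ?_
  rw [← mul_assoc, ← h.law.absK_const_mul]
  refine h.law.absK_congr hτ0 fun τ hτ hag => ?_
  have h01 : τ 0 1 = τ0 0 1 := hag 0 1 (by norm_num) (by norm_num)
  have ho : D.X.off 0 1 τ = D.X.off 0 1 τ0 := by
    rw [D.X.rd_off_one, D.X.rd_off_one, h01]
  rw [D.X.rd_off_succ k τ, ho, h01, show 2 * k + 2 = 2 + 2 * k by ring]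
  have e : (fun σ => |D.X.Jprod 2 k τ σ|) = fun σ => ∏ i ∈ Icc 1 k, |D.X.J τ σ (jtC 0 i) (jtD 0 i)| := by
    funext σ
    rw [rd_Icc_map, Finset.prod_map, JtCtx.Jprod, Finset.abs_prod]
    refine Finset.prod_congr rfl fun i _ => ?_
    rw [rd_jtC_succ, rd_jtD_succ]
  rw [e]
  ring

theorem rd_abs_sp (b : Bool) : |jtSp b| = 1 := by
  unfold jtSp; split_ifs <;> simp

theorem rd_abs_Psi_le (h : D.Ok) (r q : ℕ) (τ : JtTopo) (B : Finset ℕ) : |D.X.Psi r q τ B| ≤ 1 := by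
  unfold JtCtx.Psi JtCtx.scM
  refine h.law.nuK.abs_le_const r τ fun t => ?_
  rw [Finset.prod_empty, one_mul, Finset.abs_prod]
  refine le_of_eq (Finset.prod_eq_one fun i _ => ?_)
  rw [abs_mul, rd_abs_sp, rd_abs_sp, one_mul]

theorem rd_erase_zero (k : ℕ) : (range (k + 1)).erase 0 = Icc 1 k := by
  ext x
  simp only [mem_erase, mem_range, mem_Icc]
  omega

/-- leaf RD12: the top term.  Route: `tr_sumK_le`, `jt_bounds`, `JtNuLaw.abs_le`, `tr_absK_mono`. -/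
theorem rd_top (k : ℕ) : ∃ C : ℝ, 0 ≤ C ∧ ∀ {S : Type} [Fintype S] [Inhabited S] (D : RdData S), D.Ok →
    |D.G D.wK (k + 1) 0| ≤ C * D.X.errW D.W k := by
  obtain ⟨C, hC⟩ := jt_bounds (k + 1)
  refine ⟨|C|, abs_nonneg _, fun {S} _ _ D h => ?_⟩
  unfold G JtCtx.errW
  refine (h.law.abs_sumK_le _ _ _ _).trans ?_
  rw [show 2 * (k + 1) - 1 = 2 * k + 1 by omega, ← h.law.absK_const_mul]
  refine h.law.absK_mono (JtCtx.Law.tau1_isTr D.X) fun τ hτ => ?_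
  have hK : |D.X.Kap (2 * (k + 1)) 0 τ (range (k + 1))| ≤ |C| :=
    ((hC _ (range (k + 1)) (fun B => rd_abs_Psi_le h _ _ _ B) (by simp)).2).trans (le_abs_self C)
  have hnn : 0 ≤ D.X.nu (2 * k + 2) τ fun σ => ∏ i ∈ Icc 1 k, |D.X.J τ σ (jtC 0 i) (jtD 0 i)| :=
    h.law.nu.nonneg _ _ fun σ => Finset.prod_nonneg fun i _ => abs_nonneg _
  have hν : |D.X.nu (2 * (k + 1)) τ fun σ => D.wK (τ (jtC 0 0) (jtD 0 0)) (σ (jtC 0 0)) (σ (jtD 0 0)) *
        ∏ l ∈ (range (k + 1)).erase 0, D.X.J τ σ (jtC 0 l) (jtD 0 l)|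
      ≤ D.W (τ 0 1) * D.X.nu (2 * k + 2) τ fun σ => ∏ i ∈ Icc 1 k, |D.X.J τ σ (jtC 0 i) (jtD 0 i)| := by
    refine (h.law.nu.abs_le _ _ _).trans ?_
    rw [← h.law.nu.const_mul, show 2 * (k + 1) = 2 * k + 2 by ring]
    refine h.law.nu.mono _ _ fun σ => ?_
    rw [abs_mul, Finset.abs_prod, rd_erase_zero]
    refine mul_le_mul_of_nonneg_right ?_ (Finset.prod_nonneg fun i _ => abs_nonneg _)
    simp only [wK, jtC, jtD, mul_zero, add_zero, zero_add, W]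
    have := abs_nonneg D.e; have := abs_nonneg (D.hd (τ 0 1)); have := abs_nonneg (D.bd (τ 0 1)); have := abs_nonneg (D.qd (τ 0 1))
    linarith
  have ho := JtCtx.Law.off_nonneg D.X 0 (k + 1) τ
  rw [abs_mul, abs_mul, abs_of_nonneg ho]
  calc D.X.off 0 (k + 1) τ * |D.X.Kap (2 * (k + 1)) 0 τ (range (k + 1))| * _
      ≤ D.X.off 0 (k + 1) τ * |C| * (D.W (τ 0 1) * D.X.nu (2 * k + 2) τ fun σ => ∏ i ∈ Icc 1 k, |D.X.J τ σ (jtC 0 i) (jtD 0 i)|) :=
        mul_le_mul (mul_le_mul_of_nonneg_left hK ho) hν (abs_nonneg _) (mul_nonneg ho (abs_nonneg _))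
    _ = _ := by ring

/-- **(A9) as an IDENTITY** (EXPORTED; consumer LL 09 TRD): the only non-algebraic step which remains is (A7) at `q = 2` for the test `wP`. -/
theorem rd_ident (h : D.Ok) (k : ℕ) :
    D.D1 - D.D2 k - D.X.detR D.Kd
      = 2⁻¹ * (D.X.sumK 1 1 D.X.tau1 fun τ0 => D.X.off 0 1 τ0 *
          ((D.X.nu 2 τ0 fun σ => D.wP (τ0 0 1) (σ 0) (σ 1) * D.X.Qs τ0 σ 0 1)
            - D.X.evLt 2 τ0 (fun r τ => D.X.Quo r 2 0 1 τ) (fun σ => D.wP (τ0 0 1) (σ 0) (σ 1)) k))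
        - ((2 : ℝ) ^ (k + 1) * (k ! : ℝ))⁻¹ * D.G D.wK (k + 1) 0 := by
  have hD2 : D.D2 k = 2⁻¹ * (D.X.sumK 1 1 D.X.tau1 fun τ0 => D.X.off 0 1 τ0 *
        D.X.evLt 2 τ0 (fun r τ => D.X.Quo r 2 0 1 τ) (fun σ => D.wP (τ0 0 1) (σ 0) (σ 1)) k)
      - D.X.detR D.Kd + ((2 : ℝ) ^ (k + 1) * (k ! : ℝ))⁻¹ * D.G D.wK (k + 1) 0 - 4⁻¹ * D.Qd := by
    unfold D2
    have e : ∀ n ∈ Icc 1 k, ((2 : ℝ) ^ n * (n ! : ℝ))⁻¹ * (D.Kp n + ∑ i ∈ range n, D.G D.wD n i)
        = ((2 : ℝ) ^ n * (n ! : ℝ))⁻¹ * (2⁻¹ * D.G D.wK (n + 1) 0 + (n : ℝ) * (D.G D.wP n 0 - D.G D.wK n 0)) := by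
      intro n hn
      have hn1 := (mem_Icc.1 hn).1
      rw [rd_Kp h hn1, rd_sym h _ (Nat.lt_succ_self n),
        Finset.sum_congr rfl fun i hi => (rd_sym h _ (mem_range.1 hi)).trans (rd_G_sub h n 0),
        Finset.sum_const, card_range, nsmul_eq_mul]
    rw [Finset.sum_congr rfl e, rd_tele (fun n => D.G D.wP n 0) (fun n => D.G D.wK n 0), rd_A_ev h, rd_det h]
  have hD1 : D.D1 = 2⁻¹ * (D.X.sumK 1 1 D.X.tau1 fun τ0 => D.X.off 0 1 τ0 *
      D.X.nu 2 τ0 fun σ => D.wP (τ0 0 1) (σ 0) (σ 1) * D.X.Qs τ0 σ 0 1) - 4⁻¹ * D.Qd := by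
    unfold D1 Qd
    rw [← h.law.sumK_const_mul, ← h.law.sumK_const_mul, ← h.law.sumK_sub]
    congr 1
    funext τ0
    rw [← rd_alg h τ0]
    ring
  rw [hD1, hD2]
  simp only [mul_sub]
  rw [h.law.sumK_sub]
  ring

omit [Fintype S] [Inhabited S] in
theorem rd_W_nonneg (D : RdData S) (t : ℕ) : 0 ≤ D.W t := by unfold W; positivity

theorem rd_errW_nonneg (h : D.Ok) (k : ℕ) : 0 ≤ D.X.errW D.W k :=
  h.law.absK_nonneg _ _ _ fun _ => mul_nonneg (mul_nonneg (JtCtx.Law.off_nonneg _ _ _ _) (rd_W_nonneg D _))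
    (h.law.nu.nonneg _ _ fun _ => Finset.prod_nonneg fun _ _ => abs_nonneg _)

theorem rd_errW0_nonneg (h : D.Ok) : 0 ≤ D.X.errW0 D.W :=
  h.law.absK_nonneg _ _ _ fun _ => mul_nonneg (JtCtx.Law.off_nonneg _ _ _ _) (rd_W_nonneg D _)

/-- **(A9), abstract form** (GLUE).  `CA` = the constant of (A7) at `q = 2`, `Ck` = the constant of `rd_top`, `nn` = number of sites. -/
theorem rd_main (h : D.Ok) (k : ℕ) (M0 CA nn Ck : ℝ) (hb : ∀ t, |D.X.bC t| ≤ M0) (hCA : 0 ≤ CA) (hnn : 0 < nn) (hCk : 0 ≤ Ck)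
    (htop : |D.G D.wK (k + 1) 0| ≤ Ck * D.X.errW D.W k)
    (a7 : ∀ τ0 : JtTopo, IsTr D.X.N 2 τ0 → τ0 0 1 ≤ D.X.N → ∀ α β : ℝ,
      D.X.A7 2 τ0 (fun σ => α + β * D.X.Qs τ0 σ 0 1) 0 1 k CA (CA * (|α| + |β|) / nn)) :
    |D.D1 - D.D2 k - D.X.detR D.Kd| ≤ (CA * (1 + 2 * M0) + Ck) * (D.X.errW D.W k + D.X.errW0 D.W / nn) := by
  rw [rd_ident h k]
  have hM0 : 0 ≤ M0 := (abs_nonneg _).trans (hb 0)
  have hE1 := rd_errW_nonneg h k
  have hE0 := rd_errW0_nonneg h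
  have key : |D.X.sumK 1 1 D.X.tau1 fun τ0 => D.X.off 0 1 τ0 *
      ((D.X.nu 2 τ0 fun σ => D.wP (τ0 0 1) (σ 0) (σ 1) * D.X.Qs τ0 σ 0 1)
        - D.X.evLt 2 τ0 (fun r τ => D.X.Quo r 2 0 1 τ) (fun σ => D.wP (τ0 0 1) (σ 0) (σ 1)) k)|
      ≤ CA * (1 + 2 * M0) * (D.X.errW D.W k + D.X.errW0 D.W / nn) := by
    refine (h.law.abs_sumK_le _ _ _ _).trans ?_
    have step : (D.X.absK 1 1 D.X.tau1 fun τ0 => |D.X.off 0 1 τ0 *
        ((D.X.nu 2 τ0 fun σ => D.wP (τ0 0 1) (σ 0) (σ 1) * D.X.Qs τ0 σ 0 1)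
          - D.X.evLt 2 τ0 (fun r τ => D.X.Quo r 2 0 1 τ) (fun σ => D.wP (τ0 0 1) (σ 0) (σ 1)) k)|)
        ≤ D.X.absK 1 1 D.X.tau1 fun τ0 => (CA * (1 + 2 * M0)) * (D.X.off 0 1 τ0 * (D.W (τ0 0 1) *
              D.X.absK (2 * k) 2 τ0 fun τ => D.X.off 2 k τ * D.X.nu (2 + 2 * k) τ fun σ => |D.X.Jprod 2 k τ σ|))
            + (CA * (1 + 2 * M0) / nn) * (D.X.off 0 1 τ0 * D.W (τ0 0 1)) := by
      refine h.law.absK_mono (JtCtx.Law.tau1_isTr D.X) fun τ0 hτ0 => ?_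
      rw [D.X.rd_off_one]
      by_cases hle : τ0 0 1 ≤ D.X.N
      · rw [if_pos hle, one_mul, one_mul, one_mul]
        set t := τ0 0 1 with ht
        set α : ℝ := D.hd t + D.X.bC t * (D.qd t + D.e * D.X.qC t) with hα
        set β : ℝ := D.bd t - D.X.bC t * D.e with hβ
        have hP : (fun σ : ℕ → S => D.wP t (σ 0) (σ 1)) = fun σ => α + β * D.X.Qs τ0 σ 0 1 := by
          funext σ
          simp only [wP, JtCtx.Qs, hα, hβ, ← ht]
          ring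
        have hq : |D.X.qC t| ≤ 1 := h.law.abs_qC_le hτ0
        have hbt := hb t
        have hαβ : |α| + |β| ≤ (1 + 2 * M0) * D.W t := by
          have h1 : |α| ≤ |D.hd t| + M0 * (|D.qd t| + |D.e|) := by
            refine (abs_add_le _ _).trans (add_le_add le_rfl ?_)
            rw [abs_mul]
            refine mul_le_mul hbt ((abs_add_le _ _).trans (add_le_add le_rfl ?_)) (abs_nonneg _) hM0
            rw [abs_mul]
            exact mul_le_of_le_one_right (abs_nonneg _) hq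
          have h2 : |β| ≤ |D.bd t| + M0 * |D.e| := by
            refine (abs_sub _ _).trans (add_le_add le_rfl ?_)
            rw [abs_mul]
            exact mul_le_mul_of_nonneg_right hbt (abs_nonneg _)
          unfold W
          nlinarith [abs_nonneg (D.e), abs_nonneg (D.hd t), abs_nonneg (D.bd t), abs_nonneg (D.Kd t), abs_nonneg (D.qd t),
            mul_nonneg hM0 (abs_nonneg (D.e)), mul_nonneg hM0 (abs_nonneg (D.hd t)), mul_nonneg hM0 (abs_nonneg (D.bd t)),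
            mul_nonneg hM0 (abs_nonneg (D.Kd t)), mul_nonneg hM0 (abs_nonneg (D.qd t))]
        have hPb : ∀ σ : ℕ → S, |α + β * D.X.Qs τ0 σ 0 1| ≤ (1 + 2 * M0) * D.W t := fun σ => by
          refine le_trans ((abs_add_le _ _).trans (add_le_add le_rfl ?_)) hαβ
          rw [abs_mul]
          exact mul_le_of_le_one_right (abs_nonneg _) (h.law.abs_Qs_le _ _ _ _)
        have hrem : D.X.rem 2 τ0 (fun σ => α + β * D.X.Qs τ0 σ 0 1) k
            ≤ (1 + 2 * M0) * D.W t * D.X.absK (2 * k) 2 τ0 fun τ => D.X.off 2 k τ * D.X.nu (2 + 2 * k) τ fun σ => |D.X.Jprod 2 k τ σ| := by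
          unfold JtCtx.rem
          rw [← h.law.absK_const_mul]
          refine h.law.absK_mono hτ0 fun τ _ => ?_
          rw [mul_left_comm]
          refine mul_le_mul_of_nonneg_left ?_ (JtCtx.Law.off_nonneg _ _ _ _)
          rw [← h.law.nu.const_mul]
          exact h.law.nu.mono _ _ fun σ => mul_le_mul_of_nonneg_right (hPb σ) (abs_nonneg _)
        have h7 := a7 τ0 hτ0 hle α β
        unfold JtCtx.A7 at h7
        have hP' : (fun σ : ℕ → S => D.wP t (σ 0) (σ 1) * D.X.Qs τ0 σ 0 1)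
            = fun σ => (fun σ => α + β * D.X.Qs τ0 σ 0 1) σ * D.X.Qs τ0 σ 0 1 := by
          funext σ; rw [congrFun hP σ]
        rw [hP, hP']
        refine h7.trans ?_
        have h8 : CA * (|α| + |β|) / nn ≤ CA * (1 + 2 * M0) / nn * D.W t := by
          rw [div_mul_eq_mul_div, mul_assoc]
          exact div_le_div_of_nonneg_right (mul_le_mul_of_nonneg_left hαβ hCA) hnn.le
        have h9 := mul_le_mul_of_nonneg_left hrem hCA
        calc _ ≤ _ := add_le_add h9 h8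
          _ = _ := by ring
      · rw [if_neg hle]; simp
    refine step.trans (le_of_eq ?_)
    rw [h.law.absK_add, h.law.absK_const_mul, h.law.absK_const_mul, rd_err_rem h]
    unfold JtCtx.errW0
    ring
  have hc : |((2 : ℝ) ^ (k + 1) * (k ! : ℝ))⁻¹ * D.G D.wK (k + 1) 0| ≤ Ck * D.X.errW D.W k := by
    rw [abs_mul]
    refine le_trans (mul_le_of_le_one_left (abs_nonneg _) ?_) htop
    rw [abs_of_nonneg (by positivity)]
    refine inv_le_one_of_one_le₀ ?_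
    have h1 : (1 : ℝ) ≤ (2 : ℝ) ^ (k + 1) := one_le_pow₀ (by norm_num)
    have h2 : (1 : ℝ) ≤ (k ! : ℝ) := by exact_mod_cast Nat.succ_le_of_lt (Nat.factorial_pos k)
    nlinarith
  have hE : 0 ≤ D.X.errW0 D.W / nn := div_nonneg hE0 hnn.le
  have hA : 0 ≤ CA * (1 + 2 * M0) := by positivity
  calc _ ≤ |2⁻¹ * (D.X.sumK 1 1 D.X.tau1 fun τ0 => D.X.off 0 1 τ0 *
          ((D.X.nu 2 τ0 fun σ => D.wP (τ0 0 1) (σ 0) (σ 1) * D.X.Qs τ0 σ 0 1)
            - D.X.evLt 2 τ0 (fun r τ => D.X.Quo r 2 0 1 τ) (fun σ => D.wP (τ0 0 1) (σ 0) (σ 1)) k))|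
        + |((2 : ℝ) ^ (k + 1) * (k ! : ℝ))⁻¹ * D.G D.wK (k + 1) 0| := abs_sub _ _
    _ ≤ CA * (1 + 2 * M0) * (D.X.errW D.W k + D.X.errW0 D.W / nn) + Ck * D.X.errW D.W k := by
        refine add_le_add ?_ hc
        rw [abs_mul, abs_of_nonneg (by norm_num : (0 : ℝ) ≤ 2⁻¹)]
        have : 0 ≤ CA * (1 + 2 * M0) * (D.X.errW D.W k + D.X.errW0 D.W / nn) := by positivity
        linarith
    _ ≤ _ := by nlinarith [mul_nonneg hCk hE]

end RdData

end Claimed.Agent.R286
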