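-- OWNER helper73 (second head + adversary of LL 02; head helper93).
import Claimed.Agent.R286.L02.P73
import Claimed.Agent.R286.L02.Alloc
import Claimed.Agent.R286.L02.RowD
import Claimed.Agent.R286.Fd.TrB4
import Claimed.Agent.R286.Exit.LL02A4

/-!
# Row 286 (S0533), unit L02 : CHAIN RULE for differentiable families of clocks; THE INSTANCE of `RdData` ((A9))      (helper73; names `ll2_ch_*`, `ll2_ri_*`)

`Fd/TrC2`, `L02/Alloc` differentiate tree numbers and pressures along AFFINE families of variance increments.  The families of LL Lemma 2.4 are only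
differentiable at one point `ϑ₀` (within a set `I`), and their increments may vanish (boundary of the orthant).
ROUTE: chord from `H ϑ₀` to `H ϑ` (affine, admissible), exact Taylor formula of order 2 along the chord (`ll_al_taylor`, `ll_al_press_taylor`), second order term
`≤ C |H ϑ - H ϑ₀|²` (`tr_taylor`), the first order term is LINEAR in `H ϑ - H ϑ₀`; squeeze (`ll2_ch_squeeze`).
-/

set_option autoImplicit false
set_option linter.unusedSectionVars false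

namespace Claimed.Agent.R286

open scoped BigOperators

/-! ### 0. squeeze -/

theorem ll2_ch_squeeze {f L G : ℝ → ℝ} {L' : ℝ} {I : Set ℝ} {t0 : ℝ} (h0 : t0 ∈ I)
    (hL : HasDerivWithinAt L L' I t0) (hG : HasDerivWithinAt G 0 I t0) (hG0 : G t0 = 0)
    (hb : ∀ t ∈ I, |f t - f t0 - L t| ≤ G t) : HasDerivWithinAt f L' I t0 := by
  have hL0 : L t0 = 0 := by
    have h := hb t0 h0
    rw [hG0, sub_self, zero_sub, abs_neg] at h
    exact abs_eq_zero.1 (le_antisymm h (abs_nonneg _))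
  have hR : HasDerivWithinAt (fun t => f t - f t0 - L t) 0 I t0 := by
    rw [hasDerivWithinAt_iff_isLittleO] at hG ⊢
    simp only [hG0, hL0, sub_self, sub_zero, smul_zero] at hG ⊢
    refine Asymptotics.IsBigO.trans_isLittleO ?_ hG
    refine Asymptotics.IsBigO.of_bound 1 ?_
    filter_upwards [self_mem_nhdsWithin] with t ht
    rw [one_mul, Real.norm_eq_abs, Real.norm_eq_abs]
    exact (hb t ht).trans (le_abs_self _)
  have h2 := (hR.add hL).add_const (f t0)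
  rw [zero_add] at h2
  refine h2.congr_of_eventuallyEq ?_ ?_
  · exact Filter.Eventually.of_forall fun t => by simp
  · simp

/-! ### 1. chords -/

section chain
variable {S Φ ι : Type} [Fintype S] [Fintype Φ] [Fintype ι] [Inhabited S]

/-- variance increment number `j` of the block `r` (`0` outside the list) -/
def ll2V (H : List (ℝ × (Φ → ℝ))) (j : ℕ) (r : Φ) : ℝ := (H[j]?.map fun h => h.2 r).getD 0

/-- mass of the stage `j` (`a` outside the list) -/
def ll2M (a : ℝ) (H : List (ℝ × (Φ → ℝ))) (j : ℕ) : ℝ := (H[j]?.map Prod.fst).getD a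

/-- admissible list of (mass, variance increments) -/
def Ll2Adm (a : ℝ) (H : List (ℝ × (Φ → ℝ))) : Prop :=
  (H.map Prod.fst).Pairwise (· ≤ ·) ∧ ∀ h ∈ H, (0 ≤ h.1 ∧ h.1 ≤ a) ∧ ∀ r, 0 ≤ h.2 r

/-- the chord: affine family from `H0` to `H1` -/
def ll2Chord (H0 H1 : List (ℝ × (Φ → ℝ))) : List (ℝ × (Φ → ℝ) × (Φ → ℝ)) :=
  List.zipWith (fun x y => (x.1, x.2, fun r => y.2 r - x.2 r)) H0 H1

theorem ll2_ch_len {H0 H1 : List (ℝ × (Φ → ℝ))} (hm : H1.map Prod.fst = H0.map Prod.fst) : H1.length = H0.length := by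
  have := congrArg List.length hm
  simpa using this

theorem ll2_ch_chord_len {H0 H1 : List (ℝ × (Φ → ℝ))} (hm : H1.map Prod.fst = H0.map Prod.fst) :
    (ll2Chord H0 H1).length = H0.length := by
  unfold ll2Chord
  rw [List.length_zipWith, ll2_ch_len hm, min_self]

theorem ll2_ch_fst {H0 H1 : List (ℝ × (Φ → ℝ))} (hm : H1.map Prod.fst = H0.map Prod.fst) (j : ℕ) (h0 : j < H0.length)
    (h1 : j < H1.length) : (H1[j]).1 = (H0[j]).1 := by
  have h : (H1.map Prod.fst)[j]'(by simpa using h1) = (H0.map Prod.fst)[j]'(by simpa using h0) := by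
    simp only [hm]
  simpa using h

theorem ll2_ch_aff_zero {H0 H1 : List (ℝ × (Φ → ℝ))} (hm : H1.map Prod.fst = H0.map Prod.fst) :
    gcAff (ll2Chord H0 H1) 0 = H0 := by
  apply List.ext_getElem
  · simp [gcAff, ll2_ch_chord_len hm]
  · intro j h1 h2
    simp [gcAff, ll2Chord]

theorem ll2_ch_aff_one {H0 H1 : List (ℝ × (Φ → ℝ))} (hm : H1.map Prod.fst = H0.map Prod.fst) :
    gcAff (ll2Chord H0 H1) 1 = H1 := by
  apply List.ext_getElem
  · simp [gcAff, ll2_ch_chord_len hm, ll2_ch_len hm]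
  · intro j h1 h2
    have h0 : j < H0.length := by rw [← ll2_ch_len hm]; exact h2
    simp only [gcAff, ll2Chord, List.getElem_map, List.getElem_zipWith, one_mul, add_sub_cancel]
    exact Prod.ext (ll2_ch_fst hm j h0 h2).symm rfl

theorem ll2_ch_ms (a : ℝ) {H0 H1 : List (ℝ × (Φ → ℝ))} (hm : H1.map Prod.fst = H0.map Prod.fst) :
    gcMs a (ll2Chord H0 H1) = ll2M a H0 := by
  funext j
  unfold gcMs ll2M
  by_cases hj : j < H0.length
  · have h1 : j < H1.length := by rw [ll2_ch_len hm]; exact hj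
    have hc : j < (ll2Chord H0 H1).length := by rw [ll2_ch_chord_len hm]; exact hj
    rw [List.getElem?_eq_getElem hc, List.getElem?_eq_getElem hj]
    simp [ll2Chord]
  · have hc : ¬ j < (ll2Chord H0 H1).length := by rw [ll2_ch_chord_len hm]; exact hj
    rw [List.getElem?_eq_none (not_lt.1 hc), List.getElem?_eq_none (not_lt.1 hj)]
    rfl

theorem ll2_ch_adm {a : ℝ} {H0 H1 : List (ℝ × (Φ → ℝ))} (hm : H1.map Prod.fst = H0.map Prod.fst) (h0 : Ll2Adm a H0)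
    (h1 : Ll2Adm a H1) : GcAffAdm a (ll2Chord H0 H1) := by
  refine ⟨?_, ?_⟩
  · have e : (ll2Chord H0 H1).map Prod.fst = H0.map Prod.fst := by
      apply List.ext_getElem
      · simp [ll2_ch_chord_len hm]
      · intro j _ _
        simp [ll2Chord]
    rw [e]; exact h0.1
  · intro h hh
    obtain ⟨j, hj, rfl⟩ := List.getElem_of_mem hh
    have hj0 : j < H0.length := by rw [← ll2_ch_chord_len hm]; exact hj
    have hj1 : j < H1.length := by rw [ll2_ch_len hm]; exact hj0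
    simp only [ll2Chord, List.getElem_zipWith, add_sub_cancel]
    exact ⟨(h0.2 _ (List.getElem_mem hj0)).1, fun r => ⟨(h0.2 _ (List.getElem_mem hj0)).2 r, (h1.2 _ (List.getElem_mem hj1)).2 r⟩⟩

theorem ll2_ch_dK (feat : Φ → S → ι → ℝ) {H0 H1 : List (ℝ × (Φ → ℝ))} (hm : H1.map Prod.fst = H0.map Prod.fst) (j : ℕ) (s t : S) :
    gcDK feat (ll2Chord H0 H1) j s t = ∑ r, (ll2V H1 j r - ll2V H0 j r) * gcKer feat r s t := by
  unfold gcDK ll2V
  refine Finset.sum_congr rfl fun r _ => ?_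
  congr 1
  by_cases hj : j < H0.length
  · have h1 : j < H1.length := by rw [ll2_ch_len hm]; exact hj
    have hc : j < (ll2Chord H0 H1).length := by rw [ll2_ch_chord_len hm]; exact hj
    rw [List.getElem?_eq_getElem hc, List.getElem?_eq_getElem hj, List.getElem?_eq_getElem h1]
    simp [ll2Chord]
  · have hc : ¬ j < (ll2Chord H0 H1).length := by rw [ll2_ch_chord_len hm]; exact hj
    have h1 : ¬ j < H1.length := by rw [ll2_ch_len hm]; exact hj
    rw [List.getElem?_eq_none (not_lt.1 hc), List.getElem?_eq_none (not_lt.1 hj), List.getElem?_eq_none (not_lt.1 h1)]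
    simp

/-! ### 2. the insertion as a linear function of the block weights -/

/-- the OFF-DIAGONAL insertion with the block weights `w j r` -/
def ll2Ins (feat : Φ → S → ι → ℝ) (w : ℕ → Φ → ℝ) (N t : ℕ) (s s' : S) : ℝ :=
  llVo (fun j s t => ∑ r, w j r * gcKer feat r s t) N t s s'

/-- the diagonal term with the block weights `w j r` -/
def ll2Dg (feat : Φ → S → ι → ℝ) (w : ℕ → Φ → ℝ) (N : ℕ) : ℝ :=
  ∑ j ∈ Finset.range N, ∑ r, w j r * gcKer feat r default default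

/-- `ℓ¹` size of the weights -/
def ll2Sz (w : ℕ → Φ → ℝ) (N : ℕ) : ℝ := ∑ x ∈ Finset.range N ×ˢ (Finset.univ : Finset Φ), |w x.1 x.2|

theorem ll2_ch_ins_deriv (feat : Φ → S → ι → ℝ) {I : Set ℝ} {t0 : ℝ} (w : ℝ → ℕ → Φ → ℝ) (wd : ℕ → Φ → ℝ)
    (h : ∀ j r, HasDerivWithinAt (fun ϑ => w ϑ j r) (wd j r) I t0) (N t : ℕ) (s s' : S) :
    HasDerivWithinAt (fun ϑ => ll2Ins feat (w ϑ) N t s s') (ll2Ins feat wd N t s s') I t0 := by
  unfold ll2Ins llVo trV
  split_ifs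
  · exact HasDerivWithinAt.fun_sum fun j _ => HasDerivWithinAt.fun_sum fun r _ => (h j r).mul_const _
  · exact hasDerivWithinAt_const _ _ _

theorem ll2_ch_dg_deriv (feat : Φ → S → ι → ℝ) {I : Set ℝ} {t0 : ℝ} (w : ℝ → ℕ → Φ → ℝ) (wd : ℕ → Φ → ℝ)
    (h : ∀ j r, HasDerivWithinAt (fun ϑ => w ϑ j r) (wd j r) I t0) (N : ℕ) :
    HasDerivWithinAt (fun ϑ => ll2Dg feat (w ϑ) N) (ll2Dg feat wd N) I t0 := by
  unfold ll2Dg
  exact HasDerivWithinAt.fun_sum fun j _ => HasDerivWithinAt.fun_sum fun r _ => (h j r).mul_const _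

theorem ll2_ch_sz_nonneg (w : ℕ → Φ → ℝ) (N : ℕ) : 0 ≤ ll2Sz w N :=
  Finset.sum_nonneg fun _ _ => abs_nonneg _

theorem ll2_ch_trV_le (feat : Φ → S → ι → ℝ) {κ : ℝ} (hκ : ∀ r s s', |gcKer feat r s s'| ≤ κ) (w : ℕ → Φ → ℝ) (N t : ℕ) (s s' : S) :
    |trV (fun j s t => ∑ r, w j r * gcKer feat r s t) N t s s'| ≤ κ * ll2Sz w N := by
  unfold trV ll2Sz
  rw [Finset.sum_product, Finset.mul_sum]
  simp only [Finset.mul_sum]
  calc |∑ j ∈ Finset.range (min t N), ∑ r, w j r * gcKer feat r s s'|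
      ≤ ∑ j ∈ Finset.range (min t N), ∑ r, κ * |w j r| := by
        refine (Finset.abs_sum_le_sum_abs _ _).trans (Finset.sum_le_sum fun j _ => ?_)
        refine (Finset.abs_sum_le_sum_abs _ _).trans (Finset.sum_le_sum fun r _ => ?_)
        rw [abs_mul, mul_comm]
        exact mul_le_mul_of_nonneg_right (hκ r s s') (abs_nonneg _)
    _ ≤ ∑ j ∈ Finset.range N, ∑ r, κ * |w j r| := by
        refine Finset.sum_le_sum_of_subset_of_nonneg ?_ fun j _ _ => Finset.sum_nonneg fun r _ =>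
          mul_nonneg ((abs_nonneg _).trans (hκ r s s')) (abs_nonneg _)
        intro j hj
        rw [Finset.mem_range] at hj ⊢
        exact lt_of_lt_of_le hj (min_le_right _ _)

/-! ### 3. second order estimates along a chord -/

theorem ll2_ch_diagC (feat : Φ → S → ι → ℝ) (hdiag : ∀ r s s', gcKer feat r s s = gcKer feat r s' s')
    {H0 H1 : List (ℝ × (Φ → ℝ))} (hm : H1.map Prod.fst = H0.map Prod.fst) : LlDiagC feat (ll2Chord H0 H1) := by
  intro j s s'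
  rw [ll2_ch_dK feat hm, ll2_ch_dK feat hm]
  exact Finset.sum_congr rfl fun r _ => by rw [hdiag r s s']

theorem ll2_ch_dK_fun (feat : Φ → S → ι → ℝ) {H0 H1 : List (ℝ × (Φ → ℝ))} (hm : H1.map Prod.fst = H0.map Prod.fst) :
    gcDK feat (ll2Chord H0 H1) = fun j s t => ∑ r, (ll2V H1 j r - ll2V H0 j r) * gcKer feat r s t := by
  funext j s t
  exact ll2_ch_dK feat hm j s t

/-- tree numbers: first order expansion along the chord, quadratic error -/
theorem ll2_ch_nu_est {B : GhB S} (hB : B.Ok) (feat : Φ → S → ι → ℝ) (hdiag : ∀ r s s', gcKer feat r s s = gcKer feat r s' s')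
    {κ : ℝ} (hκ : ∀ r s s', |gcKer feat r s s'| ≤ κ) {H0 H1 : List (ℝ × (Φ → ℝ))} (hm : H1.map Prod.fst = H0.map Prod.fst)
    (h0 : Ll2Adm B.a H0) (h1 : Ll2Adm B.a H1) {q : ℕ} (hq : 0 < q) {τ : ℕ → ℕ → ℕ} (hτ : IsTr H0.length q τ) (z : S → ℝ)
    (P : (ℕ → S) → ℝ) (hP : TrUses q P) {K : ℝ} (hK : ∀ σ, |P σ| ≤ K) :
    |trNu B (gcLs feat H1) q τ z P - trNu B (gcLs feat H0) q τ z P
        - 1 / 2 * trSumK (ll2M B.a H0) H0.length 2 q τ fun τ₂ => trNu B (gcLs feat H0) (q + 2) τ₂ z fun σ =>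
            P σ * ll2Ins feat (fun j r => ll2V H1 j r - ll2V H0 j r) H0.length (τ₂ q (q + 1)) (σ q) (σ (q + 1))|
      ≤ (2 * B.a ^ 2) ^ 2 * (∏ i ∈ Finset.range (2 * 2), ((q : ℝ) + i))
          * (κ * ll2Sz (fun j r => ll2V H1 j r - ll2V H0 j r) H0.length) ^ 2 * K := by
  have hhs := ll2_ch_adm hm h0 h1
  have hd := ll2_ch_diagC feat hdiag hm
  have hlen := ll2_ch_chord_len hm
  have hτ' : IsTr (ll2Chord H0 H1).length q τ := by rw [hlen]; exact hτ
  have T := ll_al_taylor hB feat hhs hd hq hτ' z P hP 1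
  have e0 : llDer B feat (ll2Chord H0 H1) z q τ P 0 0 = trNu B (gcLs feat H0) q τ z P := by
    simp [llDer, gcNu, trSumK, llVp, ll2_ch_aff_zero hm]
  have e1 : llDer B feat (ll2Chord H0 H1) z q τ P 1 0
      = 1 / 2 * trSumK (ll2M B.a H0) H0.length 2 q τ fun τ₂ => trNu B (gcLs feat H0) (q + 2) τ₂ z fun σ =>
            P σ * ll2Ins feat (fun j r => ll2V H1 j r - ll2V H0 j r) H0.length (τ₂ q (q + 1)) (σ q) (σ (q + 1)) := by
    simp only [llDer, gcNu, ll2_ch_aff_zero hm, ll2_ch_ms B.a hm, hlen, pow_one, mul_one, llVp, Finset.prod_range_one,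
      mul_zero, add_zero, ll2_ch_dK_fun feat hm, ll2Ins]
  have eL : gcNu B feat (ll2Chord H0 H1) 1 q τ z P = trNu B (gcLs feat H1) q τ z P := by
    simp only [gcNu, ll2_ch_aff_one hm]
  rw [eL, Finset.sum_range_succ, Finset.sum_range_one, e0, e1] at T
  have hM : ∀ t s s', |trV (gcDK feat (ll2Chord H0 H1)) (ll2Chord H0 H1).length t s s'|
      ≤ κ * ll2Sz (fun j r => ll2V H1 j r - ll2V H0 j r) H0.length := by
    intro t s s'
    rw [ll2_ch_dK_fun feat hm, hlen]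
    exact ll2_ch_trV_le feat hκ _ _ t s s'
  have hI := intervalIntegral.norm_integral_le_of_norm_le_const (a := (0 : ℝ)) (b := 1)
    (f := fun θ => (1 - θ) ^ 1 / ((Nat.factorial 1 : ℕ) : ℝ) * llDer B feat (ll2Chord H0 H1) z q τ P (1 + 1) θ)
    (C := (2 * B.a ^ 2) ^ 2 * (∏ i ∈ Finset.range (2 * 2), ((q : ℝ) + i))
          * (κ * ll2Sz (fun j r => ll2V H1 j r - ll2V H0 j r) H0.length) ^ 2 * K) (fun θ hθ => by
      rw [Set.uIoc_of_le zero_le_one] at hθ
      have hθ' : θ ∈ Set.Icc (0 : ℝ) 1 := ⟨hθ.1.le, hθ.2⟩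
      have hb := tr_taylor hB feat hhs hτ' z P hP _ K hM hK 2 hθ'
      rw [ll_al_cov_iter hB feat hhs hd hq hτ' z P hP 2 hθ'] at hb
      have hc : |(1 - θ) ^ 1 / ((Nat.factorial 1 : ℕ) : ℝ)| ≤ 1 := by
        simp only [pow_one, Nat.factorial_one, Nat.cast_one, div_one]
        rw [abs_le]; constructor <;> linarith [hθ.1, hθ.2]
      rw [Real.norm_eq_abs, abs_mul]
      calc _ ≤ 1 * _ := mul_le_mul hc hb (abs_nonneg _) zero_le_one
        _ = _ := one_mul _)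
  rw [sub_zero, abs_one, mul_one, Real.norm_eq_abs] at hI
  refine le_trans (le_of_eq ?_) hI
  congr 1
  rw [T]
  simp only [Nat.factorial_zero, Nat.factorial_one, Nat.cast_one, inv_one, one_mul]
  ring

/-! ### 4. the chain rule for tree numbers -/

theorem ll2_ch_bdd {q : ℕ} {P : (ℕ → S) → ℝ} (hP : TrUses q P) : ∃ K : ℝ, ∀ σ, |P σ| ≤ K := by
  refine ⟨∑ s : Fin q → S, |P (trExt s)|, fun σ => ?_⟩
  have e : P σ = P (trExt fun i : Fin q => σ i.1) := hP _ _ fun i hi => by simp [trExt, hi]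
  rw [e]
  exact Finset.single_le_sum (f := fun s : Fin q → S => |P (trExt s)|) (fun _ _ => abs_nonneg _) (Finset.mem_univ _)

theorem ll2_ch_ker_bdd (feat : Φ → S → ι → ℝ) : ∃ κ : ℝ, ∀ r s s', |gcKer feat r s s'| ≤ κ := by
  refine ⟨∑ x : Φ × S × S, |gcKer feat x.1 x.2.1 x.2.2|, fun r s s' => ?_⟩
  exact Finset.single_le_sum (f := fun x : Φ × S × S => |gcKer feat x.1 x.2.1 x.2.2|) (fun _ _ => abs_nonneg _)
    (Finset.mem_univ (r, s, s'))

theorem ll2_ch_ghAdm {B : GhB S} (feat : Φ → S → ι → ℝ) {H : List (ℝ × (Φ → ℝ))} (h : Ll2Adm B.a H) : GhAdm B 0 (gcLs feat H) := by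
  refine ⟨?_, ?_⟩
  · unfold gcLs
    rw [List.pairwise_map]
    have := h.1
    rw [List.pairwise_map] at this
    exact this
  · intro l hl
    unfold gcLs at hl
    obtain ⟨x, hx, rfl⟩ := List.mem_map.1 hl
    exact (h.2 x hx).1

/-- `(∑ |w|)² ≤ card * ∑ w²` -/
theorem ll2_ch_sz_sq (w : ℕ → Φ → ℝ) (N : ℕ) :
    ll2Sz w N ^ 2 ≤ ((Finset.range N ×ˢ (Finset.univ : Finset Φ)).card : ℝ) *
      ∑ x ∈ Finset.range N ×ˢ (Finset.univ : Finset Φ), w x.1 x.2 ^ 2 := by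
  have h := sq_sum_le_card_mul_sum_sq (s := Finset.range N ×ˢ (Finset.univ : Finset Φ)) (f := fun x => |w x.1 x.2|)
  simp only [sq_abs] at h
  exact h

/-- the quadratic majorant has derivative `0` -/
theorem ll2_ch_G_deriv {I : Set ℝ} {t0 : ℝ} (v : ℝ → ℕ → Φ → ℝ) (vd : ℕ → Φ → ℝ)
    (h : ∀ j r, HasDerivWithinAt (fun ϑ => v ϑ j r) (vd j r) I t0) (C : ℝ) (N : ℕ) :
    HasDerivWithinAt (fun ϑ => C * ∑ x ∈ Finset.range N ×ˢ (Finset.univ : Finset Φ), (v ϑ x.1 x.2 - v t0 x.1 x.2) ^ 2) 0 I t0 := by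
  have h1 : HasDerivWithinAt (fun ϑ => C * ∑ x ∈ Finset.range N ×ˢ (Finset.univ : Finset Φ), (v ϑ x.1 x.2 - v t0 x.1 x.2) ^ 2)
      (C * ∑ x ∈ Finset.range N ×ˢ (Finset.univ : Finset Φ), (2 : ℕ) * (v t0 x.1 x.2 - v t0 x.1 x.2) ^ (2 - 1) * vd x.1 x.2) I t0 :=
    (HasDerivWithinAt.fun_sum fun x _ => ((h x.1 x.2).sub_const (v t0 x.1 x.2)).pow 2).const_mul C
  refine h1.congr_deriv ?_
  simp

/-- **CHAIN RULE for tree numbers**: a family of variance increments on fixed masses which is differentiable at `t0` within `I` -/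
theorem ll2_ch_nu {B : GhB S} (hB : B.Ok) (feat : Φ → S → ι → ℝ) (hdiag : ∀ r s s', gcKer feat r s s = gcKer feat r s' s')
    {I : Set ℝ} {t0 : ℝ} (ht0 : t0 ∈ I) (H : ℝ → List (ℝ × (Φ → ℝ))) (vd : ℕ → Φ → ℝ)
    (hmass : ∀ t ∈ I, (H t).map Prod.fst = (H t0).map Prod.fst) (hadm : ∀ t ∈ I, Ll2Adm B.a (H t))
    (hder : ∀ j r, HasDerivWithinAt (fun t => ll2V (H t) j r) (vd j r) I t0)
    {q : ℕ} (hq : 0 < q) {τ : ℕ → ℕ → ℕ} (hτ : IsTr (H t0).length q τ) (z : S → ℝ) (P : (ℕ → S) → ℝ) (hP : TrUses q P) :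
    HasDerivWithinAt (fun t => trNu B (gcLs feat (H t)) q τ z P)
      (1 / 2 * trSumK (ll2M B.a (H t0)) (H t0).length 2 q τ fun τ₂ => trNu B (gcLs feat (H t0)) (q + 2) τ₂ z fun σ =>
        P σ * ll2Ins feat vd (H t0).length (τ₂ q (q + 1)) (σ q) (σ (q + 1))) I t0 := by
  obtain ⟨K, hK⟩ := ll2_ch_bdd hP
  obtain ⟨κ, hκ⟩ := ll2_ch_ker_bdd feat
  have hK0 : 0 ≤ K := (abs_nonneg _).trans (hK fun _ => default)
  have law : JtNuLaw (H t0).length fun q τ T => trNu B (gcLs feat (H t0)) q τ z T :=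
    ll2_law_tr hB (ll2_ch_ghAdm feat (hadm t0 ht0)) z (by simp [gcLs])
  have hw : ∀ j r, HasDerivWithinAt (fun t => ll2V (H t) j r - ll2V (H t0) j r) (vd j r) I t0 :=
    fun j r => (hder j r).sub_const _
  refine ll2_ch_squeeze ht0
    (L := fun t => 1 / 2 * trSumK (ll2M B.a (H t0)) (H t0).length 2 q τ fun τ₂ => trNu B (gcLs feat (H t0)) (q + 2) τ₂ z fun σ =>
        P σ * ll2Ins feat (fun j r => ll2V (H t) j r - ll2V (H t0) j r) (H t0).length (τ₂ q (q + 1)) (σ q) (σ (q + 1)))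
    (G := fun t => ((2 * B.a ^ 2) ^ 2 * (∏ i ∈ Finset.range (2 * 2), ((q : ℝ) + i)) * K * κ ^ 2 *
        ((Finset.range (H t0).length ×ˢ (Finset.univ : Finset Φ)).card : ℝ)) *
        ∑ x ∈ Finset.range (H t0).length ×ˢ (Finset.univ : Finset Φ), (ll2V (H t) x.1 x.2 - ll2V (H t0) x.1 x.2) ^ 2)
    ?_ (ll2_ch_G_deriv (fun t => ll2V (H t)) vd hder _ _) (by simp) ?_
  · refine HasDerivWithinAt.const_mul _ ?_
    refine tcb_sumK_hasDeriv 2 hτ
      (fun t τ₂ => trNu B (gcLs feat (H t0)) (q + 2) τ₂ z fun σ =>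
        P σ * ll2Ins feat (fun j r => ll2V (H t) j r - ll2V (H t0) j r) (H t0).length (τ₂ q (q + 1)) (σ q) (σ (q + 1))) _
      fun τ' _ => ?_
    exact law.hasDerivWithinAt (q + 2) τ'
      (fun t σ => P σ * ll2Ins feat (fun j r => ll2V (H t) j r - ll2V (H t0) j r) (H t0).length (τ' q (q + 1)) (σ q) (σ (q + 1)))
      _ fun σ => (ll2_ch_ins_deriv feat (fun t j r => ll2V (H t) j r - ll2V (H t0) j r) vd hw _ _ _ _).const_mul (P σ)
  · intro t ht
    refine (ll2_ch_nu_est hB feat hdiag hκ (hmass t ht) (hadm t0 ht0) (hadm t ht) hq hτ z P hP hK).trans ?_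
    have h2 := ll2_ch_sz_sq (fun j r => ll2V (H t) j r - ll2V (H t0) j r) (H t0).length
    have hc : 0 ≤ (2 * B.a ^ 2) ^ 2 * (∏ i ∈ Finset.range (2 * 2), ((q : ℝ) + i)) * K * κ ^ 2 := by positivity
    calc (2 * B.a ^ 2) ^ 2 * (∏ i ∈ Finset.range (2 * 2), ((q : ℝ) + i))
          * (κ * ll2Sz (fun j r => ll2V (H t) j r - ll2V (H t0) j r) (H t0).length) ^ 2 * K
        = ((2 * B.a ^ 2) ^ 2 * (∏ i ∈ Finset.range (2 * 2), ((q : ℝ) + i)) * K * κ ^ 2)
          * ll2Sz (fun j r => ll2V (H t) j r - ll2V (H t0) j r) (H t0).length ^ 2 := by ring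
      _ ≤ ((2 * B.a ^ 2) ^ 2 * (∏ i ∈ Finset.range (2 * 2), ((q : ℝ) + i)) * K * κ ^ 2)
          * (((Finset.range (H t0).length ×ˢ (Finset.univ : Finset Φ)).card : ℝ) *
            ∑ x ∈ Finset.range (H t0).length ×ˢ (Finset.univ : Finset Φ), (ll2V (H t) x.1 x.2 - ll2V (H t0) x.1 x.2) ^ 2) :=
          mul_le_mul_of_nonneg_left h2 hc
      _ = _ := by ring

/-! ### 5. the chain rule for the continuation (total pressure) -/

theorem ll2_ch_Vo_le {dK : ℕ → S → S → ℝ} {N : ℕ} {M : ℝ} (hM : ∀ t s s', |trV dK N t s s'| ≤ M) (t : ℕ) (s s' : S) :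
    |llVo dK N t s s'| ≤ M := by
  unfold llVo
  split_ifs
  · exact hM t s s'
  · rw [abs_zero]; exact (abs_nonneg _).trans (hM t s s')

/-- continuation: first order expansion along the chord, quadratic error -/
theorem ll2_ch_F_est {B : GhB S} (hB : B.Ok) (feat : Φ → S → ι → ℝ) (hdiag : ∀ r s s', gcKer feat r s s = gcKer feat r s' s')
    {κ : ℝ} (hκ : ∀ r s s', |gcKer feat r s s'| ≤ κ) {H0 H1 : List (ℝ × (Φ → ℝ))} (hm : H1.map Prod.fst = H0.map Prod.fst)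
    (h0 : Ll2Adm B.a H0) (h1 : Ll2Adm B.a H1) (z : S → ℝ) :
    |ghF B (gcLs feat H1) z - ghF B (gcLs feat H0) z
        - (B.a / 2 * ll2Dg feat (fun j r => ll2V H1 j r - ll2V H0 j r) H0.length
          + 1 / 2 * trSumK (ll2M B.a H0) H0.length 1 1 (fun _ _ => H0.length + 1) fun τ₂ => trNu B (gcLs feat H0) 2 τ₂ z fun σ =>
            ll2Ins feat (fun j r => ll2V H1 j r - ll2V H0 j r) H0.length (τ₂ 0 1) (σ 0) (σ 1))|
      ≤ (1 / 2) ^ (1 + 1) * ((2 * B.a) ^ (2 * 1 + 1) * (∏ i ∈ Finset.range (2 * 1 + 1), (((1 : ℕ) : ℝ) + i))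
          * (κ * ll2Sz (fun j r => ll2V H1 j r - ll2V H0 j r) H0.length) ^ 2) := by
  have hhs := ll2_ch_adm hm h0 h1
  have hd := ll2_ch_diagC feat hdiag hm
  have hlen := ll2_ch_chord_len hm
  have T := ll_al_press_taylor hB feat hhs hd z 1
  have eg : llDg feat (ll2Chord H0 H1) = ll2Dg feat (fun j r => ll2V H1 j r - ll2V H0 j r) H0.length := by
    simp only [llDg, ll2Dg, hlen, ll2_ch_dK_fun feat hm]
  have e1 : llFc B feat (ll2Chord H0 H1) z 1
      = ghF B (gcLs feat H1) z - B.a / 2 * ll2Dg feat (fun j r => ll2V H1 j r - ll2V H0 j r) H0.length := by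
    simp only [llFc, ll2_ch_aff_one hm, eg, one_mul]
  have e0 : llFc B feat (ll2Chord H0 H1) z 0 = ghF B (gcLs feat H0) z := by
    simp only [llFc, ll2_ch_aff_zero hm, zero_mul, mul_zero, sub_zero]
  have eD : llDerF B feat (ll2Chord H0 H1) z 0 0
      = 1 / 2 * trSumK (ll2M B.a H0) H0.length 1 1 (fun _ _ => H0.length + 1) fun τ₂ => trNu B (gcLs feat H0) 2 τ₂ z fun σ =>
            ll2Ins feat (fun j r => ll2V H1 j r - ll2V H0 j r) H0.length (τ₂ 0 1) (σ 0) (σ 1) := by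
    have hV : ∀ (dK : ℕ → S → S → ℝ) (N : ℕ) (τ' : ℕ → ℕ → ℕ),
        llVp dK N 0 1 τ' = fun σ => llVo dK N (τ' 0 1) (σ 0) (σ 1) := by
      intro dK N τ'
      funext σ
      simp [llVp]
    simp only [llDerF, gcNu, ll2_ch_aff_zero hm, ll2_ch_ms B.a hm, hlen, zero_add, pow_one, mul_zero, hV,
      ll2_ch_dK_fun feat hm, ll2Ins]
  rw [e1, e0, Finset.sum_range_one, eD] at T
  have hM : ∀ t s s', |trV (gcDK feat (ll2Chord H0 H1)) (ll2Chord H0 H1).length t s s'|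
      ≤ κ * ll2Sz (fun j r => ll2V H1 j r - ll2V H0 j r) H0.length := by
    intro t s s'
    rw [ll2_ch_dK_fun feat hm, hlen]
    exact ll2_ch_trV_le feat hκ _ _ t s s'
  obtain ⟨hms, hmsN⟩ := tr_c3_isMs hB feat hhs
  have hI := intervalIntegral.norm_integral_le_of_norm_le_const (a := (0 : ℝ)) (b := 1)
    (f := fun θ => (1 - θ) ^ 1 / ((Nat.factorial 1 : ℕ) : ℝ) * llDerF B feat (ll2Chord H0 H1) z 1 θ)
    (C := (1 / 2) ^ (1 + 1) * ((2 * B.a) ^ (2 * 1 + 1) * (∏ i ∈ Finset.range (2 * 1 + 1), (((1 : ℕ) : ℝ) + i))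
          * (κ * ll2Sz (fun j r => ll2V H1 j r - ll2V H0 j r) H0.length) ^ 2)) (fun θ hθ => by
      rw [Set.uIoc_of_le zero_le_one] at hθ
      have hc : |(1 - θ) ^ 1 / ((Nat.factorial 1 : ℕ) : ℝ)| ≤ 1 := by
        simp only [pow_one, Nat.factorial_one, Nat.cast_one, div_one]
        rw [abs_le]; constructor <;> linarith [hθ.1, hθ.2]
      have hb : |llDerF B feat (ll2Chord H0 H1) z 1 θ| ≤ (1 / 2) ^ (1 + 1) * ((2 * B.a) ^ (2 * 1 + 1) *
          (∏ i ∈ Finset.range (2 * 1 + 1), (((1 : ℕ) : ℝ) + i))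
          * (κ * ll2Sz (fun j r => ll2V H1 j r - ll2V H0 j r) H0.length) ^ 2) := by
        unfold llDerF
        rw [abs_mul, abs_of_nonneg (by positivity : (0 : ℝ) ≤ (1 / 2) ^ (1 + 1))]
        refine mul_le_mul_of_nonneg_left ?_ (by positivity)
        refine (tr_sumK_le _ _).trans ?_
        have h2 := tr_absK_le (ll_al_isTr_one (ll2Chord H0 H1).length) hms (2 * 1 + 1)
          (fun τ' => gcNu B feat (ll2Chord H0 H1) θ (2 * 1 + 2) τ' z
            (llVp (gcDK feat (ll2Chord H0 H1)) (ll2Chord H0 H1).length 0 (1 + 1) τ'))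
          ((κ * ll2Sz (fun j r => ll2V H1 j r - ll2V H0 j r) H0.length) ^ 2) (fun τ' _ =>
            tr_c3_abs_le hB feat hhs θ _ _ z _ _ fun σ => by
              unfold llVp
              rw [Finset.abs_prod]
              calc ∏ i ∈ Finset.range (1 + 1), |llVo (gcDK feat (ll2Chord H0 H1)) (ll2Chord H0 H1).length
                    (τ' (0 + 2 * i) (0 + 2 * i + 1)) (σ (0 + 2 * i)) (σ (0 + 2 * i + 1))|
                  ≤ ∏ _i ∈ Finset.range (1 + 1), (κ * ll2Sz (fun j r => ll2V H1 j r - ll2V H0 j r) H0.length) :=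
                    Finset.prod_le_prod (fun _ _ => abs_nonneg _) fun _ _ => ll2_ch_Vo_le hM _ _ _
                _ = _ := by simp)
        rw [hmsN] at h2
        exact h2
      rw [Real.norm_eq_abs, abs_mul]
      calc _ ≤ 1 * _ := mul_le_mul hc hb (abs_nonneg _) zero_le_one
        _ = _ := one_mul _)
  rw [sub_zero, abs_one, mul_one, Real.norm_eq_abs] at hI
  refine le_trans (le_of_eq ?_) hI
  congr 1
  simp only [zero_add, Nat.factorial_one, Nat.cast_one, inv_one, one_mul] at T ⊢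
  linarith

/-- **CHAIN RULE for the continuation** -/
theorem ll2_ch_F {B : GhB S} (hB : B.Ok) (feat : Φ → S → ι → ℝ) (hdiag : ∀ r s s', gcKer feat r s s = gcKer feat r s' s')
    {I : Set ℝ} {t0 : ℝ} (ht0 : t0 ∈ I) (H : ℝ → List (ℝ × (Φ → ℝ))) (vd : ℕ → Φ → ℝ)
    (hmass : ∀ t ∈ I, (H t).map Prod.fst = (H t0).map Prod.fst) (hadm : ∀ t ∈ I, Ll2Adm B.a (H t))
    (hder : ∀ j r, HasDerivWithinAt (fun t => ll2V (H t) j r) (vd j r) I t0) (z : S → ℝ) :
    HasDerivWithinAt (fun t => ghF B (gcLs feat (H t)) z)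
      (B.a / 2 * ll2Dg feat vd (H t0).length
        + 1 / 2 * trSumK (ll2M B.a (H t0)) (H t0).length 1 1 (fun _ _ => (H t0).length + 1) fun τ₂ =>
          trNu B (gcLs feat (H t0)) 2 τ₂ z fun σ => ll2Ins feat vd (H t0).length (τ₂ 0 1) (σ 0) (σ 1)) I t0 := by
  obtain ⟨κ, hκ⟩ := ll2_ch_ker_bdd feat
  have law : JtNuLaw (H t0).length fun q τ T => trNu B (gcLs feat (H t0)) q τ z T :=
    ll2_law_tr hB (ll2_ch_ghAdm feat (hadm t0 ht0)) z (by simp [gcLs])
  have hw : ∀ j r, HasDerivWithinAt (fun t => ll2V (H t) j r - ll2V (H t0) j r) (vd j r) I t0 :=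
    fun j r => (hder j r).sub_const _
  refine ll2_ch_squeeze ht0
    (L := fun t => B.a / 2 * ll2Dg feat (fun j r => ll2V (H t) j r - ll2V (H t0) j r) (H t0).length
        + 1 / 2 * trSumK (ll2M B.a (H t0)) (H t0).length 1 1 (fun _ _ => (H t0).length + 1) fun τ₂ =>
          trNu B (gcLs feat (H t0)) 2 τ₂ z fun σ =>
            ll2Ins feat (fun j r => ll2V (H t) j r - ll2V (H t0) j r) (H t0).length (τ₂ 0 1) (σ 0) (σ 1))
    (G := fun t => ((1 / 2) ^ (1 + 1) * ((2 * B.a) ^ (2 * 1 + 1) * (∏ i ∈ Finset.range (2 * 1 + 1), (((1 : ℕ) : ℝ) + i))) * κ ^ 2 *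
        ((Finset.range (H t0).length ×ˢ (Finset.univ : Finset Φ)).card : ℝ)) *
        ∑ x ∈ Finset.range (H t0).length ×ˢ (Finset.univ : Finset Φ), (ll2V (H t) x.1 x.2 - ll2V (H t0) x.1 x.2) ^ 2)
    ?_ (ll2_ch_G_deriv (fun t => ll2V (H t)) vd hder _ _) (by simp) ?_
  · refine HasDerivWithinAt.add ((ll2_ch_dg_deriv feat (fun t j r => ll2V (H t) j r - ll2V (H t0) j r) vd hw _).const_mul _) ?_
    refine HasDerivWithinAt.const_mul _ ?_
    refine tcb_sumK_hasDeriv 1 (ll_al_isTr_one (H t0).length)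
      (fun t τ₂ => trNu B (gcLs feat (H t0)) 2 τ₂ z fun σ =>
        ll2Ins feat (fun j r => ll2V (H t) j r - ll2V (H t0) j r) (H t0).length (τ₂ 0 1) (σ 0) (σ 1)) _
      fun τ' _ => ?_
    exact law.hasDerivWithinAt 2 τ'
      (fun t σ => ll2Ins feat (fun j r => ll2V (H t) j r - ll2V (H t0) j r) (H t0).length (τ' 0 1) (σ 0) (σ 1))
      _ fun σ => ll2_ch_ins_deriv feat (fun t j r => ll2V (H t) j r - ll2V (H t0) j r) vd hw _ _ _ _
  · intro t ht
    refine (ll2_ch_F_est hB feat hdiag hκ (hmass t ht) (hadm t0 ht0) (hadm t ht) z).trans ?_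
    have h2 := ll2_ch_sz_sq (fun j r => ll2V (H t) j r - ll2V (H t0) j r) (H t0).length
    have ha : 0 ≤ B.a := hB.pos.le
    have hc : 0 ≤ (1 / 2 : ℝ) ^ (1 + 1) * ((2 * B.a) ^ (2 * 1 + 1) * (∏ i ∈ Finset.range (2 * 1 + 1), (((1 : ℕ) : ℝ) + i))) * κ ^ 2 := by
      positivity
    calc (1 / 2 : ℝ) ^ (1 + 1) * ((2 * B.a) ^ (2 * 1 + 1) * (∏ i ∈ Finset.range (2 * 1 + 1), (((1 : ℕ) : ℝ) + i))
          * (κ * ll2Sz (fun j r => ll2V (H t) j r - ll2V (H t0) j r) (H t0).length) ^ 2)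
        = ((1 / 2 : ℝ) ^ (1 + 1) * ((2 * B.a) ^ (2 * 1 + 1) * (∏ i ∈ Finset.range (2 * 1 + 1), (((1 : ℕ) : ℝ) + i))) * κ ^ 2)
          * ll2Sz (fun j r => ll2V (H t) j r - ll2V (H t0) j r) (H t0).length ^ 2 := by ring
      _ ≤ ((1 / 2 : ℝ) ^ (1 + 1) * ((2 * B.a) ^ (2 * 1 + 1) * (∏ i ∈ Finset.range (2 * 1 + 1), (((1 : ℕ) : ℝ) + i))) * κ ^ 2)
          * (((Finset.range (H t0).length ×ˢ (Finset.univ : Finset Φ)).card : ℝ) *
            ∑ x ∈ Finset.range (H t0).length ×ˢ (Finset.univ : Finset Φ), (ll2V (H t) x.1 x.2 - ll2V (H t0) x.1 x.2) ^ 2) :=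
          mul_le_mul_of_nonneg_left h2 hc
      _ = _ := by ring

end chain

/-! ### 6. SK step paths -/

/-- the features of the SK model as blocks of size one -/
noncomputable def ll2Ft (n : ℕ) : SkDr n → SkCfg n → Unit → ℝ := fun x σ _ => skPhi n σ x

/-- coding of a step path: (mass, coordinate variances) -/
def ll2Sk (n : ℕ) (Q : SkStp) : List (ℝ × (SkDr n → ℝ)) := Q.map fun e => (e.m, Sum.elim (fun _ => e.db) fun _ => e.dh)

/-- kernel of the matrix feature (`= n R² / 2`) -/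
noncomputable def ll2KB {n : ℕ} (s t : SkCfg n) : ℝ := ∑ p : Fin n × Fin n, skPhi n s (Sum.inl p) * skPhi n t (Sum.inl p)

/-- kernel of the field feature (`= n R`) -/
noncomputable def ll2KH {n : ℕ} (s t : SkCfg n) : ℝ := ∑ i : Fin n, skPhi n s (Sum.inr i) * skPhi n t (Sum.inr i)

/-- block weights from cumulative clocks -/
def ll2Vd (n : ℕ) (Bd Hd : ℕ → ℝ) (j : ℕ) : SkDr n → ℝ := Sum.elim (fun _ => Bd (j + 1) - Bd j) fun _ => Hd (j + 1) - Hd j

/-- the off-diagonal insertion of the SK model with the dotted cumulative clocks `Bd, Hd` -/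
noncomputable def ll2SkIns {n : ℕ} (Bd Hd : ℕ → ℝ) (N t : ℕ) (s s' : SkCfg n) : ℝ :=
  if t ≤ N then (Bd t - Bd 0) * ll2KB s s' + (Hd t - Hd 0) * ll2KH s s' else 0

theorem ll2_sk_cov (n : ℕ) (e : SkInc) (s t : SkCfg n) :
    (e.lv n).cov s t = (gcLv (ll2Ft n) e.m (Sum.elim (fun _ => e.db) fun _ => e.dh)).cov s t := by
  unfold GhLv.cov SkInc.lv ghLvF gcLv ll2Ft
  rw [Fintype.sum_prod_type]
  simp

theorem ll2_sk_nu (n : ℕ) {a : ℝ} (ha : 0 < a) (Q : SkStp) (q : ℕ) (τ : ℕ → ℕ → ℕ) (z : SkCfg n → ℝ) (P : (ℕ → SkCfg n) → ℝ) :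
    trNu (skBase n a) (skLvs n Q) q τ z P = trNu (skBase n a) (gcLs (ll2Ft n) (ll2Sk n Q)) q τ z P := by
  apply tr_nu_cov_congr (ll2_law_base_ok n ha)
  · simp [skLvs, gcLs, ll2Sk]
  · intro j
    unfold trMs skLvs gcLs ll2Sk
    simp only [List.getElem?_map, Option.map_map]
    rfl
  · intro j h h' s t
    simp only [skLvs, gcLs, ll2Sk, List.getElem_map]
    exact ll2_sk_cov n _ s t

theorem ll2_sk_F (n : ℕ) {a : ℝ} (ha : 0 < a) (Q : SkStp) (z : SkCfg n → ℝ) :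
    ghF (skBase n a) (skLvs n Q) z = ghF (skBase n a) (gcLs (ll2Ft n) (ll2Sk n Q)) z := by
  apply gh_F_cov_congr (ll2_law_base_ok n ha)
  · simp [skLvs, gcLs, ll2Sk]
  · intro j
    unfold trMs skLvs gcLs ll2Sk
    simp only [List.getElem?_map, Option.map_map]
    rfl
  · intro j h h' s t
    simp only [skLvs, gcLs, ll2Sk, List.getElem_map]
    exact ll2_sk_cov n _ s t

theorem ll2_sk_ker (n : ℕ) (x : SkDr n) (s t : SkCfg n) : gcKer (ll2Ft n) x s t = skPhi n s x * skPhi n t x := by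
  simp [gcKer, ll2Ft]

theorem ll2_sk_sp_sq {n : ℕ} (σ : SkCfg n) (i : Fin n) : skSp σ i * skSp σ i = 1 := by
  unfold skSp Claims.C0461.pmSpin
  cases σ i <;> simp

theorem ll2_sk_diag (n : ℕ) (x : SkDr n) (s s' : SkCfg n) : gcKer (ll2Ft n) x s s = gcKer (ll2Ft n) x s' s' := by
  rw [ll2_sk_ker, ll2_sk_ker]
  cases x with
  | inl p =>
    simp only [skPhi, Sum.elim_inl]
    have h : ∀ σ : SkCfg n, skSp σ p.1 * skSp σ p.2 / Real.sqrt (2 * n) * (skSp σ p.1 * skSp σ p.2 / Real.sqrt (2 * n))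
        = 1 / (Real.sqrt (2 * n) * Real.sqrt (2 * n)) := by
      intro σ
      rw [div_mul_div_comm]
      congr 1
      calc skSp σ p.1 * skSp σ p.2 * (skSp σ p.1 * skSp σ p.2)
          = (skSp σ p.1 * skSp σ p.1) * (skSp σ p.2 * skSp σ p.2) := by ring
        _ = 1 := by rw [ll2_sk_sp_sq, ll2_sk_sp_sq, one_mul]
    rw [h, h]
  | inr i =>
    simp only [skPhi, Sum.elim_inr]
    rw [ll2_sk_sp_sq, ll2_sk_sp_sq]

theorem ll2_sk_cumB_succ (Q : SkStp) (j : ℕ) : skCumB Q (j + 1) = skCumB Q j + (Q[j]?.map SkInc.db).getD 0 := by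
  unfold skCumB
  rw [List.take_succ, List.map_append, List.sum_append]
  cases h : Q[j]? <;> simp

theorem ll2_sk_cumH_succ (Q : SkStp) (j : ℕ) : skCumH Q (j + 1) = skCumH Q j + (Q[j]?.map SkInc.dh).getD 0 := by
  unfold skCumH
  rw [List.take_succ, List.map_append, List.sum_append]
  cases h : Q[j]? <;> simp

theorem ll2_sk_V (n : ℕ) (Q : SkStp) (j : ℕ) (x : SkDr n) :
    ll2V (ll2Sk n Q) j x = ll2Vd n (skCumB Q) (skCumH Q) j x := by
  unfold ll2V ll2Sk ll2Vd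
  rw [ll2_sk_cumB_succ, ll2_sk_cumH_succ, List.getElem?_map, Option.map_map]
  cases x with
  | inl p => cases h : Q[j]? <;> simp
  | inr i => cases h : Q[j]? <;> simp

theorem ll2_sk_adm (n : ℕ) {a : ℝ} {Q : SkStp} (h : SkAdm a Q) : Ll2Adm a (ll2Sk n Q) := by
  refine ⟨?_, ?_⟩
  · unfold ll2Sk
    rw [List.map_map, List.pairwise_map]
    exact h.1
  · intro x hx
    unfold ll2Sk at hx
    obtain ⟨e, he, rfl⟩ := List.mem_map.1 hx
    obtain ⟨h1, h2, h3, h4⟩ := h.2 e he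
    refine ⟨⟨h1, h2⟩, fun r => ?_⟩
    cases r with
    | inl p => exact h3
    | inr i => exact h4

theorem ll2_sk_mass (n : ℕ) (Q : SkStp) : (ll2Sk n Q).map Prod.fst = Q.map SkInc.m := by
  unfold ll2Sk
  rw [List.map_map]
  rfl

theorem ll2_sk_len (n : ℕ) (Q : SkStp) : (ll2Sk n Q).length = Q.length := by simp [ll2Sk]

theorem ll2_sk_M (n : ℕ) (a : ℝ) (Q : SkStp) : ll2M a (ll2Sk n Q) = fun j => ((Q.map SkInc.m)[j]?).getD a := by
  funext j
  unfold ll2M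
  rw [← ll2_sk_mass n Q, List.getElem?_map]

theorem ll2_sk_ins (n : ℕ) (Bd Hd : ℕ → ℝ) (N t : ℕ) (s s' : SkCfg n) :
    ll2Ins (ll2Ft n) (ll2Vd n Bd Hd) N t s s' = ll2SkIns Bd Hd N t s s' := by
  unfold ll2Ins llVo trV ll2SkIns
  split_ifs with h
  · rw [min_eq_left h]
    have e : ∀ j, ∑ r, ll2Vd n Bd Hd j r * gcKer (ll2Ft n) r s s'
        = (Bd (j + 1) - Bd j) * ll2KB s s' + (Hd (j + 1) - Hd j) * ll2KH s s' := by
      intro j
      simp only [ll2_sk_ker, Fintype.sum_sum_type, ll2Vd, Sum.elim_inl, Sum.elim_inr, ll2KB, ll2KH, Finset.mul_sum]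
    simp only [e]
    rw [Finset.sum_add_distrib, ← Finset.sum_mul, ← Finset.sum_mul, Finset.sum_range_sub, Finset.sum_range_sub]
  · rfl

theorem ll2_sk_dg (n : ℕ) (Bd Hd : ℕ → ℝ) (N : ℕ) :
    ll2Dg (ll2Ft n) (ll2Vd n Bd Hd) N = (Bd N - Bd 0) * ll2KB (default : SkCfg n) default + (Hd N - Hd 0) * ll2KH (default : SkCfg n) default := by
  unfold ll2Dg
  have e : ∀ j, ∑ r, ll2Vd n Bd Hd j r * gcKer (ll2Ft n) r default default
      = (Bd (j + 1) - Bd j) * ll2KB (default : SkCfg n) default + (Hd (j + 1) - Hd j) * ll2KH (default : SkCfg n) default := by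
    intro j
    simp only [ll2_sk_ker, Fintype.sum_sum_type, ll2Vd, Sum.elim_inl, Sum.elim_inr, ll2KB, ll2KH, Finset.mul_sum]
  simp only [e]
  rw [Finset.sum_add_distrib, ← Finset.sum_mul, ← Finset.sum_mul, Finset.sum_range_sub, Finset.sum_range_sub]

theorem ll2_sk_Vd_deriv (n : ℕ) {I : Set ℝ} {t0 : ℝ} (Q : ℝ → SkStp) (Bd Hd : ℕ → ℝ)
    (hB : ∀ j, HasDerivWithinAt (fun t => skCumB (Q t) j) (Bd j) I t0)
    (hH : ∀ j, HasDerivWithinAt (fun t => skCumH (Q t) j) (Hd j) I t0) (j : ℕ) (x : SkDr n) :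
    HasDerivWithinAt (fun t => ll2V (ll2Sk n (Q t)) j x) (ll2Vd n Bd Hd j x) I t0 := by
  simp only [ll2_sk_V]
  cases x with
  | inl p => exact (hB (j + 1)).sub (hB j)
  | inr i => exact (hH (j + 1)).sub (hH j)

/-- **CHAIN RULE, SK tree numbers**: step paths on fixed masses whose cumulative clocks are differentiable at `t0` within `I` -/
theorem ll2_sk_ch_nu (n : ℕ) {a : ℝ} (ha : 0 < a) {I : Set ℝ} {t0 : ℝ} (ht0 : t0 ∈ I) (Q : ℝ → SkStp) (Bd Hd : ℕ → ℝ)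
    (hmass : ∀ t ∈ I, (Q t).map SkInc.m = (Q t0).map SkInc.m) (hadm : ∀ t ∈ I, SkAdm a (Q t))
    (hB : ∀ j, HasDerivWithinAt (fun t => skCumB (Q t) j) (Bd j) I t0)
    (hH : ∀ j, HasDerivWithinAt (fun t => skCumH (Q t) j) (Hd j) I t0)
    {q : ℕ} (hq : 0 < q) {τ : ℕ → ℕ → ℕ} (hτ : IsTr (Q t0).length q τ) (z : SkCfg n → ℝ) (P : (ℕ → SkCfg n) → ℝ) (hP : TrUses q P) :
    HasDerivWithinAt (fun t => trNu (skBase n a) (skLvs n (Q t)) q τ z P)
      (1 / 2 * trSumK (fun j => (((Q t0).map SkInc.m)[j]?).getD a) (Q t0).length 2 q τ fun τ₂ =>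
        trNu (skBase n a) (skLvs n (Q t0)) (q + 2) τ₂ z fun σ =>
          P σ * ll2SkIns Bd Hd (Q t0).length (τ₂ q (q + 1)) (σ q) (σ (q + 1))) I t0 := by
  have h := ll2_ch_nu (ll2_law_base_ok n ha) (ll2Ft n) (ll2_sk_diag n) ht0 (fun t => ll2Sk n (Q t)) (ll2Vd n Bd Hd)
    (fun t ht => by rw [ll2_sk_mass, ll2_sk_mass]; exact hmass t ht) (fun t ht => ll2_sk_adm n (hadm t ht))
    (ll2_sk_Vd_deriv n Q Bd Hd hB hH) hq (by rw [ll2_sk_len]; exact hτ) z P hP
  simp only [← ll2_sk_nu n ha, ll2_sk_len, ll2_sk_ins] at h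
  have hM : ll2M (skBase n a).a (ll2Sk n (Q t0)) = fun j => (((Q t0).map SkInc.m)[j]?).getD a := ll2_sk_M n a (Q t0)
  rw [hM] at h
  exact h

/-- **CHAIN RULE, SK continuation** -/
theorem ll2_sk_ch_F (n : ℕ) {a : ℝ} (ha : 0 < a) {I : Set ℝ} {t0 : ℝ} (ht0 : t0 ∈ I) (Q : ℝ → SkStp) (Bd Hd : ℕ → ℝ)
    (hmass : ∀ t ∈ I, (Q t).map SkInc.m = (Q t0).map SkInc.m) (hadm : ∀ t ∈ I, SkAdm a (Q t))
    (hB : ∀ j, HasDerivWithinAt (fun t => skCumB (Q t) j) (Bd j) I t0)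
    (hH : ∀ j, HasDerivWithinAt (fun t => skCumH (Q t) j) (Hd j) I t0) (z : SkCfg n → ℝ) :
    HasDerivWithinAt (fun t => skF n a (Q t) z)
      (a / 2 * ((Bd (Q t0).length - Bd 0) * ll2KB (default : SkCfg n) default
          + (Hd (Q t0).length - Hd 0) * ll2KH (default : SkCfg n) default)
        + 1 / 2 * trSumK (fun j => (((Q t0).map SkInc.m)[j]?).getD a) (Q t0).length 1 1 (fun _ _ => (Q t0).length + 1) fun τ₂ =>
          trNu (skBase n a) (skLvs n (Q t0)) 2 τ₂ z fun σ => ll2SkIns Bd Hd (Q t0).length (τ₂ 0 1) (σ 0) (σ 1)) I t0 := by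
  have h := ll2_ch_F (ll2_law_base_ok n ha) (ll2Ft n) (ll2_sk_diag n) ht0 (fun t => ll2Sk n (Q t)) (ll2Vd n Bd Hd)
    (fun t ht => by rw [ll2_sk_mass, ll2_sk_mass]; exact hmass t ht) (fun t ht => ll2_sk_adm n (hadm t ht))
    (ll2_sk_Vd_deriv n Q Bd Hd hB hH) z
  simp only [← ll2_sk_nu n ha, ← ll2_sk_F n ha, ll2_sk_len, ll2_sk_ins, ll2_sk_dg] at h
  have hM : ll2M (skBase n a).a (ll2Sk n (Q t0)) = fun j => (((Q t0).map SkInc.m)[j]?).getD a := ll2_sk_M n a (Q t0)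
  rw [hM] at h
  exact h

/-! ### 7. the scalar reference along a family of fine paths -/

theorem ll2_ri_sc_mass (P : LlStp) : (llSc P).map SkInc.m = P.map LlInc.m := by
  simp [llSc, Function.comp_def]

theorem ll2_ri_mv_mass (tl : Option ℕ) (P : LlStp) : (llMv tl P).map SkInc.m = P.map LlInc.m := by
  cases tl with
  | none => simp [llMv, llMat, Function.comp_def]
  | some js =>
    apply List.ext_getElem
    · simp [llMv, llMvAt]
    · intro i h1 h2
      simp [llMv, llMvAt]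

theorem ll2_ri_sc_cumB (P : LlStp) (j : ℕ) : skCumB (llSc P) j = 0 := by
  unfold skCumB llSc
  rw [← List.map_take, List.map_map]
  simp [Function.comp_def]

theorem ll2_ri_sc_cumH (P : LlStp) (j : ℕ) : skCumH (llSc P) j = llCumK P j := by
  unfold skCumH llSc llCumK
  rw [← List.map_take, List.map_map]
  rfl

theorem ll2_ri_len {a : ℝ} {I : Set ℝ} {t0 : ℝ} {P : ℝ → LlStp} {Pd : LlStp} (hF : LlFam a I t0 P Pd) {t : ℝ} (ht : t ∈ I) :
    (P t).length = (P t0).length := by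
  have := congrArg List.length (hF.mass t ht)
  simpa using this

theorem ll2_ri_KH_one (s s' : SkCfg 1) : ll2KH s s' = jtSp (s 0) * jtSp (s' 0) := by
  simp [ll2KH, skPhi, skSp, Claims.C0461.pmSpin, jtSp]

/-- formula (2) for the scalar reference: the derivative of `ν_K[R]` in the direction `K̇ = llCumK Pd` -/
noncomputable def ll2DK (a : ℝ) (P Pd : LlStp) (r : ℕ) (τ : ℕ → ℕ → ℕ) (R : (ℕ → Bool) → ℝ) : ℝ :=
  2⁻¹ * trSumK (llMs a P) P.length 2 r τ fun τ' =>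
    (if τ' r (r + 1) ≤ P.length then (1 : ℝ) else 0) * llCumK Pd (τ' r (r + 1)) *
      llNuS a P (r + 2) τ' fun t => R t * (jtSp (t r) * jtSp (t (r + 1)))

theorem ll2_ri_dnuK {a : ℝ} (ha : 0 < a) {I : Set ℝ} {t0 : ℝ} {P : ℝ → LlStp} {Pd : LlStp} (hF : LlFam a I t0 P Pd)
    {r : ℕ} (hr : 1 ≤ r) {τ : ℕ → ℕ → ℕ} (hτ : IsTr (P t0).length r τ) (R : (ℕ → Bool) → ℝ) (hR : TrUses r R) :
    HasDerivWithinAt (fun ϑ => llNuS a (P ϑ) r τ R) (ll2DK a (P t0) Pd r τ R) I t0 := by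
  have hlen : (llSc (P t0)).length = (P t0).length := by simp [llSc]
  have h := ll2_sk_ch_nu 1 ha hF.mem (fun t => llSc (P t)) (fun _ => 0) (fun j => llCumK Pd j)
    (fun t ht => by rw [ll2_ri_sc_mass, ll2_ri_sc_mass]; exact hF.mass t ht) (fun t ht => (hF.adm t ht).2)
    (fun j => by simp only [ll2_ri_sc_cumB]; exact hasDerivWithinAt_const _ _ _)
    (fun j => by simp only [ll2_ri_sc_cumH]; exact hF.dK j)
    (q := r) hr (τ := τ) (by rw [hlen]; exact hτ) 0 (fun σ => R fun x => σ x 0)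
    (fun σ σ' hσ => hR _ _ fun i hi => by rw [hσ i hi])
  refine h.congr_deriv ?_
  unfold ll2DK
  rw [hlen, ll2_ri_sc_mass]
  have e2 : (1 / 2 : ℝ) = 2⁻¹ := by norm_num
  rw [e2]
  congr 2
  funext τ'
  have hB := ll2_law_base_ok 1 ha
  have hA := ll2_law_adm 1 (hF.adm t0 hF.mem).2
  by_cases hc : τ' r (r + 1) ≤ (P t0).length
  · have e : (fun σ : ℕ → SkCfg 1 => R (fun x => σ x 0) *
        ll2SkIns (fun _ => 0) (fun j => llCumK Pd j) (P t0).length (τ' r (r + 1)) (σ r) (σ (r + 1)))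
        = fun σ => llCumK Pd (τ' r (r + 1)) * (R (fun x => σ x 0) * (jtSp (σ r 0) * jtSp (σ (r + 1) 0))) := by
      funext σ
      have h0 : llCumK Pd 0 = 0 := by simp [llCumK]
      simp only [ll2SkIns, if_pos hc, ll2_ri_KH_one, h0]
      ring
    rw [e, tcb_nu_mul_const hB hA, if_pos hc, one_mul]
    rfl
  · have e : (fun σ : ℕ → SkCfg 1 => R (fun x => σ x 0) *
        ll2SkIns (fun _ => 0) (fun j => llCumK Pd j) (P t0).length (τ' r (r + 1)) (σ r) (σ (r + 1))) = fun _ => 0 := by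
      funext σ
      simp only [ll2SkIns, if_neg hc, mul_zero]
    rw [e, tcb_nu_const hB hA, if_neg hc, zero_mul, zero_mul]

theorem ll2_ri_pair_isTr (N t : ℕ) (ht : t ≤ N + 1) : IsTr N 2 (trPair N t) where
  le := fun x y _ _ => by unfold trPair; split_ifs <;> omega
  diag := fun x _ => by simp [trPair]
  symm := fun x y _ _ => by
    unfold trPair
    by_cases h : x = y
    · rw [if_pos h, if_pos h.symm]
    · rw [if_neg h, if_neg (Ne.symm h)]
  ultra := fun x y z _ _ _ => by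
    unfold trPair
    by_cases h1 : x = z
    · rw [if_pos h1]
      split_ifs <;> simp <;> omega
    · rw [if_neg h1]
      by_cases h2 : x = y
      · have h3 : y ≠ z := fun h => h1 (h2.trans h)
        rw [if_neg h3]; exact min_le_right _ _
      · rw [if_neg h2]; exact min_le_left _ _

/-- the reference overlap does not see shared stages beyond the terminal draw -/
theorem ll2_ri_pair_min (a : ℝ) (P : LlStp) (t : ℕ) (T : (ℕ → Bool) → ℝ) :
    llNuS a P 2 (trPair P.length t) T = llNuS a P 2 (trPair P.length (min t (P.length + 1))) T := by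
  unfold llNuS trNu
  apply tb2_nu_rep_congr
  intro j hj
  have hj' : j ≤ P.length := by simpa [skLvs, llSc] using hj
  funext x
  unfold trRep
  congr 2
  funext b
  unfold trPair
  split_ifs
  · rfl
  · exact decide_eq_decide.2 (by omega)

/-- the derivative of the reference overlap `q = Γ(K)` at a pair which shares `t` stages -/
noncomputable def ll2Qd (a : ℝ) (P Pd : LlStp) (t : ℕ) : ℝ :=
  ll2DK a P Pd 2 (trPair P.length (min t (P.length + 1))) fun s => jtSp (s 0) * jtSp (s 1)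

theorem ll2_ri_dq {a : ℝ} (ha : 0 < a) {I : Set ℝ} {t0 : ℝ} {P : ℝ → LlStp} {Pd : LlStp} (hF : LlFam a I t0 P Pd) (t : ℕ) :
    HasDerivWithinAt (fun ϑ => llQs a (P ϑ) t) (ll2Qd a (P t0) Pd t) I t0 := by
  have h := ll2_ri_dnuK ha hF (r := 2) (by norm_num)
    (ll2_ri_pair_isTr (P t0).length (min t ((P t0).length + 1)) (min_le_right _ _)) (fun s => jtSp (s 0) * jtSp (s 1))
    (fun σ σ' hσ => by
      show jtSp (σ 0) * jtSp (σ 1) = jtSp (σ' 0) * jtSp (σ' 1)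
      rw [hσ 0 (by norm_num), hσ 1 (by norm_num)])
  have key : ∀ ϑ ∈ I, llQs a (P ϑ) t
      = llNuS a (P ϑ) 2 (trPair (P t0).length (min t ((P t0).length + 1))) fun s => jtSp (s 0) * jtSp (s 1) := by
    intro ϑ hϑ
    unfold llQs
    rw [ll2_ri_pair_min, ll2_ri_len hF hϑ]
  exact h.congr key (key t0 hF.mem)

/-! ### 8. the instance of `RdData` -/

/-- the data of (A9) for a family of fine paths -/
noncomputable def ll2Rd (n : ℕ) (a e : ℝ) (I : Set ℝ) (t0 : ℝ) (P : ℝ → LlStp) (Pd : LlStp) (tl : Option ℕ) : RdData (SkCfg n) where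
  X := llJs n a (P t0) tl
  Y := fun t => llJs n a (P t) tl
  ms := llMs a (P t0)
  I := I
  t0 := t0
  e := e
  bd := fun t => skCumB (llMat Pd) t
  hd := fun t => skCumH (llMat Pd) t
  Kd := fun t => llCumK Pd t
  qd := ll2Qd a (P t0) Pd

/-- **INSTANCE**: the hypotheses of the abstract (A9) -/
theorem ll2_ri_ok (n : ℕ) {a : ℝ} (ha : 0 < a) (e : ℝ) {I : Set ℝ} {t0 : ℝ} {P : ℝ → LlStp} {Pd : LlStp} (hF : LlFam a I t0 P Pd)
    (tl : Option ℕ) : (ll2Rd n a e I t0 P Pd tl).Ok where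
  law := ll2_law_js n ha (hF.adm t0 hF.mem) tl
  Y0 := rfl
  db := hF.db
  dh := hF.dh
  dK := hF.dK
  dq := ll2_ri_dq ha hF
  dnuK := fun _ _ R hr hτ hR => ll2_ri_dnuK ha hF hr hτ R hR

theorem ll2_sk_KH_eq {n : ℕ} (hn : 0 < n) (s t : SkCfg n) : ll2KH s t = n * skOv s t := by
  have hn' : (n : ℝ) ≠ 0 := Nat.cast_ne_zero.2 hn.ne'
  unfold ll2KH skOv
  simp only [skPhi, Sum.elim_inr]
  field_simp

theorem ll2_sk_KB_eq {n : ℕ} (hn : 0 < n) (s t : SkCfg n) : ll2KB s t = n * skOv s t ^ 2 / 2 := by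
  have hn' : (0 : ℝ) < n := Nat.cast_pos.2 hn
  have hs : Real.sqrt (2 * n) * Real.sqrt (2 * n) = 2 * n := Real.mul_self_sqrt (by positivity)
  unfold ll2KB skOv
  simp only [skPhi, Sum.elim_inl]
  have e : ∀ p : Fin n × Fin n, skSp s p.1 * skSp s p.2 / Real.sqrt (2 * n) * (skSp t p.1 * skSp t p.2 / Real.sqrt (2 * n))
      = (skSp s p.1 * skSp t p.1) * (skSp s p.2 * skSp t p.2) / (2 * n) := by
    intro p
    rw [div_mul_div_comm, hs]
    ring
  simp only [e]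
  rw [← Finset.sum_div, Fintype.sum_prod_type]
  dsimp only
  rw [← Finset.sum_mul_sum]
  field_simp

theorem ll2_sk_ov_self {n : ℕ} (hn : 0 < n) (s : SkCfg n) : skOv s s = 1 := by
  have hn' : (n : ℝ) ≠ 0 := Nat.cast_ne_zero.2 hn.ne'
  unfold skOv
  simp only [ll2_sk_sp_sq, Finset.sum_const, Finset.card_univ, Fintype.card_fin, nsmul_eq_mul, mul_one]
  exact div_self hn'

theorem ll2_sk_totB (Q : SkStp) : skTotB Q = skCumB Q Q.length := by simp [skTotB, skCumB]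

theorem ll2_sk_totH (Q : SkStp) : skTotH Q = skCumH Q Q.length := by simp [skTotH, skCumH]

/-- **the pressure derivative** of the ensemble `tl` along a family of fine paths, in the vocabulary of the jets -/
theorem ll2_ri_press {n : ℕ} (hn : 0 < n) {a : ℝ} (ha : 0 < a) (e : ℝ) {I : Set ℝ} {t0 : ℝ} {P : ℝ → LlStp} {Pd : LlStp}
    (hF : LlFam a I t0 P Pd) {tl : Option ℕ} (htl : ∀ ϑ ∈ I, LlTiltOk (P ϑ) tl) :
    HasDerivWithinAt (fun ϑ => skPr n a (llMv tl (P ϑ))) (ll2Rd n a e I t0 P Pd tl).D1 I t0 := by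
  have hn' : (n : ℝ) ≠ 0 := Nat.cast_ne_zero.2 hn.ne'
  have hlen : ∀ ϑ ∈ I, (llMv tl (P ϑ)).length = (P t0).length := fun ϑ hϑ => by
    rw [ll2_law_mv_length, ll2_ri_len hF hϑ]
  have hB : ∀ j, HasDerivWithinAt (fun t => skCumB (llMv tl (P t)) j) (llMk tl j * skCumB (llMat Pd) j) I t0 := fun j =>
    ((hF.db j).const_mul (llMk tl j)).congr (fun ϑ hϑ => (exit_a4_cum (htl ϑ hϑ) j).1) (exit_a4_cum (htl t0 hF.mem) j).1
  have hH : ∀ j, HasDerivWithinAt (fun t => skCumH (llMv tl (P t)) j) (skCumH (llMat Pd) j) I t0 := fun j =>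
    (hF.dh j).congr (fun ϑ hϑ => (exit_a4_cum (htl ϑ hϑ) j).2) (exit_a4_cum (htl t0 hF.mem) j).2
  have h1 := ll2_sk_ch_F n ha hF.mem (fun t => llMv tl (P t)) (fun j => llMk tl j * skCumB (llMat Pd) j)
    (fun j => skCumH (llMat Pd) j) (fun t ht => by rw [ll2_ri_mv_mass, ll2_ri_mv_mass]; exact hF.mass t ht)
    (fun t ht => ll2_law_mv_adm (hF.adm t ht) tl) hB hH 0
  have hTB : HasDerivWithinAt (fun t => skTotB (llMv tl (P t))) (llMk tl (P t0).length * skCumB (llMat Pd) (P t0).length) I t0 :=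
    (hB (P t0).length).congr (fun ϑ hϑ => by rw [ll2_sk_totB, hlen ϑ hϑ]) (by rw [ll2_sk_totB, hlen t0 hF.mem])
  have hTH : HasDerivWithinAt (fun t => skTotH (llMv tl (P t))) (skCumH (llMat Pd) (P t0).length) I t0 :=
    (hH (P t0).length).congr (fun ϑ hϑ => by rw [ll2_sk_totH, hlen ϑ hϑ]) (by rw [ll2_sk_totH, hlen t0 hF.mem])
  have h2 := (h1.div_const (n : ℝ)).sub (((hTB.div_const 4).add (hTH.div_const 2)).const_mul a)
  refine h2.congr_deriv ?_
  have hB0 : skCumB (llMat Pd) 0 = 0 := by simp [skCumB]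
  have hH0 : skCumH (llMat Pd) 0 = 0 := by simp [skCumH]
  rw [hlen t0 hF.mem, ll2_ri_mv_mass, ll2_sk_KB_eq hn, ll2_sk_KH_eq hn, ll2_sk_ov_self hn, hB0, hH0]
  have law := ll2_law_nu n ha (hF.adm t0 hF.mem) tl
  have hS : (trSumK (fun j => (((P t0).map LlInc.m)[j]?).getD a) (P t0).length 1 1 (fun _ _ => (P t0).length + 1) fun τ₂ =>
        trNu (skBase n a) (skLvs n (llMv tl (P t0))) 2 τ₂ 0 fun σ =>
          ll2SkIns (fun j => llMk tl j * skCumB (llMat Pd) j) (fun j => skCumH (llMat Pd) j) (P t0).length (τ₂ 0 1) (σ 0) (σ 1))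
      = 2 * n * (ll2Rd n a e I t0 P Pd tl).D1 := by
    unfold RdData.D1
    show _ = 2 * (n : ℝ) * trSumK (llMs a (P t0)) (P t0).length 1 1 (fun _ _ => (P t0).length + 1) _
    rw [tcb_sumK_mul_left]
    refine tr_sumK_congr (ll_al_isTr_one (P t0).length) 1 _ _ fun τ₂ hτ₂ _ => ?_
    have hoff : (ll2Rd n a e I t0 P Pd tl).X.off 0 1 τ₂ = if τ₂ 0 1 ≤ (P t0).length then 1 else 0 := by
      simp [JtCtx.off, jtC, jtD, ll2Rd, llJs]
    rw [hoff]
    by_cases hc : τ₂ 0 1 ≤ (P t0).length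
    · rw [if_pos hc, one_mul]
      have hflip := exit_a4_flip hn ha (hF.adm t0 hF.mem) (htl t0 hF.mem) hτ₂ (fun _ => 1) (fun _ _ _ => rfl)
        (i := 0) (j := 1) (by norm_num) (by norm_num)
      simp only [one_mul] at hflip
      have hsq : (fun σ : ℕ → SkCfg n => (llJs n a (P t0) tl).Qs τ₂ σ 0 1 ^ 2)
          = fun σ => llMk tl (τ₂ 0 1) * skOv (σ 0) (σ 1) ^ 2 := by
        funext σ
        show (llMk tl (τ₂ 0 1) * skOv (σ 0) (σ 1)) ^ 2 = _
        rcases ll2_law_msk tl (τ₂ 0 1) with h | h <;> rw [h] <;> ring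
      have e1 : (fun σ : ℕ → SkCfg n => ll2SkIns (fun j => llMk tl j * skCumB (llMat Pd) j) (fun j => skCumH (llMat Pd) j)
            (P t0).length (τ₂ 0 1) (σ 0) (σ 1))
          = fun σ => (llMk tl (τ₂ 0 1) * skCumB (llMat Pd) (τ₂ 0 1) * n / 2) * skOv (σ 0) (σ 1) ^ 2
              + (skCumH (llMat Pd) (τ₂ 0 1) * n) * skOv (σ 0) (σ 1) := by
        funext σ
        simp only [ll2SkIns, if_pos hc, ll2_sk_KB_eq hn, ll2_sk_KH_eq hn, hB0, hH0]
        ring
      have g1 : llNu n a (P t0) tl 2 τ₂ (fun σ => ll2SkIns (fun j => llMk tl j * skCumB (llMat Pd) j)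
            (fun j => skCumH (llMat Pd) j) (P t0).length (τ₂ 0 1) (σ 0) (σ 1))
          = (llMk tl (τ₂ 0 1) * skCumB (llMat Pd) (τ₂ 0 1) * n / 2) * llNu n a (P t0) tl 2 τ₂ (fun σ => skOv (σ 0) (σ 1) ^ 2)
            + (skCumH (llMat Pd) (τ₂ 0 1) * n) * llNu n a (P t0) tl 2 τ₂ (fun σ => skOv (σ 0) (σ 1)) := by
        rw [e1, law.add, law.const_mul, law.const_mul]
      have g2 : llNu n a (P t0) tl 2 τ₂ (fun σ => (llJs n a (P t0) tl).Qs τ₂ σ 0 1 ^ 2)
          = llMk tl (τ₂ 0 1) * llNu n a (P t0) tl 2 τ₂ (fun σ => skOv (σ 0) (σ 1) ^ 2) := by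
        rw [hsq, law.const_mul]
      refine g1.trans ?_
      show _ = 2 * (n : ℝ) * (2⁻¹ * skCumH (llMat Pd) (τ₂ 0 1) *
          llNu n a (P t0) tl 2 τ₂ (fun σ => (llJs n a (P t0) tl).Qs τ₂ σ 0 1)
        + 4⁻¹ * skCumB (llMat Pd) (τ₂ 0 1) * llNu n a (P t0) tl 2 τ₂ (fun σ => (llJs n a (P t0) tl).Qs τ₂ σ 0 1 ^ 2))
      rw [g2, ← hflip]
      ring
    · rw [if_neg hc, zero_mul, mul_zero]
      have e1 : (fun σ : ℕ → SkCfg n => ll2SkIns (fun j => llMk tl j * skCumB (llMat Pd) j) (fun j => skCumH (llMat Pd) j)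
            (P t0).length (τ₂ 0 1) (σ 0) (σ 1)) = fun _ => 0 := by
        funext σ
        simp only [ll2SkIns, if_neg hc]
      rw [e1]
      exact law.const 2 τ₂ 0
  rw [hS]
  field_simp
  ring

end Claimed.Agent.R286
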