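import Claimed.Agent.R286.L02.SzDefs
import Claimed.Agent.R286.L02.Alloc

/-!
# Row 286 (S0533), LL Lemma `found:size-increment` (T7), file GEN: Taylor expansion of the ROOT CONTINUATION along an affine family with CONSTANT DIAGONAL      (architect helper115; prefix `sz_g_`, `sz_sumK_`)

General finite state space, vocabulary of `Defs/Tr` + `Fd/TrA-C` (helper150).      EXIT: `sz_g_taylor`, `sz_g_abs`, `sz_g_gron`.
`F(1) - F(0) = a c_d / 2 + ∑_{r=1}^k S_r(0) / (2^r r!) + O(sup |S_{k+1}| / (2^{k+1} (k+1)!))`, `S_r` = per-root signed sum of `r` OFF-DIAGONAL insertions.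
PROVED (0 sorry; helper211) from `L02/Alloc.lean` (helper71: `ll_al_press`, `ll_al_step`; G1 = T1 is his `ll_al_cov`), hypothesis `LlDiagC` (every increment has a constant diagonal), and `tr_gronwall`.
-/

set_option autoImplicit false
set_option linter.unusedSectionVars false
set_option linter.unusedVariables false

namespace Claimed.Agent.R286

open scoped BigOperators Nat
open Set

/-! ### linearity of the signed sums -/

theorem sz_sumK_add (ms : ℕ → ℝ) (N k : ℕ) : ∀ (q : ℕ) (τ : ℕ → ℕ → ℕ) (Φ Ψ : (ℕ → ℕ → ℕ) → ℝ),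
    trSumK ms N k q τ (fun τ' => Φ τ' + Ψ τ') = trSumK ms N k q τ Φ + trSumK ms N k q τ Ψ := by
  induction k with
  | zero => intro q τ Φ Ψ; rfl
  | succ k ih =>
    intro q τ Φ Ψ
    simp only [trSumK, trSum, ih, mul_add, Finset.sum_add_distrib]

theorem sz_sumK_const_mul (ms : ℕ → ℝ) (N k : ℕ) (c : ℝ) : ∀ (q : ℕ) (τ : ℕ → ℕ → ℕ) (Φ : (ℕ → ℕ → ℕ) → ℝ),
    trSumK ms N k q τ (fun τ' => c * Φ τ') = c * trSumK ms N k q τ Φ := by
  induction k with
  | zero => intro q τ Φ; rfl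
  | succ k ih =>
    intro q τ Φ
    simp only [trSumK, trSum, ih, Finset.mul_sum]
    refine Finset.sum_congr rfl fun x _ => Finset.sum_congr rfl fun j _ => by ring

theorem sz_sumK_zero (ms : ℕ → ℝ) (N k q : ℕ) (τ : ℕ → ℕ → ℕ) : trSumK ms N k q τ (fun _ => 0) = 0 := by
  have := sz_sumK_const_mul ms N k 0 q τ (fun _ => 0)
  simpa using this

theorem sz_sumK_sum {α : Type} (ms : ℕ → ℝ) (N k q : ℕ) (τ : ℕ → ℕ → ℕ) (s : Finset α) (Φ : α → (ℕ → ℕ → ℕ) → ℝ) :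
    trSumK ms N k q τ (fun τ' => ∑ x ∈ s, Φ x τ') = ∑ x ∈ s, trSumK ms N k q τ (Φ x) := by
  classical
  induction s using Finset.induction_on with
  | empty => simpa using sz_sumK_zero ms N k q τ
  | insert x s hx ih =>
    simp only [Finset.sum_insert hx]
    rw [sz_sumK_add, ih]

theorem sz_sumK_sub (ms : ℕ → ℝ) (N k q : ℕ) (τ : ℕ → ℕ → ℕ) (Φ Ψ : (ℕ → ℕ → ℕ) → ℝ) :
    trSumK ms N k q τ (fun τ' => Φ τ' - Ψ τ') = trSumK ms N k q τ Φ - trSumK ms N k q τ Ψ := by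
  have h1 := sz_sumK_add ms N k q τ Φ (fun τ' => (-1 : ℝ) * Ψ τ')
  rw [sz_sumK_const_mul] at h1
  have e : (fun τ' => Φ τ' - Ψ τ') = fun τ' => Φ τ' + (-1 : ℝ) * Ψ τ' := by funext τ'; ring
  rw [e, h1]; ring

theorem sz_absK_add (ms : ℕ → ℝ) (N k : ℕ) : ∀ (q : ℕ) (τ : ℕ → ℕ → ℕ) (Φ Ψ : (ℕ → ℕ → ℕ) → ℝ),
    trAbsK ms N k q τ (fun τ' => Φ τ' + Ψ τ') = trAbsK ms N k q τ Φ + trAbsK ms N k q τ Ψ := by
  induction k with
  | zero => intro q τ Φ Ψ; rfl
  | succ k ih =>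
    intro q τ Φ Ψ
    simp only [trAbsK, trAbs, ih, mul_add, Finset.sum_add_distrib]

theorem sz_absK_const_mul (ms : ℕ → ℝ) (N k : ℕ) (c : ℝ) : ∀ (q : ℕ) (τ : ℕ → ℕ → ℕ) (Φ : (ℕ → ℕ → ℕ) → ℝ),
    trAbsK ms N k q τ (fun τ' => c * Φ τ') = c * trAbsK ms N k q τ Φ := by
  induction k with
  | zero => intro q τ Φ; rfl
  | succ k ih =>
    intro q τ Φ
    simp only [trAbsK, trAbs, ih, Finset.mul_sum]
    refine Finset.sum_congr rfl fun x _ => Finset.sum_congr rfl fun j _ => by ring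

/-- the old tree is not changed by an attachment -/
theorem sz_att_old (N q : ℕ) (τ : ℕ → ℕ → ℕ) (x j y z : ℕ) (hy : y < q) (hz : z < q) : trAtt N q τ x j y z = τ y z := by
  unfold trAtt
  rw [if_neg (by omega), if_neg (by omega)]

/-- differentiation under the signed sums (only the trees which extend the old tree are seen) -/
theorem sz_sumK_hasDeriv {N : ℕ} {ms : ℕ → ℝ} (k : ℕ) : ∀ {q : ℕ} {τ : ℕ → ℕ → ℕ}, IsTr N q τ →
    ∀ (Φ : ℝ → (ℕ → ℕ → ℕ) → ℝ) (Φ' : (ℕ → ℕ → ℕ) → ℝ) (s : Set ℝ) (θ : ℝ),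
    (∀ τ', IsTr N (q + k) τ' → (∀ y z, y < q → z < q → τ' y z = τ y z) → HasDerivWithinAt (fun θ => Φ θ τ') (Φ' τ') s θ) →
    HasDerivWithinAt (fun θ => trSumK ms N k q τ (Φ θ)) (trSumK ms N k q τ Φ') s θ := by
  induction k with
  | zero =>
    intro q τ hτ Φ Φ' s θ h
    exact h τ hτ fun _ _ _ _ => rfl
  | succ k ih =>
    intro q τ hτ Φ Φ' s θ h
    simp only [trSumK, trSum]
    refine HasDerivWithinAt.fun_sum fun x hx => HasDerivWithinAt.fun_sum fun j hj => ?_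
    refine HasDerivWithinAt.const_mul _ ?_
    have hx' : x < q := Finset.mem_range.1 hx
    have hj' : j ≤ N + 1 := by have := Finset.mem_range.1 hj; omega
    refine ih (tr_att_isTr hτ hx' hj') Φ Φ' s θ fun τ' h1 h2 => ?_
    refine h τ' (by rwa [show q + (k + 1) = q + 1 + k by omega]) fun y z hy hz => ?_
    rw [h2 y z (by omega) (by omega), sz_att_old N q τ x j y z hy hz]

section gen
variable {S Φ ι : Type} [Fintype S] [Fintype Φ] [Fintype ι] [Inhabited S]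

/-- the product of the off-diagonal insertions of `L02/Alloc` (helper71) = indicator of the off-diagonal pairs times the product of the insertions -/
theorem sz_g_Vp (dK : ℕ → S → S → ℝ) (N r : ℕ) (τ : ℕ → ℕ → ℕ) (σ : ℕ → S) :
    llVp dK N 0 r τ σ = szOff N r τ * szIns dK N r τ σ := by
  unfold llVp szOff szIns llVo jtC jtD
  rw [← Finset.prod_mul_distrib]
  refine Finset.prod_congr rfl fun i _ => ?_
  split_ifs <;> simp

theorem sz_g_ins_uses (dK : ℕ → S → S → ℝ) (N r : ℕ) (τ : ℕ → ℕ → ℕ) : TrUses (2 * r) (szIns dK N r τ) := by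
  intro σ σ' h
  unfold szIns
  refine Finset.prod_congr rfl fun i hi => ?_
  have hi' := Finset.mem_range.1 hi
  rw [h (jtC 0 i) (by unfold jtC; omega), h (jtD 0 i) (by unfold jtD; omega)]

theorem sz_g_off_nonneg (N r : ℕ) (τ : ℕ → ℕ → ℕ) : 0 ≤ szOff N r τ := by
  unfold szOff
  exact Finset.prod_nonneg fun i _ => by split_ifs <;> norm_num

/-- `S_r` in the vocabulary of `L02/Alloc` -/
theorem sz_g_S_eq {B : GhB S} (hB : B.Ok) (feat : Φ → S → ι → ℝ) {hs : List (ℝ × (Φ → ℝ) × (Φ → ℝ))}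
    (hhs : GcAffAdm B.a hs) (z : S → ℝ) (r : ℕ) (θ : ℝ) :
    szS B feat hs z r θ = trSumK (gcMs B.a hs) hs.length (2 * r - 1) 1 (fun _ _ => hs.length + 1) fun τ =>
      gcNu B feat hs θ (2 * r) τ z (llVp (gcDK feat hs) hs.length 0 r τ) := by
  unfold szS
  congr 1
  funext τ
  have e : llVp (gcDK feat hs) hs.length 0 r τ
      = fun σ => szOff hs.length r τ * szIns (gcDK feat hs) hs.length r τ σ := by
    funext σ; exact sz_g_Vp _ _ _ _ _
  rw [e]
  unfold gcNu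
  rw [tcb_nu_mul_const hB (tcb_gc_adm feat hhs θ).1]

/-- **G2: first derivative of the root continuation.**  (`ll_al_press` of helper71.) -/
theorem sz_g_first {B : GhB S} (hB : B.Ok) (feat : Φ → S → ι → ℝ) {hs : List (ℝ × (Φ → ℝ) × (Φ → ℝ))}
    (hhs : GcAffAdm B.a hs) (hd : LlDiagC feat hs) (z : S → ℝ) (cd : ℝ)
    (hcd : ∀ s, trV (gcDK feat hs) hs.length (hs.length + 1) s s = cd)
    {θ : ℝ} (hθ : θ ∈ Icc (0 : ℝ) 1) :
    HasDerivWithinAt (fun θ => ghF B (gcLs feat (gcAff hs θ)) z) (B.a * cd / 2 + 1 / 2 * szS B feat hs z 1 θ) (Icc 0 1) θ := by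
  have hcd' : llDg feat hs = cd := by rw [← ll_al_V_diag hd default, hcd]
  have h1 := ll_al_press hB feat hhs hd z hθ
  have h2 : HasDerivWithinAt (fun θ : ℝ => B.a / 2 * (θ * llDg feat hs)) (B.a / 2 * (1 * llDg feat hs)) (Icc 0 1) θ :=
    ((hasDerivWithinAt_id θ (Icc (0 : ℝ) 1)).mul_const (llDg feat hs)).const_mul (B.a / 2)
  have e : (fun θ => ghF B (gcLs feat (gcAff hs θ)) z)
      = fun θ => llFc B feat hs z θ + B.a / 2 * (θ * llDg feat hs) := by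
    funext θ; unfold llFc; ring
  rw [e]
  refine (h1.add h2).congr_deriv ?_
  have e1 : ∀ τ : ℕ → ℕ → ℕ, llVp (gcDK feat hs) hs.length 0 1 τ
      = fun σ => llVo (gcDK feat hs) hs.length (τ 0 1) (σ 0) (σ 1) := by
    intro τ; funext σ; simp [llVp]
  rw [sz_g_S_eq hB feat hhs z 1 θ, hcd']
  simp only [e1, Nat.mul_one, Nat.reduceSub]
  ring

/-- **G3: the chain.**  (`ll_al_step` of helper71 with `R τ' = llVp .. 0 r τ'`.) -/
theorem sz_g_step {B : GhB S} (hB : B.Ok) (feat : Φ → S → ι → ℝ) {hs : List (ℝ × (Φ → ℝ) × (Φ → ℝ))}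
    (hhs : GcAffAdm B.a hs) (hd : LlDiagC feat hs) (z : S → ℝ)
    (r : ℕ) (hr : 1 ≤ r) {θ : ℝ} (hθ : θ ∈ Icc (0 : ℝ) 1) :
    HasDerivWithinAt (szS B feat hs z r) (1 / 2 * szS B feat hs z (r + 1) θ) (Icc 0 1) θ := by
  obtain ⟨d, rfl⟩ : ∃ d, r = d + 1 := ⟨r - 1, by omega⟩
  have e1 : 2 * (d + 1) - 1 = 2 * d + 1 := by omega
  have e2 : 2 * (d + 1) = 2 * d + 2 := by omega
  have e3 : 2 * (d + 1 + 1) - 1 = 2 * d + 1 + 2 := by omega
  have e4 : 2 * (d + 1 + 1) = 2 * d + 2 + 2 := by omega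
  have e5 : 0 + 2 * (d + 1) = 2 * d + 2 := by omega
  have e0 : szS B feat hs z (d + 1) = fun θ => trSumK (gcMs B.a hs) hs.length (2 * d + 1) 1 (fun _ _ => hs.length + 1) fun τ =>
      gcNu B feat hs θ (2 * d + 2) τ z (llVp (gcDK feat hs) hs.length 0 (d + 1) τ) := by
    funext θ
    rw [sz_g_S_eq hB feat hhs z (d + 1) θ, e1, e2]
  rw [e0, sz_g_S_eq hB feat hhs z (d + 1 + 1) θ, e3, e4]
  have h := ll_al_step hB feat hhs hd (q := 1) (k := 2 * d + 1) (n := 2 * d + 2) (by omega) (by omega)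
    (ll_al_isTr_one hs.length) z (fun τ' => llVp (gcDK feat hs) hs.length 0 (d + 1) τ')
    (fun τ' => by
      have h := ll_al_Vp_uses (gcDK feat hs) hs.length 0 (d + 1) τ'
      rwa [e5] at h)
    (fun τ' τ'' h => ll_al_Vp_loc _ _ 0 (d + 1) τ' τ'' fun y z hy hz => h y z (by omega) (by omega)) hθ
  refine h.congr_deriv ?_
  congr 2
  funext τ₂
  congr 1
  funext σ
  rw [ll_al_Vp_succ (gcDK feat hs) hs.length 0 (d + 1), e5]

/-- **G6a.** -/
theorem sz_g_abs {B : GhB S} (hB : B.Ok) (feat : Φ → S → ι → ℝ) {hs : List (ℝ × (Φ → ℝ) × (Φ → ℝ))}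
    (hhs : GcAffAdm B.a hs) (z : S → ℝ) (r : ℕ) (hr : 1 ≤ r) {θ : ℝ} (hθ : θ ∈ Icc (0 : ℝ) 1) :
    |szS B feat hs z r θ| ≤ szSA B feat hs z r θ := by
  unfold szS szSA
  refine (tr_sumK_le _ _).trans ?_
  refine tr_absK_mono (ll_al_isTr_one hs.length) _ _ _ fun τ' _ => ?_
  have h0 := sz_g_off_nonneg hs.length r τ'
  rw [abs_mul, abs_of_nonneg h0]
  refine mul_le_mul_of_nonneg_left ?_ h0
  unfold gcNu
  exact tcb_nu_abs_le_nu hB (tcb_gc_adm feat hhs θ).1 _ _ _ fun σ => le_rfl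

/-- **G6b: Gronwall.** -/
theorem sz_g_gron {B : GhB S} (hB : B.Ok) (feat : Φ → S → ι → ℝ) {hs : List (ℝ × (Φ → ℝ) × (Φ → ℝ))}
    (hhs : GcAffAdm B.a hs) (z : S → ℝ) (M : ℝ) (hM : ∀ t s s', |trV (gcDK feat hs) hs.length t s s'| ≤ M)
    (r : ℕ) (hr : 1 ≤ r) {θ : ℝ} (hθ : θ ∈ Icc (0 : ℝ) 1) :
    szSA B feat hs z r θ ≤ Real.exp (2 * B.a ^ 2 * (2 * r : ℕ) * ((2 * r : ℕ) + 1) * M) * szSA B feat hs z r 0 := by
  unfold szSA
  rw [← sz_absK_const_mul]
  refine tr_absK_mono (ll_al_isTr_one hs.length) _ _ _ fun τ' hτ' => ?_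
  have h0 := sz_g_off_nonneg hs.length r τ'
  have hτ'' : IsTr hs.length (2 * r) τ' := by rwa [show 1 + (2 * r - 1) = 2 * r by omega] at hτ'
  have hM0 : 0 ≤ M := (abs_nonneg _).trans (hM 0 default default)
  have hg := tr_gronwall hB feat hhs hτ'' z (fun σ => |szIns (gcDK feat hs) hs.length r τ' σ|)
    (fun σ σ' h => by
      show |szIns (gcDK feat hs) hs.length r τ' σ| = |szIns (gcDK feat hs) hs.length r τ' σ'|
      rw [sz_g_ins_uses _ _ _ _ σ σ' h])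
    M hM (fun σ => abs_nonneg _) hθ (θ' := 0) (by simp)
  have hexp : Real.exp (2 * B.a ^ 2 * (2 * r : ℕ) * ((2 * r : ℕ) + 1) * M * |θ - 0|)
      ≤ Real.exp (2 * B.a ^ 2 * (2 * r : ℕ) * ((2 * r : ℕ) + 1) * M) := by
    apply Real.exp_le_exp.2
    have h1 : |θ - 0| ≤ 1 := by rw [sub_zero, abs_of_nonneg hθ.1]; exact hθ.2
    have hc : 0 ≤ 2 * B.a ^ 2 * (2 * r : ℕ) * ((2 * r : ℕ) + 1) * M := by positivity
    calc _ ≤ 2 * B.a ^ 2 * (2 * r : ℕ) * ((2 * r : ℕ) + 1) * M * 1 := mul_le_mul_of_nonneg_left h1 hc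
      _ = _ := mul_one _
  have hnn : 0 ≤ gcNu B feat hs 0 (2 * r) τ' z fun σ => |szIns (gcDK feat hs) hs.length r τ' σ| := by
    unfold gcNu
    have := tcb_nu_mono hB (tcb_gc_adm feat hhs 0).1 (2 * r) τ' z (P := fun _ => 0)
      (Q := fun σ => |szIns (gcDK feat hs) hs.length r τ' σ|) (fun σ => abs_nonneg _)
    rwa [tcb_nu_const hB (tcb_gc_adm feat hhs 0).1] at this
  calc _ ≤ szOff hs.length r τ' * (Real.exp (2 * B.a ^ 2 * (2 * r : ℕ) * ((2 * r : ℕ) + 1) * M) *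
        gcNu B feat hs 0 (2 * r) τ' z fun σ => |szIns (gcDK feat hs) hs.length r τ' σ|) :=
        mul_le_mul_of_nonneg_left (hg.trans (mul_le_mul_of_nonneg_right hexp hnn)) h0
    _ = _ := by ring

/-- **EXIT: Taylor expansion of the root continuation, off-diagonal form.** -/
theorem sz_g_taylor {B : GhB S} (hB : B.Ok) (feat : Φ → S → ι → ℝ) {hs : List (ℝ × (Φ → ℝ) × (Φ → ℝ))}
    (hhs : GcAffAdm B.a hs) (hd' : LlDiagC feat hs) (z : S → ℝ) (cd : ℝ)
    (hcd : ∀ s, trV (gcDK feat hs) hs.length (hs.length + 1) s s = cd)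
    (k : ℕ) (M : ℝ) (hM : ∀ θ ∈ Icc (0 : ℝ) 1, |szS B feat hs z (k + 1) θ| ≤ M) :
    |ghF B (gcLs feat (gcAff hs 1)) z - ghF B (gcLs feat (gcAff hs 0)) z - B.a * cd / 2
        - ∑ r ∈ Finset.Icc 1 k, szS B feat hs z r 0 / ((2 : ℝ) ^ r * (r ! : ℝ))| ≤ M / ((2 : ℝ) ^ (k + 1) * ((k + 1)! : ℝ)) := by
  let w : ℕ → ℝ → ℝ := fun r θ =>
    if r = 0 then ghF B (gcLs feat (gcAff hs θ)) z - B.a * cd / 2 * θ else (1 / 2 : ℝ) ^ r * szS B feat hs z r θ
  have hd : ∀ r, ∀ θ ∈ Icc (0 : ℝ) 1, HasDerivWithinAt (w r) (w (r + 1) θ) (Icc 0 1) θ := by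
    intro r θ hθ
    rcases Nat.eq_zero_or_pos r with rfl | hr
    · have h1 := (sz_g_first hB feat hhs hd' z cd hcd hθ).sub
        (((hasDerivWithinAt_id θ (Icc (0 : ℝ) 1)).const_mul (B.a * cd / 2)))
      refine HasDerivWithinAt.congr_deriv (f := w 0) h1 ?_
      simp only [w]
      norm_num
    · have h1 := (sz_g_step hB feat hhs hd' z r hr hθ).const_mul ((1 / 2 : ℝ) ^ r)
      have e : w r = fun θ => (1 / 2 : ℝ) ^ r * szS B feat hs z r θ := by
        funext θ; simp only [w]; rw [if_neg (by omega)]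
      rw [e]
      refine h1.congr_deriv ?_
      simp only [w]
      rw [if_neg (by omega)]
      ring
  have key := ght_taylor_bound_one w (M := (1 / 2 : ℝ) ^ (k + 1) * M) k
    (fun r _ θ hθ => (hd r θ hθ).continuousWithinAt)
    (fun r _ θ hθ => (hd r θ (Ioo_subset_Icc_self hθ)).hasDerivAt (Icc_mem_nhds hθ.1 hθ.2))
    (fun θ hθ => by
      simp only [w]
      rw [if_neg (by omega), abs_mul, abs_of_nonneg (by positivity)]
      exact mul_le_mul_of_nonneg_left (hM θ (Ioo_subset_Icc_self hθ)) (by positivity))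
  have e1 : ∑ r ∈ Finset.range (k + 1), w r 0 / (r ! : ℝ)
      = ghF B (gcLs feat (gcAff hs 0)) z + ∑ r ∈ Finset.Icc 1 k, szS B feat hs z r 0 / ((2 : ℝ) ^ r * (r ! : ℝ)) := by
    have hIcc : Finset.Icc 1 k = (Finset.range k).image (· + 1) := by
      ext x
      simp only [Finset.mem_Icc, Finset.mem_image, Finset.mem_range]
      constructor
      · intro h; exact ⟨x - 1, by omega, by omega⟩
      · rintro ⟨y, hy, rfl⟩; omega
    rw [Finset.sum_range_succ', hIcc, Finset.sum_image (by intro x _ y _ h; simpa using h), add_comm]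
    congr 1
    · simp [w]
    · refine Finset.sum_congr rfl fun r _ => ?_
      simp only [w]
      rw [if_neg (by omega), one_div, inv_pow]
      field_simp
  have e2 : w 0 1 = ghF B (gcLs feat (gcAff hs 1)) z - B.a * cd / 2 := by simp [w]
  rw [e1, e2] at key
  have e3 : (1 / 2 : ℝ) ^ (k + 1) * M / ((k + 1)! : ℝ) = M / ((2 : ℝ) ^ (k + 1) * ((k + 1)! : ℝ)) := by
    rw [one_div, inv_pow]; field_simp
  rw [e3] at key
  refine le_trans (le_of_eq ?_) key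
  congr 1
  ring

end gen

end Claimed.Agent.R286
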