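-- OWNER helper71 (co-architect LL02)
import Claimed.Agent.R286.Fd.CTr
import Claimed.Agent.R286.Fd.TrCb
import Claimed.Agent.R286.Fd.TrC3
import Claimed.Agent.R286.Defs.Plc

/-!
# Row 286 (S0533), L02/Gi : (GI) crude Gaussian interpolation bound for total pressures      (helper71; prefix `ll_gi_`)

TEX[LL:found:estimates]#240-250.      Same masses, arbitrary positive semidefinite increments:
`|ghF B ls z - ghF B ls' z| ≤ a * sup |ghCum ls - ghCum ls'|`.
* `ll_gi_gc`    the bound along an affine family of clocks (`tr_pressure_deriv`, total variation of one label on one leaf `= 2 a`, mean value inequality)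
* `llGiFeat`, `llGiHs`   the interpolating family: blocks `(level, side)`, the level `j` carries `(1 - θ) ΔK_j + θ ΔK'_j`
* `ll_gi_main`  = `exit_gi`
NO sorry here; depends on `tr_pressure_deriv` (Fd/TrC2, team P02) only.
-/

set_option autoImplicit false
set_option linter.unusedSectionVars false

namespace Claimed.Agent.R286

open MeasureTheory ProbabilityTheory

section gc
variable {S Φ ι : Type} [Fintype S] [Fintype Φ] [Fintype ι] [Inhabited S]

/-- the bound along an affine family of clocks -/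
theorem ll_gi_gc {B : GhB S} (hB : B.Ok) (feat : Φ → S → ι → ℝ) {hs : List (ℝ × (Φ → ℝ) × (Φ → ℝ))}
    (hhs : GcAffAdm B.a hs) (z : S → ℝ) (M : ℝ) (hM : ∀ t s s', |trV (gcDK feat hs) hs.length t s s'| ≤ M) :
    |ghF B (gcLs feat (gcAff hs 1)) z - ghF B (gcLs feat (gcAff hs 0)) z| ≤ B.a * M := by
  obtain ⟨hms, hmsN⟩ := tr_c3_isMs hB feat hhs
  have hτ1 : IsTr hs.length 1 (fun _ _ => hs.length + 1) :=
    ⟨fun _ _ _ _ => le_refl _, fun _ _ => rfl, fun _ _ _ _ => rfl, fun _ _ _ _ _ _ => by simp⟩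
  have hbd : ∀ θ ∈ Set.Icc (0 : ℝ) 1,
      ‖1 / 2 * trSum (gcMs B.a hs) hs.length 1 (fun _ _ => hs.length + 1) fun τ₂ =>
        gcNu B feat hs θ 2 τ₂ z fun σ => trV (gcDK feat hs) hs.length (τ₂ 0 1) (σ 0) (σ 1)‖ ≤ B.a * M := by
    intro θ _
    have h1 := tr_sumK_le (ms := gcMs B.a hs) (N := hs.length) (q := 1) (τ := fun _ _ => hs.length + 1) 1 fun τ₂ =>
        gcNu B feat hs θ 2 τ₂ z fun σ => trV (gcDK feat hs) hs.length (τ₂ 0 1) (σ 0) (σ 1)
    have h2 := tr_absK_le hτ1 hms 1 (fun τ₂ =>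
        gcNu B feat hs θ 2 τ₂ z fun σ => trV (gcDK feat hs) hs.length (τ₂ 0 1) (σ 0) (σ 1)) M
        (fun τ' _ => tr_c3_abs_le hB feat hhs θ _ _ z _ _ fun σ => hM _ _ _)
    rw [hmsN] at h2
    have h3 := h1.trans h2
    simp only [trSumK, Finset.prod_range_one, pow_one, Nat.cast_one, Nat.cast_zero, add_zero, mul_one] at h3
    rw [Real.norm_eq_abs, abs_mul, abs_of_nonneg (by norm_num : (0 : ℝ) ≤ 1 / 2)]
    linarith
  have h := Convex.norm_image_sub_le_of_norm_hasDerivWithin_le (s := Set.Icc (0 : ℝ) 1)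
    (f := fun θ => ghF B (gcLs feat (gcAff hs θ)) z) (x := 0) (y := 1)
    (fun θ hθ => tr_pressure_deriv hB feat hhs z hθ) hbd (convex_Icc 0 1)
    (Set.left_mem_Icc.2 zero_le_one) (Set.right_mem_Icc.2 zero_le_one)
  simpa using h

end gc

section inst
variable {S ι ι' : Type} [Fintype S] [Fintype ι] [Fintype ι']

/-- features of the blocks `(level, side)` -/
def llGiFeat (N : ℕ) (ls : List (GhLv S ι)) (ls' : List (GhLv S ι')) : Fin N × Bool → S → ι ⊕ ι' → ℝ := fun r s =>
  if r.2 then Sum.elim (fun _ => 0) (fun i => ((ls'[r.1.1]?).map fun l => l.A s i).getD 0)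
  else Sum.elim (fun i => ((ls[r.1.1]?).map fun l => l.A s i).getD 0) (fun _ => 0)

/-- the interpolating family: the level `j` carries `(1 - θ) ΔK_j + θ ΔK'_j` -/
def llGiHs (N : ℕ) (ls : List (GhLv S ι)) : List (ℝ × (Fin N × Bool → ℝ) × (Fin N × Bool → ℝ)) :=
  (List.range N).map fun j => (((ls[j]?).map GhLv.m).getD 0,
    (fun r => if r.1.1 = j ∧ r.2 = false then 1 else 0), fun r => if r.1.1 = j then (if r.2 then 1 else -1) else 0)

theorem ll_gi_ker_f (N : ℕ) (ls : List (GhLv S ι)) (ls' : List (GhLv S ι')) (x : Fin N) (s t : S) :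
    gcKer (llGiFeat N ls ls') (x, false) s t = ((ls[x.1]?).map fun l => l.cov s t).getD 0 := by
  unfold gcKer llGiFeat
  simp only [Bool.false_eq_true, if_false, Fintype.sum_sum_type, Sum.elim_inl, Sum.elim_inr, mul_zero, Finset.sum_const_zero,
    add_zero]
  cases ls[x.1]? with
  | none => simp
  | some l => simp [GhLv.cov]

theorem ll_gi_ker_t (N : ℕ) (ls : List (GhLv S ι)) (ls' : List (GhLv S ι')) (x : Fin N) (s t : S) :
    gcKer (llGiFeat N ls ls') (x, true) s t = ((ls'[x.1]?).map fun l => l.cov s t).getD 0 := by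
  unfold gcKer llGiFeat
  simp only [if_true, Fintype.sum_sum_type, Sum.elim_inl, Sum.elim_inr, mul_zero, Finset.sum_const_zero, zero_add]
  cases ls'[x.1]? with
  | none => simp
  | some l => simp [GhLv.cov]

theorem ll_gi_sum (N j : ℕ) (hj : j < N) (c c' : ℝ) (K : Fin N × Bool → ℝ) :
    ∑ r : Fin N × Bool, (if r.1.1 = j then (if r.2 then c' else c) else 0) * K r
      = c' * K (⟨j, hj⟩, true) + c * K (⟨j, hj⟩, false) := by
  rw [Fintype.sum_prod_type, Finset.sum_eq_single (⟨j, hj⟩ : Fin N)]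
  · simp
  · intro x _ hx
    have : x.1 ≠ j := fun h => hx (Fin.ext h)
    simp [this]
  · intro h; exact absurd (Finset.mem_univ _) h

theorem ll_gi_cum (ls : List (GhLv S ι)) (t : ℕ) (s s' : S) :
    ghCum ls t s s' = ∑ j ∈ Finset.range t, ((ls[j]?).map fun l => l.cov s s').getD 0 := by
  induction t with
  | zero => simp [ghCum]
  | succ t ih =>
    rw [Finset.sum_range_succ, ← ih]
    unfold ghCum
    rw [List.take_add_one, List.map_append, List.sum_append]
    congr 1
    cases ls[t]? with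
    | none => simp
    | some l => simp

theorem ll_gi_hs_len (N : ℕ) (ls : List (GhLv S ι)) : (llGiHs N ls).length = N := by simp [llGiHs]

theorem ll_gi_dK (N : ℕ) (ls : List (GhLv S ι)) (ls' : List (GhLv S ι')) (hl : ls.length = N) (hl' : ls'.length = N)
    (j : ℕ) (s s' : S) :
    gcDK (llGiFeat N ls ls') (llGiHs N ls) j s s'
      = ((ls'[j]?).map fun l => l.cov s s').getD 0 - ((ls[j]?).map fun l => l.cov s s').getD 0 := by
  unfold gcDK
  by_cases hj : j < N
  · have e : ∀ r : Fin N × Bool, (((llGiHs N ls)[j]?).map fun h => h.2.2 r).getD 0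
        = if r.1.1 = j then (if r.2 then 1 else -1) else 0 := by
      intro r
      simp [llGiHs, hj]
    simp only [e]
    rw [ll_gi_sum N j hj, ll_gi_ker_f, ll_gi_ker_t]
    ring
  · have e : ∀ r : Fin N × Bool, (((llGiHs N ls)[j]?).map fun h => h.2.2 r).getD 0 = 0 := by
      intro r
      simp [llGiHs, hj]
    simp only [e, zero_mul, Finset.sum_const_zero]
    rw [List.getElem?_eq_none (by omega), List.getElem?_eq_none (by omega)]
    simp

theorem ll_gi_V (N : ℕ) (ls : List (GhLv S ι)) (ls' : List (GhLv S ι')) (hl : ls.length = N) (hl' : ls'.length = N)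
    (t : ℕ) (s s' : S) :
    trV (gcDK (llGiFeat N ls ls') (llGiHs N ls)) N t s s' = ghCum ls' t s s' - ghCum ls t s s' := by
  unfold trV
  rw [ll_gi_cum, ll_gi_cum, ← Finset.sum_sub_distrib]
  have hsub : Finset.range (min t N) ⊆ Finset.range t := by
    intro j hj
    rw [Finset.mem_range] at hj ⊢
    exact lt_of_lt_of_le hj (min_le_left _ _)
  rw [← Finset.sum_subset hsub]
  · exact Finset.sum_congr rfl fun j _ => ll_gi_dK N ls ls' hl hl' j s s'
  · intro j hj hj'
    rw [Finset.mem_range] at hj hj'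
    have : N ≤ j := by
      by_contra hc
      exact hj' (lt_min hj (not_le.1 hc))
    rw [List.getElem?_eq_none (by omega), List.getElem?_eq_none (by omega)]
    simp

theorem ll_gi_adm {B : GhB S} {ls : List (GhLv S ι)} (h : GhAdm B 0 ls) : GcAffAdm B.a (llGiHs ls.length ls) := by
  refine ⟨?_, ?_⟩
  · have e : (llGiHs ls.length ls).map Prod.fst = ls.map GhLv.m := by
      apply List.ext_getElem
      · simp [llGiHs]
      · intro i h1 h2
        have hi : i < ls.length := by simpa using h2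
        simp [llGiHs, hi]
    rw [e, List.pairwise_map]
    exact h.1
  · intro x hx
    unfold llGiHs at hx
    rw [List.mem_map] at hx
    obtain ⟨j, hj, rfl⟩ := hx
    rw [List.mem_range] at hj
    refine ⟨?_, fun r => ?_⟩
    · have := h.2 ls[j] (List.getElem_mem hj)
      simpa [hj] using this
    · dsimp only
      rcases r with ⟨x, b⟩
      cases b <;> by_cases hx : x.1 = j <;> simp [hx]

/-- covariance of the level `j` of the interpolating family -/
theorem ll_gi_cov [Inhabited S] (N : ℕ) (ls : List (GhLv S ι)) (ls' : List (GhLv S ι')) {θ : ℝ} (hθ : θ ∈ Set.Icc (0 : ℝ) 1) (j : ℕ) (hj : j < N)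
    (hj' : j < (gcLs (llGiFeat N ls ls') (gcAff (llGiHs N ls) θ)).length) (s t : S) :
    ((gcLs (llGiFeat N ls ls') (gcAff (llGiHs N ls) θ))[j]).cov s t
      = θ * ((ls'[j]?).map fun l => l.cov s t).getD 0 + (1 - θ) * ((ls[j]?).map fun l => l.cov s t).getD 0 := by
  have e : (gcLs (llGiFeat N ls ls') (gcAff (llGiHs N ls) θ))[j]
      = gcLv (llGiFeat N ls ls') (((ls[j]?).map GhLv.m).getD 0)
          fun r => if r.1.1 = j then (if r.2 then θ else 1 - θ) else 0 := by
    simp only [gcLs, gcAff, llGiHs, List.getElem_map, List.getElem_range]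
    congr 1
    funext r
    rcases r with ⟨x, b⟩
    cases b <;> by_cases hx : x.1 = j <;> simp [hx] <;> ring
  rw [e, tcb_gc_cov _ _ _ (fun r => by
    rcases r with ⟨x, b⟩
    cases b <;> by_cases hx : x.1 = j <;> simp [hx, hθ.1, hθ.2]), ll_gi_sum N j hj, ll_gi_ker_f, ll_gi_ker_t]

/-- **(GI)** = `exit_gi` -/
theorem ll_gi_main (B : GhB S) (hB : B.Ok) (ls : List (GhLv S ι)) (ls' : List (GhLv S ι'))
    (h : GhAdm B 0 ls) (_h' : GhAdm B 0 ls') (hm : ls.map GhLv.m = ls'.map GhLv.m) (z : S → ℝ) (M : ℝ)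
    (hM : ∀ t s s', |ghCum ls t s s' - ghCum ls' t s s'| ≤ M) : |ghF B ls z - ghF B ls' z| ≤ B.a * M := by
  have hne : Nonempty S := by
    by_contra hc
    rw [not_nonempty_iff] at hc
    have := hB.sum
    simp at this
  have : Inhabited S := ⟨hne.some⟩
  have hlen : ls'.length = ls.length := by
    have := congrArg List.length hm
    simpa using this.symm
  have hadm := ll_gi_adm h
  have hg := fun θ => tcb_gc_adm (B := B) (llGiFeat ls.length ls ls') hadm θ
  have hL := ll_gi_hs_len ls.length ls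
  have hms : ∀ j, gcMs B.a (llGiHs ls.length ls) j = trMs B ls j := by
    intro j
    unfold gcMs trMs
    by_cases hj : j < ls.length
    · simp [llGiHs, hj]
    · rw [List.getElem?_eq_none (by rw [hL]; omega), List.getElem?_eq_none (by omega)]
      rfl
  have hms' : ∀ j, trMs B ls j = trMs B ls' j := by
    intro j
    unfold trMs
    have := congrArg (fun l : List ℝ => l[j]?) hm
    simp only [List.getElem?_map] at this
    rw [this]
  have e0 : ghF B (gcLs (llGiFeat ls.length ls ls') (gcAff (llGiHs ls.length ls) 0)) z = ghF B ls z := by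
    refine gh_F_cov_congr hB (by rw [(hg 0).2.1, hL]) (fun j => by rw [(hg 0).2.2, hms]) (fun j h1 h2 s t => ?_) z
    rw [ll_gi_cov ls.length ls ls' (Set.left_mem_Icc.2 zero_le_one) j h2 h1]
    simp [h2]
  have e1 : ghF B (gcLs (llGiFeat ls.length ls ls') (gcAff (llGiHs ls.length ls) 1)) z = ghF B ls' z := by
    refine gh_F_cov_congr hB (by rw [(hg 1).2.1, hL, hlen]) (fun j => by rw [(hg 1).2.2, hms, hms']) (fun j h1 h2 s t => ?_) z
    rw [ll_gi_cov ls.length ls ls' (Set.right_mem_Icc.2 zero_le_one) j (by omega) h1]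
    simp [h2]
  have hfin := ll_gi_gc hB (llGiFeat ls.length ls ls') hadm z M (fun t s s' => by
    rw [hL, ll_gi_V ls.length ls ls' rfl hlen, abs_sub_comm]
    exact hM t s s')
  rw [e0, e1, abs_sub_comm] at hfin
  exact hfin

end inst

end Claimed.Agent.R286
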