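import Claimed.Agent.R286.L02.A7Tay
import Claimed.Agent.R286.Fd.TrA4
import Claimed.Agent.R286.LL.Jet.Alg

/-!
# Row 286 (S0533), L02/A7Cat : (A7), steps L5-L6: concatenation and symmetrisation      (owner helper4; prefix `l2a7_`)

L5: inside the truncated symbol `F` the actual law (`θ = 1`) is expanded back from the independent end point: `Ψ_K` appears on the new pairs.
L6: allocation order symmetry identifies the terms on each final topology: `∑_{n+p=t} F(first n pairs) Ψ(last p pairs) / (n! p!) = (F * Ψ)(all t pairs) / t!`.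
-/

set_option autoImplicit false

namespace Claimed.Agent.R286

open scoped BigOperators Nat

variable {S1 : Type} (W : L2Row S1)

/-- the `n`-th term of `W.rem2` -/
noncomputable def L2Row.rem2T (F : ℕ → JtTopo → JtFn) (k q : ℕ) (τ0 : JtTopo) (P : (ℕ → S1) → ℝ) (n : ℕ) : ℝ :=
  ((2 : ℝ) ^ n * (n ! : ℝ))⁻¹ * trSumK W.ms W.N (2 * n) q τ0 fun τ =>
    l2Off W.N q n τ * F (q + 2 * n) τ (Finset.range n) * W.remT (k - n) (q + 2 * n) τ fun σ => P (l2F σ) * W.ins q n τ (l2F σ)

theorem l2a7_cat_eqns_cite : True := by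
  have := @L2Row.rem2T.eq_1
  trivial

theorem l2a7_uses_ins {q : ℕ} {P : (ℕ → S1) → ℝ} (hP : TrUses q P) (n : ℕ) (τ : JtTopo) :
    TrUses (q + 2 * n) fun s => P s * W.ins q n τ s := by
  intro σ σ' h
  have h1 : P σ = P σ' := hP σ σ' fun i hi => h i (by omega)
  have h2 : W.ins q n τ σ = W.ins q n τ σ' := by
    unfold L2Row.ins
    refine Finset.prod_congr rfl fun l hl => ?_
    have := Finset.mem_range.1 hl
    rw [h (jtC q l) (by unfold jtC; omega), h (jtD q l) (by unfold jtD; omega)]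
  simp only [h1, h2]

theorem l2a7_uses_lift {r : ℕ} {R : (ℕ → S1) → ℝ} (hR : TrUses r R) :
    TrUses r fun σ : ℕ → S1 × Bool => R (l2F σ) := by
  intro σ σ' h
  exact hR _ _ fun i hi => by unfold l2F; rw [h i hi]

theorem l2a7_sdiff_range (n p : ℕ) : Finset.range (n + p) \ Finset.range n = Finset.Ico n (n + p) := by
  ext x
  simp only [Finset.mem_sdiff, Finset.mem_range, Finset.mem_Ico]
  omega

theorem l2a7_sp_shift (q n p : ℕ) (t : ℕ → Bool) :
    l2Sp (q + 2 * n) (Finset.range p) t = l2Sp q (Finset.range (n + p) \ Finset.range n) t := by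
  unfold l2Sp
  rw [l2a7_sdiff_range, Finset.prod_Ico_eq_prod_range]
  have : n + p - n = p := by omega
  rw [this]
  refine Finset.prod_congr rfl fun i _ => ?_
  have h1 : jtC q (n + i) = jtC (q + 2 * n) i := by unfold jtC; ring
  have h2 : jtD q (n + i) = jtD (q + 2 * n) i := by unfold jtD; ring
  rw [h1, h2]

/-- L5a: one topology `τ` on `q + 2 n` labels: expansion of the actual law of the test `P ∏_{l<n} J_l` from the independent end point -/
theorem l2a7_cat_one (hW : W.Ok) {q n : ℕ} {τ : JtTopo} (hτ : IsTr W.N (q + 2 * n) τ) {P : (ℕ → S1) → ℝ} (hP : TrUses q P) (m : ℕ) :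
    W.nu 1 (q + 2 * n) τ (fun σ => P (l2F σ) * W.ins q n τ (l2F σ))
      = ∑ p ∈ Finset.range (m + 1), ((2 : ℝ) ^ p * (p ! : ℝ))⁻¹ * trSumK W.ms W.N (2 * p) (q + 2 * n) τ (fun τ' =>
          l2Off W.N (q + 2 * n) p τ' * (W.jt.Psi (q + 2 * (n + p)) q τ' (Finset.range (n + p) \ Finset.range n)
            * W.nuR (q + 2 * (n + p)) τ' fun s => P s * W.ins q (n + p) τ' s))
        + W.remT m (q + 2 * n) τ fun σ => P (l2F σ) * W.ins q n τ (l2F σ) := by
  have hR : TrUses (q + 2 * n) fun σ : ℕ → S1 × Bool => P (l2F σ) * W.ins q n τ (l2F σ) :=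
    l2a7_uses_lift (l2a7_uses_ins W hP n τ)
  rw [l2a7_taylor W hW hτ hR m]
  congr 1
  refine Finset.sum_congr rfl fun p _ => ?_
  have e : (fun σ : ℕ → S1 × Bool => P (l2F σ) * W.ins q n τ (l2F σ))
      = fun σ => (fun s => P s * W.ins q n τ s) (l2F σ) * (fun _ : ℕ → Bool => (1 : ℝ)) (l2S σ) := by
    funext σ; simp
  rw [e, l2a7_dn_at0 W hW hτ (fun s => P s * W.ins q n τ s) (fun _ => 1) p]
  have e2 : ∀ X : ℝ, (2⁻¹ : ℝ) ^ p * X / (p ! : ℝ) = ((2 : ℝ) ^ p * (p ! : ℝ))⁻¹ * X := by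
    intro X
    rw [inv_pow, mul_inv, div_eq_mul_inv]
    ring
  rw [e2]
  congr 1
  refine tr_sumK_congr hτ (2 * p) _ _ fun τ' _ hag => ?_
  have hidx : q + 2 * n + 2 * p = q + 2 * (n + p) := by ring
  rw [hidx]
  have t1 : (fun s => P s * W.ins q n τ s * W.ins (q + 2 * n) p τ' s) = fun s => P s * W.ins q (n + p) τ' s := by
    funext s
    rw [l2a7_ins_add, l2a7_ins_congr W q n hag s, mul_assoc]
  have t2 : W.nuK (q + 2 * (n + p)) τ' (fun t => 1 * l2Sp (q + 2 * n) (Finset.range p) t)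
      = W.jt.Psi (q + 2 * (n + p)) q τ' (Finset.range (n + p) \ Finset.range n) := by
    unfold JtCtx.Psi JtCtx.scM
    change _ = W.nuK _ _ _
    congr 1
    funext t
    rw [l2a7_sp_shift]
    simp [l2Sp]
  rw [t1, t2, mul_comm (W.nuR _ _ _)]

/-- TEX[LL:found:cavity-quotient] L5: concatenation -/
theorem l2a7_cat (hW : W.Ok) {q : ℕ} {τ0 : JtTopo} (hτ : IsTr W.N q τ0) {P : (ℕ → S1) → ℝ} (hP : TrUses q P)
    {F : ℕ → JtTopo → JtFn} (hF : W.Sym q F) {k n : ℕ} (hn : n ≤ k) :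
    W.jt.ev q τ0 F (fun σ => P (l2F σ)) n
      = ∑ p ∈ Finset.range (k - n + 1), ((2 : ℝ) ^ (n + p) * ((n ! : ℝ) * (p ! : ℝ)))⁻¹ * W.mix q τ0 F P (n + p) (Finset.range n)
        + W.rem2T F k q τ0 P n := by
  change ((2 : ℝ) ^ n * (n ! : ℝ))⁻¹ * trSumK W.ms W.N (2 * n) q τ0 (fun τ =>
      l2Off W.N q n τ * F (q + 2 * n) τ (Finset.range n) * W.nu 1 (q + 2 * n) τ fun σ => P (l2F σ) * W.ins q n τ (l2F σ)) = _
  rw [tr_sumK_congr hτ (2 * n) _ _ (fun τ hτ' _ => by rw [l2a7_cat_one W hW hτ' hP (k - n)])]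
  simp only [mul_add]
  rw [l2a7_sumK_add, mul_add]
  congr 1
  simp only [Finset.mul_sum]
  rw [l2a7_sumK_sum, Finset.mul_sum]
  refine Finset.sum_congr rfl fun p _ => ?_
  unfold L2Row.mix
  have hsplit : ∀ Ψ : (ℕ → ℕ → ℕ) → ℝ, trSumK W.ms W.N (2 * (n + p)) q τ0 Ψ
      = trSumK W.ms W.N (2 * n) q τ0 fun τ => trSumK W.ms W.N (2 * p) (q + 2 * n) τ Ψ := by
    intro Ψ
    rw [← tr_sumK_add]
    congr 1
    ring
  rw [hsplit]
  have hc : ((2 : ℝ) ^ (n + p) * ((n ! : ℝ) * (p ! : ℝ)))⁻¹ = ((2 : ℝ) ^ n * (n ! : ℝ))⁻¹ * ((2 : ℝ) ^ p * (p ! : ℝ))⁻¹ := by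
    rw [pow_add, ← mul_inv]
    congr 1
    ring
  rw [hc, mul_assoc, tcb_sumK_mul_left _ _ _ _ _ (((2 : ℝ) ^ p * (p ! : ℝ))⁻¹)]
  congr 1
  refine tr_sumK_congr hτ (2 * n) _ _ fun τ hτ' _ => ?_
  rw [mul_left_comm, tcb_sumK_mul_left _ _ _ _ _ (l2Off W.N q n τ * F (q + 2 * n) τ (Finset.range n))]
  congr 1
  refine tr_sumK_congr hτ' (2 * p) _ _ fun τ' hτ'' hag => ?_
  have hidx : q + 2 * n + 2 * p = q + 2 * (n + p) := by ring
  rw [hidx] at hτ''
  have h1 : F (q + 2 * n) τ (Finset.range n) = F (q + 2 * (n + p)) τ' (Finset.range n) :=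
    hF.rc _ _ _ _ _ (by omega) hτ'' (fun x y hx hy => (hag x y hx hy).symm) (by omega)
      (fun l hl => by have := Finset.mem_range.1 hl; unfold jtD; omega)
  rw [h1, l2a7_off_add, ← l2a7_off_congr W.N q n hag]
  ring_nf

/-- L6a: renumbering of the pairs -/
theorem l2a7_mix_perm (hW : W.Ok) {q : ℕ} {τ0 : JtTopo} (hτ : IsTr W.N q τ0) {P : (ℕ → S1) → ℝ} (hP : TrUses q P)
    {F : ℕ → JtTopo → JtFn} (hF : W.Sym q F) (t : ℕ) (π : Equiv.Perm ℕ) (hπ : ∀ l, t ≤ l → π l = l) (A : Finset ℕ)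
    (hA : A ⊆ Finset.range t) :
    W.mix q τ0 F P t (A.map π.toEmbedding) = W.mix q τ0 F P t A := by
  symm
  unfold L2Row.mix
  have hPsi := l2a7_psi_sym W hW q
  have hΦ : ∀ τ₁ τ₂ : ℕ → ℕ → ℕ, (∀ y z, y < q + 2 * t → z < q + 2 * t → τ₁ y z = τ₂ y z) →
      (fun τ : JtTopo => l2Off W.N q t τ * (F (q + 2 * t) τ A * W.jt.Psi (q + 2 * t) q τ (Finset.range t \ A))
        * W.nuR (q + 2 * t) τ fun s => P s * W.ins q t τ s) τ₁
      = (fun τ : JtTopo => l2Off W.N q t τ * (F (q + 2 * t) τ A * W.jt.Psi (q + 2 * t) q τ (Finset.range t \ A))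
        * W.nuR (q + 2 * t) τ fun s => P s * W.ins q t τ s) τ₂ := by
    intro τ₁ τ₂ h
    have h1 : (fun s => P s * W.ins q t τ₁ s) = fun s => P s * W.ins q t τ₂ s := by
      funext s; rw [l2a7_ins_congr W q t h]
    simp only
    rw [l2a7_off_congr W.N q t h, hF.cg _ _ _ h, hPsi.cg _ _ _ h, h1, hW.nuR_congr _ _ _ _ h]
  rw [tr_sumK_perm hτ (2 * t) _ hΦ (l2Lab q π) (fun y hy => by
    rcases hy with hy | hy
    · exact l2a7_lab_old q π hy
    · exact l2a7_lab_big q t π hπ hy)]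
  refine tr_sumK_congr hτ (2 * t) _ _ fun τ' hτ' _ => ?_
  have a : l2Off W.N q t (fun y z => τ' (l2Lab q π y) (l2Lab q π z)) = l2Off W.N q t τ' := by
    unfold l2Off
    simp only [l2a7_lab_C, l2a7_lab_D]
    exact Equiv.Perm.prod_comp π (Finset.range t) (fun i => if τ' (jtC q i) (jtD q i) ≤ W.N then (1 : ℝ) else 0)
      (l2a7_perm_supp hπ)
  have b := hF.eq t τ' π A hτ' hπ hA
  have c := hPsi.eq t τ' π (Finset.range t \ A) hτ' hπ Finset.sdiff_subset
  rw [Finset.map_sdiff, l2a7_map_range hπ] at c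
  have d : W.nuR (q + 2 * t) (fun y z => τ' (l2Lab q π y) (l2Lab q π z))
        (fun s => P s * W.ins q t (fun y z => τ' (l2Lab q π y) (l2Lab q π z)) s)
      = W.nuR (q + 2 * t) τ' fun s => P s * W.ins q t τ' s := by
    rw [← hW.nuR_perm (q + 2 * t) τ' _ (l2Lab q π) hτ' (l2a7_uses_ins W hP t τ')
      (fun x hx => l2a7_lab_big q t π hπ hx)]
    congr 1
    funext s
    have e1 : P s = P fun i => s ((l2Lab q π).symm i) :=
      hP _ _ fun i hi => by rw [l2a7_lab_symm, l2a7_lab_old q π.symm hi]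
    rw [← e1]
    congr 1
    unfold L2Row.ins
    simp only [l2a7_lab_C, l2a7_lab_D, l2a7_lab_symm]
    have := Equiv.Perm.prod_comp π (Finset.range t)
      (fun l => W.Jv (τ' (jtC q l) (jtD q l)) (s (jtC q (π.symm l))) (s (jtD q (π.symm l)))) (l2a7_perm_supp hπ)
    simp only [Equiv.symm_apply_apply] at this
    exact this
  rw [a, b, c, d]

/-- a subset of `range t` is the image of an initial segment under a permutation of `range t` -/
theorem l2a7_perm_exists (t : ℕ) (A : Finset ℕ) (hA : A ⊆ Finset.range t) :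
    ∃ π : Equiv.Perm ℕ, (∀ l, t ≤ l → π l = l) ∧ (Finset.range A.card).map π.toEmbedding = A := by
  induction t generalizing A with
  | zero =>
    have : A = ∅ := by simpa using hA
    subst this
    exact ⟨1, fun _ _ => rfl, by simp⟩
  | succ t ih =>
    by_cases ht : t ∈ A
    · have hA' : A.erase t ⊆ Finset.range t := by
        intro x hx
        have h1 := Finset.mem_erase.1 hx
        have h2 := Finset.mem_range.1 (hA h1.2)
        exact Finset.mem_range.2 (by omega)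
      obtain ⟨π', h1, h2⟩ := ih (A.erase t) hA'
      have hc : (A.erase t).card + 1 = A.card := Finset.card_erase_add_one ht
      set n := (A.erase t).card with hn
      have hnt : n ≤ t := by
        have := Finset.card_le_card hA'
        rwa [Finset.card_range] at this
      have hpn : π' n ≤ t := by
        by_contra hcon
        have h3 : π' (π' n) = π' n := h1 _ (by omega)
        have h4 : π' n = n := π'.injective h3
        omega
      have hlt : ∀ l, l < n → π' l ∈ A.erase t := by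
        intro l hl
        rw [← h2]
        exact Finset.mem_map.2 ⟨l, Finset.mem_range.2 hl, rfl⟩
      refine ⟨Equiv.swap t (π' n) * π', ?_, ?_⟩
      · intro l hl
        rw [Equiv.Perm.mul_apply, h1 l (by omega)]
        exact Equiv.swap_apply_of_ne_of_ne (by omega) (by omega)
      · rw [← hc]
        ext x
        simp only [Finset.mem_map, Finset.mem_range, Equiv.coe_toEmbedding, Equiv.Perm.mul_apply]
        constructor
        · rintro ⟨l, hl, rfl⟩
          rcases Nat.lt_succ_iff_lt_or_eq.1 hl with hl' | rfl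
          · have h5 := hlt l hl'
            have h6 := Finset.mem_erase.1 h5
            rw [Equiv.swap_apply_of_ne_of_ne h6.1 (fun h => by have := π'.injective h; omega)]
            exact h6.2
          · rw [Equiv.swap_apply_right]; exact ht
        · intro hx
          by_cases hxt : x = t
          · exact ⟨n, by omega, by rw [Equiv.swap_apply_right, hxt]⟩
          · have h5 : x ∈ A.erase t := Finset.mem_erase.2 ⟨hxt, hx⟩
            rw [← h2] at h5
            obtain ⟨l, hl, rfl⟩ := Finset.mem_map.1 h5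
            have hl' := Finset.mem_range.1 hl
            refine ⟨l, by omega, ?_⟩
            exact Equiv.swap_apply_of_ne_of_ne hxt (fun h => by have := π'.injective h; omega)
    · have hA' : A ⊆ Finset.range t := by
        intro x hx
        have h2 := Finset.mem_range.1 (hA hx)
        have : x ≠ t := fun h => ht (h ▸ hx)
        exact Finset.mem_range.2 (by omega)
      obtain ⟨π, h1, h2⟩ := ih A hA'
      exact ⟨π, fun l hl => h1 l (by omega), h2⟩

/-- L6b: only the number of pairs counts -/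
theorem l2a7_mix_card (hW : W.Ok) {q : ℕ} {τ0 : JtTopo} (hτ : IsTr W.N q τ0) {P : (ℕ → S1) → ℝ} (hP : TrUses q P)
    {F : ℕ → JtTopo → JtFn} (hF : W.Sym q F) (t : ℕ) (A : Finset ℕ) (hA : A ⊆ Finset.range t) :
    W.mix q τ0 F P t A = W.mix q τ0 F P t (Finset.range A.card) := by
  obtain ⟨π, hπ, hA'⟩ := l2a7_perm_exists t A hA
  have hc : Finset.range A.card ⊆ Finset.range t := by
    intro x hx
    have h1 := Finset.card_le_card hA
    rw [Finset.card_range] at h1
    exact Finset.mem_range.2 (lt_of_lt_of_le (Finset.mem_range.1 hx) h1)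
  have := l2a7_mix_perm W hW hτ hP hF t π hπ (Finset.range A.card) hc
  rw [hA'] at this
  exact this

/-- TEX[LL:found:cavity-quotient] L6: symmetrisation = subset convolution -/
theorem l2a7_conv (hW : W.Ok) {q : ℕ} {τ0 : JtTopo} (hτ : IsTr W.N q τ0) {P : (ℕ → S1) → ℝ} (hP : TrUses q P)
    {F : ℕ → JtTopo → JtFn} (hF : W.Sym q F) (t : ℕ) :
    ∑ n ∈ Finset.range (t + 1), ((2 : ℝ) ^ t * ((n ! : ℝ) * ((t - n) ! : ℝ)))⁻¹ * W.mix q τ0 F P t (Finset.range n)
      = W.ev0 q τ0 (fun r τ => jtMul (F r τ) (W.jt.Psi r q τ)) P t := by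
  have h1 : W.ev0 q τ0 (fun r τ => jtMul (F r τ) (W.jt.Psi r q τ)) P t
      = ((2 : ℝ) ^ t * (t ! : ℝ))⁻¹ * ∑ B ∈ (Finset.range t).powerset, W.mix q τ0 F P t B := by
    unfold L2Row.ev0 L2Row.mix
    rw [← l2a7_sumK_sum]
    congr 2
    funext τ
    unfold jtMul
    rw [Finset.mul_sum, Finset.sum_mul]
  have h2 : ∑ B ∈ (Finset.range t).powerset, W.mix q τ0 F P t B
      = ∑ B ∈ (Finset.range t).powerset, W.mix q τ0 F P t (Finset.range B.card) :=
    Finset.sum_congr rfl fun B hB => l2a7_mix_card W hW hτ hP hF t B (Finset.mem_powerset.1 hB)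
  rw [h1, h2, Finset.sum_powerset_apply_card (fun n => W.mix q τ0 F P t (Finset.range n)), Finset.card_range,
    Finset.mul_sum]
  refine Finset.sum_congr rfl fun n hn => ?_
  have hn' : n ≤ t := Nat.lt_succ_iff.1 (Finset.mem_range.1 hn)
  have h3 : ((t.choose n : ℝ)) * (n ! : ℝ) * ((t - n)! : ℝ) = (t ! : ℝ) := by
    exact_mod_cast Nat.choose_mul_factorial_mul_factorial hn'
  have a1 : (n ! : ℝ) ≠ 0 := by positivity
  have a2 : ((t - n)! : ℝ) ≠ 0 := by positivity
  have a3 : (t ! : ℝ) ≠ 0 := by positivity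
  have a4 : (t.choose n : ℝ) ≠ 0 := by
    have := Nat.choose_pos hn'
    positivity
  have h4 : ((2 : ℝ) ^ t * ((n ! : ℝ) * ((t - n)! : ℝ)))⁻¹ = ((2 : ℝ) ^ t * (t ! : ℝ))⁻¹ * (t.choose n : ℝ) := by
    rw [← h3]
    field_simp
  rw [nsmul_eq_mul, h4]
  ring

/-- triangular resummation -/
theorem l2a7_tri (k : ℕ) (f : ℕ → ℕ → ℝ) :
    ∑ n ∈ Finset.range (k + 1), ∑ p ∈ Finset.range (k - n + 1), f n p
      = ∑ t ∈ Finset.range (k + 1), ∑ n ∈ Finset.range (t + 1), f n (t - n) := by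
  induction k with
  | zero => simp
  | succ k ih =>
    rw [Finset.sum_range_succ _ (k + 1), Finset.sum_range_succ (fun t => ∑ n ∈ Finset.range (t + 1), f n (t - n)) (k + 1),
      ← ih, Finset.sum_range_succ (fun n => f n (k + 1 - n)) (k + 1)]
    have h : ∀ n ∈ Finset.range (k + 1), ∑ p ∈ Finset.range (k + 1 - n + 1), f n p
        = ∑ p ∈ Finset.range (k - n + 1), f n p + f n (k + 1 - n) := by
      intro n hn
      have h1 : k + 1 - n = (k - n) + 1 := by have := Finset.mem_range.1 hn; omega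
      rw [h1, Finset.sum_range_succ]
    rw [Finset.sum_congr rfl h, Finset.sum_add_distrib]
    simp
    ring

/-- TEX[LL:found:cavity-quotient] L5 + L6: the truncated symbol `F` under the actual law = the truncated product `F * Ψ_K` at the independent end point, up to `rem2` -/
theorem l2a7_back (hW : W.Ok) {q : ℕ} {τ0 : JtTopo} (hτ : IsTr W.N q τ0) {P : (ℕ → S1) → ℝ} (hP : TrUses q P)
    {F : ℕ → JtTopo → JtFn} (hF : W.Sym q F) (k : ℕ) :
    W.jt.evLt q τ0 F (fun σ => P (l2F σ)) (k + 1)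
      = ∑ t ∈ Finset.range (k + 1), W.ev0 q τ0 (fun r τ => jtMul (F r τ) (W.jt.Psi r q τ)) P t + W.rem2 F k q τ0 P := by
  unfold JtCtx.evLt
  rw [Finset.sum_congr rfl fun n hn => l2a7_cat W hW hτ hP hF (k := k) (Nat.lt_succ_iff.1 (Finset.mem_range.1 hn)),
    Finset.sum_add_distrib]
  congr 1
  rw [l2a7_tri k fun n p => ((2 : ℝ) ^ (n + p) * ((n ! : ℝ) * (p ! : ℝ)))⁻¹ * W.mix q τ0 F P (n + p) (Finset.range n)]
  refine Finset.sum_congr rfl fun t _ => ?_
  rw [← l2a7_conv W hW hτ hP hF t]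
  refine Finset.sum_congr rfl fun n hn => ?_
  have : n + (t - n) = t := by have := Finset.mem_range.1 hn; omega
  rw [this]

end Claimed.Agent.R286
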