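import Claimed.Agent.R286.Defs.Jet
import Claimed.Agent.R286.Defs.Tr

/-!
# Row 286 (S0533), L02/A7Defs : THE ABSTRACT ROW INTERPOLATION of LL Lemma 2.2 = (A7)      (owner helper4; head LL02 helper93; names `L2Row`, `l2*`)

Source: LL 02-foundations.tex l.262-400 (T3 of origin/helper73:notes/R286/L02_adv_73.md, cut of origin/helper219:notes/R286/T3_cut_219.md).
FINE LEVEL (`N` Gaussian stages, masses `ms`), trees and signed sums of `Defs/Tr`, symbols of `Defs/Jet`.

State space `S1 × Bool` = (all the other rows) x (the removed spin `e`).      `L2Row S1` = what the proof of (A7) sees: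
* `nu θ r τ R`   positive tree number of the model in which the kernels of the removed row are interpolated
                 (`θ = 1`: the actual model, `θ = 0`: rest system x independent one-site scalar model with the clock `K`);
* `nuR r τ R1`   the rest system alone (`θ = 0`);      `nuK r τ R2` the scalar reference;
* `ov, bC, hC, KC, qC, msk`  deleted overlap (denominator `m` kept) and cumulative clocks at a pair which shares `t` stages;
* `Jv t s s' = h[t] + b[t] msk[t] ov s s' - K[t]`  the covariance insertion of the row is `Jv * e e'`;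
* `G r`          Gronwall exponent for `r` labels (PE Lemma 2.9).
`L2Row.Ok` = the exits of PE Sec. 2 used by the proof (each field is a contract of `Fd/TrB*`, `Fd/TrC*` for the instance).
`W.jt : JtCtx (S1 × Bool)` = the jet context of the row model at `θ = 1`:  the statement of (A7) is written with `W.jt.evLt`, `W.jt.Quo`, `W.jt.rem`.
The EXACT SIGNED REMAINDER `W.remA7` is a DEFINITION (LL 07 l.1899, l.1955 consume it before absolute values are taken).
-/

set_option autoImplicit false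

namespace Claimed.Agent.R286

open scoped BigOperators Nat

/-- the data of the abstract row interpolation -/
structure L2Row (S1 : Type) where
  N : ℕ
  ms : ℕ → ℝ
  nu : ℝ → ℕ → JtTopo → ((ℕ → S1 × Bool) → ℝ) → ℝ
  nuR : ℕ → JtTopo → ((ℕ → S1) → ℝ) → ℝ
  nuK : ℕ → JtTopo → ((ℕ → Bool) → ℝ) → ℝ
  ov : S1 → S1 → ℝ
  bC : ℕ → ℝ
  hC : ℕ → ℝ
  KC : ℕ → ℝ
  qC : ℕ → ℝ
  msk : ℕ → ℝ
  G : ℕ → ℝ

/-- the rest part of a configuration of labels -/
def l2F {S1 : Type} (σ : ℕ → S1 × Bool) : ℕ → S1 := fun x => (σ x).1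

/-- the removed spins of a configuration of labels -/
def l2S {S1 : Type} (σ : ℕ → S1 × Bool) : ℕ → Bool := fun x => (σ x).2

/-- the two ends of each of the pairs `0..n-1` (over `q` old labels) are different leaves -/
def l2Off (N q n : ℕ) (τ : JtTopo) : ℝ := ∏ i ∈ Finset.range n, if τ (jtC q i) (jtD q i) ≤ N then (1 : ℝ) else 0

/-- product of the scalar spins of the pairs in `A` -/
def l2Sp (q : ℕ) (A : Finset ℕ) (t : ℕ → Bool) : ℝ := ∏ i ∈ A, jtSp (t (jtC q i)) * jtSp (t (jtD q i))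

/-- the permutation of the labels induced by a permutation `π` of the pair numbers (over `q` old labels) -/
def l2Lab (q : ℕ) (π : Equiv.Perm ℕ) : Equiv.Perm ℕ where
  toFun x := if x < q then x else q + 2 * π ((x - q) / 2) + (x - q) % 2
  invFun x := if x < q then x else q + 2 * π.symm ((x - q) / 2) + (x - q) % 2
  left_inv x := by
    by_cases h : x < q
    · simp [h]
    · have h1 : ¬ (q + 2 * π ((x - q) / 2) + (x - q) % 2 < q) := by omega
      have h2 : (q + 2 * π ((x - q) / 2) + (x - q) % 2 - q) / 2 = π ((x - q) / 2) := by omega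
      have h3 : (q + 2 * π ((x - q) / 2) + (x - q) % 2 - q) % 2 = (x - q) % 2 := by omega
      simp only [h, if_false, h1, h2, h3, Equiv.symm_apply_apply]
      omega
  right_inv x := by
    by_cases h : x < q
    · simp [h]
    · have h1 : ¬ (q + 2 * π.symm ((x - q) / 2) + (x - q) % 2 < q) := by omega
      have h2 : (q + 2 * π.symm ((x - q) / 2) + (x - q) % 2 - q) / 2 = π.symm ((x - q) / 2) := by omega
      have h3 : (q + 2 * π.symm ((x - q) / 2) + (x - q) % 2 - q) % 2 = (x - q) % 2 := by omega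
      simp only [h, if_false, h1, h2, h3, Equiv.apply_symm_apply]
      omega

/-- the test `P * e_i e_j` -/
def l2Obs {S1 : Type} (P : (ℕ → S1) → ℝ) (i j : ℕ) : (ℕ → S1 × Bool) → ℝ :=
  fun σ => P (l2F σ) * (jtSp (σ i).2 * jtSp (σ j).2)

namespace L2Row
variable {S1 : Type} (W : L2Row S1)

/-- the insertion at a pair which shares `t` stages (rest part): `h + b Q^* - K` -/
def Jv (t : ℕ) (s s' : S1) : ℝ := W.hC t + W.bC t * (W.msk t * W.ov s s') - W.KC t

/-- the jet context of the row model at `θ = 1` -/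
def jt : JtCtx (S1 × Bool) where
  N := W.N
  sumK := trSumK W.ms W.N
  absK := trAbsK W.ms W.N
  nu := W.nu 1
  nuK := W.nuK
  ov := fun s s' => W.ov s.1 s'.1
  bC := W.bC
  hC := W.hC
  KC := W.KC
  qC := W.qC
  msk := W.msk

/-- product of the rest parts of the insertions of the pairs `0..n-1` over `q` old labels -/
def ins (q n : ℕ) (τ : JtTopo) (s : ℕ → S1) : ℝ :=
  ∏ l ∈ Finset.range n, W.Jv (τ (jtC q l) (jtD q l)) (s (jtC q l)) (s (jtD q l))

/-- product of the full insertions `Jv * e e'` of the pairs `0..n-1` over `q` old labels -/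
def insE (q n : ℕ) (τ : JtTopo) (σ : ℕ → S1 × Bool) : ℝ :=
  ∏ l ∈ Finset.range n, W.Jv (τ (jtC q l) (jtD q l)) (σ (jtC q l)).1 (σ (jtD q l)).1
    * (jtSp (σ (jtC q l)).2 * jtSp (σ (jtD q l)).2)

/-- the `n`-th derivative in `θ` of `nu θ r τ R` -/
noncomputable def dn (θ : ℝ) (n r : ℕ) (τ : JtTopo) (R : (ℕ → S1 × Bool) → ℝ) : ℝ :=
  (2⁻¹ : ℝ) ^ n * trSumK W.ms W.N (2 * n) r τ fun τ' =>
    l2Off W.N r n τ' * W.nu θ (r + 2 * n) τ' fun σ => R σ * W.insE r n τ' σ

/-- **Taylor remainder after the degree `k`** (exact, signed): `k + 1` insertions, one interacting interpolated row -/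
noncomputable def remT (k r : ℕ) (τ : JtTopo) (R : (ℕ → S1 × Bool) → ℝ) : ℝ :=
  ∫ θ in (0 : ℝ)..1, (1 - θ) ^ k / (k ! : ℝ) * W.dn θ (k + 1) r τ R

/-- the second remainder: the Taylor remainders of the laws inside the truncated symbol `F` -/
noncomputable def rem2 (F : ℕ → JtTopo → JtFn) (k q : ℕ) (τ0 : JtTopo) (P : (ℕ → S1) → ℝ) : ℝ :=
  ∑ n ∈ Finset.range (k + 1), ((2 : ℝ) ^ n * (n ! : ℝ))⁻¹ * trSumK W.ms W.N (2 * n) q τ0 fun τ =>
    l2Off W.N q n τ * F (q + 2 * n) τ (Finset.range n) * W.remT (k - n) (q + 2 * n) τ fun σ => P (l2F σ) * W.ins q n τ (l2F σ)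

/-- **the exact signed remainder of (A7)**, quotient kept through the degree `k` (so: `k + 1` insertions) -/
noncomputable def remA7 (k q : ℕ) (τ0 : JtTopo) (P : (ℕ → S1) → ℝ) (i j : ℕ) : ℝ :=
  W.remT k q τ0 (l2Obs P i j) - W.rem2 (fun r τ => W.jt.Quo r q i j τ) k q τ0 P

/-- degree `t` term at the independent end point: symbol `F`, law of the rest system alone -/
noncomputable def ev0 (q : ℕ) (τ0 : JtTopo) (F : ℕ → JtTopo → JtFn) (P : (ℕ → S1) → ℝ) (t : ℕ) : ℝ :=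
  ((2 : ℝ) ^ t * (t ! : ℝ))⁻¹ * trSumK W.ms W.N (2 * t) q τ0 fun τ =>
    l2Off W.N q t τ * F (q + 2 * t) τ (Finset.range t) * W.nuR (q + 2 * t) τ fun s => P s * W.ins q t τ s

/-- the mixed term: `F` on the pairs of `A`, `Ψ_K` on the other pairs of `0..t-1` -/
noncomputable def mix (q : ℕ) (τ0 : JtTopo) (F : ℕ → JtTopo → JtFn) (P : (ℕ → S1) → ℝ) (t : ℕ) (A : Finset ℕ) : ℝ :=
  trSumK W.ms W.N (2 * t) q τ0 fun τ =>
    l2Off W.N q t τ * (F (q + 2 * t) τ A * W.jt.Psi (q + 2 * t) q τ (Finset.range t \ A))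
      * W.nuR (q + 2 * t) τ fun s => P s * W.ins q t τ s

/-- **the exits of PE Section 2 used by the proof of (A7)** -/
structure Ok : Prop where
  ms : IsMs W.N W.ms
  /-- PE (2) for the row interpolation; the diagonal insertion is constant, hence it drops out (row-sum rule, root mass `0`) -/
  deriv : ∀ (r : ℕ) (τ : JtTopo) (R : (ℕ → S1 × Bool) → ℝ) (θ : ℝ), IsTr W.N r τ → TrUses r R → θ ∈ Set.Ioo (0 : ℝ) 1 →
    HasDerivAt (fun θ => W.nu θ r τ R)
      (2⁻¹ * trSumK W.ms W.N 2 r τ fun τ' => (if τ' r (r + 1) ≤ W.N then (1 : ℝ) else 0) *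
        W.nu θ (r + 2) τ' fun σ => R σ * (W.Jv (τ' r (r + 1)) (σ r).1 (σ (r + 1)).1 * (jtSp (σ r).2 * jtSp (σ (r + 1)).2))) θ
  cont : ∀ (r : ℕ) (τ : JtTopo) (R : (ℕ → S1 × Bool) → ℝ), IsTr W.N r τ → TrUses r R →
    ContinuousOn (fun θ => W.nu θ r τ R) (Set.Icc 0 1)
  /-- at `θ = 0` the removed row is independent of the rest -/
  fact : ∀ (r : ℕ) (τ : JtTopo) (R1 : (ℕ → S1) → ℝ) (R2 : (ℕ → Bool) → ℝ), IsTr W.N r τ →
    W.nu 0 r τ (fun σ => R1 (l2F σ) * R2 (l2S σ)) = W.nuR r τ R1 * W.nuK r τ R2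
  nu_congr : ∀ (θ : ℝ) (r : ℕ) (τ τ' : JtTopo) (R : (ℕ → S1 × Bool) → ℝ), (∀ x y, x < r → y < r → τ x y = τ' x y) →
    W.nu θ r τ R = W.nu θ r τ' R
  nuR_congr : ∀ (r : ℕ) (τ τ' : JtTopo) (R : (ℕ → S1) → ℝ), (∀ x y, x < r → y < r → τ x y = τ' x y) →
    W.nuR r τ R = W.nuR r τ' R
  nuK_congr : ∀ (r : ℕ) (τ τ' : JtTopo) (R : (ℕ → Bool) → ℝ), (∀ x y, x < r → y < r → τ x y = τ' x y) →
    W.nuK r τ R = W.nuK r τ' R
  nuR_perm : ∀ (r : ℕ) (τ : JtTopo) (R : (ℕ → S1) → ℝ) (e : Equiv.Perm ℕ), IsTr W.N r τ → TrUses r R → (∀ x, r ≤ x → e x = x) →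
    W.nuR r (fun x y => τ (e x) (e y)) (fun s => R fun i => s (e.symm i)) = W.nuR r τ R
  nuK_perm : ∀ (r : ℕ) (τ : JtTopo) (R : (ℕ → Bool) → ℝ) (e : Equiv.Perm ℕ), IsTr W.N r τ → TrUses r R → (∀ x, r ≤ x → e x = x) →
    W.nuK r (fun x y => τ (e x) (e y)) (fun s => R fun i => s (e.symm i)) = W.nuK r τ R
  nuK_prune : ∀ (r : ℕ) (τ : JtTopo) (R : (ℕ → Bool) → ℝ), IsTr W.N (r + 1) τ → TrUses r R → W.nuK (r + 1) τ R = W.nuK r τ R
  nuK_one : ∀ (r : ℕ) (τ : JtTopo), W.nuK r τ (fun _ => 1) = 1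
  nuK_bd : ∀ (r : ℕ) (τ : JtTopo) (R : (ℕ → Bool) → ℝ), (∀ t, |R t| ≤ 1) → |W.nuK r τ R| ≤ 1
  /-- PE Lemma 2.9: comparison of the interpolated law with the actual one on nonnegative tests -/
  gron : ∀ (θ : ℝ) (r : ℕ) (τ : JtTopo) (R : (ℕ → S1 × Bool) → ℝ), IsTr W.N r τ → TrUses r R → (∀ σ, 0 ≤ R σ) →
    θ ∈ Set.Icc (0 : ℝ) 1 → W.nu θ r τ R ≤ Real.exp (W.G r) * W.nu 1 r τ R
  nu_abs : ∀ (θ : ℝ) (r : ℕ) (τ : JtTopo) (R R' : (ℕ → S1 × Bool) → ℝ), θ ∈ Set.Icc (0 : ℝ) 1 → (∀ σ, |R σ| ≤ R' σ) →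
    |W.nu θ r τ R| ≤ W.nu θ r τ R'

/-- a family of symbols which is consistent under restriction of the topology and equivariant under renumbering of the pairs -/
structure Sym (q : ℕ) (F : ℕ → JtTopo → JtFn) : Prop where
  /-- only the values of the topology on the labels `< r` matter -/
  cg : ∀ (r : ℕ) (τ τ' : JtTopo), (∀ x y, x < r → y < r → τ x y = τ' x y) → F r τ = F r τ'
  /-- the coefficient of `A` is evaluated on the restriction of the topology to the labels it uses -/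
  rc : ∀ (r r' : ℕ) (τ τ' : JtTopo) (A : Finset ℕ), r ≤ r' → IsTr W.N r' τ' → (∀ x y, x < r → y < r → τ x y = τ' x y) →
    q ≤ r → (∀ l ∈ A, jtD q l < r) → F r τ A = F r' τ' A
  eq : ∀ (t : ℕ) (τ : JtTopo) (π : Equiv.Perm ℕ) (A : Finset ℕ), IsTr W.N (q + 2 * t) τ → (∀ l, t ≤ l → π l = l) →
    A ⊆ Finset.range t →
    F (q + 2 * t) (fun x y => τ (l2Lab q π x) (l2Lab q π y)) A = F (q + 2 * t) τ (A.map π.toEmbedding)

end L2Row

theorem l2a7_defs_eqns_cite : True := by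
  have := @l2F.eq_1
  have := @l2S.eq_1
  have := @l2Off.eq_1
  have := @l2Sp.eq_1
  have := @l2Lab.eq_1
  have := @L2Row.Jv.eq_1
  have := @L2Row.jt.eq_1
  have := @L2Row.ins.eq_1
  have := @L2Row.insE.eq_1
  have := @L2Row.dn.eq_1
  have := @L2Row.remT.eq_1
  have := @l2Obs.eq_1
  have := @L2Row.rem2.eq_1
  have := @L2Row.remA7.eq_1
  have := @L2Row.ev0.eq_1
  have := @L2Row.mix.eq_1
  trivial

end Claimed.Agent.R286
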