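import Claimed.Agent.R286.Exit.LL02A4
import Claimed.Agent.R286.LL04.Contract
import Claimed.Agent.R286.L08.Glue
import Claimed.Agent.R286.L02.Inst

/-!
# Row 286 (S0533), unit L02, file StopTr : THE CHANGE OF MEASURE ON THE STOP, FOR TREE NUMBERS      (owner helper93; prefix `ll2s_`, `Ll2s`)

TEX[LL:red:lem-augmentation] (04-reduction l.133-170) + TEX[LL:found:estimates] (A4) (02 l.283-304).
GLUE of `exit_a4_transfer(_prod)`, `exit_a4_K`, `exit_a4_psi` (Exit/LL02A4, 77: generic chains, merged path `llMrg`) with `ll04_stop_x_ne` (LL04/Contract, 245).      0 sorry.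

* `ll2s_KK`        : `skKK n a t (llMrg js P) = llA4K n a P js t`, every `t ≠ 0` (pressure form = log-Laplace form);
* `ll2s_a4`        : `LlStpAdm` + `js < length` + `Ll2sLow x P` (= `Fine.low` of 189) + `s < x`  ⟹  `LlTiltA4 a P js`;
* `ll2s_stop`      : `K_n(s) ≤ 4 x^ε ⟹ K_n(p s) ≤ 1`, `s = q x^(1+ε)`, `N ≥ N0(ε, q, p)`;
* `Ll2sOn N n a P js ε q` : the hypotheses at the step level;   producers `ll2s_on_I8` (`I : L8In`: `I.Ok`, `I.Fine η`, the tilt, `I.Stop`), `ll2s_on_I9` (`I : L9I` at a point `p`);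
* `ll2s_norm`      : `‖R_n‖_{p'} ≤ e^{1/p'}`;
* `ll2s_transfer`, `ll2s_transfer_prod` : Hölder forms;   `ll2s_cs` : `ν^s[T]² ≤ e ν^0[T²]`;   `ll2s_bdd` : `0 ≤ T ≤ B ⟹ ν^s[T] ≤ e^{1/p'} B^{1/p'} ν^0[T]^{1/p}` (N4 of 235);
* `ll2s_trunc`     : TRUNCATION form, no loss in the exponent: `0 ≤ T ≤ B ⟹ ν^s[T] ≤ 3 (x^(-ε₁) ν^0[T] + B x^K)`, `ε₁, K` arbitrary (tree-number analogue of `TlkTr` of 189);
* `ll2s_Dl_prod`   : products of pair factors `Δ` of the tilted context (masked pairs = constants);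
* the same at `I : L8In` (`ll2s_I8_*`: `(I.X true).nu` against `(I.X false).nu`).
-/

set_option autoImplicit false

namespace Claimed.Agent.R286

open MeasureTheory Set Filter Finset

noncomputable section

/-! ### 1. step level: the stop -/

/-- `K_n(t)` of `Defs/Sk` (pressure form, merged path) = `K_n(t)` of (A4) (log-Laplace form), at EVERY `t ≠ 0` -/
theorem ll2s_KK {n : ℕ} (hn : 0 < n) {a : ℝ} (ha : 0 < a) (P : LlStp) (js : ℕ) {t : ℝ} (ht : t ≠ 0) :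
    skKK n a t (llMrg js P) = llA4K n a P js t := by
  rw [ll2b_K]
  unfold skKK skPsi llMrg
  rw [ll2g_sk_tilt n a _ [] t, ll2g_sk_A4 n hn ha ht]

/-- below the mass `x` nothing is revealed but the jump of the matrix clock at the mass `0`      (= the field `low` of `L8In.Fine`, 189) -/
def Ll2sLow (x : ℝ) (P : LlStp) : Prop := ∀ e ∈ P, e.m < x → e.dh = 0 ∧ (e.db = 0 ∨ e.m = 0)

theorem ll2s_ms {a : ℝ} {P : LlStp} {j : ℕ} (h : j < P.length) : llMs a P j = P[j].m := by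
  simp [llMs, h]

theorem ll2s_ms_mono {a : ℝ} {P : LlStp} (hP : LlStpAdm a P) {i j : ℕ} (hij : i ≤ j) (hj : j < P.length) : P[i].m ≤ P[j].m := by
  rcases hij.eq_or_lt with rfl | hlt
  · exact le_rfl
  · have h := List.pairwise_iff_getElem.1 hP.1.1 i j (by simp [llMat]; omega) (by simp [llMat]; omega) hlt
    simpa [llMat] using h

/-- **(A4) holds on a chain which is flat below `x`**, tilt stage of mass `< x` -/
theorem ll2s_a4 {a x : ℝ} {P : LlStp} {js : ℕ} (hP : LlStpAdm a P) (hjs : js < P.length) (hlow : Ll2sLow x P) (hs : llMs a P js < x) :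
    LlTiltA4 a P js := by
  rw [ll2s_ms hjs] at hs
  have key : ∀ l, l ≤ js → ∀ e, P[l]? = some e → e.dh = 0 ∧ (e.db = 0 ∨ e.m = 0) := fun l hl e he => by
    have hl' : l < P.length := by omega
    rw [List.getElem?_eq_getElem hl'] at he
    obtain rfl := Option.some.inj he
    exact hlow _ (List.getElem_mem hl') ((ll2s_ms_mono hP hl hjs).trans_lt hs)
  refine ⟨hP, ⟨hjs, ?_⟩, key⟩
  unfold skCumH
  refine List.sum_eq_zero fun y hy => ?_
  obtain ⟨e, he, rfl⟩ := List.mem_map.1 hy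
  obtain ⟨i, hi, rfl⟩ := List.mem_take_iff_getElem.1 he
  have hi' : i < P.length := by
    have : i < (llMat P).length := by omega
    simpa [llMat] using this
  have := (key i (by omega) P[i] (List.getElem?_eq_getElem hi')).1
  simpa [llMat] using this

/-- the merged path is admissible -/
theorem ll2s_mrg_adm {a : ℝ} (ha : 0 ≤ a) {P : LlStp} (hP : LlStpAdm a P) (js : ℕ) : SkAdm a (llMrg js P) := by
  unfold llMrg
  have hmem : ∀ e ∈ (llMat P).drop (js + 1), e ∈ llMat P := fun e he => List.mem_of_mem_drop he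
  refine ⟨List.pairwise_cons.2 ⟨fun e he => (hP.1.2 e (hmem e he)).1, hP.1.1.sublist (List.drop_sublist _ _)⟩, fun e he => ?_⟩
  rcases List.mem_cons.1 he with rfl | he
  · exact ⟨le_rfl, ha, ll2b_cumB_nonneg hP.1 _, le_rfl⟩
  · exact hP.1.2 e (hmem e he)

/-- the non-empty later stages of the merged path have a mass `≥ x` -/
theorem ll2s_mrg_low {a x : ℝ} {P : LlStp} {js : ℕ} (hP : LlStpAdm a P) (hjs : js < P.length) (hs : 0 < llMs a P js) (hlow : Ll2sLow x P) :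
    ∀ e' ∈ (llMat P).drop (js + 1), (e'.db ≠ 0 ∨ e'.dh ≠ 0) → x ≤ e'.m := by
  intro e' he' hne
  rw [ll2s_ms hjs] at hs
  obtain ⟨i, hi, rfl⟩ := List.mem_iff_getElem.1 he'
  have hi' : js + 1 + i < P.length := by
    have : i < (llMat P).length - (js + 1) := by simpa using hi
    have h2 : (llMat P).length = P.length := by simp [llMat]
    omega
  have e1 : ((llMat P).drop (js + 1))[i] = ⟨P[js + 1 + i].m, P[js + 1 + i].db, P[js + 1 + i].dh⟩ := by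
    simp [llMat]
  rw [e1] at hne ⊢
  by_contra hx
  obtain ⟨g1, g2⟩ := hlow _ (List.getElem_mem hi') (not_le.1 hx)
  have hle := ll2s_ms_mono hP (show js ≤ js + 1 + i by omega) hi'
  rcases g2 with g2 | g2
  · rcases hne with hne | hne
    · exact hne g2
    · exact hne g1
  · linarith

/-- **THE STOP** (LL Lemma 4.2, second half) in the vocabulary of (A4): `K_n(s) ≤ 4 x^ε ⟹ K_n(p s) ≤ 1`, `s = q x^(1+ε)`, `N ≥ N0(ε, q, p)` -/
theorem ll2s_stop (ε q p : ℝ) (hε : 0 < ε) (hq : 0 < q) (hp : 1 ≤ p) : ∃ N0 : ℕ, ∀ N : ℕ, N0 ≤ N → ∀ (n : ℕ) (a : ℝ) (P : LlStp) (js : ℕ),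
    1 ≤ n → LlTiltA4 a P js → Ll2sLow (skX N) P → skX N ≤ a → llMs a P js = q * skX N ^ (1 + ε) →
    llMs a P js * n * llPsi llMv n a js P ≤ 4 * skX N ^ ε → llA4K n a P js (p * llMs a P js) ≤ 1 := by
  obtain ⟨N0, hN0⟩ := ll04_stop_x_ne ε q p hε hq hp
  refine ⟨max N0 1, fun N hN n a P js hn h hlow hxa hs hst => ?_⟩
  have hN1 : 1 ≤ N := (le_max_right _ _).trans hN
  have hx : 0 < skX N := Real.rpow_pos_of_pos (by exact_mod_cast hN1) _
  have hs0 : 0 < llMs a P js := by rw [hs]; exact mul_pos hq (Real.rpow_pos_of_pos hx _)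
  have ha : 0 < a := hx.trans_le hxa
  have h1 : skKK n a (q * skX N ^ (1 + ε)) (llMrg js P) ≤ 4 * skX N ^ ε := by
    rw [← hs]
    unfold skKK
    rw [← exit_a4_psi hn ha h]
    exact hst
  have h2 := hN0 N ((le_max_left _ _).trans hN) n a _ _ hn (ll2s_mrg_adm ha.le h.adm js) rfl (ll2s_mrg_low h.adm h.ok.1 hs0 hlow) hxa h1
  have h3 : skKK n a (p * (q * skX N ^ (1 + ε))) (llMrg js P) ≤ 1 := h2
  rw [← hs, ll2s_KK hn ha P js (mul_pos (zero_lt_one.trans_le hp) hs0).ne'] at h3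
  exact h3

/-! ### 2. the change of measure on the stop, step level -/

/-- **the hypotheses of the change of measure on the stop**, at the step level: `N` = the dyad (`x = skX N`), `n` = number of sites, `(a, P, js)` = the fine path and its tilt stage, `s = q x^(1+ε)`, stop `K_n(s) ≤ 4 x^ε` -/
structure Ll2sOn (N n : ℕ) (a : ℝ) (P : LlStp) (js : ℕ) (ε q : ℝ) : Prop where
  n1 : 1 ≤ n
  a4 : LlTiltA4 a P js
  low : Ll2sLow (skX N) P
  xa : skX N ≤ a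
  s_eq : llMs a P js = q * skX N ^ (1 + ε)
  stop : llMs a P js * n * llPsi llMv n a js P ≤ 4 * skX N ^ ε

/-- `‖R_n‖_{p'} ≤ e^{1/p'}` on the stop -/
theorem ll2s_norm (ε q p' : ℝ) (hε : 0 < ε) (hq : 0 < q) (hp' : 1 ≤ p') : ∃ N0 : ℕ, ∀ N : ℕ, N0 ≤ N → ∀ (n : ℕ) (a : ℝ) (P : LlStp) (js : ℕ),
    Ll2sOn N n a P js ε q → 0 < a ∧ 0 < llMs a P js ∧
      Real.exp ((llA4K n a P js (p' * llMs a P js) - p' * llA4K n a P js (llMs a P js)) / p') ≤ Real.exp (1 / p') := by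
  obtain ⟨N0, hN0⟩ := ll2s_stop ε q p' hε hq hp'
  refine ⟨max N0 1, fun N hN n a P js h => ?_⟩
  have hN1 : 1 ≤ N := (le_max_right _ _).trans hN
  have hx : 0 < skX N := Real.rpow_pos_of_pos (by exact_mod_cast hN1) _
  have hs0 : 0 < llMs a P js := by rw [h.s_eq]; exact mul_pos hq (Real.rpow_pos_of_pos hx _)
  have ha : 0 < a := hx.trans_le h.xa
  refine ⟨ha, hs0, Real.exp_le_exp.2 ?_⟩
  have h1 := hN0 N ((le_max_left _ _).trans hN) n a P js h.n1 h.a4 h.low h.xa h.s_eq h.stop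
  have h2 := exit_a4_K_nonneg n ha P js (llMs a P js)
  have hp0 : 0 < p' := zero_lt_one.trans_le hp'
  exact div_le_div_of_nonneg_right (by nlinarith) hp0.le

/-- **CHANGE OF MEASURE ON THE STOP** (LL 04 l.164-170), Hölder form.      `τ` = ANY tree on the fine grid, the same in both ensembles; the test uses the leaves of a set `A` inside ONE component of the tilted ensemble. -/
theorem ll2s_transfer (ε q : ℝ) (hε : 0 < ε) (hq : 0 < q) {p p' : ℝ} (hpp : p.HolderConjugate p') : ∃ N0 : ℕ, ∀ N : ℕ, N0 ≤ N →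
    ∀ (n : ℕ) (a : ℝ) (P : LlStp) (js : ℕ), Ll2sOn N n a P js ε q →
    ∀ (k : ℕ) (τ : ℕ → ℕ → ℕ), IsTr P.length k τ → ∀ (A : ℕ → Prop) (a0 : ℕ), a0 < k → A a0 → (∀ x y, x < k → y < k → A x → A y → js < τ x y) →
    ∀ T : (ℕ → SkCfg n) → ℝ, (∀ σ σ' : ℕ → SkCfg n, (∀ x, x < k → A x → σ x = σ' x) → T σ = T σ') →
    |llNu n a P (some js) k τ T| ≤ Real.exp (1 / p') * (llNu n a P none k τ fun σ => |T σ| ^ p) ^ (1 / p) := by
  obtain ⟨N0, hN0⟩ := ll2s_norm ε q p' hε hq hpp.symm.lt.le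
  refine ⟨N0, fun N hN n a P js h k τ hτ A a0 ha0 hAa hA T hT => ?_⟩
  obtain ⟨ha, hs0, h1⟩ := hN0 N hN n a P js h
  refine (exit_a4_transfer h.n1 ha h.a4 hs0 hτ A ha0 hAa hA T hT hpp).trans (mul_le_mul_of_nonneg_right h1 (Real.rpow_nonneg ?_ _))
  exact (ll2_law n ha h.a4.adm none).nu.nonneg k τ fun σ => Real.rpow_nonneg (abs_nonneg _) _

/-- **change of measure on the stop for products over several components** (LL 04 l.167-169) -/
theorem ll2s_transfer_prod (ε q : ℝ) (hε : 0 < ε) (hq : 0 < q) {p p' : ℝ} (hpp : p.HolderConjugate p') : ∃ N0 : ℕ, ∀ N : ℕ, N0 ≤ N →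
    ∀ (n : ℕ) (a : ℝ) (P : LlStp) (js : ℕ), Ll2sOn N n a P js ε q →
    ∀ (k : ℕ) (τ : ℕ → ℕ → ℕ), IsTr P.length k τ → ∀ (r : ℕ), 0 < r → ∀ (X : Fin r → (ℕ → SkCfg n) → ℝ) (A : Fin r → ℕ → Prop) (a0 : Fin r → ℕ),
    (∀ i, a0 i < k) → (∀ i, A i (a0 i)) → (∀ i x y, x < k → y < k → A i x → A i y → js < τ x y) →
    (∀ i (σ σ' : ℕ → SkCfg n), (∀ x, x < k → A i x → σ x = σ' x) → X i σ = X i σ') →
    |llNu n a P (some js) k τ fun σ => ∏ i, X i σ|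
      ≤ Real.exp (1 / p') * ∏ i, (llNu n a P none k τ fun σ => |X i σ| ^ ((r : ℝ) * p)) ^ (1 / ((r : ℝ) * p)) := by
  obtain ⟨N0, hN0⟩ := ll2s_norm ε q p' hε hq hpp.symm.lt.le
  refine ⟨N0, fun N hN n a P js h k τ hτ r hr X A a0 ha0 hAa hA hX => ?_⟩
  obtain ⟨ha, hs0, h1⟩ := hN0 N hN n a P js h
  refine (exit_a4_transfer_prod h.n1 ha h.a4 hs0 hτ hr X A a0 ha0 hAa hA hX hpp).trans
    (mul_le_mul_of_nonneg_right h1 (Finset.prod_nonneg fun i _ => Real.rpow_nonneg ?_ _))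
  exact (ll2_law n ha h.a4.adm none).nu.nonneg k τ fun σ => Real.rpow_nonneg (abs_nonneg _) _

/-- Cauchy-Schwarz form: `ν^s[T]² ≤ e ν^0[T²]` -/
theorem ll2s_cs (ε q : ℝ) (hε : 0 < ε) (hq : 0 < q) : ∃ N0 : ℕ, ∀ N : ℕ, N0 ≤ N →
    ∀ (n : ℕ) (a : ℝ) (P : LlStp) (js : ℕ), Ll2sOn N n a P js ε q →
    ∀ (k : ℕ) (τ : ℕ → ℕ → ℕ), IsTr P.length k τ → ∀ (A : ℕ → Prop) (a0 : ℕ), a0 < k → A a0 → (∀ x y, x < k → y < k → A x → A y → js < τ x y) →
    ∀ T : (ℕ → SkCfg n) → ℝ, (∀ σ σ' : ℕ → SkCfg n, (∀ x, x < k → A x → σ x = σ' x) → T σ = T σ') →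
    llNu n a P (some js) k τ T ^ 2 ≤ Real.exp 1 * llNu n a P none k τ fun σ => T σ ^ 2 := by
  obtain ⟨N0, hN0⟩ := ll2s_transfer ε q hε hq Real.HolderConjugate.two_two
  obtain ⟨N1, hN1⟩ := ll2s_norm ε q 2 hε hq one_le_two
  refine ⟨max N0 N1, fun N hN n a P js h k τ hτ A a0 ha0 hAa hA T hT => ?_⟩
  have h1 := hN0 N ((le_max_left _ _).trans hN) n a P js h k τ hτ A a0 ha0 hAa hA T hT
  obtain ⟨ha, -, -⟩ := hN1 N ((le_max_right _ _).trans hN) n a P js h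
  have e1 : (fun σ : ℕ → SkCfg n => |T σ| ^ (2 : ℝ)) = fun σ => T σ ^ 2 := by
    funext σ; rw [Real.rpow_two, sq_abs]
  rw [e1] at h1
  have h0 : 0 ≤ llNu n a P none k τ fun σ => T σ ^ 2 := (ll2_law n ha h.a4.adm none).nu.nonneg k τ fun σ => sq_nonneg _
  have h2 := pow_le_pow_left₀ (abs_nonneg _) h1 2
  rw [sq_abs, mul_pow, ← Real.exp_nat_mul, ← Real.sqrt_eq_rpow, Real.sq_sqrt h0] at h2
  norm_num at h2
  exact h2

/-- **bounded tests** (N4 of 235): `0 ≤ T ≤ B ⟹ ν^s[T] ≤ e^{1/p'} B^{1/p'} ν^0[T]^{1/p}` -/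
theorem ll2s_bdd (ε q : ℝ) (hε : 0 < ε) (hq : 0 < q) {p p' : ℝ} (hpp : p.HolderConjugate p') : ∃ N0 : ℕ, ∀ N : ℕ, N0 ≤ N →
    ∀ (n : ℕ) (a : ℝ) (P : LlStp) (js : ℕ), Ll2sOn N n a P js ε q →
    ∀ (k : ℕ) (τ : ℕ → ℕ → ℕ), IsTr P.length k τ → ∀ (A : ℕ → Prop) (a0 : ℕ), a0 < k → A a0 → (∀ x y, x < k → y < k → A x → A y → js < τ x y) →
    ∀ T : (ℕ → SkCfg n) → ℝ, (∀ σ σ' : ℕ → SkCfg n, (∀ x, x < k → A x → σ x = σ' x) → T σ = T σ') →
    ∀ B : ℝ, (∀ σ, 0 ≤ T σ) → (∀ σ, T σ ≤ B) →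
    llNu n a P (some js) k τ T ≤ Real.exp (1 / p') * B ^ (1 / p') * llNu n a P none k τ T ^ (1 / p) := by
  obtain ⟨N0, hN0⟩ := ll2s_transfer ε q hε hq hpp
  obtain ⟨N1, hN1⟩ := ll2s_norm ε q 2 hε hq one_le_two
  refine ⟨max N0 N1, fun N hN n a P js h k τ hτ A a0 ha0 hAa hA T hT B hT0 hTB => ?_⟩
  have h1 := hN0 N ((le_max_left _ _).trans hN) n a P js h k τ hτ A a0 ha0 hAa hA T hT
  obtain ⟨ha, -, -⟩ := hN1 N ((le_max_right _ _).trans hN) n a P js h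
  have hL : JtNuLaw P.length (llNu n a P none) := (ll2_law n ha h.a4.adm none).nu
  have hB : 0 ≤ B := (hT0 default).trans (hTB default)
  have hp1 : 0 ≤ p - 1 := by linarith [hpp.lt]
  have hp0 : 0 < p := hpp.pos
  have h2 : (llNu n a P none k τ fun σ => |T σ| ^ p) ≤ B ^ (p - 1) * llNu n a P none k τ T := by
    have := hL.const_mul k τ (B ^ (p - 1)) T
    refine le_trans (hL.mono k τ fun σ => ?_) this.le
    rw [abs_of_nonneg (hT0 σ)]
    have e : T σ ^ p = T σ ^ (p - 1) * T σ := by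
      rw [← Real.rpow_add_one' (hT0 σ) (by linarith)]; congr 1; ring
    rw [e]
    exact mul_le_mul_of_nonneg_right (Real.rpow_le_rpow (hT0 σ) (hTB σ) hp1) (hT0 σ)
  have h0 : 0 ≤ llNu n a P none k τ T := hL.nonneg k τ hT0
  have h00 : 0 ≤ llNu n a P none k τ fun σ => |T σ| ^ p := hL.nonneg k τ fun σ => Real.rpow_nonneg (abs_nonneg _) _
  have h3 : (llNu n a P none k τ fun σ => |T σ| ^ p) ^ (1 / p) ≤ B ^ (1 / p') * llNu n a P none k τ T ^ (1 / p) := by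
    refine (Real.rpow_le_rpow h00 h2 (by positivity)).trans (le_of_eq ?_)
    rw [Real.mul_rpow (Real.rpow_nonneg hB _) h0, ← Real.rpow_mul hB]
    congr 2
    have := hpp.inv_add_inv_eq_one
    field_simp at this ⊢
    linarith
  calc llNu n a P (some js) k τ T ≤ |llNu n a P (some js) k τ T| := le_abs_self _
    _ ≤ _ := h1
    _ ≤ Real.exp (1 / p') * (B ^ (1 / p') * llNu n a P none k τ T ^ (1 / p)) := mul_le_mul_of_nonneg_left h3 (Real.exp_pos _).le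
    _ = _ := by ring

/-- Young: `B^{1/p'} u^{1/p} ≤ B l + u l^{-(p-1)}` -/
theorem ll2s_young {p p' : ℝ} (hpp : p.HolderConjugate p') {B u l : ℝ} (hB : 0 ≤ B) (hu : 0 ≤ u) (hl : 0 < l) :
    B ^ (1 / p') * u ^ (1 / p) ≤ B * l + u * l ^ (-(p - 1)) := by
  have hp0 : 0 < p := hpp.pos
  have hp'0 : 0 < p' := hpp.symm.pos
  have hsum : 1 / p' + 1 / p = 1 := by have := hpp.inv_add_inv_eq_one; rw [one_div, one_div]; linarith
  have hl2 : 0 < l ^ (-(p - 1)) := Real.rpow_pos_of_pos hl _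
  have h := Real.geom_mean_le_arith_mean2_weighted (w₁ := 1 / p') (w₂ := 1 / p) (p₁ := B * l) (p₂ := u * l ^ (-(p - 1)))
    (by positivity) (by positivity) (by positivity) (by positivity) hsum
  have e1 : (B * l) ^ (1 / p') * (u * l ^ (-(p - 1))) ^ (1 / p) = B ^ (1 / p') * u ^ (1 / p) := by
    rw [Real.mul_rpow hB hl.le, Real.mul_rpow hu hl2.le, ← Real.rpow_mul hl.le]
    have e2 : l ^ (1 / p') * l ^ (-(p - 1) * (1 / p)) = 1 := by
      rw [← Real.rpow_add hl]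
      have : 1 / p' + -(p - 1) * (1 / p) = 0 := by
        have h1 : 1 / p' = 1 - 1 / p := by linarith
        rw [h1]; field_simp; ring
      rw [this, Real.rpow_zero]
    calc B ^ (1 / p') * l ^ (1 / p') * (u ^ (1 / p) * l ^ (-(p - 1) * (1 / p)))
        = B ^ (1 / p') * u ^ (1 / p) * (l ^ (1 / p') * l ^ (-(p - 1) * (1 / p))) := by ring
      _ = _ := by rw [e2, mul_one]
  rw [e1] at h
  have w1 : 1 / p' ≤ 1 := by have : 0 < 1 / p := by positivity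
                             linarith
  have w2 : 1 / p ≤ 1 := by have : 0 < 1 / p' := by positivity
                            linarith
  have g1 : 1 / p' * (B * l) ≤ B * l := mul_le_of_le_one_left (by positivity) w1
  have g2 : 1 / p * (u * l ^ (-(p - 1))) ≤ u * l ^ (-(p - 1)) := mul_le_of_le_one_left (by positivity) w2
  linarith

/-- **TRUNCATION FORM** (no loss in the exponent; tree-number analogue of `TlkTr` of 189): `0 ≤ T ≤ B ⟹ ν^s[T] ≤ 3 (x^(-ε₁) ν^0[T] + B x^K)`, `ε₁ > 0` and `K` ARBITRARY, `N ≥ N0(ε, q, ε₁, K)` -/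
theorem ll2s_trunc (ε q ε1 K : ℝ) (hε : 0 < ε) (hq : 0 < q) (hε1 : 0 < ε1) (hK : 0 < K) : ∃ N0 : ℕ, ∀ N : ℕ, N0 ≤ N →
    ∀ (n : ℕ) (a : ℝ) (P : LlStp) (js : ℕ), Ll2sOn N n a P js ε q →
    ∀ (k : ℕ) (τ : ℕ → ℕ → ℕ), IsTr P.length k τ → ∀ (A : ℕ → Prop) (a0 : ℕ), a0 < k → A a0 → (∀ x y, x < k → y < k → A x → A y → js < τ x y) →
    ∀ T : (ℕ → SkCfg n) → ℝ, (∀ σ σ' : ℕ → SkCfg n, (∀ x, x < k → A x → σ x = σ' x) → T σ = T σ') →
    ∀ B : ℝ, (∀ σ, 0 ≤ T σ) → (∀ σ, T σ ≤ B) →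
    llNu n a P (some js) k τ T ≤ 3 * (skX N ^ (-ε1) * llNu n a P none k τ T + B * skX N ^ K) := by
  have hpp : (1 + ε1 / K).HolderConjugate (1 + K / ε1) := by
    rw [Real.holderConjugate_iff]
    refine ⟨by have : 0 < ε1 / K := by positivity
               linarith, ?_⟩
    field_simp
    ring
  obtain ⟨N0, hN0⟩ := ll2s_bdd ε q hε hq hpp
  obtain ⟨N1, hN1⟩ := ll2s_norm ε q 2 hε hq one_le_two
  refine ⟨max (max N0 N1) 1, fun N hN n a P js h k τ hτ A a0 ha0 hAa hA T hT B hT0 hTB => ?_⟩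
  have hNa : N0 ≤ N := ((le_max_left _ _).trans (le_max_left _ _)).trans hN
  have hNb : N1 ≤ N := ((le_max_right _ _).trans (le_max_left _ _)).trans hN
  have hN1' : 1 ≤ N := (le_max_right _ _).trans hN
  have hx : 0 < skX N := Real.rpow_pos_of_pos (by exact_mod_cast hN1') _
  have h1 := hN0 N hNa n a P js h k τ hτ A a0 ha0 hAa hA T hT B hT0 hTB
  obtain ⟨ha, -, -⟩ := hN1 N hNb n a P js h
  have hL : JtNuLaw P.length (llNu n a P none) := (ll2_law n ha h.a4.adm none).nu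
  have hB : 0 ≤ B := (hT0 default).trans (hTB default)
  have h0 : 0 ≤ llNu n a P none k τ T := hL.nonneg k τ hT0
  have h2 := ll2s_young hpp hB h0 (Real.rpow_pos_of_pos hx K)
  have e1 : (skX N ^ K) ^ (-(1 + ε1 / K - 1)) = skX N ^ (-ε1) := by
    rw [← Real.rpow_mul hx.le]
    congr 1
    field_simp
    ring
  rw [e1] at h2
  have h3 : Real.exp (1 / (1 + K / ε1)) ≤ 3 := by
    have : 1 / (1 + K / ε1) ≤ 1 := by
      rw [div_le_one (by positivity)]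
      have : 0 < K / ε1 := by positivity
      linarith
    exact (Real.exp_le_exp.2 this).trans (by have := Real.exp_one_lt_d9; linarith)
  have h4 : 0 ≤ B ^ (1 / (1 + K / ε1)) * llNu n a P none k τ T ^ (1 / (1 + ε1 / K)) :=
    mul_nonneg (Real.rpow_nonneg hB _) (Real.rpow_nonneg h0 _)
  calc llNu n a P (some js) k τ T
      ≤ Real.exp (1 / (1 + K / ε1)) * (B ^ (1 / (1 + K / ε1)) * llNu n a P none k τ T ^ (1 / (1 + ε1 / K))) := by rw [← mul_assoc]; exact h1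
    _ ≤ 3 * (B ^ (1 / (1 + K / ε1)) * llNu n a P none k τ T ^ (1 / (1 + ε1 / K))) := mul_le_mul_of_nonneg_right h3 h4
    _ ≤ 3 * (skX N ^ (-ε1) * llNu n a P none k τ T + B * skX N ^ K) := by
        refine mul_le_mul_of_nonneg_left ?_ (by norm_num)
        linarith

/-! ### 3. pair factors -/

/-- the pair factor `Δ_{cd}` of the TILTED context: a function of the two leaves if the pair is active, a constant if it is masked -/
theorem ll2s_Dl_uses (n : ℕ) (a : ℝ) (P : LlStp) (js : ℕ) (τ : ℕ → ℕ → ℕ) (c d : ℕ) (σ σ' : ℕ → SkCfg n)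
    (h : js < τ c d → σ c = σ' c ∧ σ d = σ' d) : (llJs n a P (some js)).Dl τ σ c d = (llJs n a P (some js)).Dl τ σ' c d := by
  have e : ∀ s : ℕ → SkCfg n, (llJs n a P (some js)).Dl τ s c d = (if js < τ c d then 1 else 0) * skOv (s c) (s d) - llQs a P (τ c d) := fun _ => rfl
  rw [e, e]
  by_cases hc : js < τ c d
  · rw [(h hc).1, (h hc).2]
  · simp [hc]

/-- active pairs: the pair factors of the two contexts coincide -/
theorem ll2s_Dl_act (n : ℕ) (a : ℝ) (P : LlStp) (js : ℕ) (τ : ℕ → ℕ → ℕ) (c d : ℕ) (σ : ℕ → SkCfg n) (h : js < τ c d) :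
    (llJs n a P (some js)).Dl τ σ c d = (llJs n a P none).Dl τ σ c d := by
  show (if js < τ c d then 1 else 0) * skOv (σ c) (σ d) - llQs a P (τ c d) = 1 * skOv (σ c) (σ d) - llQs a P (τ c d)
  rw [if_pos h]

/-- masked pairs: the pair factor of the tilted context is the constant `- q` -/
theorem ll2s_Dl_msk (n : ℕ) (a : ℝ) (P : LlStp) (js : ℕ) (τ : ℕ → ℕ → ℕ) (c d : ℕ) (σ : ℕ → SkCfg n) (h : τ c d ≤ js) :
    (llJs n a P (some js)).Dl τ σ c d = - llQs a P (τ c d) := by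
  show (if js < τ c d then 1 else 0) * skOv (σ c) (σ d) - llQs a P (τ c d) = _
  rw [if_neg (by omega)]; ring

/-- **products of functions of pair factors on the stop**: `r` factors `g i (Δ_{c_i d_i})`, ANY tree; the right side is UNTILTED law, tilted factor (`= ` the untilted factor on the active pairs, the constant `g i (- q)` on the masked ones) -/
theorem ll2s_Dl_prod (ε q : ℝ) (hε : 0 < ε) (hq : 0 < q) {p p' : ℝ} (hpp : p.HolderConjugate p') : ∃ N0 : ℕ, ∀ N : ℕ, N0 ≤ N →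
    ∀ (n : ℕ) (a : ℝ) (P : LlStp) (js : ℕ), Ll2sOn N n a P js ε q →
    ∀ (k : ℕ) (τ : ℕ → ℕ → ℕ), IsTr P.length k τ → ∀ (r : ℕ), 0 < r → ∀ (c d : Fin r → ℕ) (g : Fin r → ℝ → ℝ), (∀ i, c i < k) → (∀ i, d i < k) →
    |(llJs n a P (some js)).nu k τ fun σ => ∏ i, g i ((llJs n a P (some js)).Dl τ σ (c i) (d i))|
      ≤ Real.exp (1 / p') * ∏ i, ((llJs n a P none).nu k τ fun σ => |g i ((llJs n a P (some js)).Dl τ σ (c i) (d i))| ^ ((r : ℝ) * p)) ^ (1 / ((r : ℝ) * p)) := by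
  obtain ⟨N0, hN0⟩ := ll2s_transfer_prod ε q hε hq hpp
  refine ⟨N0, fun N hN n a P js h k τ hτ r hr c d g hc hd => ?_⟩
  refine hN0 N hN n a P js h k τ hτ r hr (fun i σ => g i ((llJs n a P (some js)).Dl τ σ (c i) (d i)))
    (fun i x => x = c i ∨ (js < τ (c i) (d i) ∧ x = d i)) c hc (fun i => Or.inl rfl) ?_ ?_
  · have hjs : js < P.length + 1 := by have := h.a4.ok.1; omega
    rintro i x y hx hy (rfl | ⟨h1, rfl⟩) (rfl | ⟨h2, rfl⟩)
    · rw [hτ.diag _ hx]; exact hjs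
    · exact h2
    · rw [hτ.symm _ _ hx hy]; exact h1
    · rw [hτ.diag _ hx]; exact hjs
  · intro i σ σ' hσ
    show g i _ = g i _
    rw [ll2s_Dl_uses n a P js τ (c i) (d i) σ σ' fun hcd => ⟨hσ _ (hc i) (Or.inl rfl), hσ _ (hd i) (Or.inr ⟨hcd, rfl⟩)⟩]

/-- **one active pair on the stop**, bounded nonnegative function of the overlap (L2 + N4 of 235) -/
theorem ll2s_pair (ε q : ℝ) (hε : 0 < ε) (hq : 0 < q) {p p' : ℝ} (hpp : p.HolderConjugate p') : ∃ N0 : ℕ, ∀ N : ℕ, N0 ≤ N →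
    ∀ (n : ℕ) (a : ℝ) (P : LlStp) (js : ℕ), Ll2sOn N n a P js ε q →
    ∀ (k : ℕ) (τ : ℕ → ℕ → ℕ), IsTr P.length k τ → ∀ c d : ℕ, c < k → d < k → js < τ c d → ∀ (g : ℝ → ℝ) (B : ℝ), (∀ u, 0 ≤ g u) → (∀ u, g u ≤ B) →
    (llJs n a P (some js)).nu k τ (fun σ => g (skOv (σ c) (σ d)))
      ≤ Real.exp (1 / p') * B ^ (1 / p') * (llJs n a P none).nu k τ (fun σ => g (skOv (σ c) (σ d))) ^ (1 / p) := by
  obtain ⟨N0, hN0⟩ := ll2s_bdd ε q hε hq hpp
  refine ⟨N0, fun N hN n a P js h k τ hτ c d hc hd hcd g B hg0 hgB => ?_⟩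
  refine hN0 N hN n a P js h k τ hτ (fun x => x = c ∨ x = d) c hc (Or.inl rfl) ?_ (fun σ => g (skOv (σ c) (σ d))) ?_ B (fun _ => hg0 _) (fun _ => hgB _)
  · have hjs : js < P.length + 1 := by have := h.a4.ok.1; omega
    rintro x y hx hy (rfl | rfl) (rfl | rfl)
    · rw [hτ.diag _ hx]; exact hjs
    · exact hcd
    · rw [hτ.symm _ _ hx hy]; exact hcd
    · rw [hτ.diag _ hx]; exact hjs
  · intro σ σ' hσ
    show g _ = g _
    rw [hσ c hc (Or.inl rfl), hσ d hd (Or.inr rfl)]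

/-! ### 4. the instances -/

theorem ll2s_skMs (a : ℝ) (P : LlStp) (j : ℕ) : skMs a (llMat P) j = llMs a P j := by
  unfold skMs llMs llMat
  rw [List.map_map, List.getD_eq_getElem?_getD]
  rfl

/-- producer at an instance of LL 09, at the point `p`      (`x = skX p.N`) -/
theorem ll2s_on_I9 {I : L9I} {p : LlPt} {ε q : ℝ} (hm : 1 ≤ I.m) (hadm : LlStpAdm p.a (I.P p)) (hjs : I.js p < (I.P p).length)
    (hlow : Ll2sLow p.x (I.P p)) (hxa : p.x ≤ p.a) (hms : llMs p.a (I.P p) (I.js p) = I.s) (hsx : I.s < p.x) (hs : I.s = q * p.x ^ (1 + ε))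
    (hst : I.s * (I.m : ℝ) * I.psi p I.m ≤ 4 * p.x ^ ε) : Ll2sOn p.N I.m p.a (I.P p) (I.js p) ε q where
  n1 := hm
  a4 := ll2s_a4 hadm hjs hlow (hms.trans_lt hsx)
  low := hlow
  xa := hxa
  s_eq := hms.trans hs
  stop := by rw [hms]; exact hst

theorem ll2s_x_le_a {F : LlFix} {p : LlPt} (h : p.Ok F) : p.x ≤ p.a := by
  have h1 : p.x ≤ 1 := by
    unfold LlPt.x
    exact Real.rpow_le_one_of_one_le_of_nonpos (by have := h.N2; exact_mod_cast (by omega : 1 ≤ p.N)) (by norm_num)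
  have h2 : 1 ≤ p.a := by
    unfold LlPt.a
    split_ifs
    · norm_num
    · exact h.ell1
  exact h1.trans h2

/-- **producer at an instance of LL 08** -/
theorem ll2s_on_I8 {I : L8In} {η εs qs : ℝ} (hOk : I.Ok) (hF : I.Fine η) (hs : I.s = qs * I.x ^ (1 + εs)) (hst : I.Stop (I.x ^ εs)) :
    Ll2sOn I.p.N I.m I.a I.LP I.js εs qs :=
  ll2s_on_I9 (I := I.i9) (p := I.p) (by have := hOk.m_lo; have := hOk.pt.N2; show 1 ≤ I.m; omega) hF.adm hF.js_lt hF.low (ll2s_x_le_a hOk.pt)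
    ((ll2s_skMs _ _ _).symm.trans hF.js_m) hOk.s_lt hs hst

/-- (A4) at an instance -/
theorem ll2s_a4_I8 {I : L8In} {η : ℝ} (hOk : I.Ok) (hF : I.Fine η) : LlTiltA4 I.a I.LP I.js :=
  ll2s_a4 hF.adm hF.js_lt hF.low (((ll2s_skMs _ _ _).symm.trans hF.js_m).trans_lt hOk.s_lt)

/-- `K_m(p s) ≤ 1` at an instance, on the stop -/
theorem ll2s_I8_stop (εs qs p : ℝ) (hε : 0 < εs) (hq : 0 < qs) (hp : 1 ≤ p) : ∃ N0 : ℕ, ∀ (I : L8In) (η : ℝ), N0 ≤ I.p.N → I.Ok → I.Fine η →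
    I.s = qs * I.x ^ (1 + εs) → I.Stop (I.x ^ εs) → llA4K I.m I.a I.LP I.js (p * I.s) ≤ 1 := by
  obtain ⟨N0, hN0⟩ := ll2s_stop εs qs p hε hq hp
  refine ⟨N0, fun I η hN hOk hF hs hst => ?_⟩
  have h := ll2s_on_I8 hOk hF hs hst
  have := hN0 _ hN _ _ _ _ h.n1 h.a4 h.low h.xa h.s_eq h.stop
  rwa [(ll2s_skMs _ _ _).symm.trans hF.js_m] at this

/-- **change of measure at an instance, on the stop**, Hölder form -/
theorem ll2s_I8_transfer (εs qs : ℝ) (hε : 0 < εs) (hq : 0 < qs) {p p' : ℝ} (hpp : p.HolderConjugate p') : ∃ N0 : ℕ, ∀ (I : L8In) (η : ℝ), N0 ≤ I.p.N →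
    I.Ok → I.Fine η → I.s = qs * I.x ^ (1 + εs) → I.Stop (I.x ^ εs) →
    ∀ (k : ℕ) (τ : ℕ → ℕ → ℕ), IsTr I.n k τ → ∀ (A : ℕ → Prop) (a0 : ℕ), a0 < k → A a0 → (∀ x y, x < k → y < k → A x → A y → I.js < τ x y) →
    ∀ T : (ℕ → SkCfg I.m) → ℝ, (∀ σ σ' : ℕ → SkCfg I.m, (∀ x, x < k → A x → σ x = σ' x) → T σ = T σ') →
    |(I.X true).nu k τ T| ≤ Real.exp (1 / p') * ((I.X false).nu k τ fun σ => |T σ| ^ p) ^ (1 / p) := by
  obtain ⟨N0, hN0⟩ := ll2s_transfer εs qs hε hq hpp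
  exact ⟨N0, fun I η hN hOk hF hs hst => hN0 _ hN _ _ _ _ (ll2s_on_I8 hOk hF hs hst)⟩

/-- Cauchy-Schwarz form at an instance -/
theorem ll2s_I8_cs (εs qs : ℝ) (hε : 0 < εs) (hq : 0 < qs) : ∃ N0 : ℕ, ∀ (I : L8In) (η : ℝ), N0 ≤ I.p.N →
    I.Ok → I.Fine η → I.s = qs * I.x ^ (1 + εs) → I.Stop (I.x ^ εs) →
    ∀ (k : ℕ) (τ : ℕ → ℕ → ℕ), IsTr I.n k τ → ∀ (A : ℕ → Prop) (a0 : ℕ), a0 < k → A a0 → (∀ x y, x < k → y < k → A x → A y → I.js < τ x y) →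
    ∀ T : (ℕ → SkCfg I.m) → ℝ, (∀ σ σ' : ℕ → SkCfg I.m, (∀ x, x < k → A x → σ x = σ' x) → T σ = T σ') →
    (I.X true).nu k τ T ^ 2 ≤ Real.exp 1 * (I.X false).nu k τ fun σ => T σ ^ 2 := by
  obtain ⟨N0, hN0⟩ := ll2s_cs εs qs hε hq
  exact ⟨N0, fun I η hN hOk hF hs hst => hN0 _ hN _ _ _ _ (ll2s_on_I8 hOk hF hs hst)⟩

/-- products of functions of pair factors at an instance -/
theorem ll2s_I8_Dl_prod (εs qs : ℝ) (hε : 0 < εs) (hq : 0 < qs) {p p' : ℝ} (hpp : p.HolderConjugate p') : ∃ N0 : ℕ, ∀ (I : L8In) (η : ℝ), N0 ≤ I.p.N →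
    I.Ok → I.Fine η → I.s = qs * I.x ^ (1 + εs) → I.Stop (I.x ^ εs) →
    ∀ (k : ℕ) (τ : ℕ → ℕ → ℕ), IsTr I.n k τ → ∀ (r : ℕ), 0 < r → ∀ (c d : Fin r → ℕ) (g : Fin r → ℝ → ℝ), (∀ i, c i < k) → (∀ i, d i < k) →
    |(I.X true).nu k τ fun σ => ∏ i, g i ((I.X true).Dl τ σ (c i) (d i))|
      ≤ Real.exp (1 / p') * ∏ i, ((I.X false).nu k τ fun σ => |g i ((I.X true).Dl τ σ (c i) (d i))| ^ ((r : ℝ) * p)) ^ (1 / ((r : ℝ) * p)) := by
  obtain ⟨N0, hN0⟩ := ll2s_Dl_prod εs qs hε hq hpp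
  exact ⟨N0, fun I η hN hOk hF hs hst => hN0 _ hN _ _ _ _ (ll2s_on_I8 hOk hF hs hst)⟩

/-- one active pair at an instance -/
theorem ll2s_I8_pair (εs qs : ℝ) (hε : 0 < εs) (hq : 0 < qs) {p p' : ℝ} (hpp : p.HolderConjugate p') : ∃ N0 : ℕ, ∀ (I : L8In) (η : ℝ), N0 ≤ I.p.N →
    I.Ok → I.Fine η → I.s = qs * I.x ^ (1 + εs) → I.Stop (I.x ^ εs) →
    ∀ (k : ℕ) (τ : ℕ → ℕ → ℕ), IsTr I.n k τ → ∀ c d : ℕ, c < k → d < k → I.js < τ c d → ∀ (g : ℝ → ℝ) (B : ℝ), (∀ u, 0 ≤ g u) → (∀ u, g u ≤ B) →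
    (I.X true).nu k τ (fun σ => g (skOv (σ c) (σ d)))
      ≤ Real.exp (1 / p') * B ^ (1 / p') * (I.X false).nu k τ (fun σ => g (skOv (σ c) (σ d))) ^ (1 / p) := by
  obtain ⟨N0, hN0⟩ := ll2s_pair εs qs hε hq hpp
  exact ⟨N0, fun I η hN hOk hF hs hst => hN0 _ hN _ _ _ _ (ll2s_on_I8 hOk hF hs hst)⟩

/-- truncation form at an instance -/
theorem ll2s_I8_trunc (εs qs ε1 K : ℝ) (hε : 0 < εs) (hq : 0 < qs) (hε1 : 0 < ε1) (hK : 0 < K) : ∃ N0 : ℕ, ∀ (I : L8In) (η : ℝ), N0 ≤ I.p.N →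
    I.Ok → I.Fine η → I.s = qs * I.x ^ (1 + εs) → I.Stop (I.x ^ εs) →
    ∀ (k : ℕ) (τ : ℕ → ℕ → ℕ), IsTr I.n k τ → ∀ (A : ℕ → Prop) (a0 : ℕ), a0 < k → A a0 → (∀ x y, x < k → y < k → A x → A y → I.js < τ x y) →
    ∀ T : (ℕ → SkCfg I.m) → ℝ, (∀ σ σ' : ℕ → SkCfg I.m, (∀ x, x < k → A x → σ x = σ' x) → T σ = T σ') →
    ∀ B : ℝ, (∀ σ, 0 ≤ T σ) → (∀ σ, T σ ≤ B) →
    (I.X true).nu k τ T ≤ 3 * (I.x ^ (-ε1) * (I.X false).nu k τ T + B * I.x ^ K) := by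
  obtain ⟨N0, hN0⟩ := ll2s_trunc εs qs ε1 K hε hq hε1 hK
  exact ⟨N0, fun I η hN hOk hF hs hst => hN0 _ hN _ _ _ _ (ll2s_on_I8 hOk hF hs hst)⟩

end

end Claimed.Agent.R286
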