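import Claimed.Agent.R286.L02.SzSk

/-!
# Row 286 (S0533), LL Lemma `found:size-increment` (T7), file ALG: the expansion at the decoupled end point in the jet vocabulary      (architect helper115; prefix `sz_a_`)

`S_r(0) = Z_r(j) + O(1/n)`, `Z_r(j)` = per-root sum of `(Ψ^j e^{-jC})_r` = polynomial in `j`; coefficient of `j` = (A6); majorant of the remainder.
ALL LEAVES of this file: claimed by helper211 (proved in place).
-/

set_option autoImplicit false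
set_option linter.unusedVariables false

namespace Claimed.Agent.R286

open scoped BigOperators Nat
open Set

theorem sz_a_base_ok (n : ℕ) {a : ℝ} (ha : 0 < a) : (skBase n a).Ok where
  nonneg := fun _ => by unfold skBase ghUnif; positivity
  sum := by
    unfold skBase ghUnif
    simp
  pos := ha

theorem sz_a_ov_self {n : ℕ} (hn : 0 < n) (σ : SkCfg n) : skOv σ σ = 1 := by
  unfold skOv
  simp only [sk_d_sp_mul, Finset.sum_const, Finset.card_univ, Fintype.card_fin, nsmul_eq_mul, mul_one]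
  exact div_self (by positivity)

theorem sz_a_Rr_self {j : ℕ} (ρ : SkCfg j) : szRr ρ ρ = j := by
  unfold szRr
  simp [sk_d_sp_mul]

/-- every increment of the interpolating family has a constant diagonal (hypothesis of `L02/Alloc`) -/
theorem sz_a_diagC {n : ℕ} (hn : 0 < n) (j : ℕ) (R : SzStp) : LlDiagC (szFeat n j) (szHs j R) := by
  intro l s s'
  unfold gcDK
  refine Finset.sum_congr rfl fun r _ => ?_
  congr 1
  obtain ⟨h0, h1, h2, h3, h4⟩ := sz_k_ker hn j s s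
  obtain ⟨h0', h1', h2', h3', h4'⟩ := sz_k_ker hn j s' s'
  fin_cases r
  · show gcKer (szFeat n j) 0 s s = gcKer (szFeat n j) 0 s' s'
    rw [h0, h0', sz_a_ov_self hn, sz_a_ov_self hn]
  · show gcKer (szFeat n j) 1 s s = gcKer (szFeat n j) 1 s' s'
    rw [h1, h1', sz_a_ov_self hn, sz_a_ov_self hn, sz_a_Rr_self, sz_a_Rr_self]
  · show gcKer (szFeat n j) 2 s s = gcKer (szFeat n j) 2 s' s'
    rw [h2, h2', sz_a_ov_self hn, sz_a_ov_self hn]
  · show gcKer (szFeat n j) 3 s s = gcKer (szFeat n j) 3 s' s'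
    rw [h3, h3', sz_a_Rr_self, sz_a_Rr_self]
  · show gcKer (szFeat n j) 4 s s = gcKer (szFeat n j) 4 s' s'
    rw [h4, h4']

/-! ### kit: linearity of the tree numbers, the indicator of the off-diagonal pairs -/

section kit
variable {S ι : Type} [Fintype S] [Fintype ι] [Inhabited S]

theorem sz_a_nu_sum {B : GhB S} (hB : B.Ok) {ls : List (GhLv S ι)} (hls : GhAdm B 0 ls) (q : ℕ) (τ : ℕ → ℕ → ℕ) (z : S → ℝ)
    {κ : Type} (s : Finset κ) (P : κ → (ℕ → S) → ℝ) :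
    trNu B ls q τ z (fun σ => ∑ k ∈ s, P k σ) = ∑ k ∈ s, trNu B ls q τ z (P k) := by
  classical
  simp only [tr_nu_eq_sum hB hls, Finset.mul_sum]
  exact Finset.sum_comm

theorem sz_a_nu_add {B : GhB S} (hB : B.Ok) {ls : List (GhLv S ι)} (hls : GhAdm B 0 ls) (q : ℕ) (τ : ℕ → ℕ → ℕ) (z : S → ℝ)
    (P Q : (ℕ → S) → ℝ) :
    trNu B ls q τ z (fun σ => P σ + Q σ) = trNu B ls q τ z P + trNu B ls q τ z Q := by
  classical
  simp only [tr_nu_eq_sum hB hls, mul_add, Finset.sum_add_distrib]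

theorem sz_a_nu_sub {B : GhB S} (hB : B.Ok) {ls : List (GhLv S ι)} (hls : GhAdm B 0 ls) (q : ℕ) (τ : ℕ → ℕ → ℕ) (z : S → ℝ)
    (P Q : (ℕ → S) → ℝ) :
    trNu B ls q τ z (fun σ => P σ - Q σ) = trNu B ls q τ z P - trNu B ls q τ z Q := by
  classical
  simp only [tr_nu_eq_sum hB hls, mul_sub, Finset.sum_sub_distrib]

theorem sz_a_nu_nonneg {B : GhB S} (hB : B.Ok) {ls : List (GhLv S ι)} (hls : GhAdm B 0 ls) (q : ℕ) (τ : ℕ → ℕ → ℕ) (z : S → ℝ)
    {P : (ℕ → S) → ℝ} (h : ∀ σ, 0 ≤ P σ) : 0 ≤ trNu B ls q τ z P := by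
  have := tcb_nu_mono hB hls q τ z (P := fun _ => 0) (Q := P) h
  rwa [tcb_nu_const hB hls] at this

end kit

theorem sz_a_off {n : ℕ} {a : ℝ} {R : SzStp} {X : JtCtx (SkCfg n)} (hX : SzFit X a R) (r : ℕ) (τ : ℕ → ℕ → ℕ) :
    X.off 0 r τ = szOff R.length r τ := by
  unfold JtCtx.off szOff; rw [hX.N]

theorem sz_a_tau1 {n : ℕ} {a : ℝ} {R : SzStp} {X : JtCtx (SkCfg n)} (hX : SzFit X a R) :
    X.tau1 = fun _ _ => R.length + 1 := by
  unfold JtCtx.tau1; rw [hX.N]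

theorem sz_a_off_one {N r : ℕ} {τ : ℕ → ℕ → ℕ} (h : ∀ i ∈ Finset.range r, τ (jtC 0 i) (jtD 0 i) ≤ N) : szOff N r τ = 1 := by
  unfold szOff; exact Finset.prod_eq_one fun i hi => if_pos (h i hi)

theorem sz_a_off_zero {N r : ℕ} {τ : ℕ → ℕ → ℕ} (h : ¬ ∀ i ∈ Finset.range r, τ (jtC 0 i) (jtD 0 i) ≤ N) : szOff N r τ = 0 := by
  push Not at h
  obtain ⟨i, hi, hlt⟩ := h
  unfold szOff; exact Finset.prod_eq_zero hi (if_neg (by omega))

theorem sz_a_J_uses {S : Type} (X : JtCtx S) (τ : JtTopo) {q c d : ℕ} (hc : c < q) (hd : d < q) {σ σ' : ℕ → S}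
    (h : ∀ i, i < q → σ i = σ' i) : X.J τ σ c d = X.J τ σ' c d := by
  unfold JtCtx.J JtCtx.Qs; rw [h c hc, h d hd]

theorem sz_a_Dl_uses {S : Type} (X : JtCtx S) (τ : JtTopo) {q c d : ℕ} (hc : c < q) (hd : d < q) {σ σ' : ℕ → S}
    (h : ∀ i, i < q → σ i = σ' i) : X.Dl τ σ c d = X.Dl τ σ' c d := by
  unfold JtCtx.Dl JtCtx.Qs; rw [h c hc, h d hd]

theorem sz_a_Ct_uses {S : Type} (X : JtCtx S) (τ : JtTopo) {q i : ℕ} (hi : jtD 0 i < q) {σ σ' : ℕ → S}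
    (h : ∀ i, i < q → σ i = σ' i) : X.szCt τ σ i = X.szCt τ σ' i := by
  have hc : jtC 0 i < q := by unfold jtC; unfold jtD at hi; omega
  unfold JtCtx.szCt JtCtx.Qs; rw [h _ hc, h _ hi]

/-- difference of two products of bounded factors -/
theorem sz_a_prod_sub (r : ℕ) (x y : ℕ → ℝ) (K ε : ℝ) (hK : 0 ≤ K) (hε : 0 ≤ ε)
    (hx : ∀ i, i < r → |x i| ≤ K) (hy : ∀ i, i < r → |y i| ≤ K) (hxy : ∀ i, i < r → |x i - y i| ≤ ε) :
    |∏ i ∈ Finset.range r, x i - ∏ i ∈ Finset.range r, y i| ≤ r * ε * (1 + K) ^ r := by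
  induction r with
  | zero => simp
  | succ r ih =>
    have ih' := ih (fun i hi => hx i (by omega)) (fun i hi => hy i (by omega)) (fun i hi => hxy i (by omega))
    rw [Finset.prod_range_succ, Finset.prod_range_succ]
    have hy' : |∏ i ∈ Finset.range r, y i| ≤ K ^ r := by
      rw [Finset.abs_prod]
      calc ∏ i ∈ Finset.range r, |y i| ≤ ∏ _i ∈ Finset.range r, K :=
            Finset.prod_le_prod (fun i _ => abs_nonneg _) (fun i hi => hy i (by have := Finset.mem_range.1 hi; omega))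
        _ = K ^ r := by simp
    have e : (∏ i ∈ Finset.range r, x i) * x r - (∏ i ∈ Finset.range r, y i) * y r
        = (∏ i ∈ Finset.range r, x i - ∏ i ∈ Finset.range r, y i) * x r + (∏ i ∈ Finset.range r, y i) * (x r - y r) := by ring
    rw [e]
    have h1 : K ^ r ≤ (1 + K) ^ r := pow_le_pow_left₀ hK (by linarith) r
    have h2 : 0 ≤ (1 + K) ^ r := by positivity
    have h3 : (0 : ℝ) ≤ r := Nat.cast_nonneg r
    calc |(∏ i ∈ Finset.range r, x i - ∏ i ∈ Finset.range r, y i) * x r + (∏ i ∈ Finset.range r, y i) * (x r - y r)|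
        ≤ |∏ i ∈ Finset.range r, x i - ∏ i ∈ Finset.range r, y i| * |x r| + |∏ i ∈ Finset.range r, y i| * |x r - y r| := by
          rw [← abs_mul, ← abs_mul]; exact abs_add_le _ _
      _ ≤ (r * ε * (1 + K) ^ r) * K + K ^ r * ε :=
          add_le_add (mul_le_mul ih' (hx r (by omega)) (abs_nonneg _) (by positivity))
            (mul_le_mul hy' (hxy r (by omega)) (abs_nonneg _) (by positivity))
      _ ≤ ((r + 1 : ℕ) : ℝ) * ε * (1 + K) ^ (r + 1) := by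
          push_cast
          rw [pow_succ]
          nlinarith [mul_nonneg hε (sub_nonneg.2 h1), mul_nonneg (mul_nonneg h3 hε) h2, mul_nonneg (mul_nonneg hε h2) hK]

theorem sz_a_off_le_one (N r : ℕ) (τ : ℕ → ℕ → ℕ) : szOff N r τ ≤ 1 := by
  unfold szOff
  exact Finset.prod_le_one (fun i _ => by split_ifs <;> norm_num) (fun i _ => by split_ifs <;> norm_num)

/-- the masses of an affine family -/
theorem sz_a_isMs {S Φ ι : Type} [Fintype S] [Fintype Φ] [Fintype ι] [Inhabited S] {B : GhB S} (hB : B.Ok) (feat : Φ → S → ι → ℝ)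
    {hs : List (ℝ × (Φ → ℝ) × (Φ → ℝ))} (hhs : GcAffAdm B.a hs) :
    IsMs hs.length (gcMs B.a hs) ∧ gcMs B.a hs hs.length = B.a := by
  obtain ⟨h1, h2, h3⟩ := tcb_gc_adm (B := B) feat hhs 0
  have h := tr_ms_isMs hB h1
  rw [h2, funext h3] at h
  exact h

/-- total variation of the per-root allocation of `k` labels -/
theorem sz_a_tv {N : ℕ} {ms : ℕ → ℝ} (hms : IsMs N ms) (k : ℕ) (c aM : ℝ) (hc : 0 ≤ c) (ha : ms N ≤ aM) :
    trAbsK ms N k 1 (fun _ _ => N + 1) (fun _ => c) ≤ (2 * aM) ^ k * (∏ i ∈ Finset.range k, ((1 : ℝ) + i)) * c := by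
  have h := tr_absK_le (ll_al_isTr_one N) hms k (fun _ => c) c (fun _ _ => by rw [abs_of_nonneg hc])
  simp only [abs_of_nonneg hc, Nat.cast_one] at h
  refine h.trans ?_
  have h0 : 0 ≤ ms N := hms.nonneg N
  gcongr

/-- `S_r(0)` with the main part `V0` of the insertions -/
noncomputable def szS0 (n j : ℕ) (a : ℝ) (R : SzStp) (r : ℕ) : ℝ :=
  trSumK (gcMs a (szHs j R)) (szHs j R).length (2 * r - 1) 1 (fun _ _ => (szHs j R).length + 1) fun τ =>
    szOff (szHs j R).length r τ * gcNu (skBase (n + j) a) (szFeat n j) (szHs j R) 0 (2 * r) τ 0 fun σ =>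
      ∏ i ∈ Finset.range r, szV0 j R (τ (jtC 0 i) (jtD 0 i)) (skOv (szOld (σ (jtC 0 i))) (szOld (σ (jtD 0 i))))
        (szRr (szNew (σ (jtC 0 i))) (szNew (σ (jtD 0 i))))

/-- **A2: the contact errors.**  PROOF: `sz_sumK_sub`, `tr_sumK_le`, `tr_absK_le`; pointwise (`sz_k_trV`, `sz_k_V_split`, `sz_k_V_bd`)
`|∏ (V0_i + E_i) - ∏ V0_i| ≤ r (2 M0 j²/n) (5 M0 j)^(r-1)`; `|ν[f] - ν[g]| ≤ sup |f - g|` (`tr_nu_eq_sum`, `tr_pr_nonneg`, `tr_pr_sum`).
`C = (2 aM)^(2r-1) (2r-1)! r (2 M0 J²) (5 M0 J)^(r-1)`. -/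
theorem sz_a_err (r J : ℕ) (M0 aM : ℝ) : ∃ C : ℝ, 0 ≤ C ∧ ∀ (n j : ℕ) (a : ℝ) (R : SzStp), 0 < n → 1 ≤ j → j ≤ J → 0 < a → a ≤ aM →
    SzAdm a R → SzBd M0 R → 1 ≤ r →
    |szS (skBase (n + j) a) (szFeat n j) (szHs j R) 0 r 0 - szS0 n j a R r| ≤ C / n := by
  refine ⟨(2 * |aM|) ^ (2 * r - 1) * (∏ i ∈ Finset.range (2 * r - 1), ((1 : ℝ) + i)) *
    (r * (2 * |M0| * (J : ℝ) ^ 2) * (1 + 5 * |M0| * J) ^ r), by positivity, ?_⟩
  intro n j a R hn hj hjJ ha haM hR hb hr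
  have hn' : (0 : ℝ) < n := Nat.cast_pos.2 hn
  have hM0 : 0 ≤ M0 := (sz_k_clk_nonneg hR 0).1.trans (hb 0).1
  rw [abs_of_nonneg hM0, abs_of_nonneg (ha.le.trans haM)]
  have hB : (skBase (n + j) a).Ok := sz_a_base_ok _ ha
  have hhs : GcAffAdm (skBase (n + j) a).a (szHs j R) := sz_k_hs_adm hR j
  have hadm := (tcb_gc_adm (B := skBase (n + j) a) (szFeat n j) hhs 0).1
  obtain ⟨hms, hmsN⟩ := sz_a_isMs hB (szFeat n j) hhs
  have hjJ' : (j : ℝ) ≤ J := Nat.cast_le.2 hjJ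
  have hj0 : (0 : ℝ) ≤ j := Nat.cast_nonneg j
  set D : ℝ := r * (2 * M0 * (J : ℝ) ^ 2) * (1 + 5 * M0 * J) ^ r with hD
  have hD0 : 0 ≤ D := by positivity
  have e : (skBase (n + j) a).a = a := rfl
  unfold szS szS0
  rw [e] at hms hmsN ⊢
  rw [← sz_sumK_sub]
  refine (tr_sumK_le _ _).trans ?_
  have hpt : ∀ τ', IsTr (szHs j R).length (1 + (2 * r - 1)) τ' →
      |szOff (szHs j R).length r τ' * gcNu (skBase (n + j) a) (szFeat n j) (szHs j R) 0 (2 * r) τ' 0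
            (szIns (gcDK (szFeat n j) (szHs j R)) (szHs j R).length r τ')
          - szOff (szHs j R).length r τ' * gcNu (skBase (n + j) a) (szFeat n j) (szHs j R) 0 (2 * r) τ' 0 fun σ =>
            ∏ i ∈ Finset.range r, szV0 j R (τ' (jtC 0 i) (jtD 0 i)) (skOv (szOld (σ (jtC 0 i))) (szOld (σ (jtD 0 i))))
              (szRr (szNew (σ (jtC 0 i))) (szNew (σ (jtD 0 i))))| ≤ D / n := by
    intro τ' _
    rw [← mul_sub, abs_mul, abs_of_nonneg (sz_g_off_nonneg _ _ _)]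
    have hD' : 0 ≤ D / n := by positivity
    refine (mul_le_mul (sz_a_off_le_one _ _ _) ?_ (abs_nonneg _) zero_le_one).trans (one_mul _).le
    unfold gcNu
    rw [← sz_a_nu_sub hB hadm]
    refine tcb_nu_abs_le hB hadm _ _ _ fun σ => ?_
    unfold szIns
    simp only [sz_k_trV hn]
    refine (sz_a_prod_sub r _ _ (5 * M0 * j) (2 * M0 * (j : ℝ) ^ 2 / n) (by positivity) (by positivity)
      (fun i _ => (sz_k_V_bd hn j hR hb _ _ _ (sz_k_ov_le _ _) (sz_k_Rr_le _ _)).2.2.2)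
      (fun i _ => (sz_k_V_bd hn j hR hb _ _ _ (sz_k_ov_le _ _) (sz_k_Rr_le _ _)).1.trans
        (by nlinarith [mul_nonneg hM0 hj0]))
      (fun i _ => by
        rw [sz_k_V_split hn, add_sub_cancel_left,
          abs_of_nonneg (sz_k_V_bd hn j hR hb _ _ _ (sz_k_ov_le _ _) (sz_k_Rr_le _ _)).2.1]
        exact (sz_k_V_bd hn j hR hb _ _ _ (sz_k_ov_le _ _) (sz_k_Rr_le _ _)).2.2.1)).trans ?_
    have e2 : D / n = r * (2 * M0 * (J : ℝ) ^ 2 / n) * (1 + 5 * M0 * J) ^ r := by rw [hD]; ring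
    rw [e2]
    gcongr
  refine (tr_absK_mono (ll_al_isTr_one _) _ _ (fun _ => D / n) hpt).trans ?_
  refine (sz_a_tv hms _ (D / n) aM (by positivity) (hmsN.le.trans haM)).trans (le_of_eq ?_)
  ring

/-- A1a: the scalar moments of the context -/
theorem sz_a_Psi {n : ℕ} {a : ℝ} {R : SzStp} {X : JtCtx (SkCfg n)} (hX : SzFit X a R) (q : ℕ) (τ : ℕ → ℕ → ℕ) :
    X.Psi q 0 τ = szPsi a R q τ := by
  funext A
  unfold JtCtx.Psi JtCtx.scM szPsi
  rw [hX.nuK]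
  congr 1
  funext ρ
  simp only [Finset.prod_empty, one_mul]
  rfl

theorem sz_a_Psi_empty {n : ℕ} {a : ℝ} (ha : 0 < a) {R : SzStp} (hR : SzAdm a R) {X : JtCtx (SkCfg n)} (hX : SzFit X a R)
    (q : ℕ) (τ : ℕ → ℕ → ℕ) : X.Psi q 0 τ ∅ = 1 := by
  unfold JtCtx.Psi JtCtx.scM
  rw [hX.nuK]
  simp only [Finset.prod_empty, mul_one]
  exact tcb_nu_const (sz_a_base_ok 1 ha) (sk_sy_adm (sz_k_mat_adm hR).2) _ _ _ _

/-- A1b: the main part of the insertion in the jet vocabulary -/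
theorem sz_a_V0 {n : ℕ} {a : ℝ} {R : SzStp} {X : JtCtx (SkCfg n)} (hX : SzFit X a R) (j : ℕ) (τ : ℕ → ℕ → ℕ) (σ : ℕ → SkCfg n) (i : ℕ) (Rr : ℝ)
    (ht : τ (jtC 0 i) (jtD 0 i) ≤ R.length) :
    szV0 j R (τ (jtC 0 i) (jtD 0 i)) (skOv (σ (jtC 0 i)) (σ (jtD 0 i))) Rr
      = X.J τ σ (jtC 0 i) (jtD 0 i) * Rr + (-(j : ℝ) / 2) * X.szCt τ σ i := by
  unfold szV0 JtCtx.J JtCtx.szCt JtCtx.Qs
  rw [← hX.b, ← hX.h, ← hX.K, ← hX.g _ ht, hX.ov]
  rcases hX.msk (τ (jtC 0 i) (jtD 0 i)) with h | h <;> rw [h] <;> ring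

/-- **A1: the expansion at the decoupled end point.**  PROOF: for each tree (`tr_sumK_congr`): `sz_a_V0`, `Finset.prod_add`, linearity of `gcNu` in the test (`tr_nu_eq_sum`),
`sz_k_zero_law` with `f = ∏_A J ∏_{A^c} Ct`, `g = ∏_A R`, `sz_k_rows_moment`, `sz_a_Psi`; lengths and masses by `sz_k_hs_length`, `sz_k_hs_ms`, `hX`. -/
theorem sz_a_main {n : ℕ} (hn : 0 < n) (j : ℕ) (hj : 1 ≤ j) {a : ℝ} (ha : 0 < a) {R : SzStp} (hR : SzAdm a R)
    {X : JtCtx (SkCfg n)} (hX : SzFit X a R) (r : ℕ) (hr : 1 ≤ r) : szS0 n j a R r = X.szZ r j := by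
  have hms : gcMs a (szHs j R) = szMs a R := funext (sz_k_hs_ms a j R)
  unfold szS0 JtCtx.szZ
  rw [hX.sumK, sz_a_tau1 hX, sz_k_hs_length, hms]
  refine tr_sumK_congr (ll_al_isTr_one R.length) _ _ _ fun τ hτ _ => ?_
  have hτ' : IsTr R.length (2 * r) τ := by rwa [show 1 + (2 * r - 1) = 2 * r by omega] at hτ
  rw [sz_a_off hX]
  by_cases hoff : ∀ i ∈ Finset.range r, τ (jtC 0 i) (jtD 0 i) ≤ R.length
  swap
  · rw [sz_a_off_zero hoff, zero_mul, zero_mul]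
  congr 1
  have hB := sz_a_base_ok (n + j) ha
  have hadm := (tcb_gc_adm (B := skBase (n + j) a) (szFeat n j) (sz_k_hs_adm hR j) 0).1
  have e1 : (fun σ : ℕ → SkCfg (n + j) => ∏ i ∈ Finset.range r, szV0 j R (τ (jtC 0 i) (jtD 0 i))
        (skOv (szOld (σ (jtC 0 i))) (szOld (σ (jtD 0 i)))) (szRr (szNew (σ (jtC 0 i))) (szNew (σ (jtD 0 i)))))
      = fun σ => ∑ A ∈ (Finset.range r).powerset, (-(j : ℝ) / 2) ^ (r - A.card) *
          (((∏ i ∈ A, X.J τ (fun x => szOld (σ x)) (jtC 0 i) (jtD 0 i)) *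
              ∏ i ∈ Finset.range r \ A, X.szCt τ (fun x => szOld (σ x)) i)
            * ∏ i ∈ A, szRr (szNew (σ (jtC 0 i))) (szNew (σ (jtD 0 i)))) := by
    funext σ
    rw [Finset.prod_congr rfl fun i hi => sz_a_V0 hX j τ (fun x => szOld (σ x)) i _ (hoff i hi), Finset.prod_add]
    refine Finset.sum_congr rfl fun A hA => ?_
    rw [Finset.prod_mul_distrib, Finset.prod_mul_distrib, Finset.prod_const,
      Finset.card_sdiff_of_subset (Finset.mem_powerset.1 hA), Finset.card_range]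
    ring
  rw [e1]
  have hsum : ∀ (c : Finset ℕ → ℝ) (T : Finset ℕ → (ℕ → SkCfg (n + j)) → ℝ),
      gcNu (skBase (n + j) a) (szFeat n j) (szHs j R) 0 (2 * r) τ 0
          (fun σ => ∑ A ∈ (Finset.range r).powerset, c A * T A σ)
        = ∑ A ∈ (Finset.range r).powerset, c A * gcNu (skBase (n + j) a) (szFeat n j) (szHs j R) 0 (2 * r) τ 0 (T A) := by
    intro c T
    unfold gcNu
    rw [sz_a_nu_sum hB hadm]
    exact Finset.sum_congr rfl fun A _ => tcb_nu_mul_const hB hadm _ _ _ _ _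
  rw [hsum]
  refine Finset.sum_congr rfl fun A hA => ?_
  have hA' : ∀ i ∈ A, jtD 0 i < 2 * r := fun i hi => by
    have := Finset.mem_range.1 (Finset.mem_powerset.1 hA hi)
    unfold jtD; omega
  have hA'' : ∀ i ∈ Finset.range r \ A, jtD 0 i < 2 * r := fun i hi => by
    have := Finset.mem_range.1 (Finset.mem_sdiff.1 hi).1
    unfold jtD; omega
  have hC : ∀ i, jtD 0 i < 2 * r → jtC 0 i < 2 * r := fun i hi => by
    unfold jtC; unfold jtD at hi; omega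
  have hz := sz_k_zero_law hn j hj ha hR hτ'
    (fun σ' => (∏ i ∈ A, X.J τ σ' (jtC 0 i) (jtD 0 i)) * ∏ i ∈ Finset.range r \ A, X.szCt τ σ' i)
    (fun σ σ' h => by
      show (∏ i ∈ A, X.J τ σ (jtC 0 i) (jtD 0 i)) * ∏ i ∈ Finset.range r \ A, X.szCt τ σ i
        = (∏ i ∈ A, X.J τ σ' (jtC 0 i) (jtD 0 i)) * ∏ i ∈ Finset.range r \ A, X.szCt τ σ' i
      rw [Finset.prod_congr rfl fun i hi => sz_a_J_uses X τ (hC i (hA' i hi)) (hA' i hi) h,
        Finset.prod_congr rfl fun i hi => sz_a_Ct_uses X τ (hA'' i hi) h])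
    (fun ρ => ∏ i ∈ A, szRr (ρ (jtC 0 i)) (ρ (jtD 0 i)))
    (fun ρ ρ' h => by
      show ∏ i ∈ A, szRr (ρ (jtC 0 i)) (ρ (jtD 0 i)) = ∏ i ∈ A, szRr (ρ' (jtC 0 i)) (ρ' (jtD 0 i))
      exact Finset.prod_congr rfl fun i hi => by rw [h _ (hC i (hA' i hi)), h _ (hA' i hi)])
  beta_reduce at hz
  rw [hz, sz_k_rows_moment ha hR j hj hτ' A hA', ← sz_a_Psi hX]
  unfold JtCtx.szMx
  rw [hX.nu]
  ring

/-- **A3: polynomial in `j`.**  PROOF: `jt_pow_eq` (JA15; `Ψ ∅ = ν_K[1] = 1` on trees), `(-(j)/2)^e = j^e (-1/2)^e`, linearity (`sz_sumK_sum`, `sz_sumK_const_mul`), `tr_sumK_congr`. -/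
theorem sz_a_poly {n : ℕ} {a : ℝ} (ha : 0 < a) {R : SzStp} (hR : SzAdm a R) {X : JtCtx (SkCfg n)} (hX : SzFit X a R) (r : ℕ) (hr : 1 ≤ r) (j : ℕ) :
    X.szZ r j = ∑ t ∈ Finset.range (r + 1), (j : ℝ) ^ t * X.szZc r t := by
  unfold JtCtx.szZ JtCtx.szZc
  simp only [hX.sumK]
  rw [Finset.sum_congr rfl fun t _ => (sz_sumK_const_mul _ _ _ _ _ _ _).symm, ← sz_sumK_sum]
  congr 1
  funext τ
  have hL : ∀ A ∈ (Finset.range r).powerset,
      jtPow (X.Psi (2 * r) 0 τ) j A * (-(j : ℝ) / 2) ^ (r - A.card) * X.szMx r τ A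
        = ∑ p ∈ Finset.range (A.card + 1), ∑ t ∈ Finset.range (r + 1), (j : ℝ) ^ t *
            ((if p + (r - A.card) = t then (1 : ℝ) else 0) *
              (jtPow (X.Kap (2 * r) 0 τ) p A / (p ! : ℝ)) * (-1 / 2 : ℝ) ^ (r - A.card) * X.szMx r τ A) := by
    intro A hA
    have hcard : A.card ≤ r := by
      have := Finset.card_le_card (Finset.mem_powerset.1 hA)
      rwa [Finset.card_range] at this
    rw [jt_pow_eq _ (sz_a_Psi_empty ha hR hX _ _) j A, Finset.sum_mul, Finset.sum_mul]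
    refine Finset.sum_congr rfl fun p hp => ?_
    have hp' := Finset.mem_range.1 hp
    rw [Finset.sum_eq_single (p + (r - A.card))]
    · rw [if_pos rfl, show (-(j : ℝ) / 2) = (j : ℝ) * (-1 / 2) by ring, mul_pow, pow_add]
      unfold JtCtx.Kap
      ring
    · intro t _ ht
      rw [if_neg (Ne.symm ht)]
      ring
    · intro h
      exact absurd (Finset.mem_range.2 (by omega)) h
  rw [Finset.sum_congr rfl hL]
  simp only [Finset.mul_sum]
  rw [Finset.sum_comm]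
  refine Finset.sum_congr rfl fun A _ => ?_
  rw [Finset.sum_comm]
  refine Finset.sum_congr rfl fun p _ => Finset.sum_congr rfl fun t _ => ?_
  ring

/-- A4a: no coefficient above the degree `r` (`p + (r - |A|) ≤ r`) -/
theorem sz_a_Zc_high {n : ℕ} {a : ℝ} {R : SzStp} {X : JtCtx (SkCfg n)} (hX : SzFit X a R) (r t : ℕ) (ht : r < t) : X.szZc r t = 0 := by
  unfold JtCtx.szZc
  rw [hX.sumK]
  have e : (fun τ : ℕ → ℕ → ℕ => X.off 0 r τ * ∑ A ∈ (Finset.range r).powerset, ∑ p ∈ Finset.range (A.card + 1),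
      (if p + (r - A.card) = t then (1 : ℝ) else 0) *
        (jtPow (X.Kap (2 * r) 0 τ) p A / (p ! : ℝ)) * (-1 / 2 : ℝ) ^ (r - A.card) * X.szMx r τ A) = fun _ => 0 := by
    funext τ
    rw [Finset.sum_eq_zero, mul_zero]
    intro A hA
    have hcard : A.card ≤ r := by
      have := Finset.card_le_card (Finset.mem_powerset.1 hA)
      rwa [Finset.card_range] at this
    refine Finset.sum_eq_zero fun p hp => ?_
    have hp' := Finset.mem_range.1 hp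
    rw [if_neg (by omega)]
    ring
  rw [e, sz_sumK_zero]

/-- A4b: zero constant term (`p = 0`, `A = range r ≠ ∅`: `jtPow _ 0 A = jtOne A = 0`) -/
theorem sz_a_Zc_zero {n : ℕ} {a : ℝ} {R : SzStp} {X : JtCtx (SkCfg n)} (hX : SzFit X a R) (r : ℕ) (hr : 1 ≤ r) : X.szZc r 0 = 0 := by
  unfold JtCtx.szZc
  rw [hX.sumK]
  have e : (fun τ : ℕ → ℕ → ℕ => X.off 0 r τ * ∑ A ∈ (Finset.range r).powerset, ∑ p ∈ Finset.range (A.card + 1),
      (if p + (r - A.card) = 0 then (1 : ℝ) else 0) *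
        (jtPow (X.Kap (2 * r) 0 τ) p A / (p ! : ℝ)) * (-1 / 2 : ℝ) ^ (r - A.card) * X.szMx r τ A) = fun _ => 0 := by
    funext τ
    rw [Finset.sum_eq_zero, mul_zero]
    intro A hA
    have hcard : A.card ≤ r := by
      have := Finset.card_le_card (Finset.mem_powerset.1 hA)
      rwa [Finset.card_range] at this
    refine Finset.sum_eq_zero fun p hp => ?_
    by_cases h : p + (r - A.card) = 0
    · have hp0 : p = 0 := by omega
      have hA0 : A ≠ ∅ := by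
        intro h0
        rw [h0, Finset.card_empty] at h
        omega
      subst hp0
      have : jtPow (X.Kap (2 * r) 0 τ) 0 A = 0 := by
        show jtOne A = 0
        unfold jtOne
        rw [if_neg hA0]
      rw [this]
      ring
    · rw [if_neg h]
      ring
  rw [e, sz_sumK_zero]

/-- A4c: the linear coefficient, `r ≥ 2` (only `p = 1`, `A = range r`; `jtPow L 1 A = L A`) -/
theorem sz_a_Zc_one {n : ℕ} {a : ℝ} {R : SzStp} {X : JtCtx (SkCfg n)} (hX : SzFit X a R) (r : ℕ) (hr : 2 ≤ r) :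
    ((2 : ℝ) ^ r * (r ! : ℝ))⁻¹ * X.szZc r 1 = X.evR (fun r τ => X.Kap r 0 τ) r := by
  unfold JtCtx.szZc JtCtx.evR
  congr 2
  funext τ
  rw [mul_assoc]
  congr 1
  rw [Finset.sum_eq_single (Finset.range r)]
  · rw [Finset.card_range, Finset.sum_eq_single 1]
    · have h1 : jtPow (X.Kap (2 * r) 0 τ) 1 (Finset.range r) = X.Kap (2 * r) 0 τ (Finset.range r) := by
        show jtMul _ jtOne _ = _
        rw [jt_mul_comm, jt_one_mul]
      unfold JtCtx.szMx JtCtx.Jprod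
      simp [h1]
    · intro p _ hp1
      rw [if_neg (by omega)]
      ring
    · intro h
      exact absurd (Finset.mem_range.2 (by omega)) h
  · intro A hA hne
    have hlt : A.card < r := by
      have := Finset.card_lt_card (Finset.ssubset_iff_subset_ne.2 ⟨Finset.mem_powerset.1 hA, hne⟩)
      rwa [Finset.card_range] at this
    refine Finset.sum_eq_zero fun p _ => ?_
    by_cases h : p + (r - A.card) = 1
    · have hp0 : p = 0 := by omega
      have hA0 : A ≠ ∅ := by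
        intro h0
        rw [h0, Finset.card_empty] at h
        omega
      subst hp0
      have : jtPow (X.Kap (2 * r) 0 τ) 0 A = 0 := by
        show jtOne A = 0
        unfold jtOne
        rw [if_neg hA0]
      rw [this]
      ring
    · rw [if_neg h]
      ring
  · intro h
    exact absurd (Finset.mem_powerset.2 (Finset.Subset.refl _)) h

/-- A4d: the linear coefficient, `r = 1` (`A = {0}, p = 1` and `A = ∅, p = 0`; `ν[const] = const` on trees) -/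
theorem sz_a_Zc_one' {n : ℕ} {a : ℝ} (ha : 0 < a) {R : SzStp} (hR : SzAdm a R) {X : JtCtx (SkCfg n)} (hX : SzFit X a R) :
    ((2 : ℝ) ^ 1 * (1 ! : ℝ))⁻¹ * X.szZc 1 1 = X.evR (fun r τ => X.Kap r 0 τ) 1 - X.quadR + szDet1 a R := by
  have hB := sz_a_base_ok n ha
  have hadm : GhAdm (skBase n a) 0 (skLvs n (szMat R)) := sk_sy_adm (sz_k_mat_adm hR).1
  unfold JtCtx.szZc JtCtx.evR JtCtx.quadR szDet1
  simp only [hX.sumK, sz_a_tau1 hX, Nat.mul_one, Nat.reduceSub]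
  rw [← sz_sumK_const_mul, ← sz_sumK_const_mul, ← sz_sumK_const_mul, ← sz_sumK_const_mul, ← sz_sumK_sub, ← sz_sumK_add]
  congr 1
  funext τ
  have h1 : jtPow (X.Kap 2 0 τ) 1 {0} = X.Kap 2 0 τ {0} := by
    show jtMul _ jtOne _ = _
    rw [jt_mul_comm, jt_one_mul]
  have h0 : jtPow (X.Kap 2 0 τ) 0 ∅ = 1 := by
    show jtOne ∅ = 1
    simp [jtOne]
  have hsum : (∑ A ∈ (Finset.range 1).powerset, ∑ p ∈ Finset.range (A.card + 1),
      (if p + (1 - A.card) = 1 then (1 : ℝ) else 0) *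
        (jtPow (X.Kap 2 0 τ) p A / (p ! : ℝ)) * (-1 / 2 : ℝ) ^ (1 - A.card) * X.szMx 1 τ A)
      = X.Kap 2 0 τ {0} * X.szMx 1 τ {0} + (-1 / 2) * X.szMx 1 τ ∅ := by
    have hps : (Finset.range 1).powerset = {∅, {0}} := by decide
    rw [hps, Finset.sum_pair (by simp)]
    simp [h1, h0]
    ring
  have hMx1 : X.szMx 1 τ {0} = X.nu 2 τ fun σ => X.Jprod 0 1 τ σ := by
    unfold JtCtx.szMx JtCtx.Jprod
    simp
  have hMx0 : X.szMx 1 τ ∅ = X.bC (τ 0 1) * X.nu 2 τ (fun σ => X.Qs τ σ 0 1 ^ 2) - X.bC (τ 0 1) * X.qC (τ 0 1) ^ 2 := by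
    unfold JtCtx.szMx
    simp only [hX.nu, Nat.mul_one, Finset.prod_empty, one_mul, Finset.sdiff_empty, Finset.range_one, Finset.prod_singleton]
    unfold JtCtx.szCt jtC jtD
    simp only [Nat.mul_zero, Nat.add_zero, Nat.zero_add]
    rw [sz_a_nu_sub hB hadm, tcb_nu_mul_const hB hadm, tcb_nu_const hB hadm]
  rw [hsum, hMx1, hMx0, sz_a_off hX, Finset.range_one]
  by_cases hoff : ∀ i ∈ Finset.range 1, τ (jtC 0 i) (jtD 0 i) ≤ R.length
  · have ht : τ 0 1 ≤ R.length := hoff 0 (by simp)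
    rw [sz_a_off_one hoff, hX.g _ ht]
    norm_num [Nat.factorial]
    ring
  · rw [sz_a_off_zero hoff]
    ring

theorem sz_a_Qs_le {n : ℕ} {a : ℝ} {R : SzStp} {X : JtCtx (SkCfg n)} (hX : SzFit X a R) (τ : ℕ → ℕ → ℕ) (σ : ℕ → SkCfg n) (c d : ℕ) :
    |X.Qs τ σ c d| ≤ 1 := by
  unfold JtCtx.Qs
  rw [hX.ov]
  rcases hX.msk (τ c d) with h | h <;> rw [h]
  · simp
  · rw [one_mul]; exact sz_k_ov_le _ _

theorem sz_a_Dl_le {n : ℕ} {a : ℝ} {R : SzStp} {X : JtCtx (SkCfg n)} (hX : SzFit X a R) (τ : ℕ → ℕ → ℕ) (σ : ℕ → SkCfg n) (c d : ℕ) :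
    |X.Dl τ σ c d| ≤ 2 := by
  unfold JtCtx.Dl
  have h1 := sz_a_Qs_le hX τ σ c d
  have h2 := hX.q1 (τ c d)
  calc _ ≤ |X.Qs τ σ c d| + |X.qC (τ c d)| := abs_sub _ _
    _ ≤ 2 := by linarith

theorem sz_a_J_le {n : ℕ} {a M0 : ℝ} {R : SzStp} {X : JtCtx (SkCfg n)} (hX : SzFit X a R) (hb : SzBd M0 R) (hbM : ∀ t, X.bC t ≤ M0)
    (τ : ℕ → ℕ → ℕ) (σ : ℕ → SkCfg n) (c d : ℕ) : |X.J τ σ c d| ≤ 2 * M0 := by
  unfold JtCtx.J
  have h1 := sz_a_Qs_le hX τ σ c d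
  have h2 := (hb (τ c d)).2.1
  rw [← hX.h, ← hX.K] at h2
  have h3 : |X.bC (τ c d) * X.Qs τ σ c d| ≤ M0 := by
    rw [abs_mul, abs_of_nonneg (hX.b0 _)]
    calc _ ≤ M0 * 1 := mul_le_mul (hbM _) h1 (abs_nonneg _) ((hX.b0 0).trans (hbM 0))
      _ = M0 := mul_one _
  have e : X.hC (τ c d) + X.bC (τ c d) * X.Qs τ σ c d - X.KC (τ c d)
      = (X.hC (τ c d) - X.KC (τ c d)) + X.bC (τ c d) * X.Qs τ σ c d := by ring
  rw [e]
  exact (abs_add_le _ _).trans (by linarith)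

theorem sz_a_Ct_le {n : ℕ} {a M0 : ℝ} {R : SzStp} {X : JtCtx (SkCfg n)} (hX : SzFit X a R) (hbM : ∀ t, X.bC t ≤ M0)
    (τ : ℕ → ℕ → ℕ) (σ : ℕ → SkCfg n) (i : ℕ) : |X.szCt τ σ i| ≤ 2 * M0 * |X.Dl τ σ (jtC 0 i) (jtD 0 i)| := by
  have e : X.szCt τ σ i = X.bC (τ (jtC 0 i) (jtD 0 i)) * (X.Dl τ σ (jtC 0 i) (jtD 0 i) *
      (X.Qs τ σ (jtC 0 i) (jtD 0 i) + X.qC (τ (jtC 0 i) (jtD 0 i)))) := by
    unfold JtCtx.szCt JtCtx.Dl; ring
  rw [e, abs_mul, abs_mul, abs_of_nonneg (hX.b0 _)]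
  have h4 : |X.Qs τ σ (jtC 0 i) (jtD 0 i) + X.qC (τ (jtC 0 i) (jtD 0 i))| ≤ 2 :=
    (abs_add_le _ _).trans (by linarith [sz_a_Qs_le hX τ σ (jtC 0 i) (jtD 0 i), hX.q1 (τ (jtC 0 i) (jtD 0 i))])
  calc _ ≤ M0 * (|X.Dl τ σ (jtC 0 i) (jtD 0 i)| * 2) :=
        mul_le_mul (hbM _) (mul_le_mul_of_nonneg_left h4 (abs_nonneg _)) (by positivity) ((hX.b0 0).trans (hbM 0))
    _ = _ := by ring

/-- one insertion on an off-diagonal pair: `|V| ≤ J (1 + M0) (|Δ| + |J|) + 2 M0 J² / n` -/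
theorem sz_a_V_le {n : ℕ} (hn : 0 < n) {j J : ℕ} (hjJ : j ≤ J) {a M0 : ℝ} {R : SzStp} (hR : SzAdm a R) (hb : SzBd M0 R)
    {X : JtCtx (SkCfg n)} (hX : SzFit X a R) (hbM : ∀ t, X.bC t ≤ M0) (τ : ℕ → ℕ → ℕ) (σ : ℕ → SkCfg n) (i : ℕ)
    (ht : τ (jtC 0 i) (jtD 0 i) ≤ R.length) (Rr : ℝ) (hRr : |Rr| ≤ j) :
    |szV n j R (τ (jtC 0 i) (jtD 0 i)) (skOv (σ (jtC 0 i)) (σ (jtD 0 i))) Rr|
      ≤ (J : ℝ) * (1 + M0) * (|X.Dl τ σ (jtC 0 i) (jtD 0 i)| + |X.J τ σ (jtC 0 i) (jtD 0 i)|) + 2 * M0 * (J : ℝ) ^ 2 / n := by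
  have hn' : (0 : ℝ) < n := Nat.cast_pos.2 hn
  have hM0 : 0 ≤ M0 := (sz_k_clk_nonneg hR 0).1.trans (hb 0).1
  have hjJ' : (j : ℝ) ≤ J := Nat.cast_le.2 hjJ
  have hj0 : (0 : ℝ) ≤ j := Nat.cast_nonneg j
  obtain ⟨-, hE0, hE1, -⟩ := sz_k_V_bd hn j hR hb (τ (jtC 0 i) (jtD 0 i)) (skOv (σ (jtC 0 i)) (σ (jtD 0 i))) Rr (sz_k_ov_le _ _) hRr
  rw [sz_k_V_split hn, sz_a_V0 hX j τ σ i Rr ht]
  set A := |X.J τ σ (jtC 0 i) (jtD 0 i)| with hA
  set Dd := |X.Dl τ σ (jtC 0 i) (jtD 0 i)| with hDd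
  have hA0 : 0 ≤ A := abs_nonneg _
  have hDd0 : 0 ≤ Dd := abs_nonneg _
  have h1 : |X.J τ σ (jtC 0 i) (jtD 0 i) * Rr| ≤ A * J := by
    rw [abs_mul]
    exact mul_le_mul_of_nonneg_left (hRr.trans hjJ') hA0
  have h2 : |(-(j : ℝ) / 2) * X.szCt τ σ i| ≤ (J : ℝ) * M0 * Dd := by
    rw [abs_mul, show |(-(j : ℝ) / 2)| = (j : ℝ) / 2 by rw [neg_div, abs_neg, abs_of_nonneg (by positivity)]]
    calc (j : ℝ) / 2 * |X.szCt τ σ i| ≤ (j : ℝ) / 2 * (2 * M0 * Dd) :=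
          mul_le_mul_of_nonneg_left (sz_a_Ct_le hX hbM τ σ i) (by positivity)
      _ = (j : ℝ) * (M0 * Dd) := by ring
      _ ≤ (J : ℝ) * (M0 * Dd) := mul_le_mul_of_nonneg_right hjJ' (by positivity)
      _ = _ := by ring
  have h3 : 2 * M0 * (j : ℝ) ^ 2 / n ≤ 2 * M0 * (J : ℝ) ^ 2 / n := by gcongr
  have hJ0 : (0 : ℝ) ≤ J := Nat.cast_nonneg J
  calc _ ≤ |X.J τ σ (jtC 0 i) (jtD 0 i) * Rr| + |(-(j : ℝ) / 2) * X.szCt τ σ i|
        + |szB R (τ (jtC 0 i) (jtD 0 i)) * (Rr - j * skOv (σ (jtC 0 i)) (σ (jtD 0 i))) ^ 2 / (2 * ((n : ℝ) + j))| :=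
        (abs_add_le _ _).trans (add_le_add_left (abs_add_le _ _) _)
    _ ≤ A * J + (J : ℝ) * M0 * Dd + 2 * M0 * (J : ℝ) ^ 2 / n := by
        rw [abs_of_nonneg hE0]
        exact add_le_add (add_le_add h1 h2) (hE1.trans h3)
    _ ≤ _ := by nlinarith [mul_nonneg hJ0 hDd0, mul_nonneg (mul_nonneg hJ0 hM0) hA0]

/-- **A5: majorant of the remainder.** -/
theorem sz_a_rem (k J : ℕ) (M0 aM : ℝ) : ∃ C : ℝ, 0 ≤ C ∧ ∀ (n j : ℕ) (a : ℝ) (R : SzStp) (X : JtCtx (SkCfg n)), 0 < n → 1 ≤ j → j ≤ J →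
    0 < a → a ≤ aM → SzAdm a R → SzBd M0 R → SzFit X a R → (∀ t, X.bC t ≤ M0) → 1 ≤ k →
    szSA (skBase (n + j) a) (szFeat n j) (szHs j R) 0 k 0 ≤ C / n + C * X.szRem k := by
  set m : ℝ := |M0| with hm
  set α : ℝ := J * (1 + m) with hα
  set Kb : ℝ := α * (2 + 2 * m) + 2 * m * (J : ℝ) ^ 2 with hKb
  set c1 : ℝ := k * (2 * m * (J : ℝ) ^ 2) * (1 + Kb) ^ k with hc1
  set TV : ℝ := (2 * |aM|) ^ (2 * k - 1) * ∏ i ∈ Finset.range (2 * k - 1), ((1 : ℝ) + i) with hTV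
  have hm0 : 0 ≤ m := abs_nonneg _
  have hα0 : 0 ≤ α := by positivity
  have hKb0 : 0 ≤ Kb := by positivity
  have hc10 : 0 ≤ c1 := by positivity
  have hTV0 : 0 ≤ TV := by positivity
  refine ⟨α ^ k + TV * c1, by positivity, ?_⟩
  intro n j a R X hn hj hjJ ha haM hR hb hX hbM hk
  have hn' : (0 : ℝ) < n := Nat.cast_pos.2 hn
  have hn1 : (1 : ℝ) ≤ n := by exact_mod_cast hn
  have hM0 : 0 ≤ M0 := (sz_k_clk_nonneg hR 0).1.trans (hb 0).1
  have hmM : m = M0 := abs_of_nonneg hM0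
  have hB : (skBase (n + j) a).Ok := sz_a_base_ok _ ha
  have hhs : GcAffAdm (skBase (n + j) a).a (szHs j R) := sz_k_hs_adm hR j
  have hadm := (tcb_gc_adm (B := skBase (n + j) a) (szFeat n j) hhs 0).1
  obtain ⟨hms, hmsN⟩ := sz_a_isMs hB (szFeat n j) hhs
  have e : (skBase (n + j) a).a = a := rfl
  rw [e] at hms hmsN
  have hmsE : gcMs a (szHs j R) = szMs a R := funext (sz_k_hs_ms a j R)
  have hε : 2 * m * (J : ℝ) ^ 2 / n ≤ 2 * m * (J : ℝ) ^ 2 := div_le_self (by positivity) hn1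
  have hpt : ∀ τ', IsTr (szHs j R).length (1 + (2 * k - 1)) τ' →
      szOff (szHs j R).length k τ' * gcNu (skBase (n + j) a) (szFeat n j) (szHs j R) 0 (2 * k) τ' 0
          (fun σ => |szIns (gcDK (szFeat n j) (szHs j R)) (szHs j R).length k τ' σ|)
        ≤ α ^ k * (szOff R.length k τ' * trNu (skBase n a) (skLvs n (szMat R)) (2 * k) τ' 0 fun σ =>
            ∏ i ∈ Finset.range k, (|X.Dl τ' σ (jtC 0 i) (jtD 0 i)| + |X.J τ' σ (jtC 0 i) (jtD 0 i)|)) + c1 / n := by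
    intro τ' hτ
    rw [sz_k_hs_length] at hτ
    have eoff : szOff (szHs j R).length k τ' = szOff R.length k τ' := by rw [sz_k_hs_length]
    rw [eoff]
    have hτ' : IsTr R.length (2 * k) τ' := by rwa [show 1 + (2 * k - 1) = 2 * k by omega] at hτ
    by_cases hoff : ∀ i ∈ Finset.range k, τ' (jtC 0 i) (jtD 0 i) ≤ R.length
    swap
    · rw [sz_a_off_zero hoff, zero_mul, zero_mul, mul_zero, zero_add]
      positivity
    rw [sz_a_off_one hoff, one_mul, one_mul]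
    have hD : ∀ i, i < k → jtD 0 i < 2 * k := fun i hi => by unfold jtD; omega
    have hC : ∀ i, i < k → jtC 0 i < 2 * k := fun i hi => by unfold jtC; omega
    have hz := sz_k_zero_law hn j hj ha hR hτ'
      (fun σ' => ∏ i ∈ Finset.range k, (|X.Dl τ' σ' (jtC 0 i) (jtD 0 i)| + |X.J τ' σ' (jtC 0 i) (jtD 0 i)|))
      (fun σ σ' h => by
        show ∏ i ∈ Finset.range k, (|X.Dl τ' σ (jtC 0 i) (jtD 0 i)| + |X.J τ' σ (jtC 0 i) (jtD 0 i)|)
          = ∏ i ∈ Finset.range k, (|X.Dl τ' σ' (jtC 0 i) (jtD 0 i)| + |X.J τ' σ' (jtC 0 i) (jtD 0 i)|)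
        refine Finset.prod_congr rfl fun i hi => ?_
        have hi' := Finset.mem_range.1 hi
        rw [sz_a_J_uses X τ' (hC i hi') (hD i hi') h, sz_a_Dl_uses X τ' (hC i hi') (hD i hi') h])
      (fun _ => 1) (fun _ _ _ => rfl)
    beta_reduce at hz
    rw [tcb_nu_const (sz_a_base_ok j ha) (sk_sy_adm (sz_k_mat_adm hR).2), mul_one] at hz
    rw [← hz]
    unfold gcNu
    rw [← tcb_nu_mul_const hB hadm, ← tcb_nu_const hB hadm (2 * k) τ' 0 (c1 / n), ← sz_a_nu_add hB hadm]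
    refine tcb_nu_mono hB hadm _ _ _ fun σ => ?_
    unfold szIns
    simp only [sz_k_trV hn]
    rw [Finset.abs_prod, mul_one]
    set Df : ℕ → ℝ := fun i => |X.Dl τ' (fun x => szOld (σ x)) (jtC 0 i) (jtD 0 i)| + |X.J τ' (fun x => szOld (σ x)) (jtC 0 i) (jtD 0 i)|
      with hDf
    have hDf0 : ∀ i, 0 ≤ Df i := fun i => by positivity
    have hDf1 : ∀ i, Df i ≤ 2 + 2 * m := fun i => by
      rw [hmM]
      exact add_le_add (sz_a_Dl_le hX _ _ _ _) (sz_a_J_le hX hb hbM _ _ _ _)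
    have h1 : ∏ i ∈ Finset.range k, |szV n j R (τ' (jtC 0 i) (jtD 0 i)) (skOv (szOld (σ (jtC 0 i))) (szOld (σ (jtD 0 i))))
          (szRr (szNew (σ (jtC 0 i))) (szNew (σ (jtD 0 i))))|
        ≤ ∏ i ∈ Finset.range k, (α * Df i + 2 * m * (J : ℝ) ^ 2 / n) := by
      refine Finset.prod_le_prod (fun i _ => abs_nonneg _) fun i hi => ?_
      have := sz_a_V_le hn hjJ hR hb hX hbM τ' (fun x => szOld (σ x)) i (hoff i hi) _ (sz_k_Rr_le (szNew (σ (jtC 0 i))) (szNew (σ (jtD 0 i))))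
      rw [← hmM] at this
      exact this
    have h2 := sz_a_prod_sub k (fun i => α * Df i + 2 * m * (J : ℝ) ^ 2 / n) (fun i => α * Df i) Kb (2 * m * (J : ℝ) ^ 2 / n) hKb0
      (by positivity)
      (fun i _ => by
        rw [abs_of_nonneg (add_nonneg (mul_nonneg hα0 (hDf0 i)) (by positivity))]
        exact add_le_add (mul_le_mul_of_nonneg_left (hDf1 i) hα0) hε)
      (fun i _ => by
        rw [abs_of_nonneg (mul_nonneg hα0 (hDf0 i))]
        exact (mul_le_mul_of_nonneg_left (hDf1 i) hα0).trans (le_add_of_nonneg_right (by positivity)))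
      (fun i _ => by
        rw [add_sub_cancel_left, abs_of_nonneg (by positivity)])
    have h3 : ∏ i ∈ Finset.range k, (α * Df i) = α ^ k * ∏ i ∈ Finset.range k, Df i := by
      rw [Finset.prod_mul_distrib, Finset.prod_const, Finset.card_range]
    have h4 : (k : ℝ) * (2 * m * (J : ℝ) ^ 2 / n) * (1 + Kb) ^ k = c1 / n := by rw [hc1]; ring
    rw [h3, h4] at h2
    have h5 := (le_abs_self _).trans h2
    linarith
  unfold szSA
  rw [e]
  refine (tr_absK_mono (ll_al_isTr_one _) _ _ _ hpt).trans ?_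
  rw [sz_absK_add, sz_absK_const_mul]
  have hRem : X.szRem k = trAbsK (gcMs a (szHs j R)) (szHs j R).length (2 * k - 1) 1 (fun _ _ => (szHs j R).length + 1)
      (fun τ' => szOff R.length k τ' * trNu (skBase n a) (skLvs n (szMat R)) (2 * k) τ' 0 fun σ =>
            ∏ i ∈ Finset.range k, (|X.Dl τ' σ (jtC 0 i) (jtD 0 i)| + |X.J τ' σ (jtC 0 i) (jtD 0 i)|)) := by
    unfold JtCtx.szRem
    rw [hX.absK, sz_a_tau1 hX, sz_k_hs_length, hmsE]
    congr 1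
    funext τ
    rw [sz_a_off hX, hX.nu]
  rw [← hRem]
  have htv := sz_a_tv hms (2 * k - 1) (c1 / n) aM (by positivity) (hmsN.le.trans haM)
  rw [← abs_of_nonneg (ha.le.trans haM), ← hTV] at htv
  have hrem0 : 0 ≤ X.szRem k := by
    unfold JtCtx.szRem
    rw [hX.absK]
    refine tra2_absK_nonneg _ _ fun τ' => ?_
    rw [sz_a_off hX, hX.nu]
    exact mul_nonneg (sz_g_off_nonneg _ _ _) (sz_a_nu_nonneg (sz_a_base_ok n ha) (sk_sy_adm (sz_k_mat_adm hR).1) _ _ _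
      fun σ => Finset.prod_nonneg fun i _ => by positivity)
  have h6 : 0 ≤ α ^ k / n := by positivity
  have h7 : 0 ≤ TV * c1 * X.szRem k := by positivity
  have e8 : (α ^ k + TV * c1) / n + (α ^ k + TV * c1) * X.szRem k
      = α ^ k * X.szRem k + TV * (c1 / n) + α ^ k / n + TV * c1 * X.szRem k := by ring
  rw [e8]
  linarith

/-- the remainder majorant is nonnegative -/
theorem sz_a_rem_nonneg {n : ℕ} {a : ℝ} (ha : 0 < a) {R : SzStp} (hR : SzAdm a R) {X : JtCtx (SkCfg n)} (hX : SzFit X a R) (k : ℕ) (hk : 1 ≤ k) :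
    0 ≤ X.szRem k := by
  unfold JtCtx.szRem
  rw [hX.absK]
  refine tra2_absK_nonneg _ _ fun τ' => ?_
  rw [sz_a_off hX, hX.nu]
  exact mul_nonneg (sz_g_off_nonneg _ _ _) (sz_a_nu_nonneg (sz_a_base_ok n ha) (sk_sy_adm (sz_k_mat_adm hR).1) _ _ _
    fun σ => Finset.prod_nonneg fun i _ => by positivity)

/-! ### glue -/

theorem sz_a_C_zero {n : ℕ} {a : ℝ} {R : SzStp} {X : JtCtx (SkCfg n)} (hX : SzFit X a R) (k : ℕ) : X.szC k 0 = 0 := by
  unfold JtCtx.szC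
  refine Finset.sum_eq_zero fun r hr => ?_
  rw [sz_a_Zc_zero hX r (Finset.mem_Icc.1 hr).1, mul_zero]

/-- **the linear coefficient is (A6)** up to a deterministic term -/
theorem sz_a_C_one {n : ℕ} {a : ℝ} (ha : 0 < a) {R : SzStp} (hR : SzAdm a R) {X : JtCtx (SkCfg n)} (hX : SzFit X a R) (k : ℕ) (hk : 1 ≤ k) :
    X.szC k 1 = X.presR k + szDet1 a R := by
  unfold JtCtx.szC JtCtx.presR
  have hsplit : Finset.Icc 1 k = insert 1 (Finset.Icc 2 k) := by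
    ext x; simp only [Finset.mem_Icc, Finset.mem_insert]; omega
  have hnot : (1 : ℕ) ∉ Finset.Icc 2 k := by simp
  rw [hsplit, Finset.sum_insert hnot, Finset.sum_insert hnot, sz_a_Zc_one' ha hR hX,
    Finset.sum_congr rfl fun r hr => sz_a_Zc_one hX r (Finset.mem_Icc.1 hr).1]
  ring

/-- the expansion through the order `k` is a polynomial in `j` without constant term, with coefficients independent of `j` -/
theorem sz_a_poly_sum {n : ℕ} {a : ℝ} (ha : 0 < a) {R : SzStp} (hR : SzAdm a R) {X : JtCtx (SkCfg n)} (hX : SzFit X a R) (k j : ℕ) :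
    ∑ r ∈ Finset.Icc 1 k, X.szZ r j / ((2 : ℝ) ^ r * (r ! : ℝ)) = ∑ t ∈ Finset.Icc 1 k, (j : ℝ) ^ t * X.szC k t := by
  have h1 : ∀ r ∈ Finset.Icc 1 k, X.szZ r j / ((2 : ℝ) ^ r * (r ! : ℝ))
      = ∑ t ∈ Finset.range (k + 1), (j : ℝ) ^ t * (((2 : ℝ) ^ r * (r ! : ℝ))⁻¹ * X.szZc r t) := by
    intro r hr
    have hr' := Finset.mem_Icc.1 hr
    rw [sz_a_poly ha hR hX r hr'.1 j, div_eq_mul_inv, Finset.sum_mul]
    have hsub : Finset.range (r + 1) ⊆ Finset.range (k + 1) := Finset.range_subset_range.2 (by omega)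
    rw [← Finset.sum_subset hsub]
    · refine Finset.sum_congr rfl fun t _ => by ring
    · intro t _ ht
      rw [sz_a_Zc_high hX r t (by simpa [Nat.lt_succ_iff, not_le] using ht)]
      ring
  rw [Finset.sum_congr rfl h1, Finset.sum_comm]
  have h2 : ∀ t ∈ Finset.range (k + 1), ∑ r ∈ Finset.Icc 1 k, (j : ℝ) ^ t * (((2 : ℝ) ^ r * (r ! : ℝ))⁻¹ * X.szZc r t)
      = (j : ℝ) ^ t * X.szC k t := by
    intro t _
    unfold JtCtx.szC
    rw [Finset.mul_sum]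
  rw [Finset.sum_congr rfl h2, Finset.sum_range_succ', sz_a_C_zero hX, mul_zero, add_zero]
  have hIcc : Finset.Icc 1 k = (Finset.range k).image (· + 1) := by
    ext x
    simp only [Finset.mem_Icc, Finset.mem_image, Finset.mem_range]
    constructor
    · intro h; exact ⟨x - 1, by omega, by omega⟩
    · rintro ⟨y, hy, rfl⟩; omega
  rw [hIcc, Finset.sum_image (by intro x _ y _ h; simpa using h)]

end Claimed.Agent.R286
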