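import Claimed.Agent.R286.Fd.TrC
import Claimed.Agent.R286.Fd.CSym
import Claimed.Agent.R286.LL.Jet.Alg
import Claimed.Agent.R286.Gk.Taylor

/-!
# Row 286 (S0533), LL Section 2, Lemma `found:size-increment` (T7 of helper73's note): DEFINITIONS      (architect helper115; head helper93; prefix `sz`, `Sz`, `sz_`)

TEX[LL:found:size-increment].      02-foundations.tex l.486-506.

ONE ENSEMBLE AT A TIME.  A *size system* `R : SzStp` = list of stages `(m, db, dh, dK, dg)`: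
mass, increment of the matrix clock OF THE ENSEMBLE (`b^* = b · mask`), of the field clock, of the scalar reference clock `K`, and of the
spin-constant counterterm clock `g = b q²` (UNMASKED, the same in both ensembles).

Interpolation on `SkCfg (n + j)` (old sites = the first `n`, new rows = the last `j`), five feature blocks with kernels
`A²/(2n)`, `(A+R)²/(2(n+j))`, `A`, `R`, `1`   (`A = ∑_{old} σσ'`, `R = ∑_{new} σσ'`) and increments
`θ = 0`: `(db, 0, dh, dK, 0)` = `n` old spins + `j` independent scalar rows at `K`;     `θ = 1`: `(0, db, dh, dh, j dg/2)` = the `(n+j)`-spin model + constant block.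
-/

set_option autoImplicit false

namespace Claimed.Agent.R286

open scoped BigOperators Nat

/-! ### size systems -/

/-- one stage of a size system -/
structure SzInc where
  m : ℝ
  db : ℝ
  dh : ℝ
  dK : ℝ
  dg : ℝ

/-- a size system: the list of its stages, the first revealed first -/
abbrev SzStp : Type := List SzInc

/-- the step path of the matrix model of the ensemble -/
def szMat (R : SzStp) : SkStp := R.map fun e => ⟨e.m, e.db, e.dh⟩

/-- the step path of the scalar reference (field clock `K`, no matrix clock); used at the sizes `1` and `j` -/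
def szSc (R : SzStp) : SkStp := R.map fun e => ⟨e.m, 0, e.dK⟩

/-- cumulative clocks after `t` stages -/
def szB (R : SzStp) (t : ℕ) : ℝ := ((R.take t).map SzInc.db).sum
def szH (R : SzStp) (t : ℕ) : ℝ := ((R.take t).map SzInc.dh).sum
def szK (R : SzStp) (t : ℕ) : ℝ := ((R.take t).map SzInc.dK).sum
def szG (R : SzStp) (t : ℕ) : ℝ := ((R.take t).map SzInc.dg).sum

/-- mass of the stage `t` (`a` for the terminal draw) -/
def szMs (a : ℝ) (R : SzStp) (t : ℕ) : ℝ := (R[t]?.map SzInc.m).getD a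

/-- admissible: masses nondecreasing in `[0,a]`, all increments nonnegative -/
def SzAdm (a : ℝ) (R : SzStp) : Prop :=
  R.Pairwise (fun e e' => e.m ≤ e'.m) ∧ ∀ e ∈ R, 0 ≤ e.m ∧ e.m ≤ a ∧ 0 ≤ e.db ∧ 0 ≤ e.dh ∧ 0 ≤ e.dK ∧ 0 ≤ e.dg

/-- the bounds of the Taylor rules (G1 of helper73: NEVER bounds of `h`, `K` separately) -/
def SzBd (M0 : ℝ) (R : SzStp) : Prop := ∀ t, szB R t ≤ M0 ∧ |szH R t - szK R t| ≤ M0 ∧ szG R t ≤ M0

/-! ### the interpolating family on `SkCfg (n + j)` -/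

/-- the old spins -/
def szOld {n j : ℕ} (σ : SkCfg (n + j)) : SkCfg n := fun i => σ (Fin.castAdd j i)

/-- the new rows -/
def szNew {n j : ℕ} (σ : SkCfg (n + j)) : SkCfg j := fun i => σ (Fin.natAdd n i)

/-- `R(ρ,ρ') = ∑_h ρ_h ρ'_h` -/
def szRr {j : ℕ} (ρ ρ' : SkCfg j) : ℝ := ∑ i, skSp ρ i * skSp ρ' i

/-- drivers of the five blocks -/
abbrev SzDr (n j : ℕ) : Type := (Fin n × Fin n) ⊕ ((Fin (n + j) × Fin (n + j)) ⊕ (Fin n ⊕ (Fin j ⊕ Unit)))

/-- the five feature blocks -/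
noncomputable def szFeat (n j : ℕ) (r : Fin 5) (σ : SkCfg (n + j)) : SzDr n j → ℝ :=
  ![Sum.elim (fun p => skSp (szOld σ) p.1 * skSp (szOld σ) p.2 / Real.sqrt (2 * n)) (fun _ => 0),
    Sum.elim (fun _ => 0) (Sum.elim (fun p => skSp σ p.1 * skSp σ p.2 / Real.sqrt (2 * ((n + j : ℕ) : ℝ))) (fun _ => 0)),
    Sum.elim (fun _ => 0) (Sum.elim (fun _ => 0) (Sum.elim (fun i => skSp (szOld σ) i) (fun _ => 0))),
    Sum.elim (fun _ => 0) (Sum.elim (fun _ => 0) (Sum.elim (fun _ => 0) (Sum.elim (fun i => skSp (szNew σ) i) (fun _ => 0)))),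
    Sum.elim (fun _ => 0) (Sum.elim (fun _ => 0) (Sum.elim (fun _ => 0) (Sum.elim (fun _ => 0) (fun _ => 1))))] r

/-- the affine family of increments -/
noncomputable def szHs (j : ℕ) (R : SzStp) : List (ℝ × (Fin 5 → ℝ) × (Fin 5 → ℝ)) :=
  R.map fun e => (e.m, ![e.db, 0, e.dh, e.dK, 0], ![-e.db, e.db, 0, e.dh - e.dK, (j : ℝ) * e.dg / 2])

/-- the insertion as a function of `t` = number of shared stages, `Q` = overlap of the old spins, `Rr = ∑ ρρ'` -/
noncomputable def szV (n j : ℕ) (R : SzStp) (t : ℕ) (Q Rr : ℝ) : ℝ :=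
  szB R t * (((n : ℝ) * Q + Rr) ^ 2 / (2 * ((n : ℝ) + j)) - n * Q ^ 2 / 2) + (szH R t - szK R t) * Rr + j * szG R t / 2

/-- its main part `J R - (j/2)(b^* Q² - g)` -/
noncomputable def szV0 (j : ℕ) (R : SzStp) (t : ℕ) (Q Rr : ℝ) : ℝ :=
  (szH R t + szB R t * Q - szK R t) * Rr + (-(j : ℝ) / 2) * (szB R t * Q ^ 2 - szG R t)

/-- the root continuation along the interpolation -/
noncomputable def szF (n j : ℕ) (a : ℝ) (R : SzStp) (θ : ℝ) : ℝ :=
  ghF (skBase (n + j) a) (gcLs (szFeat n j) (gcAff (szHs j R) θ)) 0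

/-! ### general vocabulary: the off-diagonal per-root sums along an affine family -/

/-- the two ends of each of the pairs `0..r-1` are different leaves -/
def szOff (N r : ℕ) (τ : ℕ → ℕ → ℕ) : ℝ := ∏ i ∈ Finset.range r, if τ (jtC 0 i) (jtD 0 i) ≤ N then (1 : ℝ) else 0

/-- product of the insertions of the pairs `0..r-1` -/
def szIns {S : Type} (dK : ℕ → S → S → ℝ) (N r : ℕ) (τ : ℕ → ℕ → ℕ) (σ : ℕ → S) : ℝ :=
  ∏ i ∈ Finset.range r, trV dK N (τ (jtC 0 i) (jtD 0 i)) (σ (jtC 0 i)) (σ (jtD 0 i))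

/-- `S_r(θ)`: per-root signed sum of the `r` OFF-DIAGONAL insertions (`2^r ×` the `r`-th derivative of the root continuation, `r ≥ 2`) -/
noncomputable def szS {S Φ ι : Type} [Fintype S] [Fintype Φ] [Fintype ι] [Inhabited S] (B : GhB S) (feat : Φ → S → ι → ℝ)
    (hs : List (ℝ × (Φ → ℝ) × (Φ → ℝ))) (z : S → ℝ) (r : ℕ) (θ : ℝ) : ℝ :=
  trSumK (gcMs B.a hs) hs.length (2 * r - 1) 1 (fun _ _ => hs.length + 1) fun τ =>
    szOff hs.length r τ * gcNu B feat hs θ (2 * r) τ z (szIns (gcDK feat hs) hs.length r τ)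

/-- the same with absolute weights and absolute values -/
noncomputable def szSA {S Φ ι : Type} [Fintype S] [Fintype Φ] [Fintype ι] [Inhabited S] (B : GhB S) (feat : Φ → S → ι → ℝ)
    (hs : List (ℝ × (Φ → ℝ) × (Φ → ℝ))) (z : S → ℝ) (r : ℕ) (θ : ℝ) : ℝ :=
  trAbsK (gcMs B.a hs) hs.length (2 * r - 1) 1 (fun _ _ => hs.length + 1) fun τ =>
    szOff hs.length r τ * gcNu B feat hs θ (2 * r) τ z fun σ => |szIns (gcDK feat hs) hs.length r τ σ|

/-! ### the jet context of the ensemble -/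

/-- the context `X` is the jet context of the `n`-site ensemble described by `R` -/
structure SzFit {n : ℕ} (X : JtCtx (SkCfg n)) (a : ℝ) (R : SzStp) : Prop where
  N : X.N = R.length
  sumK : ∀ k q τ Φ, X.sumK k q τ Φ = trSumK (szMs a R) R.length k q τ Φ
  absK : ∀ k q τ Φ, X.absK k q τ Φ = trAbsK (szMs a R) R.length k q τ Φ
  nu : ∀ q τ P, X.nu q τ P = trNu (skBase n a) (skLvs n (szMat R)) q τ 0 P
  nuK : ∀ r τ Q, X.nuK r τ Q = trNu (skBase 1 a) (skLvs 1 (szSc R)) r τ 0 fun σ => Q fun x => σ x 0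
  ov : X.ov = skOv
  msk : ∀ t, X.msk t = 0 ∨ X.msk t = 1
  b0 : ∀ t, 0 ≤ X.bC t
  b : ∀ t, X.bC t * X.msk t = szB R t
  h : ∀ t, X.hC t = szH R t
  K : ∀ t, X.KC t = szK R t
  g : ∀ t, t ≤ R.length → X.bC t * X.qC t ^ 2 = szG R t
  q1 : ∀ t, |X.qC t| ≤ 1

namespace JtCtx
variable {S : Type} (X : JtCtx S)

/-- the counterterm variable `b (Q^{*2} - q²)` of the pair `i` (no old labels) -/
def szCt (τ : JtTopo) (σ : ℕ → S) (i : ℕ) : ℝ :=
  X.bC (τ (jtC 0 i) (jtD 0 i)) * X.Qs τ σ (jtC 0 i) (jtD 0 i) ^ 2 - X.bC (τ (jtC 0 i) (jtD 0 i)) * X.qC (τ (jtC 0 i) (jtD 0 i)) ^ 2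

/-- matrix-model number of `∏_{A} J ∏_{range r \ A} b(Q^{*2} - q²)` -/
def szMx (r : ℕ) (τ : JtTopo) (A : Finset ℕ) : ℝ :=
  X.nu (2 * r) τ fun σ => (∏ i ∈ A, X.J τ σ (jtC 0 i) (jtD 0 i)) * ∏ i ∈ Finset.range r \ A, X.szCt τ σ i

/-- order `r` of the expansion at the decoupled end point: per-root sum of `(Ψ^j e^{-jC})_r` -/
noncomputable def szZ (r j : ℕ) : ℝ :=
  X.sumK (2 * r - 1) 1 X.tau1 fun τ => X.off 0 r τ * ∑ A ∈ (Finset.range r).powerset,
    jtPow (X.Psi (2 * r) 0 τ) j A * (-(j : ℝ) / 2) ^ (r - A.card) * X.szMx r τ A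

/-- the coefficient of `j^t` in `szZ r j` -/
noncomputable def szZc (r t : ℕ) : ℝ :=
  X.sumK (2 * r - 1) 1 X.tau1 fun τ => X.off 0 r τ * ∑ A ∈ (Finset.range r).powerset, ∑ p ∈ Finset.range (A.card + 1),
    (if p + (r - A.card) = t then (1 : ℝ) else 0) *
      (jtPow (X.Kap (2 * r) 0 τ) p A / (p ! : ℝ)) * (-1 / 2 : ℝ) ^ (r - A.card) * X.szMx r τ A

/-- the coefficient of `j^t` in the expansion through the order `k` -/
noncomputable def szC (k t : ℕ) : ℝ := ∑ r ∈ Finset.Icc 1 k, ((2 : ℝ) ^ r * (r ! : ℝ))⁻¹ * X.szZc r t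

/-- majorant of the remainder: per root, `k` off-diagonal pairs, absolute allocation measure, factors `|Δ| + |J|` -/
noncomputable def szRem (k : ℕ) : ℝ :=
  X.absK (2 * k - 1) 1 X.tau1 fun τ => X.off 0 k τ * X.nu (2 * k) τ fun σ =>
    ∏ i ∈ Finset.range k, (|X.Dl τ σ (jtC 0 i) (jtD 0 i)| + |X.J τ σ (jtC 0 i) (jtD 0 i)|)

end JtCtx

/-- deterministic part of the increment (linear in `j`; the same in the two ensembles) -/
noncomputable def szDet (a : ℝ) (R : SzStp) (j : ℕ) : ℝ :=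
  j * skF 1 a (szSc R) 0 - (1 / 2) * ∑ t ∈ Finset.range R.length, szMs a R t * ((j : ℝ) * (szG R (t + 1) - szG R t) / 2)
    + a * ((j : ℝ) * (szB R R.length / 2 + szH R R.length - szK R R.length + szG R R.length / 2)) / 2

/-- deterministic part of the linear coefficient: `¼ (∑ b q²)_#` -/
noncomputable def szDet1 (a : ℝ) (R : SzStp) : ℝ :=
  4⁻¹ * trSumK (szMs a R) R.length 1 1 (fun _ _ => R.length + 1) fun τ => szOff R.length 1 τ * szG R (τ 0 1)

end Claimed.Agent.R286
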