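import Claimed.Agent.R286.L02.SzGen

/-!
# Row 286 (S0533), LL Lemma `found:size-increment` (T7), file SK: the interpolating family on `SkCfg (n + j)`      (architect helper115; prefix `sz_k_`)

Kernels, the insertion `V`, admissibility, the two end points, the law at the decoupled end point.      ALL 17 LEAVES PROVED (0 sorry; helper117).
Engine of the end points: `sz_k_spl_F`, `sz_k_spl_nu` (a hierarchy on `n + j` sites whose kernels are `old + new` splits; `SzSpl`).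
Tools: `Defs/SkLem.sk_d_cov` (kernel of an SK level), `Fd/TrC2.gc_cov, gc_adm`, `Fd/CSym` (`gh_sy_F`, `gh_sy_const_F`, `gh_sy_prod_F`, `tr_sy_iso`, `tr_sy_prod`), `Fin.sum_univ_add`, `Fin.appendEquiv`.
-/

set_option autoImplicit false

namespace Claimed.Agent.R286

open scoped BigOperators Nat
open Set

/-! ### elementary -/

theorem sz_k_hs_length (j : ℕ) (R : SzStp) : (szHs j R).length = R.length := by
  simp [szHs]

/-- K4a -/
theorem sz_k_hs_ms (a : ℝ) (j : ℕ) (R : SzStp) (t : ℕ) : gcMs a (szHs j R) t = szMs a R t := by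
  unfold gcMs szMs szHs
  rw [List.getElem?_map, Option.map_map]
  rfl

/-- K4b -/
theorem sz_k_hs_adm {a : ℝ} {R : SzStp} (hR : SzAdm a R) (j : ℕ) : GcAffAdm a (szHs j R) := by
  refine ⟨?_, ?_⟩
  · unfold szHs
    rw [List.map_map, List.pairwise_map]
    exact hR.1
  · intro h hh
    unfold szHs at hh
    obtain ⟨e, he, rfl⟩ := List.mem_map.1 hh
    obtain ⟨h1, h2, h3, h4, h5, h6⟩ := hR.2 e he
    refine ⟨⟨h1, h2⟩, fun r => ?_⟩
    fin_cases r
    · simp [h3]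
    · simp [h3]
    · simp [h4]
    · simp [h5, h4]
    · simp; positivity

/-- K4c: the masses of the `n`-site hierarchy -/
theorem sz_k_mat_ms (n : ℕ) (a : ℝ) (R : SzStp) (t : ℕ) : trMs (skBase n a) (skLvs n (szMat R)) t = szMs a R t := by
  unfold trMs szMs skLvs szMat
  rw [List.map_map, List.getElem?_map, Option.map_map]
  rfl

/-- K4d -/
theorem sz_k_mat_adm {a : ℝ} {R : SzStp} (hR : SzAdm a R) : SkAdm a (szMat R) ∧ SkAdm a (szSc R) := by
  refine ⟨⟨?_, ?_⟩, ⟨?_, ?_⟩⟩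
  · unfold szMat; rw [List.pairwise_map]; exact hR.1
  · intro e he
    unfold szMat at he
    obtain ⟨e', he', rfl⟩ := List.mem_map.1 he
    obtain ⟨h1, h2, h3, h4, h5, h6⟩ := hR.2 e' he'
    exact ⟨h1, h2, h3, h4⟩
  · unfold szSc; rw [List.pairwise_map]; exact hR.1
  · intro e he
    unfold szSc at he
    obtain ⟨e', he', rfl⟩ := List.mem_map.1 he
    obtain ⟨h1, h2, h3, h4, h5, h6⟩ := hR.2 e' he'
    exact ⟨h1, h2, le_rfl, h5⟩

theorem sz_k_sp_abs {n : ℕ} (σ : SkCfg n) (i : Fin n) : |skSp σ i| = 1 := by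
  unfold skSp Claims.C0461.pmSpin
  split_ifs <;> simp

/-- K5b -/
theorem sz_k_Rr_le {j : ℕ} (ρ ρ' : SkCfg j) : |szRr ρ ρ'| ≤ j := by
  unfold szRr
  calc |∑ i, skSp ρ i * skSp ρ' i| ≤ ∑ i : Fin j, |skSp ρ i * skSp ρ' i| := Finset.abs_sum_le_sum_abs _ _
    _ = ∑ _i : Fin j, (1 : ℝ) := by simp [abs_mul, sz_k_sp_abs]
    _ = j := by simp

/-- `n R(σ,τ) = ∑ σ_i τ_i` -/
theorem sz_k_n_ov {n : ℕ} (σ τ : SkCfg n) : (n : ℝ) * skOv σ τ = szRr σ τ := by
  unfold skOv szRr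
  rcases Nat.eq_zero_or_pos n with rfl | hn
  · simp
  have hn' : (n : ℝ) ≠ 0 := by positivity
  field_simp

/-- K5a -/
theorem sz_k_ov_le {n : ℕ} (σ τ : SkCfg n) : |skOv σ τ| ≤ 1 := by
  rcases Nat.eq_zero_or_pos n with rfl | hn
  · simp [skOv]
  have hn' : (0 : ℝ) < n := by exact_mod_cast hn
  have h1 := sz_k_Rr_le σ τ
  rw [← sz_k_n_ov, abs_mul, abs_of_pos hn'] at h1
  nlinarith

theorem sz_k_sum_nonneg {α : Type} (f : α → ℝ) : ∀ (L : List α), (∀ e ∈ L, 0 ≤ f e) → 0 ≤ (L.map f).sum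
  | [], _ => by simp
  | e :: L, h => by
    rw [List.map_cons, List.sum_cons]
    exact add_nonneg (h e List.mem_cons_self) (sz_k_sum_nonneg f L fun e' he' => h e' (List.mem_cons_of_mem _ he'))

/-- K5c: monotone nonnegative cumulative clocks -/
theorem sz_k_clk_nonneg {a : ℝ} {R : SzStp} (hR : SzAdm a R) (t : ℕ) : 0 ≤ szB R t ∧ 0 ≤ szG R t := by
  unfold szB szG
  exact ⟨sz_k_sum_nonneg _ _ fun e he => (hR.2 e (List.mem_of_mem_take he)).2.2.1,
    sz_k_sum_nonneg _ _ fun e he => (hR.2 e (List.mem_of_mem_take he)).2.2.2.2.2⟩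

/-- kernel of a normalised matrix feature -/
theorem sz_k_sq_sum {N : ℕ} {c : ℝ} (hc : 0 < c) (x y : Fin N → ℝ) :
    ∑ p : Fin N × Fin N, (x p.1 * x p.2 / Real.sqrt c) * (y p.1 * y p.2 / Real.sqrt c) = (∑ i, x i * y i) ^ 2 / c := by
  have s2 : Real.sqrt c * Real.sqrt c = c := Real.mul_self_sqrt hc.le
  have s3 : Real.sqrt c ≠ 0 := by positivity
  have h1 : ∀ p : Fin N × Fin N, (x p.1 * x p.2 / Real.sqrt c) * (y p.1 * y p.2 / Real.sqrt c)
      = ((x p.1 * y p.1) * (x p.2 * y p.2)) / c := by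
    intro p
    calc _ = ((x p.1 * y p.1) * (x p.2 * y p.2)) / (Real.sqrt c * Real.sqrt c) := by field_simp
      _ = _ := by rw [s2]
  simp only [h1]
  rw [← Finset.sum_div, Fintype.sum_prod_type, sq, Finset.sum_mul_sum]

/-- the sum over all the sites splits -/
theorem sz_k_Rr_split {n j : ℕ} (σ σ' : SkCfg (n + j)) : szRr σ σ' = szRr (szOld σ) (szOld σ') + szRr (szNew σ) (szNew σ') := by
  unfold szRr
  rw [Fin.sum_univ_add]
  rfl

/-- K1': the overlap of the `(n+j)`-site model -/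
theorem sz_k_ov_split {n : ℕ} (j : ℕ) (σ σ' : SkCfg (n + j)) :
    ((n + j : ℕ) : ℝ) * skOv σ σ' = (n : ℝ) * skOv (szOld σ) (szOld σ') + szRr (szNew σ) (szNew σ') := by
  rw [sz_k_n_ov, sz_k_n_ov, sz_k_Rr_split]

/-- K1: the five kernels -/
theorem sz_k_ker {n : ℕ} (hn : 0 < n) (j : ℕ) (σ σ' : SkCfg (n + j)) :
    gcKer (szFeat n j) 0 σ σ' = ((n : ℝ) * skOv (szOld σ) (szOld σ')) ^ 2 / (2 * n) ∧
    gcKer (szFeat n j) 1 σ σ' = ((n : ℝ) * skOv (szOld σ) (szOld σ') + szRr (szNew σ) (szNew σ')) ^ 2 / (2 * ((n : ℝ) + j)) ∧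
    gcKer (szFeat n j) 2 σ σ' = (n : ℝ) * skOv (szOld σ) (szOld σ') ∧
    gcKer (szFeat n j) 3 σ σ' = szRr (szNew σ) (szNew σ') ∧
    gcKer (szFeat n j) 4 σ σ' = 1 := by
  have hn' : (0 : ℝ) < n := by exact_mod_cast hn
  refine ⟨?_, ?_, ?_, ?_, ?_⟩
  · unfold gcKer szFeat
    simp only [Matrix.cons_val_zero, Fintype.sum_sum_type, Sum.elim_inl, Sum.elim_inr, mul_zero, Finset.sum_const_zero, add_zero]
    rw [sz_k_sq_sum (by positivity), sz_k_n_ov]
    rfl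
  · unfold gcKer szFeat
    simp only [Matrix.cons_val_one, Matrix.cons_val_zero, Fintype.sum_sum_type, Sum.elim_inl, Sum.elim_inr, mul_zero, Finset.sum_const_zero,
      add_zero, zero_add]
    rw [sz_k_sq_sum (by positivity), sz_k_n_ov, ← sz_k_Rr_split]
    push_cast
    rfl
  · unfold gcKer szFeat
    simp [Fintype.sum_sum_type]
    rw [sz_k_n_ov]
    rfl
  · unfold gcKer szFeat
    simp [Fintype.sum_sum_type]
    rfl
  · unfold gcKer szFeat
    simp [Fintype.sum_sum_type]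

/-- sums of the increments of the first stages -/
theorem sz_k_sum_take (f : SzInc → ℝ) : ∀ (R : SzStp) (t : ℕ),
    ∑ i ∈ Finset.range (min t R.length), (R[i]?.map f).getD 0 = ((R.take t).map f).sum
  | [], t => by simp
  | e :: R, 0 => by simp
  | e :: R, t + 1 => by
    have h : min (t + 1) (e :: R).length = min t R.length + 1 := by
      simp only [List.length_cons]; omega
    rw [h, Finset.sum_range_succ']
    simp only [List.getElem?_cons_succ, List.getElem?_cons_zero, Option.map_some, Option.getD_some, List.take_succ_cons,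
      List.map_cons, List.sum_cons]
    rw [sz_k_sum_take f R t, add_comm]

theorem sz_k_sum_neg (f : SzInc → ℝ) (L : SzStp) : (L.map fun e => -f e).sum = -(L.map f).sum := by
  induction L with
  | nil => simp
  | cons e L ih => simp only [List.map_cons, List.sum_cons, ih]; ring

theorem sz_k_sum_sub (f g : SzInc → ℝ) (L : SzStp) : (L.map fun e => f e - g e).sum = (L.map f).sum - (L.map g).sum := by
  induction L with
  | nil => simp
  | cons e L ih => simp only [List.map_cons, List.sum_cons, ih]; ring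

theorem sz_k_sum_scal (c : ℝ) (f : SzInc → ℝ) (L : SzStp) : (L.map fun e => c * f e / 2).sum = c * (L.map f).sum / 2 := by
  induction L with
  | nil => simp
  | cons e L ih => simp only [List.map_cons, List.sum_cons, ih]; ring

theorem sz_k_sum_zero (L : SzStp) : (L.map fun _ => (0 : ℝ)).sum = 0 := by
  induction L with
  | nil => simp
  | cons e L ih => simp only [List.map_cons, List.sum_cons, ih]; ring

/-- K2: the insertion.  PROOF: `trV`, `gcDK`, `Fin.sum_univ_five`, `sz_k_ker`; `∑_{i < min t N} e_i.db = szB R t` (induction on `R` generalising `t`). -/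
theorem sz_k_trV {n : ℕ} (hn : 0 < n) (j : ℕ) (R : SzStp) (t : ℕ) (σ σ' : SkCfg (n + j)) :
    trV (gcDK (szFeat n j) (szHs j R)) (szHs j R).length t σ σ'
      = szV n j R t (skOv (szOld σ) (szOld σ')) (szRr (szNew σ) (szNew σ')) := by
  have hn' : (n : ℝ) ≠ 0 := by positivity
  obtain ⟨k0, k1, k2, k3, k4⟩ := sz_k_ker hn j σ σ'
  have hl : (szHs j R).length = R.length := by simp [szHs]
  unfold trV gcDK
  simp only [Fin.sum_univ_five, k0, k1, k2, k3, k4, hl]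
  unfold szHs
  simp only [List.getElem?_map, Option.map_map, Function.comp_def, Matrix.cons_val_zero, Matrix.cons_val_one, Matrix.cons_val]
  simp only [Finset.sum_add_distrib, ← Finset.sum_mul, sz_k_sum_take, sz_k_sum_neg, sz_k_sum_sub, sz_k_sum_scal, sz_k_sum_zero]
  unfold szV szB szH szK szG
  field_simp
  ring

theorem sz_k_take_len (f : SzInc → ℝ) (R : SzStp) : ((R.take (R.length + 1)).map f).sum = ((R.take R.length).map f).sum := by
  rw [List.take_of_length_le (Nat.le_succ _), List.take_length]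

theorem sz_k_ov_self {n : ℕ} (hn : 0 < n) (σ : SkCfg n) : skOv σ σ = 1 := by
  have hn' : (n : ℝ) ≠ 0 := by positivity
  unfold skOv
  simp only [sk_d_sp_mul]
  simp [hn']

theorem sz_k_Rr_self {j : ℕ} (ρ : SkCfg j) : szRr ρ ρ = j := by
  unfold szRr
  simp only [sk_d_sp_mul]
  simp

/-- K3': the constant diagonal -/
theorem sz_k_diag {n : ℕ} (hn : 0 < n) (j : ℕ) (R : SzStp) (σ : SkCfg (n + j)) :
    trV (gcDK (szFeat n j) (szHs j R)) (szHs j R).length ((szHs j R).length + 1) σ σ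
      = (j : ℝ) * (szB R R.length / 2 + szH R R.length - szK R R.length + szG R R.length / 2) := by
  have hn' : (0 : ℝ) < n := by exact_mod_cast hn
  have hl : (szHs j R).length = R.length := by simp [szHs]
  rw [sz_k_trV hn, hl, sz_k_ov_self hn, sz_k_Rr_self]
  unfold szV szB szH szK szG
  simp only [sz_k_take_len]
  have h2 : (n : ℝ) + j ≠ 0 := by positivity
  field_simp
  ring

/-- K3: main part + contact error -/
theorem sz_k_V_split {n : ℕ} (hn : 0 < n) (j : ℕ) (R : SzStp) (t : ℕ) (Q Rr : ℝ) :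
    szV n j R t Q Rr = szV0 j R t Q Rr + szB R t * (Rr - j * Q) ^ 2 / (2 * ((n : ℝ) + j)) := by
  have h1 : (n : ℝ) ≠ 0 := by positivity
  have h2 : (n : ℝ) + j ≠ 0 := by positivity
  unfold szV szV0
  field_simp
  ring

/-- K5d: bounds of the insertion.  (`|J| ≤ 2 M0`, `|b Q² - g| ≤ M0`, `(Rr - jQ)² ≤ 4 j²`) -/
theorem sz_k_V_bd {n : ℕ} (hn : 0 < n) (j : ℕ) {a M0 : ℝ} {R : SzStp} (hR : SzAdm a R) (hb : SzBd M0 R) (t : ℕ) (Q Rr : ℝ)
    (hQ : |Q| ≤ 1) (hRr : |Rr| ≤ j) :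
    |szV0 j R t Q Rr| ≤ 3 * M0 * j ∧ 0 ≤ szB R t * (Rr - j * Q) ^ 2 / (2 * ((n : ℝ) + j)) ∧
      szB R t * (Rr - j * Q) ^ 2 / (2 * ((n : ℝ) + j)) ≤ 2 * M0 * (j : ℝ) ^ 2 / n ∧ |szV n j R t Q Rr| ≤ 5 * M0 * j := by
  have hn' : (0 : ℝ) < n := by exact_mod_cast hn
  have hj : (0 : ℝ) ≤ j := Nat.cast_nonneg j
  obtain ⟨hB0, hG0⟩ := sz_k_clk_nonneg hR t
  obtain ⟨hB1, hHK, hG1⟩ := hb t
  set B := szB R t with hBdef
  set G := szG R t with hGdef
  have hM0 : 0 ≤ M0 := hB0.trans hB1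
  have hQ2 : Q ^ 2 ≤ 1 := by
    have := abs_le.1 hQ
    nlinarith
  have hQ20 : 0 ≤ Q ^ 2 := sq_nonneg Q
  -- the main part
  have h1 : |szV0 j R t Q Rr| ≤ 3 * M0 * j := by
    unfold szV0
    rw [← hBdef, ← hGdef]
    have a1 : |szH R t + B * Q - szK R t| ≤ 2 * M0 := by
      have e : szH R t + B * Q - szK R t = (szH R t - szK R t) + B * Q := by ring
      rw [e]
      have b1 : |B * Q| ≤ M0 := by
        rw [abs_mul, abs_of_nonneg hB0]
        calc B * |Q| ≤ B * 1 := mul_le_mul_of_nonneg_left hQ hB0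
          _ ≤ M0 := by linarith
      calc _ ≤ |szH R t - szK R t| + |B * Q| := abs_add_le _ _
        _ ≤ _ := by linarith
    have a2 : |B * Q ^ 2 - G| ≤ M0 := by
      have c1 : B * Q ^ 2 ≤ M0 := by nlinarith
      have c2 : 0 ≤ B * Q ^ 2 := mul_nonneg hB0 hQ20
      rw [abs_le]; constructor <;> linarith
    calc |(szH R t + B * Q - szK R t) * Rr + -(j : ℝ) / 2 * (B * Q ^ 2 - G)|
        ≤ |(szH R t + B * Q - szK R t) * Rr| + |-(j : ℝ) / 2 * (B * Q ^ 2 - G)| := abs_add_le _ _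
      _ = |szH R t + B * Q - szK R t| * |Rr| + (j : ℝ) / 2 * |B * Q ^ 2 - G| := by
          rw [abs_mul, abs_mul]
          congr 2
          rw [neg_div, abs_neg, abs_of_nonneg (by positivity)]
      _ ≤ 2 * M0 * j + (j : ℝ) / 2 * M0 := by
          gcongr
      _ ≤ 3 * M0 * j := by nlinarith
  have hsq : (Rr - j * Q) ^ 2 ≤ 4 * (j : ℝ) ^ 2 := by
    have r1 := abs_le.1 hRr
    have q1 := abs_le.1 hQ
    have u1 : |Rr - j * Q| ≤ 2 * j := by
      rw [abs_le]; constructor <;> nlinarith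
    calc (Rr - j * Q) ^ 2 = |Rr - j * Q| ^ 2 := (sq_abs _).symm
      _ ≤ (2 * j) ^ 2 := by gcongr
      _ = _ := by ring
  have h2 : 0 ≤ B * (Rr - j * Q) ^ 2 / (2 * ((n : ℝ) + j)) := by positivity
  have h3' : B * (Rr - j * Q) ^ 2 / (2 * ((n : ℝ) + j)) ≤ 2 * M0 * (j : ℝ) ^ 2 / ((n : ℝ) + j) := by
    rw [div_le_div_iff₀ (by positivity) (by positivity)]
    have : B * (Rr - j * Q) ^ 2 ≤ M0 * (4 * (j : ℝ) ^ 2) := by
      apply mul_le_mul hB1 hsq (sq_nonneg _) hM0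
    nlinarith [add_pos_of_pos_of_nonneg hn' hj]
  have h3 : B * (Rr - j * Q) ^ 2 / (2 * ((n : ℝ) + j)) ≤ 2 * M0 * (j : ℝ) ^ 2 / n := by
    refine h3'.trans ?_
    apply div_le_div_of_nonneg_left (by positivity) hn' (by linarith)
  have h4' : 2 * M0 * (j : ℝ) ^ 2 / ((n : ℝ) + j) ≤ 2 * M0 * j := by
    rw [div_le_iff₀ (by positivity)]
    nlinarith [mul_nonneg (mul_nonneg hM0 hj) hn'.le]
  refine ⟨h1, h2, h3, ?_⟩
  rw [sz_k_V_split hn, ← hBdef]
  calc _ ≤ |szV0 j R t Q Rr| + |B * (Rr - j * Q) ^ 2 / (2 * ((n : ℝ) + j))| := abs_add_le _ _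
    _ ≤ 3 * M0 * j + 2 * M0 * j := by
        rw [abs_of_nonneg h2]
        exact add_le_add h1 (h3'.trans h4')
    _ = _ := by ring

section split

variable {n j : ℕ} {α ι' ι₁ ι₂ : Type} [Fintype ι'] [Fintype ι₁] [Fintype ι₂]

/-- the splitting of the sites -/
def szEq (n j : ℕ) : SkCfg n × SkCfg j ≃ SkCfg (n + j) := Fin.appendEquiv n j

theorem sz_k_eq_old (s : SkCfg n × SkCfg j) : szOld (szEq n j s) = s.1 := by
  funext i
  simp [szOld, szEq, Fin.appendEquiv]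

theorem sz_k_eq_new (s : SkCfg n × SkCfg j) : szNew (szEq n j s) = s.2 := by
  funext i
  simp [szNew, szEq, Fin.appendEquiv]

/-- pull back of a level to the product -/
def szPb (l : GhLv (SkCfg (n + j)) ι') : GhLv (SkCfg n × SkCfg j) ι' := ⟨l.m, fun s i => l.A (szEq n j s) i⟩

/-- pull back of the base -/
noncomputable def szPbB (n j : ℕ) (a : ℝ) : GhB (SkCfg n × SkCfg j) := ⟨fun s => (skBase (n + j) a).w (szEq n j s), a⟩

/-- the level `l'` on `n + j` sites is the independent sum of `l₁` (old sites) and `l₂` (new rows) -/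
def SzSpl (l' : GhLv (SkCfg (n + j)) ι') (l₁ : GhLv (SkCfg n) ι₁) (l₂ : GhLv (SkCfg j) ι₂) : Prop :=
  0 ≤ l'.m ∧ l₁.m = l'.m ∧ l₂.m = l'.m ∧
    ∀ σ σ', l'.cov σ σ' = l₁.cov (szOld σ) (szOld σ') + l₂.cov (szNew σ) (szNew σ')

theorem sz_k_spl_eqns_cite : True := by
  have := @szEq.eq_1; have := @szPb.eq_1; have := @szPbB.eq_1; have := @SzSpl.eq_1
  trivial

theorem sz_k_spl_iso (a : ℝ) (R : List α) (F' : α → GhLv (SkCfg (n + j)) ι') :
    GhIso (szEq n j) (szPbB n j a) (skBase (n + j) a) (R.map fun e => szPb (F' e)) (R.map F') where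
  a := rfl
  w _ := rfl
  m := by simp only [List.map_map]; rfl
  cov t h h' s s' := by simp only [List.getElem_map]; rfl

theorem sz_k_spl_prd (a : ℝ) (R : List α) (F' : α → GhLv (SkCfg (n + j)) ι') (F₁ : α → GhLv (SkCfg n) ι₁)
    (F₂ : α → GhLv (SkCfg j) ι₂) (h : ∀ e ∈ R, SzSpl (F' e) (F₁ e) (F₂ e)) :
    GhPrd (szPbB n j a) (skBase n a) (skBase j a) (R.map fun e => szPb (F' e)) (R.map F₁) (R.map F₂) where
  a₁ := rfl
  a₂ := rfl
  w s := by
    show ((Fintype.card (SkCfg (n + j)) : ℝ))⁻¹ = ((Fintype.card (SkCfg n) : ℝ))⁻¹ * ((Fintype.card (SkCfg j) : ℝ))⁻¹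
    simp only [Fintype.card_pi, Fintype.card_bool, Finset.prod_const, Finset.card_univ, Fintype.card_fin]
    push_cast
    rw [pow_add, mul_inv]
  m₁ := by
    simp only [List.map_map]
    exact List.map_congr_left fun e he => (h e he).2.1
  m₂ := by
    simp only [List.map_map]
    exact List.map_congr_left fun e he => (h e he).2.2.1
  cov t ht h₁ h₂ s s' := by
    simp only [List.getElem_map]
    have ht' : t < R.length := by simpa using ht
    have := (h R[t] (List.getElem_mem ht')).2.2.2 (szEq n j s) (szEq n j s')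
    rw [sz_k_eq_old, sz_k_eq_old, sz_k_eq_new, sz_k_eq_new] at this
    exact this

theorem sz_k_spl_nn (R : List α) (F' : α → GhLv (SkCfg (n + j)) ι') (F₁ : α → GhLv (SkCfg n) ι₁)
    (F₂ : α → GhLv (SkCfg j) ι₂) (h : ∀ e ∈ R, SzSpl (F' e) (F₁ e) (F₂ e)) : GhNn (R.map fun e => szPb (F' e)) := by
  intro l hl
  obtain ⟨e, he, rfl⟩ := List.mem_map.1 hl
  exact (h e he).1

theorem sz_k_pbB_ok (n j : ℕ) {a : ℝ} (ha : 0 < a) : (szPbB n j a).Ok where
  nonneg s := (sk_sy_base_ok (n + j) ha).nonneg (szEq n j s)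
  sum := by
    show ∑ s, (skBase (n + j) a).w (szEq n j s) = 1
    rw [Equiv.sum_comp (szEq n j) (skBase (n + j) a).w]
    exact (sk_sy_base_ok (n + j) ha).sum
  pos := ha

/-- **splitting of the continuation** -/
theorem sz_k_spl_F {a : ℝ} (ha : 0 < a) (R : List α) (F' : α → GhLv (SkCfg (n + j)) ι') (F₁ : α → GhLv (SkCfg n) ι₁)
    (F₂ : α → GhLv (SkCfg j) ι₂) (h : ∀ e ∈ R, SzSpl (F' e) (F₁ e) (F₂ e)) :
    ghF (skBase (n + j) a) (R.map F') 0 = ghF (skBase n a) (R.map F₁) 0 + ghF (skBase j a) (R.map F₂) 0 := by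
  rw [gh_sy_F (sz_k_pbB_ok n j ha) (sz_k_spl_nn R F' F₁ F₂ h) (sz_k_spl_iso a R F') 0,
    ← gh_sy_prod_F (sk_sy_base_ok n ha) (sk_sy_base_ok j ha) (sz_k_spl_nn R F' F₁ F₂ h) (sz_k_spl_prd a R F' F₁ F₂ h) 0 0]
  congr 1
  funext s
  simp

/-- **splitting of the tree numbers** -/
theorem sz_k_spl_nu {a : ℝ} (ha : 0 < a) (R : List α) (F' : α → GhLv (SkCfg (n + j)) ι') (F₁ : α → GhLv (SkCfg n) ι₁)
    (F₂ : α → GhLv (SkCfg j) ι₂) (h : ∀ e ∈ R, SzSpl (F' e) (F₁ e) (F₂ e)) {q : ℕ} {τ : ℕ → ℕ → ℕ} (hτ : IsTr R.length q τ)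
    (f : (ℕ → SkCfg n) → ℝ) (hf : TrUses q f) (g : (ℕ → SkCfg j) → ℝ) (hg : TrUses q g) :
    trNu (skBase (n + j) a) (R.map F') q τ 0 (fun σ => f (fun x => szOld (σ x)) * g fun x => szNew (σ x))
      = trNu (skBase n a) (R.map F₁) q τ 0 f * trNu (skBase j a) (R.map F₂) q τ 0 g := by
  have hl : (R.map fun e => szPb (F' e)).length = R.length := by simp
  have hP : TrUses q (fun σ : ℕ → SkCfg (n + j) => f (fun x => szOld (σ x)) * g fun x => szNew (σ x)) := by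
    intro σ σ' hσ
    have e1 : f (fun x => szOld (σ x)) = f (fun x => szOld (σ' x)) := hf _ _ fun i hi => by rw [hσ i hi]
    have e2 : g (fun x => szNew (σ x)) = g (fun x => szNew (σ' x)) := hg _ _ fun i hi => by rw [hσ i hi]
    show f (fun x => szOld (σ x)) * g (fun x => szNew (σ x)) = f (fun x => szOld (σ' x)) * g (fun x => szNew (σ' x))
    rw [e1, e2]
  rw [tr_sy_iso (sz_k_pbB_ok n j ha) (sz_k_spl_nn R F' F₁ F₂ h) (sz_k_spl_iso a R F') (hl ▸ hτ) 0 _ hP,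
    ← tr_sy_prod (sk_sy_base_ok n ha) (sk_sy_base_ok j ha) (sz_k_spl_nn R F' F₁ F₂ h) (sz_k_spl_prd a R F' F₁ F₂ h) (hl ▸ hτ) 0 0
      f g hf hg]
  congr 1
  · funext s
    simp
  · funext σ
    simp only [sz_k_eq_old, sz_k_eq_new]

end split

/-- the level of the interpolating family at the stage `e` -/
noncomputable def szLv (n j : ℕ) (θ : ℝ) (e : SzInc) : GhLv (SkCfg (n + j)) (Fin 5 × SzDr n j) :=
  gcLv (szFeat n j) e.m fun r => ![e.db, 0, e.dh, e.dK, 0] r + θ * ![-e.db, e.db, 0, e.dh - e.dK, (j : ℝ) * e.dg / 2] r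

theorem sz_k_lv_eqns_cite : True := by
  have := @szLv.eq_1
  trivial

theorem sz_k_ls (n j : ℕ) (R : SzStp) (θ : ℝ) : gcLs (szFeat n j) (gcAff (szHs j R) θ) = R.map (szLv n j θ) := by
  unfold gcLs gcAff szHs
  rw [List.map_map, List.map_map]
  rfl

theorem sz_k_ls_mat (n : ℕ) (R : SzStp) : skLvs n (szMat R) = R.map fun e => (⟨e.m, e.db, e.dh⟩ : SkInc).lv n := by
  unfold skLvs szMat
  rw [List.map_map]
  rfl

theorem sz_k_ls_sc (n : ℕ) (R : SzStp) : skLvs n (szSc R) = R.map fun e => (⟨e.m, 0, e.dK⟩ : SkInc).lv n := by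
  unfold skLvs szSc
  rw [List.map_map]
  rfl

/-- kernel of a field-only level -/
theorem sz_k_cov_sc (j : ℕ) (hj : 1 ≤ j) (m : ℝ) {dK : ℝ} (hK : 0 ≤ dK) (ρ ρ' : SkCfg j) :
    ((⟨m, 0, dK⟩ : SkInc).lv j).cov ρ ρ' = dK * szRr ρ ρ' := by
  rw [sk_d_cov j hj ⟨m, 0, dK⟩ le_rfl hK, ← sz_k_n_ov]
  ring

/-- kernel at the decoupled end point -/
theorem sz_k_cov_zero {n : ℕ} (hn : 0 < n) (j : ℕ) (e : SzInc) (hb : 0 ≤ e.db) (hh : 0 ≤ e.dh) (hK : 0 ≤ e.dK)
    (σ σ' : SkCfg (n + j)) :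
    (szLv n j 0 e).cov σ σ' = e.db * (((n : ℝ) * skOv (szOld σ) (szOld σ')) ^ 2 / (2 * n))
      + e.dh * ((n : ℝ) * skOv (szOld σ) (szOld σ')) + e.dK * szRr (szNew σ) (szNew σ') := by
  obtain ⟨k0, k1, k2, k3, k4⟩ := sz_k_ker hn j σ σ'
  unfold szLv
  rw [gc_cov]
  · rw [Fin.sum_univ_five, k0, k1, k2, k3, k4]
    simp
  · intro r
    fin_cases r <;> simp [hb, hh, hK]

/-- kernel at the interacting end point -/
theorem sz_k_cov_one {n : ℕ} (hn : 0 < n) (j : ℕ) (e : SzInc) (hb : 0 ≤ e.db) (hh : 0 ≤ e.dh) (hg : 0 ≤ e.dg)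
    (σ σ' : SkCfg (n + j)) :
    (szLv n j 1 e).cov σ σ' = ((⟨e.m, e.db, e.dh⟩ : SkInc).lv (n + j)).cov σ σ' + (j : ℝ) * e.dg / 2 := by
  obtain ⟨k0, k1, k2, k3, k4⟩ := sz_k_ker hn j σ σ'
  have hnj : ((n + j : ℕ) : ℝ) ≠ 0 := by positivity
  rw [sk_d_cov (n + j) (by omega) ⟨e.m, e.db, e.dh⟩ hb hh]
  unfold szLv
  rw [gc_cov]
  · have hs : szRr (szNew σ) (szNew σ') = ((n : ℝ) + j) * skOv σ σ' - (n : ℝ) * skOv (szOld σ) (szOld σ') := by
      have := sz_k_ov_split j σ σ'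
      push_cast at this
      linarith
    rw [Fin.sum_univ_five, k0, k1, k2, k3, k4, hs]
    simp only [Matrix.cons_val_zero, Matrix.cons_val_one, Matrix.cons_val]
    push_cast at hnj ⊢
    field_simp
    ring
  · intro r
    have : 0 ≤ (j : ℝ) * e.dg / 2 := by positivity
    fin_cases r <;> simp [hb, hh, this]

theorem sz_k_spl_zero {n : ℕ} (hn : 0 < n) (j : ℕ) (hj : 1 ≤ j) {a : ℝ} {R : SzStp} (hR : SzAdm a R) :
    ∀ e ∈ R, SzSpl (szLv n j 0 e) ((⟨e.m, e.db, e.dh⟩ : SkInc).lv n) ((⟨e.m, 0, e.dK⟩ : SkInc).lv j) := by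
  intro e he
  obtain ⟨h0, -, hb, hh, hK, -⟩ := hR.2 e he
  refine ⟨h0, rfl, rfl, fun σ σ' => ?_⟩
  have hn' : (n : ℝ) ≠ 0 := by positivity
  rw [sz_k_cov_zero hn j e hb hh hK, sz_k_cov_sc j hj e.m hK, sk_d_cov n hn ⟨e.m, e.db, e.dh⟩ hb hh]
  field_simp

/-- E0': the decoupled end point, continuation.  PROOF: `gh_sy_F` along `(Fin.appendEquiv n j).symm`, `gh_sy_prod_F`; kernels by `gc_cov`, `sz_k_ker`, `sk_d_cov`. -/
theorem sz_k_F_zero' {n : ℕ} (hn : 0 < n) (j : ℕ) (hj : 1 ≤ j) {a : ℝ} (ha : 0 < a) {R : SzStp} (hR : SzAdm a R) :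
    szF n j a R 0 = skF n a (szMat R) 0 + skF j a (szSc R) 0 := by
  unfold szF skF
  rw [sz_k_ls, sz_k_ls_mat, sz_k_ls_sc]
  exact sz_k_spl_F ha R _ _ _ (sz_k_spl_zero hn j hj hR)

/-- P0: old spins and new rows are independent on every tree.  PROOF: `tr_sy_iso` along `(Fin.appendEquiv n j).symm`, `tr_sy_prod`. -/
theorem sz_k_zero_law {n : ℕ} (hn : 0 < n) (j : ℕ) (hj : 1 ≤ j) {a : ℝ} (ha : 0 < a) {R : SzStp} (hR : SzAdm a R)
    {q : ℕ} {τ : ℕ → ℕ → ℕ} (hτ : IsTr R.length q τ) (f : (ℕ → SkCfg n) → ℝ) (hf : TrUses q f) (g : (ℕ → SkCfg j) → ℝ) (hg : TrUses q g) :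
    gcNu (skBase (n + j) a) (szFeat n j) (szHs j R) 0 q τ 0 (fun σ => f (fun x => szOld (σ x)) * g fun x => szNew (σ x))
      = trNu (skBase n a) (skLvs n (szMat R)) q τ 0 f * trNu (skBase j a) (skLvs j (szSc R)) q τ 0 g := by
  unfold gcNu
  rw [sz_k_ls, sz_k_ls_mat, sz_k_ls_sc]
  exact sz_k_spl_nu ha R _ _ _ (sz_k_spl_zero hn j hj hR) hτ f hf g hg

/-- field-only levels split -/
theorem sz_k_spl_sc (n j : ℕ) (hn : 1 ≤ n) (hj : 1 ≤ j) {a : ℝ} {R : SzStp} (hR : SzAdm a R) :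
    ∀ e ∈ R, SzSpl ((⟨e.m, 0, e.dK⟩ : SkInc).lv (n + j)) ((⟨e.m, 0, e.dK⟩ : SkInc).lv n) ((⟨e.m, 0, e.dK⟩ : SkInc).lv j) := by
  intro e he
  obtain ⟨h0, -, hb, hh, hK, -⟩ := hR.2 e he
  refine ⟨h0, rfl, rfl, fun σ σ' => ?_⟩
  rw [sz_k_cov_sc (n + j) (by omega) e.m hK, sz_k_cov_sc n hn e.m hK, sz_k_cov_sc j hj e.m hK, sz_k_Rr_split]
  ring

/-- P2: a field-only model is a product of one-site models: continuation.  PROOF: induction on `j ≥ 1`; `SkCfg (j + 1) ≃ SkCfg j × SkCfg 1` (`Fin.appendEquiv`), `gh_sy_F`, `gh_sy_prod_F`, `sk_d_cov` with `db = 0`. -/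
theorem sz_k_rows_F {a : ℝ} (ha : 0 < a) {R : SzStp} (hR : SzAdm a R) (j : ℕ) (hj : 1 ≤ j) :
    skF j a (szSc R) 0 = j * skF 1 a (szSc R) 0 := by
  induction j, hj using Nat.le_induction with
  | base => simp
  | succ j hj ih =>
    have h : skF (j + 1) a (szSc R) 0 = skF j a (szSc R) 0 + skF 1 a (szSc R) 0 := by
      unfold skF
      rw [sz_k_ls_sc, sz_k_ls_sc, sz_k_ls_sc]
      exact sz_k_spl_F ha R _ _ _ (sz_k_spl_sc j 1 hj le_rfl hR)
    rw [h, ih]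
    push_cast
    ring

/-- E0 -/
theorem sz_k_F_zero {n : ℕ} (hn : 0 < n) (j : ℕ) (hj : 1 ≤ j) {a : ℝ} (ha : 0 < a) {R : SzStp} (hR : SzAdm a R) :
    szF n j a R 0 = skF n a (szMat R) 0 + j * skF 1 a (szSc R) 0 := by
  rw [sz_k_F_zero' hn j hj ha hR, sz_k_rows_F ha hR j hj]

theorem sz_k_G_succ (R : SzStp) {t : ℕ} (ht : t < R.length) : szG R (t + 1) - szG R t = R[t].dg := by
  unfold szG
  rw [List.take_succ_eq_append_getElem ht, List.map_append, List.sum_append]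
  simp only [List.map_cons, List.map_nil, List.sum_cons, List.sum_nil]
  ring

/-- E1: the interacting end point.  PROOF: `gh_sy_const_F` with `κ t = j dg_t / 2`; kernels by `gc_cov`, `sz_k_ker`, `sz_k_ov_split`, `sk_d_cov`. -/
theorem sz_k_F_one {n : ℕ} (hn : 0 < n) (j : ℕ) {a : ℝ} (ha : 0 < a) {R : SzStp} (hR : SzAdm a R) :
    szF n j a R 1 = skF (n + j) a (szMat R) 0
      + (1 / 2) * ∑ t ∈ Finset.range R.length, szMs a R t * ((j : ℝ) * (szG R (t + 1) - szG R t) / 2) := by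
  unfold szF skF
  rw [sz_k_ls, sz_k_ls_mat]
  have hnn : GhNn (R.map fun e => (⟨e.m, e.db, e.dh⟩ : SkInc).lv (n + j)) := by
    intro l hl
    obtain ⟨e, he, rfl⟩ := List.mem_map.1 hl
    exact (hR.2 e he).1
  have hc : GhCst (fun t => (j : ℝ) * (szG R (t + 1) - szG R t) / 2)
      (R.map fun e => (⟨e.m, e.db, e.dh⟩ : SkInc).lv (n + j)) (R.map (szLv n j 1)) := by
    refine ⟨?_, fun t h h' s s' => ?_⟩
    · rw [List.map_map, List.map_map]
      rfl
    · have ht : t < R.length := by simpa using h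
      obtain ⟨h0, -, hb, hh, hK, hg⟩ := hR.2 R[t] (List.getElem_mem ht)
      rw [List.getElem_map, List.getElem_map, sz_k_cov_one hn j _ hb hh hg, sz_k_G_succ R ht]
  rw [gh_sy_const_F (sk_sy_base_ok (n + j) ha) hnn hc 0]
  congr 2
  rw [List.length_map]
  refine Finset.sum_congr rfl fun t ht => ?_
  have ht' : t < R.length := Finset.mem_range.1 ht
  congr 1
  unfold szMs
  simp [List.getD_eq_getElem?_getD, ht']
  rfl

/-- scalar moments of the pairs in `A` (one row) -/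
noncomputable def szPsi (a : ℝ) (R : SzStp) (q : ℕ) (τ : ℕ → ℕ → ℕ) : JtFn := fun A =>
  trNu (skBase 1 a) (skLvs 1 (szSc R)) q τ 0 fun ρ => ∏ i ∈ A, skSp (ρ (jtC 0 i)) 0 * skSp (ρ (jtD 0 i)) 0

/-- finite additivity of the tree numbers -/
theorem sz_k_nu_sum {S ι κ : Type} [Fintype S] [Fintype ι] [Inhabited S] {B : GhB S} (hB : B.Ok) {ls : List (GhLv S ι)}
    (hnn : GhNn ls) (q : ℕ) (τ : ℕ → ℕ → ℕ) (z : S → ℝ) (s : Finset κ) (P : κ → (ℕ → S) → ℝ) :
    trNu B ls q τ z (fun σ => ∑ k ∈ s, P k σ) = ∑ k ∈ s, trNu B ls q τ z (P k) := by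
  unfold trNu
  have h := tr_b1_nu_sum hB s (fun _ => 1) (fun k σ => P k (trExt σ)) ls hnn (fun t => trRep q τ t) (fun _ => z)
  simpa using h

theorem sz_k_uses {j q : ℕ} (A : Finset ℕ) (hA : ∀ i ∈ A, jtD 0 i < q) :
    TrUses q fun ρ : ℕ → SkCfg j => ∏ i ∈ A, szRr (ρ (jtC 0 i)) (ρ (jtD 0 i)) := by
  intro σ σ' h
  refine Finset.prod_congr rfl fun i hi => ?_
  have h1 := hA i hi
  have h2 : jtC 0 i < q := by unfold jtC; unfold jtD at h1; omega
  rw [h _ h1, h _ h2]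

/-- P1: moments of `j` independent rows = `j`-th power for the subset convolution.
PROOF: induction on `j ≥ 1`; `SkCfg (j+1) ≃ SkCfg j × SkCfg 1`, `tr_sy_iso`, `tr_sy_prod`; `∏_{A} (R_j + last) = ∑_{B ⊆ A} ∏_B last ∏_{A \ B} R_j` (`Finset.prod_add`); `jtPow F (j+1) = jtMul F (jtPow F j)`. -/
theorem sz_k_rows_moment {a : ℝ} (ha : 0 < a) {R : SzStp} (hR : SzAdm a R) (j : ℕ) (hj : 1 ≤ j)
    {q : ℕ} {τ : ℕ → ℕ → ℕ} (hτ : IsTr R.length q τ) (A : Finset ℕ) (hA : ∀ i ∈ A, jtD 0 i < q) :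
    trNu (skBase j a) (skLvs j (szSc R)) q τ 0 (fun ρ => ∏ i ∈ A, szRr (ρ (jtC 0 i)) (ρ (jtD 0 i))) = jtPow (szPsi a R q τ) j A := by
  induction j, hj using Nat.le_induction generalizing A with
  | base =>
    have h1 : jtPow (szPsi a R q τ) 1 = szPsi a R q τ := by
      show jtMul (szPsi a R q τ) jtOne = _
      rw [jt_mul_comm, jt_one_mul]
    rw [h1]
    unfold szPsi szRr
    simp only [Fin.sum_univ_one, Fin.isValue]
  | succ j hj ih =>
    show _ = jtMul (szPsi a R q τ) (jtPow (szPsi a R q τ) j) A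
    have hnn : GhNn (skLvs (j + 1) (szSc R)) := by
      rw [sz_k_ls_sc]
      intro l hl
      obtain ⟨e, he, rfl⟩ := List.mem_map.1 hl
      exact (hR.2 e he).1
    have e1 : (fun ρ : ℕ → SkCfg (j + 1) => ∏ i ∈ A, szRr (ρ (jtC 0 i)) (ρ (jtD 0 i)))
        = fun ρ => ∑ B ∈ A.powerset, (∏ i ∈ A \ B, szRr (szOld (ρ (jtC 0 i))) (szOld (ρ (jtD 0 i))))
            * ∏ i ∈ B, szRr (szNew (ρ (jtC 0 i))) (szNew (ρ (jtD 0 i))) := by
      funext ρ
      simp only [sz_k_Rr_split (n := j) (j := 1)]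
      rw [Finset.prod_congr rfl fun i _ => add_comm _ _, Finset.prod_add]
      exact Finset.sum_congr rfl fun B _ => mul_comm _ _
    rw [e1, sz_k_nu_sum (sk_sy_base_ok (j + 1) ha) hnn]
    unfold jtMul
    refine Finset.sum_congr rfl fun B hB => ?_
    have hB' : B ⊆ A := Finset.mem_powerset.1 hB
    have hA1 : ∀ i ∈ A \ B, jtD 0 i < q := fun i hi => hA i (Finset.sdiff_subset hi)
    have hA2 : ∀ i ∈ B, jtD 0 i < q := fun i hi => hA i (hB' hi)
    have key := sz_k_spl_nu ha R _ _ _ (sz_k_spl_sc j 1 hj le_rfl hR) hτ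
      (fun ρ : ℕ → SkCfg j => ∏ i ∈ A \ B, szRr (ρ (jtC 0 i)) (ρ (jtD 0 i))) (sz_k_uses _ hA1)
      (fun ρ : ℕ → SkCfg 1 => ∏ i ∈ B, szRr (ρ (jtC 0 i)) (ρ (jtD 0 i))) (sz_k_uses _ hA2)
    rw [← sz_k_ls_sc, ← sz_k_ls_sc, ← sz_k_ls_sc] at key
    rw [key, ih _ hA1, mul_comm]
    congr 1
    unfold szPsi szRr
    simp only [Fin.sum_univ_one, Fin.isValue]

end Claimed.Agent.R286
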